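import Vale.Agent.P095.Tr

/-! Consequences of simplicity; the pair of a simple algebra. -/

namespace Vale.Agent.P095
open Vale.Agent.P101 Vale.Agent.P101.JS Filter Topology Finset
open scoped ComplexOrder BoundedContinuousFunction symmDiff

universe u
variable {B : Type u} [CStarAlgebra B]

theorem Pair.local_unit (P : Pair B) (s : Finset B) (hs : ∀ a ∈ s, a ∈ P.I) {ε : ℝ} (hε : 0 < ε) :
    ∃ b ∈ P.I, IsSelfAdjoint b ∧ ‖b‖ ≤ 1 ∧ ∀ a ∈ s, ‖b * b * a - a‖ ≤ ε ∧ ‖a * (b * b) - a‖ ≤ ε ∧
      ‖b * a - a‖ ≤ ε ∧ ‖a * b - a‖ ≤ ε := by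
  let := CStarAlgebra.spectralOrder B
  have := CStarAlgebra.spectralOrderedRing B
  let h : B := ∑ a ∈ s, (star a * a + a * star a)
  have hI : h ∈ P.I := P.I.sum_mem fun a ha =>
    P.I.add_mem (P.I.mul_mem_left _ (hs a ha)) (P.I.mul_mem_right _ (hs a ha))
  obtain ⟨r, k, hr, r1, r2, r3, -⟩ := exists_unit h (show 0 < (ε / 2) ^ 2 by positivity)
  have key : ∀ y : B, star y * y ≤ h → ‖y * r‖ ≤ ε / 2 := fun y hy => by
    have h1 : star (y * r) * (y * r) ≤ star r * h * r := by
      simpa only [star_mul, mul_assoc] using star_left_conjugate_le_conjugate hy r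
    have h2 := CStarAlgebra.norm_le_norm_of_nonneg_of_le (star_mul_self_nonneg _) h1
    rw [CStarRing.norm_star_mul_self, mul_assoc, hr.star_eq] at h2
    have h3 := norm_mul_le_of_le r1 r2
    exact (pow_le_pow_iff_left₀ (norm_nonneg _) (half_pos hε).le two_ne_zero).1 (by nlinarith)
  have hle : ∀ a ∈ s, star a * a + a * star a ≤ h := fun a ha =>
    single_le_sum (f := fun a => star a * a + a * star a)
      (fun _ _ => add_nonneg (star_mul_self_nonneg _) (mul_star_self_nonneg _)) ha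
  have hbs : IsSelfAdjoint (1 - r * r) := by
    simp only [IsSelfAdjoint, star_sub, star_one, star_mul, hr.star_eq]
  have hr2 : 0 ≤ r * r := by simpa only [hr.star_eq] using star_mul_self_nonneg r
  have hb1 : ‖1 - r * r‖ ≤ 1 :=
    (CStarAlgebra.norm_le_one_iff_of_nonneg _ (sub_nonneg.2
      ((CStarAlgebra.norm_le_one_iff_of_nonneg _ hr2).1 (by
        simpa using norm_mul_le_of_le r1 r1)))).2 (sub_le_self _ hr2)
  refine ⟨1 - r * r, ?_, hbs, hb1, fun a ha => ?_⟩
  · have : 1 - r * r = (1 + r) * (1 - r) := by noncomm_ring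
    rw [this, r3]
    exact P.I.mul_mem_left _ (P.I.mul_mem_left _ (P.I.mul_mem_left _ hI))
  · have k1 := key a ((le_add_of_nonneg_right (mul_star_self_nonneg a)).trans (hle a ha))
    have k2 := key (star a) (by
      rw [star_star]; exact (le_add_of_nonneg_left (star_mul_self_nonneg a)).trans (hle a ha))
    rw [← norm_star, star_mul, star_star, hr.star_eq] at k2
    have l1 : ‖(1 - r * r) * a - a‖ ≤ ε / 2 := by
      rw [show (1 - r * r) * a - a = -(r * (r * a)) by noncomm_ring, norm_neg]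
      simpa using norm_mul_le_of_le r1 k2
    have l2 : ‖a * (1 - r * r) - a‖ ≤ ε / 2 := by
      rw [show a * (1 - r * r) - a = -(a * r * r) by noncomm_ring, norm_neg]
      simpa using norm_mul_le_of_le k1 r1
    generalize 1 - r * r = b at *
    refine ⟨?_, ?_, by linarith, by linarith⟩
    · rw [show b * b * a - a = b * (b * a - a) + (b * a - a) by noncomm_ring]
      linarith [norm_add_le_of_le (norm_mul_le_of_le hb1 l1) l1]
    · rw [show a * (b * b) - a = (a * b - a) * b + (a * b - a) by noncomm_ring]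
      linarith [norm_add_le_of_le (norm_mul_le_of_le l2 hb1) l2]

theorem SimpAux.compress [PartialOrder B] [StarOrderedRing B] {p s : B} (hp : 0 ≤ p) (h : p ≤ s)
    {δ : ℝ} (hδ : 0 < δ) : ∃ r, ‖star r * s * r - p‖ ≤ δ := by
  have hc : IsStrictlyPositive (s + algebraMap ℝ B δ) :=
    IsStrictlyPositive.nonneg_add (hp.trans h) (isStrictlyPositive_algebraMap hδ)
  have h1 := CFC.conjugate_rpow_neg_one_half _ hc
  have hm : IsSelfAdjoint ((s + algebraMap ℝ B δ) ^ (-(1 / 2) : ℝ)) :=
    IsSelfAdjoint.of_nonneg CFC.rpow_nonneg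
  generalize (s + algebraMap ℝ B δ) ^ (-(1 / 2) : ℝ) = m at h1 hm
  have ha : IsSelfAdjoint (CFC.sqrt p) := IsSelfAdjoint.of_nonneg (CFC.sqrt_nonneg p)
  have ha2 := CFC.sqrt_mul_sqrt_self p hp
  generalize CFC.sqrt p = a at ha ha2
  refine ⟨m * a, ?_⟩
  have e : star (m * a) * s * (m * a) - p = -(δ • (star (m * a) * (m * a))) := by
    have : star (m * a) * (s + algebraMap ℝ B δ) * (m * a) = p := by
      rw [star_mul, hm.star_eq, ha.star_eq, ← ha2]
      calc a * m * (s + algebraMap ℝ B δ) * (m * a)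
          = a * (m * (s + algebraMap ℝ B δ) * m) * a := by simp only [mul_assoc]
        _ = _ := by rw [h1, mul_one]
    rw [← this, mul_add, add_mul, mul_assoc _ (algebraMap ℝ B δ), ← Algebra.smul_def,
      mul_smul_comm]
    abel
  have h2 : ‖star (m * a) * (m * a)‖ ≤ 1 := by
    rw [CStarRing.norm_star_mul_self, ← CStarRing.norm_self_mul_star]
    refine (CStarAlgebra.norm_le_one_iff_of_nonneg _ (mul_star_self_nonneg _)).2 ?_
    have h3 : p ≤ s + algebraMap ℝ B δ :=
      h.trans (le_add_of_nonneg_right (isStrictlyPositive_algebraMap hδ).nonneg)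
    have h4 := star_left_conjugate_le_conjugate h3 m
    rw [hm.star_eq, h1] at h4
    rw [star_mul, hm.star_eq, ha.star_eq]
    convert h4 using 1
    rw [← ha2]; simp only [mul_assoc]
  rw [e, norm_neg, norm_smul, Real.norm_of_nonneg hδ.le]
  nlinarith

theorem SimpAux.dom [PartialOrder B] [StarOrderedRing B] {d w : B}
    (hw : w ∈ gen fun _ : Unit => d) : ∃ (ι : Type) (_ : Fintype ι) (t : ι → B),
      star w * w ≤ ∑ j, star (d * t j) * (d * t j) := by
  obtain ⟨ι, _, k, u, v, rfl⟩ := hw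
  refine sum_induction _ (fun w => ∃ (ι : Type) (_ : Fintype ι) (t : ι → B),
      star w * w ≤ ∑ j, star (d * t j) * (d * t j)) ?_
    ⟨Empty, inferInstance, Empty.elim, by simp⟩ fun i _ => ?_
  · rintro x y ⟨ι, _, t, ht⟩ ⟨ι', _, t', ht'⟩
    refine ⟨(ι ⊕ ι') ⊕ (ι ⊕ ι'), inferInstance, Sum.elim (Sum.elim t t') (Sum.elim t t'), ?_⟩
    simp only [Fintype.sum_sum_type, Sum.elim_inl, Sum.elim_inr]
    refine le_trans ?_ (add_le_add (add_le_add ht ht') (add_le_add ht ht'))
    rw [← sub_nonneg]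
    convert star_mul_self_nonneg (x - y) using 1
    simp only [star_add, star_sub]; noncomm_ring
  · refine ⟨Unit, inferInstance, fun _ => ‖u i‖ • v i, ?_⟩
    have := CStarAlgebra.star_left_conjugate_le_norm_smul (a := d * v i) (b := star (u i) * u i)
    rw [CStarRing.norm_star_mul_self] at this
    simpa only [univ_unique, sum_singleton, mul_smul_comm, star_smul, star_trivial, smul_mul_assoc,
      smul_smul, star_mul, mul_assoc] using this

theorem Pair.simple_sum (P : Pair B) {d : B} (hd : d ∈ P.I) (hd0 : d ≠ 0) {b : B} (hb : b ∈ P.I)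
    {ε : ℝ} (hε : 0 < ε) : ∃ (N : ℕ) (t : Fin N → B),
      ‖∑ j, star (d * t j) * (d * t j) - star b * b‖ ≤ ε := by
  let := CStarAlgebra.spectralOrder B
  have := CStarAlgebra.spectralOrderedRing B
  obtain ⟨η, hη, η1, η2⟩ : ∃ η : ℝ, 0 < η ∧ η ≤ 1 ∧ η * (2 * ‖b‖ + 1) ≤ ε / 2 :=
    ⟨min 1 (ε / 2 / (2 * ‖b‖ + 1)), by positivity, min_le_left _ _,
      (le_div_iff₀ (by positivity)).1 (min_le_right _ _)⟩
  obtain ⟨w, hw, hwb⟩ := Metric.mem_closure_iff.1 (P.simple d hd hd0 b hb) η hη
  obtain ⟨ι, _, t, ht⟩ := SimpAux.dom hw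
  obtain ⟨r, hr⟩ := SimpAux.compress (star_mul_self_nonneg w) ht (half_pos hε)
  refine ⟨Fintype.card ι, fun j => t ((Fintype.equivFin ι).symm j) * r, ?_⟩
  have e : ∑ j, star (d * (t ((Fintype.equivFin ι).symm j) * r)) *
      (d * (t ((Fintype.equivFin ι).symm j) * r)) = star r * (∑ j, star (d * t j) * (d * t j)) * r := by
    rw [Equiv.sum_comp (Fintype.equivFin ι).symm
      fun j => star (d * (t j * r)) * (d * (t j * r)), mul_sum, sum_mul]
    simp only [star_mul, mul_assoc]
  rw [e]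
  rw [dist_comm, dist_eq_norm] at hwb
  have h1 : ‖star w * w - star b * b‖ ≤ ε / 2 := by
    have h2 : ‖star (w - b)‖ ≤ η := by rw [norm_star]; exact hwb.le
    have h3 : ‖w‖ ≤ ‖b‖ + 1 := by linarith [norm_le_insert' w b]
    have := norm_add_le_of_le (norm_mul_le_of_le h2 h3)
      (norm_mul_le_of_le (norm_star b).le hwb.le)
    rw [show star (w - b) * w + star b * (w - b) = star w * w - star b * b by
      rw [star_sub]; noncomm_ring] at this
    linarith
  linarith [norm_sub_le_norm_sub_add_norm_sub (star r * (∑ j, star (d * t j) * (d * t j)) * r)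
    (star w * w) (star b * b)]

theorem Pair.mem_of_sum (P : Pair B) {n : Type} [Fintype n] {y : n → B}
    (h : ∑ q, star (y q) * y q ∈ P.I) (q : n) : y q ∈ P.I := by
  let := CStarAlgebra.spectralOrder (B ⧸ P.I)
  have := CStarAlgebra.spectralOrderedRing (B ⧸ P.I)
  have h1 : qmk P.I (∑ q, star (y q) * y q) = 0 := Ideal.Quotient.eq_zero_iff_mem.2 h
  simp only [map_sum, map_mul, map_star] at h1
  exact Ideal.Quotient.eq_zero_iff_mem.1 (eq_zero_of_star_mul
    ((sum_eq_zero_iff_of_nonneg fun _ _ => star_mul_self_nonneg _).1 h1 q (mem_univ q)))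

theorem Pair.faithful (P : Pair B) {lam : B →ₗ[ℂ] ℂ} (h : IsSt lam) (h0 : ∃ a ∈ P.I, lam a ≠ 0)
    {x : B} (hx : x ∈ P.I) (hw : ∀ w ∈ P.I, lam (star (x * w) * (x * w)) = 0) : x = 0 := by
  by_contra hx0
  obtain ⟨a, ha, ha0⟩ := h0
  have k : ∀ w ∈ P.I, lam (a * w) = 0 := fun w hwI => by
    have hc : IsClosed {y : B | lam (y * w) = 0} :=
      isClosed_eq (h.continuous.comp (by fun_prop)) continuous_const
    refine closure_minimal ?_ hc (P.simple x hx hx0 a ha)
    rintro _ ⟨ι, _, k, u, v, rfl⟩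
    change lam (_ * w) = 0
    rw [sum_mul, map_sum]
    refine sum_eq_zero fun i _ => ?_
    have h1 := n2_cs h (star (u i)) (x * (v i * w))
    have h2 : n2 lam (x * (v i * w)) = 0 := by
      rw [n2, hw _ (P.I.mul_mem_left _ hwI), Complex.zero_re, Real.sqrt_zero]
    rw [h2, mul_zero, star_star] at h1
    simpa only [mul_assoc] using norm_le_zero_iff.1 h1
  refine ha0 (norm_le_zero_iff.1 (le_of_forall_pos_le_add fun ε hε => ?_))
  obtain ⟨b, hb, -, -, hab⟩ := P.local_unit {a} (by simpa using ha) hε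
  have := (h.norm_le _).trans (hab a (mem_singleton_self a)).2.2.2
  rw [map_sub, k b hb, zero_sub, norm_neg] at this
  linarith

/-- A sequential approximate unit. -/
theorem exists_seq_unit (A : Type u) [NonUnitalCStarAlgebra A] [TopologicalSpace.SeparableSpace A] :
    ∃ e : ℕ → A, (∀ n, IsSelfAdjoint (e n) ∧ ‖e n‖ ≤ 1) ∧ ∀ a,
      Tendsto (fun n => e n * a) atTop (𝓝 a) ∧ Tendsto (fun n => a * e n) atTop (𝓝 a) := by
  let := CStarAlgebra.spectralOrder A
  have := CStarAlgebra.spectralOrderedRing A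
  have hl := CStarAlgebra.increasingApproximateUnit A
  let x := TopologicalSpace.denseSeq A
  have ev : ∀ n : ℕ, ∀ᶠ e in CStarAlgebra.approximateUnit A, (IsSelfAdjoint e ∧ ‖e‖ ≤ 1) ∧
      ∀ j ∈ range (n + 1), ‖e * x j - x j‖ ≤ 1 / ((n : ℝ) + 1) ∧
        ‖x j * e - x j‖ ≤ 1 / ((n : ℝ) + 1) := fun n => by
    refine (hl.eventually_isSelfAdjoint.and hl.eventually_norm).and ?_
    rw [eventually_all_finset]
    exact fun j _ => ((tendsto_iff_norm_sub_tendsto_zero.1 (hl.tendsto_mul_right (x j))).eventually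
      (ge_mem_nhds Nat.one_div_pos_of_nat)).and
      ((tendsto_iff_norm_sub_tendsto_zero.1 (hl.tendsto_mul_left (x j))).eventually
      (ge_mem_nhds Nat.one_div_pos_of_nat))
  choose e he1 he2 using fun n => (ev n).exists
  refine ⟨e, he1, fun a => ?_⟩
  have k : ∀ ε : ℝ, 0 < ε → ∀ᶠ n in atTop, ‖e n * a - a‖ < ε ∧ ‖a * e n - a‖ < ε := fun ε hε => by
    obtain ⟨j, hj⟩ := (TopologicalSpace.denseRange_denseSeq A).exists_dist_lt a
      (show 0 < ε / 3 by positivity)
    rw [dist_eq_norm] at hj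
    filter_upwards [eventually_ge_atTop j, (tendsto_one_div_add_atTop_nhds_zero_nat (𝕜 := ℝ)).eventually
      (gt_mem_nhds (show 0 < ε / 3 by positivity))] with n h1 h2
    obtain ⟨h3, h4⟩ := he2 n j (mem_range.2 (by omega))
    constructor
    · rw [show e n * a - a = e n * (a - x j) + (e n * x j - x j) - (a - x j) by noncomm_ring]
      linarith [norm_sub_le_of_le (norm_add_le_of_le (norm_mul_le_of_le (he1 n).2 hj.le) h3)
        (le_refl ‖a - x j‖)]
    · rw [show a * e n - a = (a - x j) * e n + (x j * e n - x j) - (a - x j) by noncomm_ring]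
      linarith [norm_sub_le_of_le (norm_add_le_of_le (norm_mul_le_of_le hj.le (he1 n).2) h4)
        (le_refl ‖a - x j‖)]
  constructor <;> refine Metric.tendsto_nhds.2 fun ε hε => (k ε hε).mono fun n hn => ?_
  · rw [dist_eq_norm]; exact hn.1
  · rw [dist_eq_norm]; exact hn.2

theorem exists_pair_of_simple (A : Type u) [NonUnitalCStarAlgebra A] (h : IsSimpleAlg A) :
    ∃ P : Pair (Unitization ℂ A), ∀ x, x ∈ P.I ↔ ∃ a : A, x = a := by
  let I : Ideal (Unitization ℂ A) := RingHom.ker (Unitization.fstHom ℂ A)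
  have hI : ∀ x, x ∈ I ↔ ∃ a : A, x = a := fun x => by
    refine ⟨fun hx => ⟨x.snd, ?_⟩, by rintro ⟨a, rfl⟩; exact Unitization.fst_inr ℂ a⟩
    have hx' : x.fst = 0 := hx
    conv_lhs => rw [← x.inl_fst_add_inr_snd_eq, hx', Unitization.inl_zero, zero_add]
  refine ⟨⟨I, inferInstance, isClosed_eq Unitization.continuous_fst continuous_const,
    fun b => ⟨b.fst, ?_⟩, fun x hx hx0 a ha => ?_, ?_⟩, hI⟩
  · rw [RingHom.mem_ker, map_sub, AlgHom.commutes]
    exact sub_self _
  · obtain ⟨x, rfl⟩ := (hI x).1 hx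
    obtain ⟨a, rfl⟩ := (hI a).1 ha
    let K := (gen fun _ : Unit => (x : Unitization ℂ A)).closure
    let J : TwoSidedIdeal A := .mk' {a | (a : Unitization ℂ A) ∈ K}
      (by change ((0 : A) : Unitization ℂ A) ∈ K; rw [Unitization.inr_zero]; exact K.zero_mem)
      (fun {a b} ha hb => by
        change ((a + b : A) : Unitization ℂ A) ∈ K
        rw [Unitization.inr_add]; exact K.add_mem ha hb)
      (fun {a} ha => by
        change ((-a : A) : Unitization ℂ A) ∈ K
        rw [Unitization.inr_neg]; exact K.neg_mem ha)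
      (fun {a b} hb => by
        change ((a * b : A) : Unitization ℂ A) ∈ K
        rw [Unitization.inr_mul]; exact K.mul_mem_left _ hb)
      (fun {a b} ha => by
        change ((a * b : A) : Unitization ℂ A) ∈ K
        rw [Unitization.inr_mul]; exact K.mul_mem_right _ ha)
    have hJ : ∀ a, a ∈ J ↔ (a : Unitization ℂ A) ∈ K := fun a => TwoSidedIdeal.mem_mk' ..
    have hc : IsClosed (J : Set A) := by
      have : (J : Set A) = Unitization.inr ⁻¹' (K : Set (Unitization ℂ A)) := Set.ext hJ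
      rw [this]
      exact isClosed_closure.preimage (Unitization.isometry_inr (𝕜 := ℂ) (A := A)).continuous
    rcases h.2 J hc with h1 | h1
    · have := (hJ x).2 (subset_closure (self_mem_gen _))
      rw [h1, TwoSidedIdeal.mem_bot] at this
      exact (hx0 (by rw [this, Unitization.inr_zero])).elim
    · exact (hJ a).1 (h1 ▸ TwoSidedIdeal.mem_top _)
  · have := h.1
    obtain ⟨a, ha⟩ := exists_ne (0 : A)
    exact ⟨a, (hI _).2 ⟨a, rfl⟩, fun h => ha (Unitization.inr_injective (R := ℂ) (by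
      rw [h, Unitization.inr_zero]))⟩

end Vale.Agent.P095
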