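import Vale.Agent.P095.FS
import Vale.Agent.P095.Simp

/-! Reindexing in the central sequence algebra. -/

namespace Vale.Agent.P095
open Vale.Agent.P101 Vale.Agent.P101.JS Filter Topology Finset
open scoped ComplexOrder BoundedContinuousFunction symmDiff

universe u
open TopologicalSpace

namespace ApxAux
variable {B : Type u} [CStarAlgebra B] {ω : Ultrafilter ℕ}

theorem ev_mul {S : Set B} (Z : Cen ω S) (W : ℕ →ᵇ B) (hW : cls ω B W = Z.1) {a : B}
    (ha : a ∈ S) {c ε : ℝ} (hc : ‖fmk ω S Z‖ ≤ c) (hε : 0 < ε) :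
    ∀ᶠ m in ω, ‖W m * a‖ ≤ c * ‖a‖ + ε := by
  filter_upwards [ev_norm_le (ω := ω) (W * .const ℕ a) hε] with m hm
  rw [map_mul, hW, ← constHom_eq] at hm
  have h1 := norm_mul_const_le Z ha
  have h2 := mul_le_mul_of_nonneg_right hc (norm_nonneg a)
  change ‖W m * a‖ ≤ _ at hm
  linarith

theorem apx_down {G : Type} [Group G] (P : Pair B) (β : Act G B)
    (hβ : ∀ g, ∀ a ∈ (P.I : Set B), β.φ g a ∈ (P.I : Set B)) (H : Set G) (D : Type*)
    [CStarAlgebra D] (h : ApxF (β.fs ω hβ) H D) (s : Finset D) (u : Finset ℂ) (K : Finset G)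
    (hK : ∀ g ∈ K, g ∈ H) (t t' : Finset B) (ht : ∀ a ∈ t, a ∈ P.I) {ε : ℝ} (hε : 0 < ε) :
    ∃ f : D → B, ∀ x ∈ s, ‖f x‖ ≤ ‖x‖ + 3 * ε ∧ (∀ b ∈ t', ‖f x * b - b * f x‖ ≤ ε) ∧ ∀ a ∈ t,
      (∀ y ∈ s, ∀ z ∈ s, ‖(f x + f y - f z) * a‖ ≤ (‖x + y - z‖ + ε) * ‖a‖ + ε) ∧
      (∀ y ∈ s, ∀ z ∈ s, ‖(f x * f y - f z) * a‖ ≤ (‖x * y - z‖ + ε) * ‖a‖ + ε) ∧
      (∀ y ∈ s, ‖(star (f x) - f y) * a‖ ≤ (‖star x - y‖ + ε) * ‖a‖ + ε) ∧
      (∀ c ∈ u, ‖(f x - algebraMap ℂ B c) * a‖ ≤ (‖x - algebraMap ℂ D c‖ + ε) * ‖a‖ + ε) ∧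
      ∀ g ∈ K, ‖(β.φ g (f x) - f x) * a‖ ≤ ε * ‖a‖ + ε := by
  classical
  obtain ⟨f, hf⟩ := h s (insert 0 u) K ε hK hε
  choose X hX hXn using fun x => fmk_lift (f x) hε
  choose l hl using fun x => cls_surj (X x).1
  have : ∀ᶠ m in ω, ∀ x ∈ s, ‖l x m‖ ≤ ‖x‖ + 3 * ε ∧ (∀ b ∈ t', ‖l x m * b - b * l x m‖ ≤ ε) ∧
      ∀ a ∈ t,
      (∀ y ∈ s, ∀ z ∈ s, ‖(l x m + l y m - l z m) * a‖ ≤ (‖x + y - z‖ + ε) * ‖a‖ + ε) ∧
      (∀ y ∈ s, ∀ z ∈ s, ‖(l x m * l y m - l z m) * a‖ ≤ (‖x * y - z‖ + ε) * ‖a‖ + ε) ∧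
      (∀ y ∈ s, ‖(star (l x m) - l y m) * a‖ ≤ (‖star x - y‖ + ε) * ‖a‖ + ε) ∧
      (∀ c ∈ u, ‖(l x m - algebraMap ℂ B c) * a‖ ≤ (‖x - algebraMap ℂ D c‖ + ε) * ‖a‖ + ε) ∧
      ∀ g ∈ K, ‖(β.φ g (l x m) - l x m) * a‖ ≤ ε * ‖a‖ + ε := by
    simp only [eventually_all_finset, eventually_and]
    refine fun x hx => ⟨?_, fun b _ => ?_, fun a ha => ⟨fun y hy z hz => ?_, fun y hy z hz => ?_,
      fun y hy => ?_, fun c hc => ?_, fun g hg => ?_⟩⟩
    · filter_upwards [ev_norm_le (ω := ω) (l x) hε] with m hm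
      have h1 := (hf x hx).2.2.2.1 0 (mem_insert_self _ _)
      have h2 := hXn x
      simp only [map_zero, sub_zero] at h1
      rw [hl] at hm
      change ‖(X x).1‖ < _ at h2
      linarith
    · filter_upwards [ev_norm_le (ω := ω) (l x * .const ℕ b - .const ℕ b * l x) hε] with m hm
      rw [map_sub, map_mul, map_mul, hl, ← constHom_eq, (P.cen_comm (X x) b).eq, sub_self,
        norm_zero, zero_add] at hm
      exact hm
    · exact ev_mul (X x + X y - X z) (l x + l y - l z) (by simp [hl]) (ht a ha)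
        (by rw [map_sub, map_add, hX, hX, hX]; exact (hf x hx).1 y hy z hz) hε
    · exact ev_mul (X x * X y - X z) (l x * l y - l z) (by simp [hl]) (ht a ha)
        (by rw [map_sub, map_mul, hX, hX, hX]; exact (hf x hx).2.1 y hy z hz) hε
    · exact ev_mul (star (X x) - X y) (star (l x) - l y) (by simp [hl, map_star]) (ht a ha)
        (by rw [map_sub, map_star, hX, hX]; exact (hf x hx).2.2.1 y hy) hε
    · have := ev_mul (X x - algebraMap ℂ _ c) (l x - algebraMap ℂ _ c) (by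
        rw [map_sub, hl, AlgHomClass.commutes]; rfl) (ht a ha)
        (c := ‖x - algebraMap ℂ D c‖ + ε) (by
            rw [map_sub, hX, AlgHomClass.commutes]
            exact (hf x hx).2.2.2.1 c (mem_insert_of_mem hc)) hε
      simpa [Algebra.algebraMap_eq_smul_one] using this
    · exact ev_mul (cmap ω (β.φ g) (β.sub_image hβ g) (X x) - X x) (compB (β.φ g) (l x) - l x)
        (by rw [map_sub, ← umap_cls, hl]; rfl) (ht a ha)
        (by rw [map_sub, ← β.fs_fmk hβ, hX]; exact (hf x hx).2.2.2.2 g hg) hε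
  obtain ⟨m, hm⟩ := this.exists
  exact ⟨fun x => l x m, hm⟩

theorem exists_dense (P : Pair B) [SeparableSpace B] :
    ∃ a : ℕ → B, (∀ j, a j ∈ P.I) ∧ (P.I : Set B) ⊆ closure (Set.range a) := by
  obtain ⟨c, hc, hcc, hd⟩ := (IsSeparable.of_separableSpace (P.I : Set B)).exists_countable_dense_subset
  obtain ⟨e, he⟩ := (hcc.insert 0).exists_eq_range (Set.insert_nonempty _ _)
  refine ⟨e, fun j => ?_, hd.trans (closure_mono (he ▸ Set.subset_insert _ _))⟩
  rcases (he ▸ Set.mem_range_self j : e j ∈ insert 0 c) with h | h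
  · rw [h]; exact P.I.zero_mem
  · exact hc h

theorem fmk_eq_of (P : Pair B) {a : ℕ → B} (ha : (P.I : Set B) ⊆ closure (Set.range a))
    (Z Z' : Cen ω (P.I : Set B)) (W : ℕ →ᵇ B) (hW : cls ω B W = Z.1 - Z'.1)
    (h : ∀ j, Tendsto (fun n => ‖W n * a j‖) ω (𝓝 0)) : fmk ω _ Z = fmk ω _ Z' := by
  have k : ∀ b ∈ (P.I : Set B), (Z.1 - Z'.1) * constHom ω B b = 0 := fun b hb =>
    closure_minimal (t := {b | (Z.1 - Z'.1) * constHom ω B b = 0}) (by
      rintro _ ⟨j, rfl⟩
      change _ = _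
      rw [← hW, constHom_eq, ← map_mul, ← map_zero (cls ω B), cls_eq]
      simpa using h j) (isClosed_eq (continuous_const.mul (hom_cont _)) continuous_const) (ha hb)
  refine fmk_eq.2 fun b hb => ⟨k b hb, ?_⟩
  rw [← map_star]
  exact k _ (P.star_mem hb)

end ApxAux
open ApxAux

theorem hom_of_apxF {G : Type} [Group G] [Countable G] {B : Type u} [CStarAlgebra B]
    [SeparableSpace B] (P : Pair B) (β : Act G B)
    (hβ : ∀ g, ∀ a ∈ (P.I : Set B), β.φ g a ∈ (P.I : Set B)) {ω : Ultrafilter ℕ}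
    (hω : (ω : Filter ℕ) ≤ atTop) (H : Set G) (D : Type*) [CStarAlgebra D] [SeparableSpace D]
    (h : ApxF (β.fs ω hβ) H D) (y : ℕ → FS ω (P.I : Set B)) :
    ∃ φ : D →⋆ₐ[ℂ] FS ω (P.I : Set B), (∀ g ∈ H, ∀ d, (β.fs ω hβ).φ g (φ d) = φ d) ∧
      ∀ d k, Commute (φ d) (y k) := by
  classical
  obtain ⟨s, r, hr, hs⟩ := exists_net D
  obtain ⟨u, q, hq, hu⟩ := exists_net ℂ
  obtain ⟨a, haI, ha⟩ := exists_dense P
  obtain ⟨e, he⟩ := exists_surjective_nat G
  choose Y hY using fun k => fmk_surj (y k)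
  choose x hx using fun k => cls_surj (Y k).1
  choose f hf using fun n : ℕ => apx_down P β hβ H D h (s n) (u n)
    (((range (n + 1)).image e).filter (· ∈ H)) (fun g hg => (mem_filter.1 hg).2)
    ((range (n + 1)).image a) (((range (n + 1)).image a) ∪ (range (n + 1)).image fun k => x k n)
    (fun b hb => by obtain ⟨j, -, rfl⟩ := mem_image.1 hb; exact haI j)
    (ε := 1 / ((n : ℝ) + 1)) Nat.one_div_pos_of_nat
  have mem : ∀ {α : Type u} (z : ℕ → α) {j n : ℕ}, j ≤ n → z j ∈ (range (n + 1)).image z :=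
    fun z j n hn => mem_image_of_mem _ (by simpa [Nat.lt_succ_iff] using hn)
  have bd : ∀ d, ∃ C, ∀ n, ‖f n (r n d)‖ ≤ C := fun d => by
    obtain ⟨C, hC⟩ := (hs d).norm.bddAbove_range
    refine ⟨C + 3, fun n => ?_⟩
    have h1 := (hf n _ (hr n d)).1
    have h2 := hC ⟨n, rfl⟩
    have h3 : 1 / ((n : ℝ) + 1) ≤ 1 := by
      rw [div_le_one (by positivity)]; linarith [Nat.cast_nonneg (α := ℝ) n]
    simp only at h2
    linarith
  choose C hC using bd
  let l : D → ℕ →ᵇ B := fun d => seqB (fun n => f n (r n d)) (C d) (hC d)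
  have t0 : Tendsto (fun n : ℕ => 1 / ((n : ℝ) + 1)) atTop (𝓝 0) :=
    tendsto_one_div_add_atTop_nhds_zero_nat
  have comm : ∀ d (X : ℕ →ᵇ B), (∀ᶠ n in atTop, ‖l d n * X n - X n * l d n‖ ≤ 1 / ((n : ℝ) + 1)) →
      Commute (cls ω B (l d)) (cls ω B X) := fun d X h => by
    rw [commute_iff_eq, ← map_mul, ← map_mul, cls_eq]
    exact (squeeze_zero' (.of_forall fun _ => norm_nonneg _) h t0).mono_left hω
  have cen : ∀ d, cls ω B (l d) ∈ Cen ω (P.I : Set B) := fun d => by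
    have k : ∀ b ∈ (P.I : Set B), Commute (constHom ω B b) (cls ω B (l d)) := fun b hb =>
      closure_minimal (t := {b | constHom ω B b * cls ω B (l d) = cls ω B (l d) * constHom ω B b})
        (by
          rintro _ ⟨j, rfl⟩
          refine (comm d (.const ℕ (a j)) ?_).symm
          filter_upwards [eventually_ge_atTop j] with n hn
          exact (hf n _ (hr n d)).2.1 _ (mem_union_left _ (mem a hn)))
        (isClosed_eq ((hom_cont (constHom ω B)).mul continuous_const)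
          (continuous_const.mul (hom_cont (constHom ω B))))
        (ha hb)
    refine mem_cen.2 fun b hb => ⟨k b hb, ?_⟩
    rw [← map_star]
    exact k _ (P.star_mem hb)
  let L : D → Cen ω (P.I : Set B) := fun d => ⟨_, cen d⟩
  have key : ∀ (Z Z' : Cen ω (P.I : Set B)) (W : ℕ →ᵇ B) (g : ℕ → ℝ),
      cls ω B W = Z.1 - Z'.1 → Tendsto g atTop (𝓝 0) →
      (∀ j, ∀ᶠ n in atTop,
        ‖W n * a j‖ ≤ (g n + 1 / ((n : ℝ) + 1)) * ‖a j‖ + 1 / ((n : ℝ) + 1)) →
      fmk ω _ Z = fmk ω _ Z' := fun Z Z' W g hW hg h =>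
    fmk_eq_of P ha Z Z' W hW fun j => (squeeze_zero' (.of_forall fun _ => norm_nonneg _) (h j)
      (by simpa using ((hg.add t0).mul_const ‖a j‖).add t0)).mono_left hω
  have halg : ∀ c, fmk ω _ (L (algebraMap ℂ D c)) = algebraMap ℂ _ c := fun c => by
    rw [← (fmk ω (P.I : Set B)).commutes c]
    have t1 : Tendsto (fun n => algebraMap ℂ D (q n c)) atTop (𝓝 (algebraMap ℂ D c)) :=
      ((continuous_algebraMap ℂ D).tendsto c).comp (hu c)
    have t2 : Tendsto (fun n => algebraMap ℂ B (q n c)) atTop (𝓝 (algebraMap ℂ B c)) :=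
      ((continuous_algebraMap ℂ B).tendsto c).comp (hu c)
    refine key _ _ (l (algebraMap ℂ D c) - algebraMap ℂ _ c)
      (fun n => ‖r n (algebraMap ℂ D c) - algebraMap ℂ D (q n c)‖ +
        ‖algebraMap ℂ B (q n c) - algebraMap ℂ B c‖)
      (by rw [map_sub, AlgHomClass.commutes]; rfl) (by
        simpa using ((hs (algebraMap ℂ D c)).sub t1).norm.add
          (t2.sub_const (algebraMap ℂ B c)).norm) fun j => ?_
    filter_upwards [eventually_ge_atTop j] with n hn
    have h1 := ((hf n _ (hr n (algebraMap ℂ D c))).2.2 _ (mem a hn)).2.2.2.1 _ (hq n c)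
    have h3 : (algebraMap ℂ (ℕ →ᵇ B) c) n = algebraMap ℂ B c := by
      simp [Algebra.algebraMap_eq_smul_one]
    have h4 : (l (algebraMap ℂ D c) - algebraMap ℂ (ℕ →ᵇ B) c) n * a j =
        (f n (r n (algebraMap ℂ D c)) - algebraMap ℂ B (q n c)) * a j +
          (algebraMap ℂ B (q n c) - algebraMap ℂ B c) * a j := by
      rw [← add_mul, sub_add_sub_cancel, ← h3]; rfl
    rw [h4]
    have h2 := norm_add_le_of_le h1 (norm_mul_le (algebraMap ℂ B (q n c) - algebraMap ℂ B c) (a j))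
    linarith
  refine ⟨{ toFun := fun d => fmk ω _ (L d)
            map_one' := by simpa using halg 1
            map_mul' := fun c b => ?_
            map_zero' := by simpa using halg 0
            map_add' := fun c b => ?_
            commutes' := halg
            map_star' := fun c => ?_ }, fun g hg d => ?_, fun d k => ?_⟩
  · rw [← map_mul]
    refine (key _ _ (l c * l b - l (c * b)) (fun n => ‖r n c * r n b - r n (c * b)‖)
      (by rw [map_sub, map_mul]; rfl) (by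
      simpa using (((hs c).mul (hs b)).sub (hs (c * b))).norm) fun j => ?_).symm
    filter_upwards [eventually_ge_atTop j] with n hn
    exact ((hf n _ (hr n c)).2.2 _ (mem a hn)).2.1 _ (hr n b) _ (hr n _)
  · rw [← map_add]
    refine (key _ _ (l c + l b - l (c + b)) (fun n => ‖r n c + r n b - r n (c + b)‖)
      (by rw [map_sub, map_add]; rfl) (by
      simpa using (((hs c).add (hs b)).sub (hs (c + b))).norm) fun j => ?_).symm
    filter_upwards [eventually_ge_atTop j] with n hn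
    exact ((hf n _ (hr n c)).2.2 _ (mem a hn)).1 _ (hr n b) _ (hr n _)
  · rw [← map_star]
    refine (key _ _ (star (l c) - l (star c)) (fun n => ‖star (r n c) - r n (star c)‖)
      (by rw [map_sub, map_star]; rfl) (by
      simpa using ((hs c).star.sub (hs (star c))).norm) fun j => ?_).symm
    filter_upwards [eventually_ge_atTop j] with n hn
    exact ((hf n _ (hr n c)).2.2 _ (mem a hn)).2.2.1 _ (hr n _)
  · change (β.fs ω hβ).φ g (fmk ω _ (L d)) = fmk ω _ (L d)
    rw [β.fs_fmk hβ]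
    obtain ⟨i, rfl⟩ := he g
    refine key _ _ (compB (β.φ (e i)) (l d) - l d) (fun _ => 0)
      (by rw [map_sub, ← umap_cls]; rfl) tendsto_const_nhds fun j => ?_
    filter_upwards [eventually_ge_atTop j, eventually_ge_atTop i] with n hn hi
    rw [zero_add]
    exact ((hf n _ (hr n d)).2.2 _ (mem a hn)).2.2.2.2 _ (mem_filter.2 ⟨mem_image_of_mem _
      (by simpa [Nat.lt_succ_iff] using hi), hg⟩)
  · change Commute (fmk ω _ (L d)) (y k)
    rw [← hY]
    refine Commute.map (Subtype.ext ?_ : Commute (L d) (Y k)) _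
    have := comm d (x k) (by
      filter_upwards [eventually_ge_atTop k] with n hn
      exact (hf n _ (hr n d)).2.1 _ (mem_union_right _ (mem (fun k => x k n) hn)))
    rw [hx] at this
    exact this.eq

end Vale.Agent.P095
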