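import Vale.Agent.P095.Tr

/-! The basic estimates for the elements . -/

namespace Vale.Agent.P095
open Vale.Agent.P101 Vale.Agent.P101.JS Filter Topology Finset
open scoped ComplexOrder BoundedContinuousFunction symmDiff

universe u
variable {B : Type u} [CStarAlgebra B] {L M k : Type} [Fintype L] [Fintype M] [Fintype k]
  [DecidableEq L] [DecidableEq M]

/-- The element `∑ d R c`. -/
noncomputable def sel {C : Type u} [CStarAlgebra C] (ι : B →⋆ₐ[ℂ] C) (d : L → k → B)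
    (c : M → k → B) (R : L × M × Bool → C) (ν : Bool) : C :=
  ∑ l, ∑ m, ∑ p, ι (d l p) * R (l, m, ν) * ι (c m p)

theorem AsmAux.sel_eq {C : Type u} [CStarAlgebra C] (ι : B →⋆ₐ[ℂ] C) (d : L → k → B)
    (c : M → k → B) (R : L × M × Bool → C) (ν : Bool) : sel ι d c R ν =
      ∑ j : L × M × k, ι (d j.1 j.2.2) * R (j.1, j.2.1, ν) * ι (c j.2.1 j.2.2) := by
  simp only [sel, Fintype.sum_prod_type]

theorem AsmAux.exists_eta {X : Type*} (s : Finset X) (w : X → ℝ) (hw : ∀ x, 0 ≤ w x) {δ : ℝ}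
    (hδ : 0 < δ) : ∃ η : ℝ, 0 < η ∧ ∀ x ∈ s, η * w x ≤ δ := by
  have h0 : 0 ≤ ∑ x ∈ s, w x := sum_nonneg fun x _ => hw x
  refine ⟨δ / (∑ x ∈ s, w x + 1), by positivity, fun x hx => ?_⟩
  rw [div_mul_eq_mul_div, div_le_iff₀ (by positivity)]
  have := single_le_sum (fun x _ => hw x) hx
  nlinarith

theorem AsmAux.sandwich {C : Type u} [CStarAlgebra C] {a r y r' a' : C} {s s' η : ℝ}
    (ha : ‖a‖ ≤ s) (hr : ‖r‖ ≤ 2) (hy : ‖y‖ ≤ η) (hr' : ‖r'‖ ≤ 2) (ha' : ‖a'‖ ≤ s') :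
    ‖star a * (star r * y * r') * a'‖ ≤ η * (4 * s * s') := by
  rw [← norm_star] at ha hr
  refine (norm_mul_le_of_le (norm_mul_le_of_le ha (norm_mul_le_of_le
    (norm_mul_le_of_le hr hy) hr')) ha').trans (le_of_eq ?_)
  ring

theorem asm_key (lam : B →ₗ[ℂ] ℂ) (d : L → k → B) (c : M → k → B) (X : Finset B) {δ : ℝ}
    (hδ : 0 < δ) : ∃ η : ℝ, 0 < η ∧ ∀ (C : Type u) [CStarAlgebra C] (ι : B →⋆ₐ[ℂ] C) (d₀ : B)
      (R : L × M × Bool → C) (e : C), IsSelfAdjoint d₀ → (∀ μ, ι d₀ * R μ = R μ) →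
      (∀ μ, ‖R μ‖ ≤ 2) →
      (∀ x ∈ X, ∀ l p l' p', ‖d₀ * (star (d l p) * x * d l' p') * d₀ -
        lam (star (d l p) * x * d l' p') • (d₀ * d₀)‖ ≤ η) →
      (∀ μ μ' m p m' p', ‖star (ι (c m p)) * (star (R μ) * R μ') * ι (c m' p') -
        if μ = μ' then ι (star (c m p) * c m' p') * e else 0‖ ≤ η) →
      ∀ x ∈ X, ∀ ν ν', ‖star (sel ι d c R ν) * ι x * sel ι d c R ν' -
        if ν = ν' then ι (Psi lam d c x) * e else 0‖ ≤ δ := by
  obtain ⟨η, h0, hη⟩ := AsmAux.exists_eta X (fun x => ∑ j : L × M × k, ∑ j' : L × M × k,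
    (4 * ‖c j.2.1 j.2.2‖ * ‖c j'.2.1 j'.2.2‖ + ‖lam (star (d j.1 j.2.2) * x * d j'.1 j'.2.2)‖))
    (fun x => by positivity) hδ
  refine ⟨η, h0, fun C _ ι d₀ R e hd h1 h2 h3 h4 x hx ν ν' => le_trans ?_ (hη x hx)⟩
  have e1 : (if ν = ν' then ι (Psi lam d c x) * e else 0) = ∑ j : L × M × k, ∑ j' : L × M × k,
      lam (star (d j.1 j.2.2) * x * d j'.1 j'.2.2) • if (j.1, j.2.1, ν) = (j'.1, j'.2.1, ν') then
        ι (star (c j.2.1 j.2.2) * c j'.2.1 j'.2.2) * e else 0 := by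
    split_ifs with h
    · simp only [Psi, map_sum, map_smul, sum_mul, smul_mul_assoc, Fintype.sum_prod_type, h,
        Prod.mk.injEq, and_true, ite_and, smul_ite, smul_zero, sum_ite_irrel, sum_const_zero,
        sum_ite_eq, mem_univ, if_true]
    · simp [h]
  rw [e1, AsmAux.sel_eq, AsmAux.sel_eq, star_sum, sum_mul, sum_mul, ← sum_sub_distrib, mul_sum]
  refine norm_sum_le_of_le _ fun j _ => ?_
  rw [mul_sum, ← sum_sub_distrib, mul_sum]
  refine norm_sum_le_of_le _ fun j' _ => ?_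
  obtain ⟨l, m, p⟩ := j
  obtain ⟨l', m', p'⟩ := j'
  have k1 := AsmAux.sandwich (NonUnitalStarAlgHom.norm_apply_le ι (c m p)) (h2 (l, m, ν))
    ((NonUnitalStarAlgHom.norm_apply_le ι _).trans (h3 x hx l p l' p')) (h2 (l', m', ν'))
    (NonUnitalStarAlgHom.norm_apply_le ι (c m' p'))
  have k2 := h4 (l, m, ν) (l', m', ν') m p m' p'
  have k3 : star (R (l, m, ν)) * ι d₀ = star (R (l, m, ν)) := by
    rw [← hd.star_eq, map_star, ← star_mul, h1]
  have k4 := h1 (l', m', ν')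
  dsimp only
  generalize R (l, m, ν) = r at *
  generalize R (l', m', ν') = r' at *
  generalize (if (l, m, ν) = (l', m', ν') then ι (star (c m p) * c m' p') * e else 0) = z at *
  generalize lam (star (d l p) * x * d l' p') = t at *
  have k5 : ∀ y, star r * (ι d₀ * y) = star r * y := fun y => by rw [← mul_assoc, k3]
  have e2 : star (ι (d l p) * r * ι (c m p)) * ι x * (ι (d l' p') * r' * ι (c m' p')) - t • z =
      star (ι (c m p)) * (star r * ι (d₀ * (star (d l p) * x * d l' p') * d₀ - t • (d₀ * d₀)) * r') *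
        ι (c m' p') + t • (star (ι (c m p)) * (star r * r') * ι (c m' p') - z) := by
    have k6 : ∀ y, ι d₀ * (r' * y) = r' * y := fun y => by rw [← mul_assoc, k4]
    simp only [map_sub, map_mul, map_smul, map_star, star_mul, mul_sub, sub_mul, smul_sub,
      mul_smul_comm, smul_mul_assoc, mul_assoc, k5, k6]
    abel
  rw [e2, mul_add]
  refine norm_add_le_of_le k1 ?_
  rw [norm_smul, mul_comm]
  gcongr

theorem asm_cross (d : L → k → B) (c : M → k → B) {κ : Type} [Fintype κ] (γ : κ → B →⋆ₐ[ℂ] B)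
    {δ : ℝ} (hδ : 0 < δ) : ∃ η : ℝ, 0 < η ∧ ∀ (C : Type u) [CStarAlgebra C] (ι : B →⋆ₐ[ℂ] C)
      (γ' : κ → C →⋆ₐ[ℂ] C) (d₀ : B) (R : L × M × Bool → C), (∀ i b, γ' i (ι b) = ι (γ i b)) →
      IsSelfAdjoint d₀ → (∀ μ, ι d₀ * R μ = R μ) → (∀ μ, ‖R μ‖ ≤ 2) →
      (∀ i l p l' p', ‖d₀ * (star (d l p) * γ i (d l' p')) * γ i d₀‖ ≤ η) →
      ∀ i ν ν', ‖star (sel ι d c R ν) * γ' i (sel ι d c R ν')‖ ≤ δ := by
  obtain ⟨η, h0, hη⟩ := AsmAux.exists_eta {()} (fun _ => ∑ j : L × M × k, ∑ j' : L × M × k,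
    4 * ‖c j.2.1 j.2.2‖ * ‖c j'.2.1 j'.2.2‖) (fun x => by positivity) hδ
  refine ⟨η, h0, fun C _ ι γ' d₀ R hγ hd h1 h2 h3 i ν ν' =>
    le_trans ?_ (hη () (mem_singleton_self _))⟩
  rw [AsmAux.sel_eq, AsmAux.sel_eq, star_sum, map_sum, sum_mul, mul_sum]
  refine norm_sum_le_of_le _ fun j _ => ?_
  rw [mul_sum, mul_sum]
  refine norm_sum_le_of_le _ fun j' _ => ?_
  obtain ⟨l, m, p⟩ := j
  obtain ⟨l', m', p'⟩ := j'
  have k1 := AsmAux.sandwich (NonUnitalStarAlgHom.norm_apply_le ι (c m p)) (h2 (l, m, ν))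
    ((NonUnitalStarAlgHom.norm_apply_le ι _).trans (h3 i l p l' p'))
    ((NonUnitalStarAlgHom.norm_apply_le (γ' i) _).trans (h2 (l', m', ν')))
    ((NonUnitalStarAlgHom.norm_apply_le (γ' i) _).trans
      (NonUnitalStarAlgHom.norm_apply_le ι (c m' p')))
  have k3 : star (R (l, m, ν)) * ι d₀ = star (R (l, m, ν)) := by
    rw [← hd.star_eq, map_star, ← star_mul, h1]
  have k4 : γ' i (ι d₀) * γ' i (R (l', m', ν')) = γ' i (R (l', m', ν')) := by rw [← map_mul, h1]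
  have k5 : ∀ y, star (R (l, m, ν)) * (ι d₀ * y) = star (R (l, m, ν)) * y := fun y => by
    rw [← mul_assoc, k3]
  have k6 : ∀ y, γ' i (ι d₀) * (γ' i (R (l', m', ν')) * y) = γ' i (R (l', m', ν')) * y :=
    fun y => by rw [← mul_assoc, k4]
  refine le_of_eq_of_le (congrArg _ ?_) k1
  simp only [map_mul, map_star, star_mul, ← hγ, mul_assoc, k5, k6]

theorem asm_central {C : Type u} [CStarAlgebra C] {s e a p : C} {δ : ℝ} (hδ : 0 ≤ δ)
    (ha : ‖a‖ ≤ 1) (he : ‖e‖ ≤ 2) (hp : ‖p‖ ≤ 1) (hea : ‖e * a - a * e‖ ≤ δ)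
    (h1 : ‖star s * s - p * e‖ ≤ δ) (h2 : ‖star s * a * s - a * e‖ ≤ δ)
    (h3 : ‖star s * star a * s - star a * e‖ ≤ δ)
    (h4 : ‖star s * (star a * a) * s - star a * a * e‖ ≤ δ) (h5 : ‖p * a - a‖ ≤ δ) :
    ‖s * a - a * s‖ ^ 2 ≤ 20 * δ ∧ ‖star s * s * a - e * a‖ ≤ 5 * δ := by
  have ha' : ‖star a‖ ≤ 1 := by rwa [norm_star]
  have k1 : ‖star s * s * a - a * e‖ ≤ 4 * δ := by
    rw [show star s * s * a - a * e = (star s * s - p * e) * a + p * (e * a - a * e) +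
      (p * a - a) * e by noncomm_ring]
    linarith [norm_add_le_of_le (norm_add_le_of_le (norm_mul_le_of_le h1 ha)
      (norm_mul_le_of_le hp hea)) (norm_mul_le_of_le h5 he)]
  constructor
  · rw [sq, ← CStarRing.norm_star_mul_self, show star (s * a - a * s) * (s * a - a * s) =
      star a * (star s * s * a - a * e) - star a * (star s * a * s - a * e) -
        (star s * star a * s - star a * e) * a - star a * (e * a - a * e) +
        (star s * (star a * a) * s - star a * a * e) by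
          rw [star_sub, star_mul, star_mul]; noncomm_ring]
    linarith [norm_add_le_of_le (norm_sub_le_of_le (norm_sub_le_of_le (norm_sub_le_of_le
      (norm_mul_le_of_le ha' k1) (norm_mul_le_of_le ha' h2)) (norm_mul_le_of_le h3 ha))
      (norm_mul_le_of_le ha' hea)) h4]
  · rw [show star s * s * a - e * a = (star s * s * a - a * e) - (e * a - a * e) by abel]
    linarith [norm_sub_le_of_le k1 hea]

end Vale.Agent.P095
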