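import Vale.Agent.P095.Defs
import Vale.Agent.P101.Main
import Vale.Agent.P101.JLift

/-! Internal notions for P095. -/

namespace Vale.Agent.P095
open Vale.Agent.P101 Vale.Agent.P101.JS Filter Topology Finset
open scoped ComplexOrder BoundedContinuousFunction symmDiff

universe u v

/-- The Følner condition. -/
def Folner (G : Type) [Group G] [DecidableEq G] : Prop :=
  ∀ (S : Finset G) (ε : ℝ), 0 < ε → ∃ K : Finset G, K.Nonempty ∧
    ∀ s ∈ S, (#((K.image (s * ·)) ∆ K) : ℝ) ≤ ε * #K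

/-- An action of `G` on a unital C*-algebra. -/
structure Act (G : Type) [Group G] (B : Type u) [CStarAlgebra B] where
  φ : G → B →⋆ₐ[ℂ] B
  one : ∀ x, φ 1 x = x
  mul : ∀ g h x, φ (g * h) x = φ g (φ h x)

namespace Act
variable {G : Type} [Group G] {B : Type u} [CStarAlgebra B] (β : Act G B)

theorem inv_apply (g : G) (x : B) : β.φ g⁻¹ (β.φ g x) = x := by
  rw [← β.mul, inv_mul_cancel, β.one]

theorem apply_inv (g : G) (x : B) : β.φ g (β.φ g⁻¹ x) = x := by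
  rw [← β.mul, mul_inv_cancel, β.one]

theorem injective (g : G) : Function.Injective (β.φ g) :=
  Function.LeftInverse.injective (β.inv_apply g)

theorem norm_apply (g : G) (x : B) : ‖β.φ g x‖ = ‖x‖ :=
  NonUnitalStarAlgHom.norm_map (β.φ g) (β.injective g) x

/-- The fixed point algebra. -/
def fix : StarSubalgebra ℂ B where
  carrier := {x | ∀ g, β.φ g x = x}
  mul_mem' := fun ha hb g => by rw [map_mul, ha g, hb g]
  add_mem' := fun ha hb g => by rw [map_add, ha g, hb g]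
  algebraMap_mem' := fun c g => (β.φ g).commutes c
  star_mem' := fun ha g => by rw [map_star, ha g]

theorem mem_fix {x : B} : x ∈ β.fix ↔ ∀ g, β.φ g x = x := Iff.rfl

instance fix_closed : IsClosed (β.fix : Set B) := by
  have : (β.fix : Set B) = ⋂ g, {x | β.φ g x = x} := by ext; simp [mem_fix]
  rw [this]
  exact isClosed_iInter fun g => isClosed_eq (hom_cont (β.φ g)) continuous_id

noncomputable instance fixCStar : CStarAlgebra β.fix := StarSubalgebra.cstarAlgebra _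

end Act

section
variable {B : Type u} [CStarAlgebra B]

/-- A state. -/
def IsSt (lam : B →ₗ[ℂ] ℂ) : Prop := lam 1 = 1 ∧ ∀ x, 0 ≤ lam (star x * x)

/-- The `L²` seminorm of a state. -/
noncomputable def n2 (τ : B →ₗ[ℂ] ℂ) (x : B) : ℝ := √(τ (star x * x)).re

/-- A matrix unit generating a unital copy of `M₂`. -/
def MU (v : B) : Prop := v * v = 0 ∧ star v * v + v * star v = 1

/-- The two anticommuting symmetries of a matrix unit. -/
noncomputable def sym (a : Bool) (v : B) : B :=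
  if a then v + star v else Complex.I • (v - star v)

/-- The defect of being a matrix unit. -/
noncomputable def yfun (x : B) : B :=
  (1 / 500 : ℂ) • (star (x * x) * (x * x) +
    star (1 - star x * x - x * star x) * (1 - star x * x - x * star x))

/-- `exp (i θ x)`. -/
noncomputable def ex (θ : ℝ) (x : B) : B := NormedSpace.exp ((Complex.I * θ) • x)

/-- A closed two-sided ideal `I` with `B = ℂ + I` that is simple as a C*-algebra. -/
structure Pair (B : Type u) [CStarAlgebra B] where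
  I : Ideal B
  two : I.IsTwoSided
  closed : IsClosed (I : Set B)
  span : ∀ b : B, ∃ c : ℂ, b - algebraMap ℂ B c ∈ I
  simple : ∀ x ∈ I, x ≠ 0 → ∀ a ∈ I, a ∈ closure (gen (fun _ : Unit => x) : Set B)
  ne : ∃ x ∈ I, x ≠ 0

instance (P : Pair B) : P.I.IsTwoSided := P.two
instance (P : Pair B) : IsClosed (P.I : Set B) := P.closed
instance (P : Pair B) : IsStarIdeal P.I := isStarIdeal_of_closed P.I P.closed

theorem Pair.star_mem (P : Pair B) {x : B} (hx : x ∈ P.I) : star x ∈ P.I :=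
  IsStarIdeal.star_mem x hx

theorem Pair.smul_mem (P : Pair B) (c : ℂ) {x : B} (hx : x ∈ P.I) : c • x ∈ P.I := by
  rw [Algebra.smul_def]; exact P.I.mul_mem_left _ hx

/-- The matrix `X` over `B` has norm at most `ε`. -/
def SW {n : Type} [Fintype n] (X : n → n → B) (ε : ℝ) : Prop :=
  ∀ u u' : n → B, ‖∑ b, ∑ d, star (u b) * X b d * u' d‖ ≤
    ε * √‖∑ b, star (u b) * u b‖ * √‖∑ b, star (u' b) * u' b‖

/-- The completely positive map attached to a state and two families. -/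
noncomputable def Psi {L M k : Type} [Fintype L] [Fintype M] [Fintype k] (lam : B →ₗ[ℂ] ℂ)
    (d : L → k → B) (c : M → k → B) (x : B) : B :=
  ∑ l, ∑ m, ∑ p, ∑ p', lam (star (d l p) * x * d l p') • (star (c m p) * c m p')

/-- Normalized data for `Psi`. -/
structure PsiData {L M k : Type} [Fintype L] [Fintype M] [Fintype k] (P : Pair B)
    (lam : B →ₗ[ℂ] ℂ) (d : L → k → B) (c : M → k → B) : Prop where
  mem : ∀ m p, c m p ∈ P.I
  col : ‖∑ m, ∑ p, star (c m p) * c m p‖ ≤ 1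
  form : ∀ ξ : k → ℂ,
    ∑ l, (lam (star (∑ p, ξ p • d l p) * ∑ p, ξ p • d l p)).re ≤ ∑ p, ‖ξ p‖ ^ 2

/-- The completely positive approximation property, in terms of the state `lam`. -/
def CPL (P : Pair B) (lam : B →ₗ[ℂ] ℂ) : Prop :=
  ∀ (s : Finset B), (∀ a ∈ s, a ∈ P.I) → ∀ ε : ℝ, 0 < ε → ∃ (L M k : ℕ)
    (d : Fin L → Fin k → B) (c : Fin M → Fin k → B), PsiData P lam d c ∧
      ∀ a ∈ s, ‖a - Psi lam d c a‖ ≤ ε

/-- The completely positive approximation property, in concrete form. -/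
def CPc (P : Pair B) : Prop :=
  ∀ (s : Finset B), (∀ a ∈ s, a ∈ P.I) → ∀ ε : ℝ, 0 < ε → ∃ (M k : ℕ)
    (φ : B →ₗ[ℂ] Matrix (Fin k) (Fin k) ℂ) (e : B) (c : Fin M → Fin k → B),
      e ∈ P.I ∧ IsSelfAdjoint e ∧ (∀ m p, c m p ∈ P.I) ∧ ‖∑ m, ∑ p, star (c m p) * c m p‖ ≤ 1 ∧
      (∀ y : Fin k → B, (∀ p, y p ∈ P.I) → 0 ≤ ∑ p, ∑ p', φ (star (y p) * y p') p p') ∧
      (∀ ξ : Fin k → ℂ, (∑ p, ∑ p', star (ξ p) * φ (e * e) p p' * ξ p').re ≤ ∑ p, ‖ξ p‖ ^ 2) ∧
      ∀ a ∈ s, ‖a - ∑ m, ∑ p, ∑ p', φ (e * a * e) p p' • (star (c m p) * c m p')‖ ≤ ε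

/-- The state `lam` is excised by the nested sequence `a`. -/
structure Exc (P : Pair B) (a : ℕ → B) (lam : B →ₗ[ℂ] ℂ) : Prop where
  mem : ∀ k, a k ∈ P.I
  sa : ∀ k, IsSelfAdjoint (a k)
  norm : ∀ k, ‖a k‖ = 1
  nest : ∀ k, a (k + 1) * a k = a (k + 1)
  st : IsSt lam
  exc : ∀ b, Tendsto (fun k => ‖a k * b * a k - lam b • (a k * a k)‖) atTop (𝓝 0)

/-- The endomorphism `γ` moves approximately central elements, uniformly in every corner. -/
def Outer (P : Pair B) (γ : B →⋆ₐ[ℂ] B) : Prop :=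
  ∃ δ : ℝ, 0 < δ ∧ ∀ e ∈ P.I, IsSelfAdjoint e → ‖e‖ = 1 → ∀ (t : Finset B) (ε C : ℝ), 0 < ε →
    2 ≤ C → ∃ x : B, IsSelfAdjoint x ∧ ‖x‖ ≤ 1 ∧ (∀ a ∈ t, ‖x * a - a * x‖ ≤ ε) ∧
      C + δ - ε ≤ ‖e * (algebraMap ℝ B C + x - γ x) * e‖

end

/-- Approximate homomorphisms into `F` that are approximately invariant under `H`. -/
def ApxF {G : Type} [Group G] {F : Type u} [CStarAlgebra F] (β : Act G F) (H : Set G)
    (D : Type v) [CStarAlgebra D] : Prop :=
  ∀ (s : Finset D) (u : Finset ℂ) (K : Finset G) (ε : ℝ), (∀ g ∈ K, g ∈ H) → 0 < ε →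
    ∃ f : D → F, ∀ x ∈ s,
    (∀ y ∈ s, ∀ z ∈ s, ‖f x + f y - f z‖ ≤ ‖x + y - z‖ + ε) ∧
    (∀ y ∈ s, ∀ z ∈ s, ‖f x * f y - f z‖ ≤ ‖x * y - z‖ + ε) ∧
    (∀ y ∈ s, ‖star (f x) - f y‖ ≤ ‖star x - y‖ + ε) ∧
    (∀ c ∈ u, ‖f x - algebraMap ℂ F c‖ ≤ ‖x - algebraMap ℂ D c‖ + ε) ∧
    ∀ g ∈ K, ‖β.φ g (f x) - f x‖ ≤ ε

/-- A bounded sequence. -/
noncomputable def seqB {B : Type u} [CStarAlgebra B] (x : ℕ → B) (C : ℝ) (h : ∀ n, ‖x n‖ ≤ C) :
    ℕ →ᵇ B :=
  BoundedContinuousFunction.ofNormedAddCommGroupDiscrete x C h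

@[simp] theorem seqB_apply {B : Type u} [CStarAlgebra B] (x : ℕ → B) (C : ℝ)
    (h : ∀ n, ‖x n‖ ≤ C) (n : ℕ) : seqB x C h n = x n := rfl

@[simp] theorem compB_apply {A C : Type u} [CStarAlgebra A] [CStarAlgebra C] (i : A →⋆ₐ[ℂ] C)
    (x : ℕ →ᵇ A) (n : ℕ) : compB i x n = i (x n) := rfl

end Vale.Agent.P095
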