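import Vale.Agent.P101.ZDefs

/-! Statement definitions for P095: equivariant Jiang-Su stability. -/

namespace Vale.Agent.P095.St
open scoped TensorProduct CStarAlgebra MultiplierAlgebra ComplexOrder

universe u v

/-- A nonzero C*-algebra whose only closed two-sided ideals are `0` and the whole algebra. -/
def IsSimpleAlg (A : Type u) [NonUnitalCStarAlgebra A] : Prop :=
  Nontrivial A ∧ ∀ I : TwoSidedIdeal A, IsClosed (I : Set A) → I = ⊥ ∨ I = ⊤

/-- The identity of `A` factors through `B`, up to `ε` on `s`, by completely positive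
contractions. -/
def FactorsThrough (A : Type u) [NonUnitalCStarAlgebra A] [PartialOrder A] [StarOrderedRing A]
    (B : Type) [NonUnitalCStarAlgebra B] [PartialOrder B] [StarOrderedRing B] (s : Finset A)
    (ε : ℝ) : Prop :=
  ∃ (φ : A →CP B) (ψ : B →CP A), (∀ a, ‖φ a‖ ≤ ‖a‖) ∧ (∀ b, ‖ψ b‖ ≤ ‖b‖) ∧
    ∀ a ∈ s, ‖ψ (φ a) - a‖ < ε

/-- The usual order of `ℂ` is the one given by the elements `star z * z`. -/
theorem complexStarOrdered : StarOrderedRing ℂ := inferInstance

/-- Nuclearity: the completely positive approximation property. -/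
def IsNuclear (A : Type u) [NonUnitalCStarAlgebra A] [PartialOrder A] [StarOrderedRing A] : Prop :=
  haveI := complexStarOrdered
  ∀ (s : Finset A) (ε : ℝ), 0 < ε →
    ∃ k : ℕ, FactorsThrough A (CStarMatrix (Fin k) (Fin k) ℂ) s ε

/-- `π` is a faithful representation of `A` on the Hilbert space `H`. -/
def IsFaithfulRep {A H : Type u} [NonUnitalCStarAlgebra A] [NormedAddCommGroup H]
    [InnerProductSpace ℂ H] [CompleteSpace H] (π : A → H →L[ℂ] H) : Prop :=
  Function.Injective π ∧ ∃ φ : A →⋆ₙₐ[ℂ] (H →L[ℂ] H), ∀ a, φ a = π a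

/-- There are faithful representations `π` of `A` on `H`, `ρ` of `B` on `K` and `σ` of `C` on the
Hilbert space tensor product such that `t a b` acts as `π a ⊗ ρ b`. -/
def IsSpatial {A B C : Type u} [NonUnitalCStarAlgebra A] [CStarAlgebra B] [NonUnitalCStarAlgebra C]
    (H K : Type u) [NormedAddCommGroup H] [InnerProductSpace ℂ H] [CompleteSpace H]
    [NormedAddCommGroup K] [InnerProductSpace ℂ K] [CompleteSpace K] (t : A → B → C) : Prop :=
  ∃ (π : A → H →L[ℂ] H) (ρ : B → K →L[ℂ] K)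
    (σ : C → UniformSpace.Completion (H ⊗[ℂ] K) →L[ℂ] UniformSpace.Completion (H ⊗[ℂ] K)),
    IsFaithfulRep π ∧ IsFaithfulRep ρ ∧ (∀ k, ρ 1 k = k) ∧ IsFaithfulRep σ ∧
    ∀ a b h k, σ (t a b) ((h ⊗ₜ[ℂ] k : H ⊗[ℂ] K) : UniformSpace.Completion (H ⊗[ℂ] K)) =
      ((π a h ⊗ₜ[ℂ] ρ b k : H ⊗[ℂ] K) : UniformSpace.Completion (H ⊗[ℂ] K))

/-- `C` is the minimal (spatial) tensor product of `A` and `B`, with `a ⊗ b = t a b`. -/
structure IsMinTensor {A B C : Type u} [NonUnitalCStarAlgebra A] [CStarAlgebra B]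
    [NonUnitalCStarAlgebra C] (t : A → B → C) : Prop where
  dense : Dense (Submodule.span ℂ {c | ∃ a b, c = t a b} : Set C)
  spatial : ∃ (H K : Type u) (_ : NormedAddCommGroup H) (_ : InnerProductSpace ℂ H)
    (_ : CompleteSpace H) (_ : NormedAddCommGroup K) (_ : InnerProductSpace ℂ K)
    (_ : CompleteSpace K), IsSpatial H K t

/-- `A` is isomorphic to the minimal tensor product `A ⊗ Z`. -/
def IsStable (A Z : Type u) [NonUnitalCStarAlgebra A] [CStarAlgebra Z] : Prop :=
  ∃ (C : Type u) (_ : NonUnitalCStarAlgebra C) (t : A → Z → C),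
    IsMinTensor t ∧ Nonempty (A ≃⋆ₐ[ℂ] C)

/-- A bounded real function. -/
def Bdd {G : Type v} (f : G → ℝ) : Prop := ∃ C : ℝ, ∀ x, |f x| ≤ C

/-- `G` is amenable: the bounded real functions on `G` carry a left invariant mean `m` (the values
of `m` on unbounded functions play no role). -/
def IsAmenable (G : Type v) [Group G] : Prop :=
  ∃ m : (G → ℝ) → ℝ,
    (∀ f f', Bdd f → Bdd f' → m (fun x => f x + f' x) = m f + m f') ∧
    (∀ (c : ℝ) f, Bdd f → m (fun x => c * f x) = c * m f) ∧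
    (∀ f, Bdd f → (∀ x, 0 ≤ f x) → 0 ≤ m f) ∧ m (fun _ => 1) = 1 ∧
    ∀ (g : G) f, Bdd f → m (fun x => f (g⁻¹ * x)) = m f

/-- An action of `G` on `A`: a homomorphism to the group of star automorphisms. -/
abbrev Action (G : Type v) [Group G] (A : Type u) [NonUnitalCStarAlgebra A] : Type (max u v) :=
  G →* (A ≃⋆ₐ[ℂ] A)

/-- An automorphism as a bounded linear map. -/
noncomputable def autCLM {C : Type u} [NonUnitalCStarAlgebra C] (e : C ≃⋆ₐ[ℂ] C) : C →L[ℂ] C :=
  LinearMap.mkContinuous ⟨⟨e, map_add e⟩, map_smul e⟩ 1 fun c =>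
    ((StarAlgEquiv.norm_map e c).trans (one_mul _).symm).le

/-- The extension of an automorphism `e` of `C` to the multiplier algebra:
the double centralizer `(L, R)` is sent to `(e ∘ L ∘ e⁻¹, e ∘ R ∘ e⁻¹)`. -/
noncomputable def extendAut {C : Type u} [NonUnitalCStarAlgebra C] (e : C ≃⋆ₐ[ℂ] C)
    (m : 𝓜(ℂ, C)) : 𝓜(ℂ, C) where
  toProd := ((autCLM e).comp (m.fst.comp (autCLM e.symm)),
    (autCLM e).comp (m.snd.comp (autCLM e.symm)))
  central x y := by
    change e (m.snd (e.symm x)) * y = x * e (m.fst (e.symm y))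
    rw [← e.apply_symm_apply y, ← map_mul, m.central, map_mul, e.apply_symm_apply,
      e.symm_apply_apply]

/-- The actions `α` and `β` are cocycle conjugate. -/
def CocycleConjugate {G : Type v} [Group G] {A C : Type u} [NonUnitalCStarAlgebra A]
    [NonUnitalCStarAlgebra C] (α : Action G A) (β : Action G C) : Prop :=
  ∃ (Φ : A ≃⋆ₐ[ℂ] C) (v : G → 𝓜(ℂ, C)), (∀ g, v g ∈ unitary 𝓜(ℂ, C)) ∧
    (∀ g h, v (g * h) = v g * extendAut (β g) (v h)) ∧
    ∀ g a, ((Φ (α g a) : C) : 𝓜(ℂ, C)) = v g * ((β g (Φ a) : C) : 𝓜(ℂ, C)) * star (v g)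

/-- `β` is the action `α ⊗ id`. -/
def IsTensorAction {G : Type v} [Group G] {A Z C : Type u} [NonUnitalCStarAlgebra A]
    [NonUnitalCStarAlgebra C] (t : A → Z → C) (α : Action G A) (β : Action G C) : Prop :=
  ∀ g a z, β g (t a z) = t (α g a) z

/-- On every minimal tensor product `A ⊗ Z` the action `α ⊗ id` exists and `α` is cocycle
conjugate to it. -/
def EquivariantlyStable {G : Type v} [Group G] {A : Type u} [NonUnitalCStarAlgebra A]
    (α : Action G A) (Z : Type u) [CStarAlgebra Z] : Prop :=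
  ∀ (C : Type u) [NonUnitalCStarAlgebra C] (t : A → Z → C), IsMinTensor t →
    ∃ β : Action G C, IsTensorAction t α β ∧ CocycleConjugate α β

end Vale.Agent.P095.St
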