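import Vale.Agent.P095.Main
import Vale.Agent.P095.SDefs

/-! From the working definitions to the statement definitions. -/

namespace Vale.Agent.P095
open Vale.Agent.P101.JS TopologicalSpace

universe u v

theorem St.IsMinTensor.old {A B C : Type u} [NonUnitalCStarAlgebra A] [CStarAlgebra B]
    [NonUnitalCStarAlgebra C] {t : A → B → C} (h : St.IsMinTensor t) : P095.IsMinTensor t := by
  obtain ⟨hd, H, K, _, _, _, _, _, _, π, ρ, σ, ⟨i1, π', h1⟩, ⟨i2, ρ', h2⟩, hu, ⟨i3, σ', h3⟩, h⟩ := h
  obtain rfl : π = π' := funext fun a => (h1 a).symm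
  obtain rfl : ρ = ρ' := funext fun a => (h2 a).symm
  obtain rfl : σ = σ' := funext fun a => (h3 a).symm
  have h1 : ρ' 1 = 1 := ContinuousLinearMap.ext hu
  let ρ : B →⋆ₐ[ℂ] (K →L[ℂ] K) :=
    { toFun := ρ'
      map_one' := h1
      map_mul' := map_mul ρ'
      map_zero' := map_zero ρ'
      map_add' := map_add ρ'
      commutes' := fun c => by
        rw [Algebra.algebraMap_eq_smul_one, map_smul, h1, Algebra.algebraMap_eq_smul_one]
      map_star' := map_star ρ' }
  exact ⟨hd, H, K, _, _, inferInstance, _, _, inferInstance, π', ρ, σ', i1, i2, i3, h⟩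

theorem St.IsAmenable.old {G : Type v} [Group G] (h : St.IsAmenable G) : P095.IsAmenable G := by
  obtain ⟨m, h1, h2, h3, h4, h5⟩ := h
  have b : ∀ f : lp (fun _ : G => ℝ) ⊤, St.Bdd f := fun f =>
    ⟨‖f‖, lp.norm_apply_le_norm ENNReal.top_ne_zero f⟩
  refine ⟨⟨⟨fun f => m f, fun f f' => h1 _ _ (b f) (b f')⟩, fun c f => h2 c _ (b f)⟩,
    fun f hf => h3 _ (b f) hf, fun f hf => ?_, fun g f f' hf => ?_⟩
  · exact (congrArg m (funext hf)).trans h4
  · exact (congrArg m (funext hf)).trans (h5 g _ (b f))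

theorem St.main {A Z : Type u} [NonUnitalCStarAlgebra A] [PartialOrder A]
    [StarOrderedRing A] [CStarAlgebra Z] [SeparableSpace A] (hZ : IsJS Z) (hs : St.IsSimpleAlg A)
    (hn : St.IsNuclear A) (hst : St.IsStable A Z) {G : Type v} [Group G] [Countable G]
    (hG : St.IsAmenable G) (α : St.Action G A) : St.EquivariantlyStable α Z := by
  obtain ⟨C', _, t', h1, h2⟩ := hst
  exact fun C _ t ht =>
    equivariantly_stable_univ hZ hs hn ⟨C', inferInstance, t', h1.old, h2⟩ hG.old α C t ht.old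

end Vale.Agent.P095
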