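import Vale.Agent.P095.Tr

/-! Cuntz-Pedersen: tracially small elements have decompositions with small rows. -/

namespace Vale.Agent.P095
open Vale.Agent.P101 Vale.Agent.P101.JS Filter Topology Finset
open scoped ComplexOrder BoundedContinuousFunction symmDiff

universe u

namespace CPAux
variable {B : Type u} [CStarAlgebra B] [PartialOrder B] [StarOrderedRing B]

def Q (a : B) (s : ℝ) : Prop :=
  ∃ (ι : Type) (_ : Fintype ι) (x : ι → B), ∑ i, star (x i) * x i = a ∧
    ∑ i, x i * star (x i) ≤ algebraMap ℝ B s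

theorem alg_mono {s t : ℝ} (h : s ≤ t) : algebraMap ℝ B s ≤ algebraMap ℝ B t := by
  rw [← sub_nonneg, ← map_sub, Algebra.algebraMap_eq_smul_one]
  exact smul_nonneg (sub_nonneg.2 h) zero_le_one

theorem Q.mono {a : B} {s t : ℝ} (h : Q a s) (hst : s ≤ t) : Q a t := by
  obtain ⟨ι, _, x, h1, h2⟩ := h
  exact ⟨ι, _, x, h1, h2.trans (alg_mono hst)⟩

theorem Q.add {a b : B} {s t : ℝ} (h : Q a s) (h' : Q b t) : Q (a + b) (s + t) := by
  obtain ⟨ι, _, x, h1, h2⟩ := h
  obtain ⟨κ, _, y, k1, k2⟩ := h'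
  refine ⟨ι ⊕ κ, inferInstance, Sum.elim x y, ?_, ?_⟩
  · rw [Fintype.sum_sum_type]; simp [h1, k1]
  · rw [Fintype.sum_sum_type, map_add]; simpa using add_le_add h2 k2

theorem Q.self {a : B} (ha : 0 ≤ a) {s : ℝ} (h : a ≤ algebraMap ℝ B s) : Q a s := by
  refine ⟨Unit, inferInstance, fun _ => CFC.sqrt a, ?_, ?_⟩
  · simp [(CFC.sqrt_nonneg a).isSelfAdjoint.star_eq, CFC.sqrt_mul_sqrt_self a ha]
  · simpa [(CFC.sqrt_nonneg a).isSelfAdjoint.star_eq, CFC.sqrt_mul_sqrt_self a ha] using h

theorem Q.smul {a : B} {s c : ℝ} (hc : 0 ≤ c) (h : Q a s) : Q (c • a) (c * s) := by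
  obtain ⟨ι, _, x, h1, h2⟩ := h
  refine ⟨ι, inferInstance, fun i => √c • x i, ?_, ?_⟩
  · simp only [star_smul, star_trivial, smul_mul_smul_comm, Real.mul_self_sqrt hc,
      ← Finset.smul_sum, h1]
  · simp only [star_smul, star_trivial, smul_mul_smul_comm, Real.mul_self_sqrt hc,
      ← Finset.smul_sum]
    rw [map_mul, ← Algebra.smul_def]
    exact smul_le_smul_of_nonneg_left h2 hc

theorem Q.key {c : B} {s η : ℝ} (h : Q c s) (hη : 0 < η) {κ : Type} [Fintype κ] (v : κ → B)
    (hv : ∑ j, v j * star (v j) ≤ c) : Q (∑ j, star (v j) * v j) (s + η) := by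
  obtain ⟨ι, _, x, h1, h2⟩ := h
  have hc : 0 ≤ c := h1 ▸ Finset.sum_nonneg fun i _ => star_mul_self_nonneg _
  have hp : IsStrictlyPositive (algebraMap ℝ B η + c) :=
    (isStrictlyPositive_algebraMap hη).add_nonneg hc
  obtain ⟨g, hg, hg1⟩ : ∃ g : B, star g = g ∧ g * (algebraMap ℝ B η + c) * g = 1 :=
    ⟨_, (CFC.rpow_nonneg (a := algebraMap ℝ B η + c) (y := -(1 / 2))).isSelfAdjoint.star_eq,
      CFC.conjugate_rpow_neg_one_half _ hp⟩
  have hr : ∑ j, (g * v j) * star (g * v j) ≤ 1 := by
    have e : ∑ j, (g * v j) * star (g * v j) = g * (∑ j, v j * star (v j)) * star g := by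
      simp only [star_mul, Finset.mul_sum, Finset.sum_mul, mul_assoc]
    rw [e, ← hg1]
    nth_rewrite 4 [← hg]
    refine star_right_conjugate_le_conjugate (hv.trans ?_) g
    exact le_add_of_nonneg_left (hp.nonneg.trans' le_rfl |> fun _ => by
      rw [Algebra.algebraMap_eq_smul_one]; exact smul_nonneg hη.le zero_le_one)
  refine ⟨(ι × κ) ⊕ κ, inferInstance,
    Sum.elim (fun p => x p.1 * (g * v p.2)) (fun j => √η • (g * v j)), ?_, ?_⟩
  · rw [Fintype.sum_sum_type, Fintype.sum_prod_type_right, ← Finset.sum_add_distrib]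
    refine Finset.sum_congr rfl fun j _ => ?_
    simp only [Sum.elim_inl, Sum.elim_inr, star_smul, star_trivial, smul_mul_smul_comm,
      Real.mul_self_sqrt hη.le]
    have e : ∑ i, star (x i * (g * v j)) * (x i * (g * v j))
        = star (g * v j) * c * (g * v j) := by
      rw [← h1]
      simp only [star_mul (x _), Finset.mul_sum, Finset.sum_mul, mul_assoc]
    rw [e, star_mul, hg]
    calc star (v j) * g * c * (g * v j) + η • (star (v j) * g * (g * v j))
        = star (v j) * (g * (algebraMap ℝ B η + c) * g) * v j := by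
          simp only [Algebra.algebraMap_eq_smul_one, mul_add, add_mul, mul_smul_comm,
            smul_mul_assoc, mul_assoc, mul_one]
          rw [add_comm]
      _ = _ := by rw [hg1, mul_one]
  · rw [Fintype.sum_sum_type, Fintype.sum_prod_type, map_add]
    simp only [Sum.elim_inl, Sum.elim_inr, star_smul, star_trivial, smul_mul_smul_comm,
      Real.mul_self_sqrt hη.le, ← Finset.smul_sum]
    refine add_le_add (le_trans (Finset.sum_le_sum fun i _ => ?_) h2) ?_
    · have e : ∑ j, x i * (g * v j) * star (x i * (g * v j))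
          = x i * (∑ j, (g * v j) * star (g * v j)) * star (x i) := by
        simp only [star_mul (x _), Finset.mul_sum, Finset.sum_mul, mul_assoc]
      rw [e]
      simpa using star_right_conjugate_le_conjugate hr (x i)
    · rw [Algebra.algebraMap_eq_smul_one]
      exact smul_le_smul_of_nonneg_left hr hη.le

theorem Q.swap {a : B} (ha : 0 ≤ a) {s η : ℝ} {c : B} (h : Q c s) (hη : 0 < η) {κ : Type}
    [Fintype κ] (v : κ → B) (hv : a + ∑ j, v j * star (v j) ≤ c) :
    Q (a + ∑ j, star (v j) * v j) (s + η) := by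
  have := h.key hη (κ := Option κ) (fun j => j.elim (CFC.sqrt a) v) (by
    simpa [Fintype.sum_option, (CFC.sqrt_nonneg a).isSelfAdjoint.star_eq,
      CFC.sqrt_mul_sqrt_self a ha] using hv)
  simpa [Fintype.sum_option, (CFC.sqrt_nonneg a).isSelfAdjoint.star_eq,
      CFC.sqrt_mul_sqrt_self a ha] using this

theorem Q.of_le {a c : B} (ha : 0 ≤ a) (hac : a ≤ c) {s η : ℝ} (h : Q c s) (hη : 0 < η) :
    Q a (s + η) := by
  simpa using h.swap ha hη (κ := Empty) (fun e => e.elim) (by simpa using hac)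

theorem iter {y : B} (hy : 0 ≤ y) {t η : ℝ} (ht : 0 ≤ t) (hη : 0 < η) {κ : Type} [Fintype κ]
    (v : κ → B) (hv : y + ∑ j, v j * star (v j) ≤ algebraMap ℝ B t + ∑ j, star (v j) * v j)
    (n : ℕ) : Q ((n : ℝ) • y + ∑ j, v j * star (v j))
      (‖∑ j, v j * star (v j)‖ + n * (t + η + η)) := by
  have hw : 0 ≤ ∑ j, v j * star (v j) := Finset.sum_nonneg fun i _ => mul_star_self_nonneg _
  induction n with
  | zero => simpa using Q.self hw hw.isSelfAdjoint.le_algebraMap_norm_self
  | succ n ih =>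
    have hn : 0 ≤ (n : ℝ) • y := smul_nonneg n.cast_nonneg hy
    have h1 := ih.swap hn hη v le_rfl
    have ht' : (0 : B) ≤ algebraMap ℝ B t := by simpa using alg_mono (B := B) ht
    have h2 := (h1.add (Q.self ht' le_rfl)).of_le
      (a := ((n + 1 : ℕ) : ℝ) • y + ∑ j, v j * star (v j))
      (add_nonneg (smul_nonneg (Nat.cast_nonneg _) hy) hw) (by
        push_cast
        rw [add_smul, one_smul, add_assoc, add_assoc, add_comm _ (algebraMap ℝ B t)]
        exact add_le_add_right hv _) hη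
    refine h2.mono (le_of_eq ?_)
    push_cast; ring

theorem q_of_le {y : B} (hy : 0 ≤ y) {t ε : ℝ} (ht : 0 ≤ t) (hε : 0 < ε) {κ : Type} [Fintype κ]
    (v : κ → B) (hv : y + ∑ j, v j * star (v j) ≤ algebraMap ℝ B t + ∑ j, star (v j) * v j) :
    Q y (t + ε) := by
  have hw : 0 ≤ ∑ j, v j * star (v j) := Finset.sum_nonneg fun i _ => mul_star_self_nonneg _
  obtain ⟨n, hn⟩ := exists_nat_gt ((‖∑ j, v j * star (v j)‖ + 1) / (ε / 2))
  have hn0 : (0 : ℝ) < n := lt_of_le_of_lt (by positivity) hn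
  have h1 := (iter hy ht (η := ε / 4) (by positivity) v hv n).of_le
    (smul_nonneg n.cast_nonneg hy) (le_add_of_nonneg_right hw) one_pos
  have h2 := h1.smul (inv_pos.2 hn0).le
  rw [smul_smul, inv_mul_cancel₀ hn0.ne', one_smul] at h2
  refine h2.mono ?_
  rw [div_lt_iff₀ (by positivity)] at hn
  rw [inv_mul_le_iff₀ hn0]
  nlinarith

omit [PartialOrder B] [StarOrderedRing B] in
theorem span_rep {w : B}
    (hw : w ∈ Submodule.span ℝ {z : B | ∃ u, z = star u * u - u * star u}) :
    ∃ (κ : Type) (_ : Fintype κ) (v : κ → B),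
      w = ∑ j, star (v j) * v j - ∑ j, v j * star (v j) := by
  induction hw using Submodule.span_induction with
  | mem z hz =>
    obtain ⟨u, rfl⟩ := hz
    exact ⟨Unit, inferInstance, fun _ => u, by simp⟩
  | zero => exact ⟨Empty, inferInstance, fun e => e.elim, by simp⟩
  | add a b _ _ ha hb =>
    obtain ⟨ι, _, x, rfl⟩ := ha
    obtain ⟨κ, _, y, rfl⟩ := hb
    refine ⟨ι ⊕ κ, inferInstance, Sum.elim x y, ?_⟩
    simp only [Fintype.sum_sum_type, Sum.elim_inl, Sum.elim_inr]; abel
  | smul c a _ ha =>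
    obtain ⟨ι, _, x, rfl⟩ := ha
    rcases le_total 0 c with hc | hc
    · refine ⟨ι, inferInstance, fun i => √c • x i, ?_⟩
      simp only [star_smul, star_trivial, smul_mul_smul_comm, Real.mul_self_sqrt hc,
        ← Finset.smul_sum, smul_sub]
    · refine ⟨ι, inferInstance, fun i => √(-c) • star (x i), ?_⟩
      simp only [star_smul, star_trivial, smul_mul_smul_comm,
        Real.mul_self_sqrt (neg_nonneg.2 hc), ← Finset.smul_sum, smul_sub, star_star]
      simp only [neg_smul]
      abel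

theorem hb {y : B} (hy : IsSelfAdjoint y) {t : ℝ}
    (h : ∀ τ, IsTracialState τ → (τ y).re < t) :
    ∃ w ∈ Submodule.span ℝ {z : B | ∃ u, z = star u * u - u * star u},
      y ≤ algebraMap ℝ B t + w := by
  by_contra hcon
  push Not at hcon
  set W := Submodule.span ℝ {z : B | ∃ u, z = star u * u - u * star u} with hW
  have hWsa : ∀ w ∈ W, IsSelfAdjoint w := fun w hw => by
    obtain ⟨κ, _, v, rfl⟩ := span_rep hw
    exact (Finset.sum_nonneg fun i _ => star_mul_self_nonneg _).isSelfAdjoint.sub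
      (Finset.sum_nonneg fun i _ => mul_star_self_nonneg _).isSelfAdjoint
  set d := algebraMap ℝ B t - y with hd
  have hdsa : IsSelfAdjoint d := (IsSelfAdjoint.algebraMap B (.all t)).sub hy
  let T : Set B := {z | ∃ w ∈ W, ∃ c, 0 ≤ c ∧ ∃ k, star k = -k ∧ z = d + (w - c + k)}
  have hT : Convex ℝ T := by
    rintro _ ⟨w, hw, c, hc, k, hk, rfl⟩ _ ⟨w', hw', c', hc', k', hk', rfl⟩ a b ha hb hab
    refine ⟨a • w + b • w', W.add_mem (W.smul_mem _ hw) (W.smul_mem _ hw'), a • c + b • c',
      add_nonneg (smul_nonneg ha hc) (smul_nonneg hb hc'), a • k + b • k', ?_, ?_⟩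
    · simp only [star_add, star_smul, star_trivial, hk, hk', smul_neg, neg_add]
    · have : d = a • d + b • d := by rw [← add_smul, hab, one_smul]
      nth_rewrite 3 [this]
      simp only [smul_add, smul_sub]; abel
  have hdisj : Disjoint (Metric.ball (1 : B) 1) T := by
    rw [Set.disjoint_left]
    rintro _ hz ⟨w, hw, c, hc, k, hk, rfl⟩
    rw [mem_ball_iff_norm'] at hz
    have hsa : IsSelfAdjoint (1 - (d + w - c)) :=
      (IsSelfAdjoint.one B).sub ((hdsa.add (hWsa w hw)).sub hc.isSelfAdjoint)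
    have e : (2 : ℝ) • (1 - (d + w - c)) =
        (1 - (d + (w - c + k))) + star (1 - (d + (w - c + k))) := by
      rw [star_sub, star_add, hdsa.star_eq, star_add, star_sub, star_one, (hWsa w hw).star_eq,
        hc.isSelfAdjoint.star_eq, hk, two_smul]
      abel
    have h1 : ‖1 - (d + w - c)‖ ≤ 1 := by
      have := norm_add_le (1 - (d + (w - c + k))) (star (1 - (d + (w - c + k))))
      rw [← e, norm_smul, norm_star, Real.norm_ofNat] at this
      linarith
    have h2 := hsa.le_algebraMap_norm_self.trans (alg_mono h1)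
    rw [map_one, sub_le_self_iff, sub_nonneg] at h2
    have h3 := hc.trans h2
    apply hcon w hw
    rw [hd] at h3
    rw [← sub_nonneg]
    convert h3 using 1; abel
  obtain ⟨f, u, hf1, hf2⟩ := RCLike.geometric_hahn_banach_open (𝕜 := ℂ) (convex_ball (1 : B) 1)
    Metric.isOpen_ball hT hdisj
  simp only [RCLike.re_to_complex] at hf1 hf2
  have hsm : ∀ (r : ℝ) (z : B), (f (r • z)).re = r * (f z).re := fun r z => by
    rw [← Complex.coe_smul, map_smul, smul_eq_mul, Complex.re_ofReal_mul]
  have hcone : ∀ w ∈ W, ∀ c, 0 ≤ c → ∀ k, star k = -k → 0 ≤ (f (w - c + k)).re := by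
    intro w hw c hc k hk
    by_contra hneg
    push Not at hneg
    obtain ⟨n, hn⟩ := exists_nat_gt (((f d).re - u) / (-(f (w - c + k)).re))
    have := hf2 _ ⟨(n : ℝ) • w, W.smul_mem _ hw, (n : ℝ) • c, smul_nonneg n.cast_nonneg hc,
      (n : ℝ) • k, by rw [star_smul, star_trivial, hk, smul_neg], rfl⟩
    rw [← smul_sub, ← smul_add, map_add, Complex.add_re, hsm] at this
    rw [div_lt_iff₀ (by linarith)] at hn
    nlinarith
  have hpos : ∀ c, 0 ≤ c → (f c).re ≤ 0 := fun c hc => by
    have := hcone 0 W.zero_mem c hc 0 (by simp)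
    simpa using this
  have hskew : ∀ k, star k = -k → (f k).re = 0 := fun k hk => by
    have h1 := hcone 0 W.zero_mem 0 le_rfl k hk
    have h2 := hcone 0 W.zero_mem 0 le_rfl (-k) (by rw [star_neg, hk])
    simp at h1 h2; linarith
  have hWz : ∀ w ∈ W, (f w).re = 0 := fun w hw => by
    have h1 := hcone w hw 0 le_rfl 0 (by simp)
    have h2 := hcone (-w) (W.neg_mem hw) 0 le_rfl 0 (by simp)
    simp at h1 h2; linarith
  have him : ∀ a, IsSelfAdjoint a → (f a).im = 0 := fun a ha => by
    have := hskew (Complex.I • a) (by rw [star_smul, ha.star_eq]; simp)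
    simpa using this
  have hfd : u ≤ (f d).re := by
    simpa using hf2 _ ⟨0, W.zero_mem, 0, le_rfl, 0, by simp, rfl⟩
  have hu : 0 ≤ u := by
    by_contra hneg
    push Not at hneg
    have h1 := hpos 1 zero_le_one
    set r := min (1 / 2) (-u / (1 - (f 1).re)) with hr
    have hr0 : 0 < r := lt_min (by norm_num) (div_pos (by linarith) (by linarith))
    have hr1 : r ≤ 1 / 2 := min_le_left _ _
    have hr2 : r * (1 - (f 1).re) ≤ -u := by
      rw [← le_div_iff₀ (by linarith)]; exact min_le_right _ _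
    have := hf1 (r • (1 : B)) (by
      rw [mem_ball_iff_norm']
      nth_rewrite 1 [← one_smul ℝ (1 : B)]
      rw [← sub_smul, norm_smul, Real.norm_eq_abs, abs_of_pos (by linarith)]
      nlinarith [norm_one_le' (B := B), norm_nonneg (1 : B)])
    rw [hsm] at this
    nlinarith
  have h1neg : (f 1).re < 0 := by
    refine lt_of_le_of_ne (hpos 1 zero_le_one) fun h0 => ?_
    have h2 := hpos _ (sub_nonneg.2 hdsa.neg.le_algebraMap_norm_self)
    rw [Algebra.algebraMap_eq_smul_one, map_sub, Complex.sub_re, hsm, h0, map_neg] at h2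
    have h3 := hf1 1 (Metric.mem_ball_self one_pos)
    simp at h2
    linarith
  let τ : B →ₗ[ℂ] ℂ := ((f 1).re : ℂ)⁻¹ • f.toLinearMap
  have hτ : ∀ z, τ z = (((f 1).re⁻¹ : ℝ) : ℂ) * f z := fun z => by simp [τ]
  have hreal : ∀ a, IsSelfAdjoint a → f a = ((f a).re : ℂ) := fun a ha =>
    Complex.ext (by simp) (by simp [him a ha])
  have hcomm : ∀ u : B, f (star u * u) = f (u * star u) := fun u => by
    have h2 := hWz _ (Submodule.subset_span ⟨u, rfl⟩)
    rw [map_sub, Complex.sub_re] at h2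
    rw [hreal _ (.star_mul_self u), hreal _ (.mul_star_self u), sub_eq_zero.1 h2]
  have htr : IsTracialState τ := by
    refine ⟨?_, fun x => ?_, fun x z => ?_⟩
    · rw [hτ, hreal 1 (IsSelfAdjoint.one B), ← Complex.ofReal_mul, Complex.ofReal_re,
        inv_mul_cancel₀ h1neg.ne, Complex.ofReal_one]
    · rw [hτ, hreal _ (.star_mul_self x), ← Complex.ofReal_mul]
      exact Complex.zero_le_real.2 (mul_nonneg_of_nonpos_of_nonpos (inv_lt_zero.2 h1neg).le
        (hpos _ (star_mul_self_nonneg x)))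
    · rw [hτ, hτ]
      congr 1
      have a1 := hcomm (star x + z)
      have a2 := hcomm (star x + Complex.I • z)
      have a3 := hcomm (star x)
      have a4 := hcomm z
      simp only [star_add, star_star, star_smul, add_mul, mul_add, map_add, smul_mul_assoc,
        mul_smul_comm, map_smul, smul_eq_mul, Complex.star_def, Complex.conj_I] at a1 a2 a3
      linear_combination (1 / 2) * a1 - (Complex.I / 2) * a2 - (1 / 2 - Complex.I / 2) * a3
        - (1 / 2 - Complex.I / 2) * a4
        + ((f (x * z) - f (z * x) - f (star z * star x) + f (star x * star z)) / 2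
          - Complex.I / 2 * (f (star z * z) - f (z * star z))) * Complex.I_mul_I
  have h4 := h τ htr
  rw [hτ, Complex.re_ofReal_mul] at h4
  have h5 := mul_lt_mul_of_neg_left h4 h1neg
  rw [← mul_assoc, mul_inv_cancel₀ h1neg.ne, one_mul] at h5
  rw [hd, map_sub, Complex.sub_re, Algebra.algebraMap_eq_smul_one, hsm] at hfd
  nlinarith

end CPAux

theorem cuntz_pedersen {B : Type u} [CStarAlgebra B] (b : B) {t : ℝ} (ht : 0 ≤ t)
    (h : ∀ τ, IsTracialState τ → (τ (star b * b)).re ≤ t) {ε : ℝ} (hε : 0 < ε) :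
    ∃ (N : ℕ) (x : Fin N → B), ∑ i, star (x i) * x i = star b * b ∧
      ‖∑ i, x i * star (x i)‖ ≤ t + ε := by
  let := CStarAlgebra.spectralOrder B
  have := CStarAlgebra.spectralOrderedRing B
  obtain ⟨w, hw, h1⟩ := CPAux.hb (IsSelfAdjoint.star_mul_self b) (t := t + ε / 2)
    fun τ hτ => (h τ hτ).trans_lt (by linarith)
  obtain ⟨κ, _, v, rfl⟩ := CPAux.span_rep hw
  obtain ⟨ι, _, x, h2, h3⟩ := CPAux.q_of_le (star_mul_self_nonneg b) (t := t + ε / 2)
    (ε := ε / 2) (by linarith) (by linarith) v (by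
      rw [← add_sub_assoc] at h1
      exact add_le_of_le_sub_right h1)
  refine ⟨_, x ∘ (Fintype.equivFin ι).symm, ?_, ?_⟩
  · rw [← h2]
    exact (Fintype.equivFin ι).symm.sum_comp fun i => star (x i) * x i
  · rw [show ∑ i, (x ∘ (Fintype.equivFin ι).symm) i * star ((x ∘ (Fintype.equivFin ι).symm) i)
        = ∑ i, x i * star (x i) from (Fintype.equivFin ι).symm.sum_comp fun i => x i * star (x i),
      CStarAlgebra.norm_le_iff_le_algebraMap _ (by linarith)
        (Finset.sum_nonneg fun i _ => mul_star_self_nonneg _)]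
    convert h3 using 2; ring

end Vale.Agent.P095
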