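import Vale.Agent.P095.MatPos
import Vale.Agent.P095.Simp

/-! Completely positive approximation through a given state. -/

namespace Vale.Agent.P095
open Vale.Agent.P101 Vale.Agent.P101.JS Filter Topology Finset
open scoped ComplexOrder BoundedContinuousFunction symmDiff

universe u
variable {B : Type u} [CStarAlgebra B] {P : Pair B} {lam : B →ₗ[ℂ] ℂ}

namespace CPlAux

theorem scal_pos [PartialOrder B] [StarOrderedRing B] {k : Type} [Fintype k] (A : k → k → ℂ)
    (hA : ∀ i j, star (A i j) = A j i) (h : ∀ ξ : k → ℂ, 0 ≤ ∑ i, ∑ j, star (ξ i) * A i j * ξ j)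
    (c : k → B) : 0 ≤ ∑ i, ∑ j, A i j • (star (c i) * c j) := by
  obtain ⟨Y, hY⟩ := mat_pos A hA fun ξ => CStarAlgebra.nonneg_iff_eq_star_mul_self.1 (h ξ)
  have e : ∑ i, ∑ j, A i j • (star (c i) * c j)
      = ∑ q, star (∑ i, Y q i • c i) * ∑ j, Y q j • c j := by
    simp only [hY, star_sum, star_smul, Finset.sum_mul_sum, smul_mul_smul_comm, Finset.sum_smul]
    rw [Finset.sum_comm (s := univ) (f := fun q i => ∑ j, (star (Y q i) * Y q j) • (star (c i) * c j))]
    exact Finset.sum_congr rfl fun i _ => Finset.sum_comm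
  rw [e]
  exact Finset.sum_nonneg fun q _ => star_mul_self_nonneg _

theorem form_eq {k : Type} [Fintype k] (lam : B →ₗ[ℂ] ℂ) (d : k → B) (x : B) (ξ : k → ℂ) :
    ∑ i, ∑ j, star (ξ i) * lam (star (d i) * x * d j) * ξ j
      = lam (star (∑ i, ξ i • d i) * x * ∑ i, ξ i • d i) := by
  simp only [star_sum, star_smul, Finset.sum_mul, Finset.mul_sum, map_sum, smul_mul_assoc,
    mul_smul_comm, map_smul, smul_eq_mul]
  rw [Finset.sum_comm]
  refine Finset.sum_congr rfl fun i _ => Finset.sum_congr rfl fun j _ => by ring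

theorem st_nonneg [PartialOrder B] [StarOrderedRing B] (hl : IsSt lam) {x : B} (hx : 0 ≤ x) :
    0 ≤ lam x := by
  obtain ⟨b, rfl⟩ := CStarAlgebra.nonneg_iff_eq_star_mul_self.1 hx
  exact hl.2 b

theorem pos_of_state [PartialOrder B] [StarOrderedRing B] (hl : IsSt lam)
    (h0 : ∃ a ∈ P.I, lam a ≠ 0) {y : B} (hy : y ∈ P.I) (hsa : IsSelfAdjoint y)
    (h : ∀ w, 0 ≤ (lam (star w * y * w)).re) : 0 ≤ y := by
  rw [← CFC.negPart_eq_zero_iff y hsa]
  set n := y⁻ with hn
  have hn0 : 0 ≤ n := CFC.negPart_nonneg y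
  have hs := (CFC.sqrt_nonneg n).isSelfAdjoint.star_eq
  have hss := CFC.sqrt_mul_sqrt_self n hn0
  have h1 : y * n = -(n * n) := by
    nth_rewrite 1 [← CFC.posPart_sub_negPart y hsa]
    rw [sub_mul, CFC.posPart_mul_negPart, zero_sub]
  have h2 : star (CFC.sqrt n * n) * (CFC.sqrt n * n) = -(n * y * n) := by
    rw [star_mul, hs, hn0.isSelfAdjoint.star_eq, mul_assoc, ← mul_assoc (CFC.sqrt n), hss,
      mul_assoc n y, h1, mul_neg, neg_neg]
  have h3 : CFC.sqrt n * n ∈ P.I := P.mem_of_sum (n := Unit) (y := fun _ => CFC.sqrt n * n)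
    (by
      rw [Fintype.sum_unique, h2]
      exact neg_mem (P.I.mul_mem_right _ (P.I.mul_mem_left _ hy))) ()
  have h4 := P.faithful hl h0 h3 fun w _ => by
    have k1 := hl.2 (CFC.sqrt n * n * w)
    have k2 := h (n * w)
    have e : star (CFC.sqrt n * n * w) * (CFC.sqrt n * n * w)
        = -(star (n * w) * y * (n * w)) := by
      rw [star_mul _ w, mul_assoc, ← mul_assoc (star _) _ w, h2, star_mul,
        hn0.isSelfAdjoint.star_eq]
      simp only [mul_assoc, neg_mul, mul_neg]
    rw [e, map_neg] at k1 ⊢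
    obtain ⟨k3, k4⟩ := Complex.nonneg_iff.1 k1
    refine Complex.ext ?_ k4.symm
    rw [Complex.neg_re] at k3 ⊢
    simp only [Complex.zero_re]; linarith
  have h5 : star n * n = 0 := by
    rw [hn0.isSelfAdjoint.star_eq]
    nth_rewrite 1 [← hss]
    rw [mul_assoc, h4, mul_zero]
  exact eq_zero_of_star_mul h5

theorem herm {k : Type} [Fintype k] [DecidableEq k] (φ : B →ₗ[ℂ] Matrix k k ℂ)
    (h : ∀ y : k → B, (∀ p, y p ∈ P.I) → 0 ≤ ∑ p, ∑ p', φ (star (y p) * y p') p p')
    {y z : B} (hy : y ∈ P.I) (hz : z ∈ P.I) (p p' : k) :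
    φ (star y * z) p p' = star (φ (star z * y) p' p) := by
  let S : (k → B) → (k → B) → ℂ := fun u v => ∑ p, ∑ p', φ (star (u p) * v p') p p'
  have hS : ∀ (y z : B) p p', S (Pi.single p y) (Pi.single p' z) = φ (star y * z) p p' := by
    intro y z p p'
    simp only [S]
    rw [Finset.sum_eq_single p (fun r _ hr => by simp [hr]) (by simp),
      Finset.sum_eq_single p' (fun r _ hr => by simp [hr]) (by simp)]
    simp
  have hm : ∀ {y : B}, y ∈ P.I → ∀ p r : k, (Pi.single p y : k → B) r ∈ P.I := fun hy p r => by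
    rw [Pi.single_apply]; split_ifs
    exacts [hy, P.I.zero_mem]
  have ha : ∀ u v, S (u + v) (u + v) = S u u + S u v + S v u + S v v := fun u v => by
    simp only [S, Pi.add_apply, star_add, add_mul, mul_add, map_add, Matrix.add_apply,
      Finset.sum_add_distrib]
    ring
  have him : ∀ u, (∀ r, u r ∈ P.I) → (S u u).im = 0 := fun u hu =>
    (Complex.nonneg_iff.1 (h u hu)).2.symm
  have key : ∀ z ∈ P.I, (φ (star y * z) p p' + φ (star z * y) p' p).im = 0 := fun z hz => by
    have h1 := him (Pi.single p y + Pi.single p' z) fun r => P.I.add_mem (hm hy p r) (hm hz p' r)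
    rw [ha, Complex.add_im, Complex.add_im, Complex.add_im, him _ (hm hy p), him _ (hm hz p'),
      hS, hS] at h1
    rw [Complex.add_im]; linarith
  have k1 := key z hz
  have k2 := key (Complex.I • z) (P.smul_mem _ hz)
  simp only [star_smul, mul_smul_comm, smul_mul_assoc, map_smul, Matrix.smul_apply, smul_eq_mul,
    Complex.star_def, Complex.conj_I, Complex.add_im, Complex.mul_im, Complex.I_re, Complex.I_im,
    Complex.neg_re, Complex.neg_im] at k1 k2
  apply Complex.ext <;> simp <;> linarith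

/-- the cone of realizable matrices -/
def Kc (lam : B →ₗ[ℂ] ℂ) {ι : Type*} {k : Type} (x : ι → B) : Set (ι × k × k → ℂ) :=
  {v | ∃ (L : Type) (_ : Fintype L) (d : L → k → B),
    v = fun j => ∑ l, lam (star (d l j.2.1) * x j.1 * d l j.2.2)}

theorem Kc_smul {ι : Type*} {k : Type} {x : ι → B} {v : ι × k × k → ℂ} (hv : v ∈ Kc lam x) {r : ℝ}
    (hr : 0 ≤ r) : r • v ∈ Kc lam x := by
  obtain ⟨L, _, d, rfl⟩ := hv
  refine ⟨L, inferInstance, fun l p => ((√r : ℝ) : ℂ) • d l p, funext fun j => ?_⟩
  rw [Pi.smul_apply, ← Complex.coe_smul]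
  simp only [star_smul, smul_mul_assoc, mul_smul_comm, map_smul, smul_smul,
    Complex.star_def, Complex.conj_ofReal, ← Complex.ofReal_mul, Real.mul_self_sqrt hr,
    ← Finset.smul_sum]

theorem Kc_add {ι : Type*} {k : Type} {x : ι → B} {v w : ι × k × k → ℂ} (hv : v ∈ Kc lam x)
    (hw : w ∈ Kc lam x) : v + w ∈ Kc lam x := by
  obtain ⟨L, _, d, rfl⟩ := hv
  obtain ⟨L', _, d', rfl⟩ := hw
  refine ⟨L ⊕ L', inferInstance, Sum.elim d d', funext fun j => ?_⟩
  simp [Fintype.sum_sum_type]

theorem mem_closure {ι : Type*} {k : Type} [Fintype ι] [Fintype k] (hl : IsSt lam)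
    (h0 : ∃ a ∈ P.I, lam a ≠ 0) (φ : B →ₗ[ℂ] Matrix k k ℂ)
    (h : ∀ y : k → B, (∀ p, y p ∈ P.I) → 0 ≤ ∑ p, ∑ p', φ (star (y p) * y p') p p')
    {e : B} (he : e ∈ P.I) (z : ι → B) (hz : ∀ i, z i ∈ P.I) :
    (fun j : ι × k × k => φ (star e * z j.1) j.2.1 j.2.2) ∈
      closure (Kc lam fun i => star e * z i) := by
  classical
  let := CStarAlgebra.spectralOrder B
  have := CStarAlgebra.spectralOrderedRing B
  by_contra hcon
  have hconv : Convex ℝ (Kc (k := k) lam fun i => star e * z i) := fun v hv w hw a b ha hb _ =>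
    Kc_add (Kc_smul hv ha) (Kc_smul hw hb)
  obtain ⟨f, u, hf1, hf2⟩ := RCLike.geometric_hahn_banach_closed_point (𝕜 := ℂ) hconv.closure
    isClosed_closure hcon
  simp only [RCLike.re_to_complex] at hf1 hf2
  have hK : ∀ v ∈ Kc (k := k) lam fun i => star e * z i, (f v).re ≤ 0 := fun v hv => by
    by_contra hpos
    push Not at hpos
    obtain ⟨n, hn⟩ := exists_nat_gt (u / (f v).re)
    have := hf1 _ (subset_closure (Kc_smul hv n.cast_nonneg))
    rw [← Complex.coe_smul, map_smul, smul_eq_mul, Complex.re_ofReal_mul] at this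
    rw [div_lt_iff₀ hpos] at hn
    linarith
  have hu : 0 < u := by
    have := hf1 0 (subset_closure ⟨Empty, inferInstance, fun e => e.elim, by ext; simp⟩)
    simpa using this
  obtain ⟨m, hm⟩ : ∃ m : ι × k × k → ℂ, ∀ v, f v = ∑ p, ∑ p', ∑ i, m (i, p, p') * v (i, p, p') := by
    refine ⟨fun j => f fun j' => if j = j' then 1 else 0, fun v => ?_⟩
    refine (f.toLinearMap.pi_apply_eq_sum_univ v).trans ?_
    rw [Fintype.sum_prod_type_right, Fintype.sum_prod_type]
    simp only [smul_eq_mul, mul_comm]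
    rfl
  let w : k → k → B := fun p p' => ∑ i, m (i, p, p') • z i
  have hw : ∀ p p', w p p' ∈ P.I := fun p p' => P.I.sum_mem fun i _ => P.smul_mem _ (hz i)
  let H : k → k → B := fun p p' => -(star e * w p p' + star (w p' p) * e)
  have hH : ∀ p p', H p p' ∈ P.I := fun p p' =>
    neg_mem (P.I.add_mem (P.I.mul_mem_left _ (hw p p')) (P.I.mul_mem_left _ he))
  have hHs : ∀ p p', star (H p p') = H p' p := fun p p' => by
    simp only [H, star_neg, star_add, star_mul, star_star, add_comm]
  have hpos : ∀ d : k → B, 0 ≤ (lam (∑ p, ∑ p', star (d p) * H p p' * d p')).re := fun d => by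
    have h1 := hK _ ⟨Unit, inferInstance, fun _ => d, rfl⟩
    have e1 : f (fun j => ∑ _l : Unit, lam (star (d j.2.1) * (star e * z j.1) * d j.2.2))
        = lam (∑ p, ∑ p', star (d p) * (star e * w p p') * d p') := by
      rw [hm]
      simp only [w, Fintype.sum_unique, map_sum, Finset.mul_sum, Finset.sum_mul, mul_smul_comm,
        smul_mul_assoc, map_smul, smul_eq_mul]
    have e2 : ∑ p, ∑ p', star (d p) * H p p' * d p' =
        -((∑ p, ∑ p', star (d p) * (star e * w p p') * d p') +
          star (∑ p, ∑ p', star (d p) * (star e * w p p') * d p')) := by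
      simp only [H, star_sum, star_mul, star_star, mul_neg, neg_mul, mul_add, add_mul,
        Finset.sum_neg_distrib, Finset.sum_add_distrib, mul_assoc]
      rw [Finset.sum_comm (f := fun p p' => star (d p') * (star (w p p') * (e * d p)))]
    rw [e1] at h1
    rw [e2, map_neg, map_add, hl.map_star]
    simp only [Complex.neg_re, Complex.add_re, Complex.conj_re]
    linarith
  obtain ⟨Y, hY⟩ := mat_pos H hHs fun d => by
    refine CStarAlgebra.nonneg_iff_eq_star_mul_self.1 (pos_of_state hl h0 ?_ ?_ fun t => ?_)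
    · exact P.I.sum_mem fun p _ => P.I.sum_mem fun p' _ =>
        P.I.mul_mem_right _ (P.I.mul_mem_left _ (hH p p'))
    · rw [IsSelfAdjoint]
      simp only [star_sum, star_mul, star_star, hHs, mul_assoc]
      exact Finset.sum_comm
    · have := hpos fun p => d p * t
      simpa only [star_mul, Finset.mul_sum, Finset.sum_mul, mul_assoc] using this
  have hYI : ∀ q p, Y q p ∈ P.I := fun q p =>
    P.mem_of_sum (y := fun q => Y q p) (hY p p ▸ hH p p) q
  have h1 : 0 ≤ ∑ p, ∑ p', φ (H p p') p p' := by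
    have := Finset.sum_nonneg fun q (_ : q ∈ univ) => h (Y q) (hYI q)
    rw [Finset.sum_comm] at this
    convert this using 2 with p
    rw [Finset.sum_comm]
    simp only [hY, map_sum, Matrix.sum_apply]
  have e3 : f (fun j : ι × k × k => φ (star e * z j.1) j.2.1 j.2.2)
      = ∑ p, ∑ p', φ (star e * w p p') p p' := by
    rw [hm]
    simp only [w, map_sum, Finset.mul_sum, mul_smul_comm, map_smul, Matrix.sum_apply,
      Matrix.smul_apply, smul_eq_mul]
  have e4 : ∑ p, ∑ p', φ (H p p') p p' = -((∑ p, ∑ p', φ (star e * w p p') p p') +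
      star (∑ p, ∑ p', φ (star e * w p p') p p')) := by
    simp only [H, map_neg, map_add, Matrix.neg_apply, Matrix.add_apply, Finset.sum_neg_distrib,
      Finset.sum_add_distrib, star_sum]
    rw [Finset.sum_comm (f := fun p p' => star (φ (star e * w p p') p p'))]
    simp only [herm φ h (hw _ _) he]
  rw [e3] at hf2
  rw [e4] at h1
  have := (Complex.nonneg_iff.1 h1).1
  simp only [Complex.neg_re, Complex.add_re, Complex.star_def, Complex.conj_re] at this
  linarith

end CPlAux
open CPlAux

theorem CPc.cpl (h : CPc P) (hl : IsSt lam) (h0 : ∃ a ∈ P.I, lam a ≠ 0) : CPL P lam := by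
  classical
  intro s hs ε hε
  obtain ⟨M, k, φ, e, c, he, hsa, hc, hcol, hφ, hform, happ⟩ := h s hs (ε / 2) (by positivity)
  let a : Option s → B := fun i => i.elim 1 (↑)
  have hmem := mem_closure hl h0 φ hφ he (fun i => a i * e) fun i => P.I.mul_mem_left _ he
  set T := fun j : Option s × Fin k × Fin k => φ (star e * (a j.1 * e)) j.2.1 j.2.2 with hT
  set Cc := ∑ m, ∑ p, ∑ p', ‖star (c m p) * c m p'‖ with hCc
  have hCc0 : 0 ≤ Cc := by positivity
  set η := ε / 2 / ((1 + k * ‖T‖) * (Cc + 1)) with hη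
  have hη0 : 0 < η := by positivity
  obtain ⟨v, ⟨L, _, d, hv⟩, hd⟩ := Metric.mem_closure_iff.1 hmem η hη0
  have hd' : ∀ j, ‖v j - T j‖ ≤ η := fun j => by
    rw [dist_comm, dist_eq_norm] at hd
    exact (norm_le_pi_norm (v - T) j).trans hd.le
  set r := (1 + k * η)⁻¹ with hr
  have hr0 : 0 < r := by positivity
  have hr1 : r * (1 + k * η) = 1 := inv_mul_cancel₀ (by positivity)
  have hkη : 0 ≤ k * η := by positivity
  let d' : Fin (Fintype.card L) → Fin k → B := fun l p =>
    ((√r : ℝ) : ℂ) • (e * d ((Fintype.equivFin L).symm l) p)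
  have hkey : ∀ i p p', ∑ l, lam (star (d' l p) * a i * d' l p') = r * v (i, p, p') := by
    intro i p p'
    rw [hv]
    simp only [d', star_smul, smul_mul_assoc, mul_smul_comm, map_smul, smul_smul,
      Complex.star_def, Complex.conj_ofReal, ← Complex.ofReal_mul, Real.mul_self_sqrt hr0.le,
      smul_eq_mul, star_mul, mul_assoc, ← Finset.mul_sum]
    rw [(Fintype.equivFin L).symm.sum_comp
      fun l => lam (star (d l p) * (star e * (a i * (e * d l p'))))]
  refine ⟨_, M, k, d', c, ⟨hc, hcol, fun ξ => ?_⟩, fun b hb => ?_⟩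
  · have e1 : ∑ l, (lam (star (∑ p, ξ p • d' l p) * ∑ p, ξ p • d' l p)).re
        = r * ((∑ p, ∑ p', star (ξ p) * φ (e * e) p p' * ξ p').re +
          (∑ p, ∑ p', star (ξ p) * (v (none, p, p') - T (none, p, p')) * ξ p').re) := by
      rw [← Complex.re_sum, ← Complex.add_re, ← Complex.re_ofReal_mul]
      congr 1
      have : ∀ l, lam (star (∑ p, ξ p • d' l p) * ∑ p, ξ p • d' l p)
          = ∑ p, ∑ p', star (ξ p) * lam (star (d' l p) * a none * d' l p') * ξ p' := fun l => by
        rw [form_eq]; simp [a]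
      simp only [this]
      rw [Finset.sum_comm, ← Finset.sum_add_distrib, Finset.mul_sum]
      refine Finset.sum_congr rfl fun p _ => ?_
      rw [Finset.sum_comm, ← Finset.sum_add_distrib, Finset.mul_sum]
      refine Finset.sum_congr rfl fun p' _ => ?_
      rw [← Finset.sum_mul, ← Finset.mul_sum, hkey]
      simp only [hT, a, Option.elim, one_mul, hsa.star_eq]
      ring
    have e2 : (∑ p, ∑ p', star (ξ p) * (v (none, p, p') - T (none, p, p')) * ξ p').re
        ≤ k * η * ∑ p, ‖ξ p‖ ^ 2 := by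
      refine (Complex.re_le_norm _).trans ((norm_sum_le _ _).trans ?_)
      have : ∀ p, ‖∑ p', star (ξ p) * (v (none, p, p') - T (none, p, p')) * ξ p'‖
          ≤ ∑ p', η * (‖ξ p‖ * ‖ξ p'‖) := fun p =>
        (norm_sum_le _ _).trans (Finset.sum_le_sum fun p' _ => by
          rw [norm_mul, norm_mul, norm_star]
          have := mul_le_mul_of_nonneg_left (hd' (none, p, p'))
            (mul_nonneg (norm_nonneg (ξ p)) (norm_nonneg (ξ p')))
          linarith)
      refine (Finset.sum_le_sum fun p _ => this p).trans ?_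
      simp only [← Finset.mul_sum, ← Finset.sum_mul]
      have := sq_sum_le_card_mul_sum_sq (s := univ) (f := fun p => ‖ξ p‖)
      rw [card_univ, Fintype.card_fin] at this
      nlinarith
    rw [e1]
    have := hform ξ
    calc _ ≤ r * ((1 + k * η) * ∑ p, ‖ξ p‖ ^ 2) := mul_le_mul_of_nonneg_left (by linarith) hr0.le
      _ = _ := by rw [← mul_assoc, hr1, one_mul]
  · have e1 : Psi lam d' c b = ∑ m, ∑ p, ∑ p', (r * v (some ⟨b, hb⟩, p, p')) •
        (star (c m p) * c m p') := by
      rw [Psi, Finset.sum_comm]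
      refine Finset.sum_congr rfl fun m _ => ?_
      rw [Finset.sum_comm]
      refine Finset.sum_congr rfl fun p _ => ?_
      rw [Finset.sum_comm]
      refine Finset.sum_congr rfl fun p' _ => ?_
      rw [← Finset.sum_smul, ← hkey]; rfl
    have e2 : ‖∑ m, ∑ p, ∑ p', φ (e * b * e) p p' • (star (c m p) * c m p') - Psi lam d' c b‖
        ≤ η * (1 + k * ‖T‖) * Cc := by
      rw [e1, hCc]
      simp only [← Finset.sum_sub_distrib, ← sub_smul, Finset.mul_sum]
      refine norm_sum_le_of_le _ fun m _ => norm_sum_le_of_le _ fun p _ =>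
        norm_sum_le_of_le _ fun p' _ => ?_
      rw [norm_smul]
      refine mul_le_mul_of_nonneg_right ?_ (norm_nonneg _)
      have k0 : φ (e * b * e) p p' = T (some ⟨b, hb⟩, p, p') := by
        simp only [hT, a, Option.elim, hsa.star_eq, mul_assoc]
      have k1 := hd' (some ⟨b, hb⟩, p, p')
      have k2 := norm_le_pi_norm T (some ⟨b, hb⟩, p, p')
      rw [k0]
      generalize T (some ⟨b, hb⟩, p, p') = t at k1 k2
      generalize v (some ⟨b, hb⟩, p, p') = y at k1
      have e3 : t - r * y = ((1 - r : ℝ) : ℂ) * t - r * (y - t) := by push_cast; ring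
      have hr2 : r ≤ 1 := by nlinarith
      have hr3 : 1 - r ≤ k * η := by nlinarith
      rw [e3]
      refine (norm_sub_le _ _).trans ?_
      rw [norm_mul, norm_mul, Complex.norm_real, Complex.norm_real, Real.norm_eq_abs,
        Real.norm_eq_abs, abs_of_nonneg (by linarith), abs_of_pos hr0]
      have j1 := mul_le_mul hr3 k2 (norm_nonneg _) hkη
      have j2 := mul_le_mul hr2 k1 (norm_nonneg _) zero_le_one
      linarith
    have e3 : η * (1 + k * ‖T‖) * (Cc + 1) = ε / 2 := by
      rw [hη, mul_assoc, div_mul_cancel₀ _ (by positivity)]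
    have e4 : 0 ≤ η * (1 + k * ‖T‖) := by positivity
    have := norm_sub_le_norm_sub_add_norm_sub b
      (∑ m, ∑ p, ∑ p', φ (e * b * e) p p' • (star (c m p) * c m p')) (Psi lam d' c b)
    have := happ b hb
    nlinarith

variable {L M k : Type} [Fintype L] [Fintype M] [Fintype k] {d : L → k → B} {c : M → k → B}

theorem PsiData.nonneg [PartialOrder B] [StarOrderedRing B] (hl : IsSt lam) (d : L → k → B)
    (c : M → k → B) {x : B} (hx : 0 ≤ x) : 0 ≤ Psi lam d c x := by
  refine Finset.sum_nonneg fun l _ => Finset.sum_nonneg fun m _ =>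
    scal_pos _ (fun i j => ?_) (fun ξ => ?_) _
  · rw [Complex.star_def, ← hl.map_star, star_mul, star_mul, star_star, hx.isSelfAdjoint.star_eq,
      mul_assoc]
  · rw [form_eq]
    exact st_nonneg hl (star_left_conjugate_nonneg hx _)

theorem PsiData.le_one [PartialOrder B] [StarOrderedRing B] (h : PsiData P lam d c)
    (hl : IsSt lam) : Psi lam d c 1 ≤ 1 := by
  classical
  have h1 : ∑ m, ∑ p, star (c m p) * c m p ≤ 1 :=
    (CStarAlgebra.norm_le_one_iff_of_nonneg _ (Finset.sum_nonneg fun m _ =>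
      Finset.sum_nonneg fun p _ => star_mul_self_nonneg _)).1 h.col
  refine le_trans ?_ h1
  rw [Psi, Finset.sum_comm]
  refine Finset.sum_le_sum fun m _ => ?_
  have := scal_pos (B := B)
    (fun p p' => (if p = p' then 1 else 0) - ∑ l, lam (star (d l p) * 1 * d l p'))
    (fun i j => by
      simp only [star_sub, star_sum, Complex.star_def, ← hl.map_star, star_mul, star_star, mul_one]
      congr 1
      by_cases hij : i = j <;> simp [hij, eq_comm])
    (fun ξ => by
      have e : ∑ i, ∑ j, star (ξ i) *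
          ((if i = j then 1 else 0) - ∑ l, lam (star (d l i) * 1 * d l j)) * ξ j
          = ((∑ p, ‖ξ p‖ ^ 2 -
            ∑ l, (lam (star (∑ p, ξ p • d l p) * ∑ p, ξ p • d l p)).re : ℝ) : ℂ) := by
        have k1 : ∀ l, (((lam (star (∑ p, ξ p • d l p) * ∑ p, ξ p • d l p)).re : ℝ) : ℂ)
            = ∑ i, ∑ j, star (ξ i) * lam (star (d l i) * 1 * d l j) * ξ j := fun l => by
          rw [form_eq, mul_one]
          exact Complex.ext (by simp) (by
            rw [Complex.ofReal_im, hl.im_sa (.star_mul_self _)])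
        push_cast
        simp only [k1]
        simp only [mul_sub, sub_mul, Finset.sum_sub_distrib, mul_ite, ite_mul, mul_one,
          mul_zero, zero_mul, Finset.sum_ite_eq, Finset.mem_univ, if_true, Complex.star_def,
          Complex.conj_mul', Finset.mul_sum, Finset.sum_mul]
        congr 1
        rw [Finset.sum_comm (s := (univ : Finset L))]
        exact Finset.sum_congr rfl fun i _ => Finset.sum_comm
      rw [e]
      exact Complex.zero_le_real.2 (sub_nonneg.2 (h.form ξ))) (c m)
  simp only [sub_smul, Finset.sum_sub_distrib, ite_smul, one_smul, zero_smul, Finset.sum_ite_eq,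
    Finset.mem_univ, if_true, sub_nonneg, Finset.sum_smul] at this
  refine le_trans (le_of_eq ?_) this
  rw [Finset.sum_comm]
  exact Finset.sum_congr rfl fun i _ => Finset.sum_comm

theorem PsiData.norm_one (h : PsiData P lam d c) (hl : IsSt lam) : ‖Psi lam d c 1‖ ≤ 1 := by
  let := CStarAlgebra.spectralOrder B
  have := CStarAlgebra.spectralOrderedRing B
  exact (CStarAlgebra.norm_le_one_iff_of_nonneg _ (PsiData.nonneg hl d c zero_le_one)).2
    (h.le_one hl)

theorem PsiData.one_mul (h : PsiData P lam d c) (hl : IsSt lam) {b a : B} (hb : IsSelfAdjoint b)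
    (hb1 : ‖b‖ ≤ 1) {η : ℝ} (h1 : ‖b * b - Psi lam d c (b * b)‖ ≤ η) (h2 : ‖b * b * a - a‖ ≤ η)
    (ha : ‖a‖ ≤ 1) : ‖Psi lam d c 1 * a - a‖ ≤ √(2 * η) ∧
      ‖star a * Psi lam d c 1 - star a‖ ≤ √(2 * η) := by
  let := CStarAlgebra.spectralOrder B
  have := CStarAlgebra.spectralOrderedRing B
  have hbb : b * b ≤ 1 := (CStarAlgebra.norm_le_one_iff_of_nonneg _ hb.mul_self_nonneg).1
    ((norm_mul_le_of_le hb1 hb1).trans (by norm_num))
  have k0 := PsiData.nonneg hl d c (zero_le_one (α := B))
  have k1 := h.le_one hl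
  have k2 : Psi lam d c (b * b) ≤ Psi lam d c 1 := by
    have := PsiData.nonneg hl d c (sub_nonneg.2 hbb)
    rw [← sub_nonneg]
    convert this using 1
    simp only [Psi, mul_sub, sub_mul, map_sub, sub_smul, Finset.sum_sub_distrib]
  generalize Psi lam d c 1 = Q at k0 k1 k2
  generalize Psi lam d c (b * b) = R at h1 k2
  have k3 : (1 - Q) * (1 - Q) ≤ 1 - R := by
    have k4 : 0 ≤ Q * (1 - Q) := Commute.mul_nonneg k0 (sub_nonneg.2 k1)
      ((Commute.one_right Q).sub_right (Commute.refl Q))
    rw [← sub_nonneg]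
    convert add_nonneg k4 (sub_nonneg.2 k2) using 1
    noncomm_ring
  have k5 : ‖Q * a - a‖ ≤ √(2 * η) := by
    refine Real.le_sqrt_of_sq_le ?_
    rw [norm_sub_rev, sq, ← CStarRing.norm_star_mul_self]
    have k6 : star (a - Q * a) * (a - Q * a) ≤ star a * (1 - R) * a := by
      convert star_left_conjugate_le_conjugate k3 a using 1
      rw [star_sub, star_mul, k0.isSelfAdjoint.star_eq]
      noncomm_ring
    refine (CStarAlgebra.norm_le_norm_of_nonneg_of_le (star_mul_self_nonneg _) k6).trans ?_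
    have e : star a * (1 - R) * a = star a * ((b * b - R) * a - (b * b * a - a)) := by
      noncomm_ring
    rw [e]
    have j1 := norm_sub_le_of_le (norm_mul_le_of_le h1 ha) h2
    have j2 := norm_mul_le_of_le ((norm_star a).le.trans ha) j1
    linarith
  refine ⟨k5, ?_⟩
  rw [← norm_star, star_sub, star_mul, star_star, k0.isSelfAdjoint.star_eq]
  exact k5

end Vale.Agent.P095
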