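import Vale.Agent.P095.KM2

/-! Four point function of sums over independent layers. -/

namespace Vale.Agent.P095
open Vale.Agent.P101 Vale.Agent.P101.JS Filter Topology Finset
open scoped ComplexOrder BoundedContinuousFunction symmDiff

universe u
variable {D : Type u} [CStarAlgebra D] {Λ κ : Type} [DecidableEq Λ]
  {τ : D →ₗ[ℂ] ℂ} {r : Λ → κ → D}

namespace WickAux

omit [DecidableEq Λ] in
theorem lg_mono {I J : Set Λ} (h : I ⊆ J) : LG r I ≤ LG r J :=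
  gen_mono fun _ ⟨i, hi, g, e⟩ => mem_gen_of_mem ⟨i, h hi, g, e⟩

omit [DecidableEq Λ] in
theorem mem_lg {I : Set Λ} {i : Λ} (hi : i ∈ I) (g : κ) : r i g ∈ LG r I :=
  mem_gen_of_mem ⟨i, hi, g, rfl⟩

omit [DecidableEq Λ] in
theorem sum_mem_lg (I : Finset Λ) {a : Λ → D} (ha : ∀ i, a i ∈ LG r {i}) :
    ∑ i ∈ I, a i ∈ LG r (I : Set Λ) :=
  sum_mem fun i hi => lg_mono (Set.singleton_subset_iff.2 hi) (ha i)

omit [DecidableEq Λ] in
theorem step (h : Lay τ r) {I J : Set Λ} (hIJ : Disjoint I J) {A B C E a b c e : D}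
    (hA : A ∈ LG r I) (hB : B ∈ LG r I) (hC : C ∈ LG r I) (hE : E ∈ LG r I)
    (ha : a ∈ LG r J) (hb : b ∈ LG r J) (hc : c ∈ LG r J) (he : e ∈ LG r J)
    (A0 : τ A = 0) (B0 : τ B = 0) (C0 : τ C = 0) (E0 : τ E = 0)
    (a0 : τ a = 0) (b0 : τ b = 0) (c0 : τ c = 0) (e0 : τ e = 0) :
    τ ((a + A) * (b + B) * (c + C) * (e + E)) = τ (A * B * C * E) + τ (A * B) * τ (c * e) +
      τ (A * C) * τ (b * e) + τ (A * E) * τ (b * c) + τ (B * C) * τ (a * e) +
      τ (B * E) * τ (a * c) + τ (C * E) * τ (a * b) + τ (a * b * c * e) := by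
  have k : ∀ {x X}, x ∈ LG r J → X ∈ LG r I → x * X = X * x ∧ ∀ y, x * (X * y) = X * (x * y) :=
    fun hx hX => ⟨(h.commute hIJ.symm hx hX).eq, (h.commute hIJ.symm hx hX).left_comm⟩
  have e1 : (a + A) * (b + B) * (c + C) * (e + E) = A * B * C * E + A * B * (c * e) +
      A * C * (b * e) + A * E * (b * c) + B * C * (a * e) + B * E * (a * c) + C * E * (a * b) +
      a * b * c * e + (A * B * C * e + A * B * E * c + A * C * E * b + B * C * E * a) +
      (A * (b * c * e) + B * (a * c * e) + C * (a * b * e) + E * (a * b * c)) := by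
    simp only [add_mul, mul_add, mul_assoc, (k ha hB).2, (k ha hC).2, (k ha hE).2, (k hb hC).2,
      (k hb hE).2, (k hc hE).1, (k hb hE).1, (k ha hE).1]
    abel
  have i2 := h.ind I J hIJ
  rw [e1]
  simp only [map_add]
  rw [i2 _ (mul_mem hA hB) _ (mul_mem hc he), i2 _ (mul_mem hA hC) _ (mul_mem hb he),
    i2 _ (mul_mem hA hE) _ (mul_mem hb hc), i2 _ (mul_mem hB hC) _ (mul_mem ha he),
    i2 _ (mul_mem hB hE) _ (mul_mem ha hc), i2 _ (mul_mem hC hE) _ (mul_mem ha hb),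
    i2 _ (mul_mem (mul_mem hA hB) hC) _ he, i2 _ (mul_mem (mul_mem hA hB) hE) _ hc,
    i2 _ (mul_mem (mul_mem hA hC) hE) _ hb, i2 _ (mul_mem (mul_mem hB hC) hE) _ ha,
    i2 _ hA _ (mul_mem (mul_mem hb hc) he), i2 _ hB _ (mul_mem (mul_mem ha hc) he),
    i2 _ hC _ (mul_mem (mul_mem ha hb) he), i2 _ hE _ (mul_mem (mul_mem ha hb) hc),
    A0, B0, C0, E0, a0, b0, c0, e0]
  ring

end WickAux

theorem Lay.two_point (h : Lay τ r) (I : Finset Λ) (a b : Λ → D) (ha : ∀ i, a i ∈ LG r {i})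
    (hb : ∀ i, b i ∈ LG r {i}) (ha0 : ∀ i, τ (a i) = 0) (hb0 : ∀ i, τ (b i) = 0) :
    τ ((∑ i ∈ I, a i) * ∑ i ∈ I, b i) = ∑ i ∈ I, τ (a i * b i) := by
  rw [sum_mul_sum, map_sum]
  refine sum_congr rfl fun i hi => ?_
  rw [map_sum, sum_eq_single i (fun j _ hj => ?_) fun h => absurd hi h]
  rw [h.ind {i} {j} (Set.disjoint_singleton.2 hj.symm) _ (ha i) _ (hb j), ha0, zero_mul]

theorem Lay.four_point (h : Lay τ r) (I : Finset Λ) (a b c d : Λ → D) (ha : ∀ i, a i ∈ LG r {i})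
    (hb : ∀ i, b i ∈ LG r {i}) (hc : ∀ i, c i ∈ LG r {i}) (hd : ∀ i, d i ∈ LG r {i})
    (ha0 : ∀ i, τ (a i) = 0) (hb0 : ∀ i, τ (b i) = 0) (hc0 : ∀ i, τ (c i) = 0)
    (hd0 : ∀ i, τ (d i) = 0) :
    ‖τ ((∑ i ∈ I, a i) * (∑ i ∈ I, b i) * (∑ i ∈ I, c i) * ∑ i ∈ I, d i) -
      ((∑ i ∈ I, τ (a i * b i)) * (∑ i ∈ I, τ (c i * d i)) +
        (∑ i ∈ I, τ (a i * c i)) * (∑ i ∈ I, τ (b i * d i)) +
        (∑ i ∈ I, τ (a i * d i)) * ∑ i ∈ I, τ (b i * c i))‖ ≤
      4 * ∑ i ∈ I, ‖a i‖ * ‖b i‖ * ‖c i‖ * ‖d i‖ := by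
  induction I using Finset.induction_on with
  | empty => simp
  | insert j I hj ih =>
    have z : ∀ x : Λ → D, (∀ i, τ (x i) = 0) → τ (∑ i ∈ I, x i) = 0 := fun x hx => by
      simp [map_sum, hx]
    have n2 : ∀ x y : D, ‖τ (x * y)‖ ≤ ‖x‖ * ‖y‖ := fun x y =>
      ((tr_st h.tr).norm_le _).trans (norm_mul_le _ _)
    simp only [sum_insert hj]
    rw [WickAux.step h (I := I) (J := {j}) (Set.disjoint_singleton_right.2 hj)
      (WickAux.sum_mem_lg I ha) (WickAux.sum_mem_lg I hb) (WickAux.sum_mem_lg I hc)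
      (WickAux.sum_mem_lg I hd) (ha j) (hb j) (hc j) (hd j) (z a ha0) (z b hb0) (z c hc0)
      (z d hd0) (ha0 j) (hb0 j) (hc0 j) (hd0 j), h.two_point I a b ha hb ha0 hb0,
      h.two_point I a c ha hc ha0 hc0, h.two_point I a d ha hd ha0 hd0,
      h.two_point I b c hb hc hb0 hc0, h.two_point I b d hb hd hb0 hd0,
      h.two_point I c d hc hd hc0 hd0]
    have t0 : ‖τ (a j * b j * c j * d j)‖ ≤ ‖a j‖ * ‖b j‖ * ‖c j‖ * ‖d j‖ :=
      (n2 _ _).trans (mul_le_mul_of_nonneg_right norm_mul₃_le (norm_nonneg _))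
    have t1 := norm_mul_le_of_le (n2 (a j) (b j)) (n2 (c j) (d j))
    have t2 := norm_mul_le_of_le (n2 (a j) (c j)) (n2 (b j) (d j))
    have t3 := norm_mul_le_of_le (n2 (a j) (d j)) (n2 (b j) (c j))
    have t4 := norm_add_le_of_le ih (norm_sub_le_of_le (norm_sub_le_of_le
      (norm_sub_le_of_le t0 t1) t2) t3)
    refine le_trans (le_of_eq ?_) (t4.trans (le_of_eq ?_))
    · congr 1; ring
    · ring

/-- Convexity of the fourth moment. -/
theorem fourth_avg {τ : D →ₗ[ℂ] ℂ} (h : IsTracialState τ) {ι : Type} (s : Finset ι)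
    (hs : s.Nonempty) (x : ι → D) (hx : ∀ i, IsSelfAdjoint (x i)) {M : ℝ}
    (hM : ∀ i ∈ s, (τ (x i ^ 4)).re ≤ M) :
    (τ ((((#s : ℝ)⁻¹) • ∑ i ∈ s, x i) ^ 4)).re ≤ M := by
  have st := tr_st h
  have e : ∀ y : D, IsSelfAdjoint y → (τ (y ^ 4)).re = n2 τ (y * y) ^ 2 := fun y hy => by
    rw [n2_sq st, star_mul, hy.star_eq]
    congr 2
    noncomm_ring
  obtain ⟨i0, hi0⟩ := hs
  have hM0 : 0 ≤ M := le_trans (by rw [e _ (hx i0)]; positivity) (hM i0 hi0)
  have h1 : ∀ i ∈ s, n2 τ (x i * x i) ≤ √M := fun i hi =>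
    Real.le_sqrt_of_sq_le (by rw [← e _ (hx i)]; exact hM i hi)
  have h2 : ∀ i ∈ s, ∀ j ∈ s, n2 τ (x i * x j) ≤ √M := fun i hi j hj => by
    have := n2_holder h (x i) (x j)
    rw [(hx i).star_eq, (hx j).star_eq] at this
    refine Real.le_sqrt_of_sq_le (this.trans ?_)
    rw [← Real.mul_self_sqrt hM0]
    exact mul_le_mul (h1 i hi) (h1 j hj) (n2_nonneg _ _) (Real.sqrt_nonneg _)
  have hs0 : (0 : ℝ) < #s := by exact_mod_cast card_pos.2 ⟨i0, hi0⟩
  rw [e _ ((IsSelfAdjoint.all _).smul (isSelfAdjoint_sum _ fun i _ => hx i)),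
    ← Real.sq_sqrt hM0]
  refine pow_le_pow_left₀ (n2_nonneg _ _) ?_ 2
  rw [smul_mul_smul_comm, n2_rsmul st, sum_mul_sum, abs_of_nonneg (by positivity)]
  have h3 : n2 τ (∑ i ∈ s, ∑ j ∈ s, x i * x j) ≤ #s * (#s * √M) := by
    refine (n2_sum st _ _).trans ((sum_le_sum fun i hi => (n2_sum st _ _).trans
      (sum_le_sum fun j hj => h2 i hi j hj)).trans (le_of_eq ?_))
    simp
  refine (mul_le_mul_of_nonneg_left h3 (by positivity)).trans (le_of_eq ?_)
  field_simp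

/-- The off-diagonal sum is an average over bipartitions. -/
theorem offdiag_eq {V : Type*} [AddCommGroup V] [Module ℝ V] (L : Finset Λ) (x : Λ → Λ → V) :
    ∑ i ∈ L, ∑ j ∈ L.erase i, x i j =
      ((#L.powerset : ℝ)⁻¹) • ∑ I ∈ L.powerset, (4 : ℝ) • ∑ i ∈ I, ∑ j ∈ L \ I, x i j := by
  have h1 : ∀ I ∈ L.powerset, ∑ i ∈ I, ∑ j ∈ L \ I, x i j =
      ∑ i ∈ L, ∑ j ∈ L.erase i, if i ∈ I ∧ j ∉ I then x i j else 0 := by
    intro I hI
    rw [← sum_subset (mem_powerset.1 hI) fun i _ hi => by simp [hi]]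
    refine sum_congr rfl fun i hi => ?_
    rw [← sum_filter]
    refine sum_congr ?_ fun _ _ => rfl
    ext j
    simp only [Finset.mem_sdiff, mem_filter, mem_erase, hi, true_and]
    exact ⟨fun h => ⟨⟨fun e => h.2 (e ▸ hi), h.1⟩, h.2⟩, fun h => ⟨h.1.2, h.2⟩⟩
  have h2 : ∀ i ∈ L, ∀ j ∈ L.erase i, 4 * #{I ∈ L.powerset | i ∈ I ∧ j ∉ I} = #L.powerset := by
    intro i hi j hj
    have h3 : #{I ∈ L.powerset | i ∈ I ∧ j ∉ I} = #((L.erase i).erase j).powerset := by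
      refine card_nbij' (·.erase i) (insert i) (fun I hI => ?_) (fun I hI => ?_) (fun I hI => ?_)
        fun I hI => ?_
      · simp only [coe_filter, mem_powerset, Set.mem_setOf_eq] at hI
        refine mem_coe.2 (mem_powerset.2 fun y hy => ?_)
        obtain ⟨y1, y2⟩ := mem_erase.1 hy
        exact mem_erase.2 ⟨fun e => hI.2.2 (e ▸ y2), mem_erase.2 ⟨y1, hI.1 y2⟩⟩
      · have hI' := mem_powerset.1 (mem_coe.1 hI)
        simp only [coe_filter, mem_powerset, Set.mem_setOf_eq, mem_insert_self, true_and,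
          mem_insert, not_or]
        exact ⟨insert_subset hi (hI'.trans ((erase_subset _ _).trans (erase_subset _ _))),
          (mem_erase.1 hj).1, fun h => by simpa using hI' h⟩
      · exact insert_erase (mem_filter.1 hI).2.1
      · exact erase_insert fun h => by simpa using mem_powerset.1 (mem_coe.1 hI) h
    have h4 := card_erase_add_one hj
    have h5 := card_erase_add_one hi
    rw [h3, card_powerset, card_powerset, ← h5, ← h4]
    ring
  have hp : (#L.powerset : ℝ) ≠ 0 := by simp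
  rw [← smul_sum, sum_congr rfl h1, sum_comm (s := L.powerset), smul_sum, smul_sum]
  refine sum_congr rfl fun i hi => ?_
  rw [sum_comm (s := L.powerset), smul_sum, smul_sum]
  refine sum_congr rfl fun j hj => ?_
  rw [← sum_filter, sum_const, ← Nat.cast_smul_eq_nsmul ℝ, smul_smul, smul_smul, mul_assoc,
    ← Nat.cast_ofNat, ← Nat.cast_mul, h2 i hi j hj, inv_mul_cancel₀ hp, one_smul]

end Vale.Agent.P095
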