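import Vale.Agent.P095.KM2
import Vale.Agent.P095.Wick

/-! First and second moments of the second chaos. -/

namespace Vale.Agent.P095
open Vale.Agent.P101 Vale.Agent.P101.JS Filter Topology Finset
open scoped ComplexOrder BoundedContinuousFunction symmDiff

universe u
variable {D : Type u} [CStarAlgebra D] {Λ κ : Type} [DecidableEq Λ] [DecidableEq κ]
  {τ : D →ₗ[ℂ] ℂ} {r : Λ → κ → D}

namespace Chaos2Aux
open WickAux

omit [DecidableEq Λ] [DecidableEq κ] in
theorem mem1 (i : Λ) (g : κ) : r i g ∈ LG r {i} := mem_lg (Set.mem_singleton i) g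

omit [DecidableEq Λ] [DecidableEq κ] in
theorem tr_sa_mul (h : IsTracialState τ) {a b : D} (ha : IsSelfAdjoint a) (hb : IsSelfAdjoint b) :
    τ (a * b) = ((τ (a * b)).re : ℂ) := by
  have := (tr_st h).map_star (a * b)
  rw [star_mul, ha.star_eq, hb.star_eq, h.2.2] at this
  exact (Complex.conj_eq_iff_re.1 this.symm).symm

omit [DecidableEq Λ] [DecidableEq κ] in
theorem tr_rsmul (c : ℝ) (x : D) : τ (c • x) = c * τ x := by
  rw [← Complex.coe_smul, map_smul, smul_eq_mul]

omit [DecidableEq Λ] [DecidableEq κ] in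
theorem norm_r (h : Lay τ r) (i : Λ) (g : κ) : ‖r i g‖ ≤ 1 := by
  have h1 := CStarRing.norm_star_mul_self (x := r i g)
  rw [(h.sa i g).star_eq, h.sq] at h1
  nlinarith [norm_one_le' (B := D), norm_nonneg (r i g)]

omit [DecidableEq Λ] [DecidableEq κ] in
theorem abs_w (h : Lay τ r) (i : Λ) (g k : κ) : |(τ (r i g * r i k)).re| ≤ 1 :=
  (Complex.abs_re_le_norm _).trans (((tr_st h.tr).norm_le _).trans
    ((norm_mul_le_of_le (norm_r h i g) (norm_r h i k)).trans (by norm_num)))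

omit [DecidableEq Λ] [DecidableEq κ] in
theorem wbar_eq (L : Finset Λ) (g k : κ) :
    Wbar τ r L g k = (#L : ℝ)⁻¹ * ∑ i ∈ L, (τ (r i g * r i k)).re := by
  rw [Wbar, What, tr_rsmul, Complex.re_ofReal_mul, map_sum, Complex.re_sum]

omit [DecidableEq Λ] [DecidableEq κ] in
theorem psd_of_sa (h : IsTracialState τ) (a : κ → D) (ha : ∀ g, IsSelfAdjoint (a g))
    (s : Finset κ) (x : κ → ℝ) : 0 ≤ ∑ g ∈ s, ∑ k ∈ s, x g * (τ (a g * a k)).re * x k := by
  have := (tr_st h).re_nonneg (∑ g ∈ s, x g • a g)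
  rw [(isSelfAdjoint_sum _ fun g _ => (IsSelfAdjoint.all (x g)).smul (ha g)).star_eq,
    sum_mul_sum] at this
  simp only [map_sum, Complex.re_sum, smul_mul_smul_comm, tr_rsmul, Complex.re_ofReal_mul] at this
  refine this.trans (le_of_eq (sum_congr rfl fun g _ => sum_congr rfl fun k _ => by ring))

omit [DecidableEq κ] in
theorem four (h : Lay τ r) {i j i' j' : Λ} (hij : i ≠ j) (hij' : i' ≠ j') (g k g' k' : κ) :
    τ (r i g * r j k * (r i' g' * r j' k')) =
      (if i' = i ∧ j' = j then τ (r i g * r i g') * τ (r j k * r j k') else 0) +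
      if i' = j ∧ j' = i then τ (r i g * r i k') * τ (r j k * r j g') else 0 := by
  have lone : ∀ {a b c l : Λ} (g1 g2 g3 g4 : κ), a ≠ l → b ≠ l → c ≠ l →
      τ (r a g1 * r b g2 * r c g3 * r l g4) = 0 := by
    intro a b c l g1 g2 g3 g4 ha hb hc
    have m : ∀ {x : Λ} (g : κ), x ≠ l → r x g ∈ LG r {l}ᶜ := fun g hx => mem_lg hx g
    rw [h.ind {l}ᶜ {l} disjoint_compl_left _ (mul_mem (mul_mem (m g1 ha) (m g2 hb)) (m g3 hc)) _
      (mem1 l g4), h.zero, mul_zero]
  have ind := h.ind {i} {j} (Set.disjoint_singleton.2 hij)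
  by_cases h1 : i' = i
  · subst h1
    by_cases h2 : j' = j
    · subst h2
      rw [if_pos ⟨rfl, rfl⟩, if_neg fun h => hij h.1, add_zero,
        ← ind _ (mul_mem (mem1 _ g) (mem1 _ g')) _ (mul_mem (mem1 _ k) (mem1 _ k'))]
      simp only [mul_assoc]
      rw [(h.comm _ _ hij g' k).left_comm]
    · rw [if_neg fun h => h2 h.2, if_neg fun h => hij h.1, add_zero, ← mul_assoc]
      exact lone _ _ _ _ hij' (Ne.symm h2) hij'
  by_cases h3 : i' = j
  · subst h3
    by_cases h2 : j' = i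
    · subst h2
      rw [if_pos (⟨rfl, rfl⟩ : i' = i' ∧ j' = j'), if_neg fun h => h1 h.1, zero_add,
        ← ind _ (mul_mem (mem1 _ g) (mem1 _ k')) _ (mul_mem (mem1 _ k) (mem1 _ g'))]
      simp only [mul_assoc]
      rw [(h.comm _ _ hij k' k).left_comm, (h.comm _ _ hij k' g').eq]
    · rw [if_neg fun h => h1 h.1, if_neg fun h => h2 h.2, add_zero, ← mul_assoc]
      exact lone _ _ _ _ (Ne.symm h2) hij' hij'
  · rw [if_neg fun h => h1 h.1, if_neg fun h => h3 h.1, add_zero, (h.comm _ _ hij' g' k').eq,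
      ← mul_assoc]
    exact lone _ _ _ _ (Ne.symm h1) (Ne.symm h3) hij'.symm

omit [DecidableEq κ] in
theorem zel_mul (h : Lay τ r) (L : Finset Λ) (g k g' k' : κ) :
    (τ (Zel r L g k * Zel r L g' k')).re = Wbar τ r L g g' * Wbar τ r L k k' +
      Wbar τ r L g k' * Wbar τ r L k g' - (#L : ℝ)⁻¹ * (#L : ℝ)⁻¹ * ∑ i ∈ L,
        ((τ (r i g * r i g')).re * (τ (r i k * r i k')).re +
          (τ (r i g * r i k')).re * (τ (r i k * r i g')).re) := by
  have e1 : ∀ i ∈ L, ∀ j ∈ L.erase i,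
      τ (r i g * r j k * ∑ i' ∈ L, ∑ j' ∈ L.erase i', r i' g' * r j' k') =
      τ (r i g * r i g') * τ (r j k * r j k') + τ (r i g * r i k') * τ (r j k * r j g') := by
    intro i hi j hj
    obtain ⟨hji, hjL⟩ := mem_erase.1 hj
    simp only [mul_sum, map_sum]
    rw [sum_congr rfl fun i' _ => sum_congr rfl fun j' hj' =>
      four h hji.symm (mem_erase.1 hj').1.symm g k g' k']
    simp only [sum_add_distrib, ite_and]
    congr 1
    · rw [sum_eq_single i (fun b _ hb => by simp [hb]) fun h => absurd hi h]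
      simp [hj]
    · rw [sum_eq_single j (fun b _ hb => by simp [hb]) fun h => absurd hjL h]
      simp [hi, hji.symm]
  have e2 : ∀ i j a b c d, (τ (r i a * r i b) * τ (r j c * r j d)).re =
      (τ (r i a * r i b)).re * (τ (r j c * r j d)).re := fun i j a b c d => by
    rw [tr_sa_mul h.tr (h.sa i a) (h.sa i b), Complex.re_ofReal_mul, Complex.ofReal_re]
  rw [Zel, Zel, smul_mul_smul_comm, tr_rsmul, Complex.re_ofReal_mul, sum_mul, map_sum,
    sum_congr rfl fun i hi => by rw [sum_mul, map_sum, sum_congr rfl (e1 i hi)]]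
  simp only [Complex.re_sum, Complex.add_re, e2, wbar_eq]
  rw [sum_congr rfl fun i hi => sum_erase_eq_sub hi, sum_sub_distrib]
  simp only [sum_add_distrib, ← mul_sum, ← sum_mul]
  ring

end Chaos2Aux
open Chaos2Aux WickAux

theorem Lay.corr (h : Lay τ r) {L : Finset Λ} (hL : L.Nonempty) : Corr (Wbar τ r L) := by
  have hp : (#L : ℝ) ≠ 0 := by exact_mod_cast (card_pos.2 hL).ne'
  refine ⟨fun g k => ?_, fun g => ?_, fun s x => ?_⟩
  · simp only [wbar_eq, h.tr.2.2 (r _ g)]
  · simp [wbar_eq, h.sq, h.tr.1, hp]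
  · have := mul_nonneg (inv_nonneg.2 (Nat.cast_nonneg (α := ℝ) #L))
      (sum_nonneg (s := L) fun i _ => psd_of_sa h.tr (r i) (h.sa i) s x)
    refine this.trans (le_of_eq ?_)
    simp only [wbar_eq, mul_sum, sum_mul]
    rw [sum_comm]
    refine sum_congr rfl fun g _ => ?_
    rw [sum_comm]
    exact sum_congr rfl fun k _ => sum_congr rfl fun i _ => by ring

theorem Lay.norm_what (h : Lay τ r) (L : Finset Λ) (g k : κ) : ‖What r L g k‖ ≤ 1 := by
  rw [What, norm_smul, Real.norm_of_nonneg (by positivity)]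
  have : ‖∑ i ∈ L, r i g * r i k‖ ≤ #L := (norm_sum_le_of_le _ fun i _ =>
    norm_mul_le_of_le (norm_r h i g) (norm_r h i k)).trans (by simp)
  exact (mul_le_mul_of_nonneg_left this (by positivity)).trans (inv_mul_le_one_of_le₀ le_rfl
    (by positivity))

/-- Law of large numbers for the empirical covariance. -/
theorem Lay.n2_what (h : Lay τ r) {L : Finset Λ} (hL : L.Nonempty) (g k : κ) :
    n2 τ (What r L g k - algebraMap ℝ D (Wbar τ r L g k)) ^ 2 ≤ 1 / #L := by
  have hp : (0 : ℝ) < #L := by exact_mod_cast card_pos.2 hL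
  have st := tr_st h.tr
  let a : Λ → D := fun i => r i g * r i k - (τ (r i g * r i k)).re • (1 : D)
  have e : What r L g k - algebraMap ℝ D (Wbar τ r L g k) = (#L : ℝ)⁻¹ • ∑ i ∈ L, a i := by
    rw [What, wbar_eq, Algebra.algebraMap_eq_smul_one, sum_sub_distrib, smul_sub, ← sum_smul,
      smul_smul]
  have am : ∀ i, a i ∈ LG r {i} := fun i => sub_mem (mul_mem (mem1 _ g) (mem1 _ k))
    (by rw [← Complex.coe_smul]; exact SMulMemClass.smul_mem _ (one_mem _))
  have a0 : ∀ i, τ (a i) = 0 := fun i => by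
    rw [map_sub, tr_rsmul, h.tr.1, mul_one, ← tr_sa_mul h.tr (h.sa i g) (h.sa i k), sub_self]
  have a1 : ∀ i, (τ (star (a i) * a i)).re ≤ 1 := fun i => by
    have e1 : star (a i) * a i = 1 - (τ (r i g * r i k)).re • (r i k * r i g) -
        (τ (r i g * r i k)).re • a i := by
      have : r i k * r i g * (r i g * r i k) = 1 := by
        rw [mul_assoc, ← mul_assoc (r i g), h.sq, one_mul, h.sq]
      simp only [a, star_sub, star_mul, (h.sa i _).star_eq, star_smul, star_one, star_trivial,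
        sub_mul, mul_sub, this, mul_smul_comm, smul_mul_assoc, mul_one, one_mul, smul_sub]
      abel
    rw [e1, map_sub, map_sub, tr_rsmul, tr_rsmul, a0, h.tr.1, h.tr.2.2 (r i k)]
    simp only [mul_zero, sub_zero, Complex.sub_re, Complex.one_re, Complex.re_ofReal_mul]
    nlinarith [mul_self_nonneg (τ (r i g * r i k)).re]
  rw [e, n2_rsmul st, mul_pow, n2_sq st, star_sum, h.two_point L _ a (fun i => star_mem (am i)) am
    (fun i => by rw [st.map_star, a0, map_zero]) a0, Complex.re_sum, sq_abs]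
  have : ∑ i ∈ L, (τ (star (a i) * a i)).re ≤ #L := (sum_le_sum fun i _ => a1 i).trans (by simp)
  refine (mul_le_mul_of_nonneg_left this (by positivity)).trans (le_of_eq ?_)
  field_simp

theorem Lay.zel_sa (h : Lay τ r) (L : Finset Λ) (g k : κ) : IsSelfAdjoint (Zel r L g k) := by
  refine (IsSelfAdjoint.all _).smul (isSelfAdjoint_sum _ fun i _ => isSelfAdjoint_sum _
    fun j hj => ?_)
  rw [IsSelfAdjoint, star_mul, (h.sa _ _).star_eq, (h.sa _ _).star_eq,
    (h.comm _ _ (mem_erase.1 hj).1 k g).eq]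

theorem Lay.y0_sa (h : Lay τ r) (L : Finset Λ) (K : Finset κ) (C : κ → κ → ℝ) :
    IsSelfAdjoint (Y0 r L K C) := by
  exact isSelfAdjoint_sum _ fun g _ => isSelfAdjoint_sum _ fun k _ =>
    (IsSelfAdjoint.all _).smul (h.zel_sa L g k)

theorem Lay.y0_mean (h : Lay τ r) (L : Finset Λ) (K : Finset κ) (C : κ → κ → ℝ) :
    τ (Y0 r L K C) = 0 := by
  have : ∀ g k, τ (Zel r L g k) = 0 := fun g k => by
    rw [Zel, tr_rsmul, map_sum, sum_eq_zero fun i _ => ?_, mul_zero]
    rw [map_sum, sum_eq_zero fun j hj => ?_]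
    rw [h.ind {i} {j} (Set.disjoint_singleton.2 (mem_erase.1 hj).1.symm) _ (mem1 _ g) _
      (mem1 _ k), h.zero, zero_mul]
  simp [Y0, map_sum, tr_rsmul, this]

theorem Lay.y0_var (h : Lay τ r) {L : Finset Λ} (hL : L.Nonempty) (K : Finset κ) {C : κ → κ → ℝ}
    (hC : ∀ g k, C g k = C k g) :
    |(τ (Y0 r L K C ^ 2)).re - 2 * Qf (Wbar τ r L) K C| ≤
      2 * (∑ g ∈ K, ∑ k ∈ K, |C g k|) ^ 2 / #L := by
  have hp : (0 : ℝ) < #L := by exact_mod_cast card_pos.2 hL
  set e : κ → κ → κ → κ → ℝ := fun g k g' k' => (#L : ℝ)⁻¹ * (#L : ℝ)⁻¹ * ∑ i ∈ L,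
    ((τ (r i g * r i g')).re * (τ (r i k * r i k')).re +
      (τ (r i g * r i k')).re * (τ (r i k * r i g')).re) with he
  have e1 : (τ (Y0 r L K C ^ 2)).re = ∑ g ∈ K, ∑ k ∈ K, ∑ g' ∈ K, ∑ k' ∈ K, C g k * C g' k' *
      (Wbar τ r L g g' * Wbar τ r L k k' + Wbar τ r L g k' * Wbar τ r L k g' - e g k g' k') := by
    rw [pow_two, Y0]
    simp only [sum_mul]
    simp only [mul_sum, map_sum, Complex.re_sum, smul_mul_smul_comm, tr_rsmul,
      Complex.re_ofReal_mul, zel_mul h, he]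
  have e2 : ∑ g ∈ K, ∑ k ∈ K, ∑ g' ∈ K, ∑ k' ∈ K, C g k * C g' k' *
      (Wbar τ r L g k' * Wbar τ r L k g') = Qf (Wbar τ r L) K C := by
    refine sum_congr rfl fun g _ => sum_congr rfl fun k _ => ?_
    rw [sum_comm]
    exact sum_congr rfl fun g' _ => sum_congr rfl fun k' _ => by rw [hC k' g']; ring
  have e3 : (τ (Y0 r L K C ^ 2)).re - 2 * Qf (Wbar τ r L) K C =
      -∑ g ∈ K, ∑ k ∈ K, ∑ g' ∈ K, ∑ k' ∈ K, C g k * C g' k' * e g k g' k' := by
    rw [e1, two_mul]
    nth_rewrite 2 [← e2]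
    simp only [Qf, mul_sub, mul_add, sum_sub_distrib, sum_add_distrib, mul_assoc]
    ring
  have e4 : ∀ g k g' k', |e g k g' k'| ≤ 2 / #L := fun g k g' k' => by
    have m1 : ∀ i a b c d, |(τ (r i a * r i b)).re * (τ (r i c * r i d)).re| ≤ 1 :=
      fun i a b c d => by
        rw [abs_mul]; exact mul_le_one₀ (abs_w h _ _ _) (abs_nonneg _) (abs_w h _ _ _)
    have := (abs_sum_le_sum_abs _ L).trans (sum_le_sum fun i _ =>
      (abs_add_le _ _).trans (add_le_add (m1 i g g' k k') (m1 i g k' k g')))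
    rw [he, abs_mul, abs_of_nonneg (by positivity)]
    refine (mul_le_mul_of_nonneg_left this (by positivity)).trans (le_of_eq ?_)
    simp only [sum_const, nsmul_eq_mul]
    field_simp
    ring
  rw [e3, abs_neg]
  calc _ ≤ ∑ g ∈ K, ∑ k ∈ K, ∑ g' ∈ K, ∑ k' ∈ K, |C g k| * |C g' k'| * (2 / #L) := by
        refine (abs_sum_le_sum_abs _ _).trans (sum_le_sum fun g _ => ?_)
        refine (abs_sum_le_sum_abs _ _).trans (sum_le_sum fun k _ => ?_)
        refine (abs_sum_le_sum_abs _ _).trans (sum_le_sum fun g' _ => ?_)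
        refine (abs_sum_le_sum_abs _ _).trans (sum_le_sum fun k' _ => ?_)
        rw [abs_mul, abs_mul]
        exact mul_le_mul_of_nonneg_left (e4 _ _ _ _) (by positivity)
    _ = _ := by
        simp only [← sum_mul, ← mul_sum]
        ring

end Vale.Agent.P095
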