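import Vale.Agent.P095.Chaos2
import Vale.Agent.P095.Wick

/-! Fourth moment of the second chaos. -/

namespace Vale.Agent.P095
open Vale.Agent.P101 Vale.Agent.P101.JS Filter Topology Finset
open scoped ComplexOrder BoundedContinuousFunction symmDiff

universe u

namespace Chaos4Aux
open WickAux Chaos2Aux

section Real
variable {n : Type} [Fintype n] {V W : n → n → ℝ}

/-- The bilinear form of a kernel. -/
def bf (V : n → n → ℝ) (x y : n → ℝ) : ℝ := ∑ a, ∑ b, x a * V a b * y b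

/-- Positive semidefinite kernels. -/
structure Psd (V : n → n → ℝ) : Prop where
  symm : ∀ a b, V a b = V b a
  psd : ∀ x, 0 ≤ bf V x x

/-- The sum over pairings. -/
def P3 (V : n → n → ℝ) (a b c d : n) : ℝ := V a b * V c d + V a c * V b d + V a d * V b c

theorem Psd.bf_comm (h : Psd V) (x y : n → ℝ) : bf V x y = bf V y x := by
  rw [bf, sum_comm]
  exact sum_congr rfl fun a _ => sum_congr rfl fun b _ => by rw [h.symm]; ring

theorem Psd.cs (h : Psd V) (x y : n → ℝ) : bf V x y * bf V x y ≤ bf V x x * bf V y y := by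
  have := discrim_le_zero (a := bf V x x) (b := 2 * bf V x y) (c := bf V y y) fun t => by
    refine (h.psd fun a => t * x a + y a).trans (le_of_eq ?_)
    rw [two_mul]
    nth_rewrite 2 [h.bf_comm x y]
    simp only [bf, sum_mul, add_mul, ← sum_add_distrib]
    exact sum_congr rfl fun a _ => sum_congr rfl fun b _ => by ring
  rw [discrim] at this
  nlinarith

theorem Psd.gram (h : Psd W) : ∃ (m : ℕ) (u : Fin m → n → ℝ), ∀ a b, W a b = ∑ i, u i a * u i b := by
  have : (Matrix.of W).PosSemidef := .of_dotProduct_mulVec_nonneg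
    (Matrix.ext fun a b => by simp [h.symm a b]) fun x => by
      simpa [bf, dotProduct, Matrix.mulVec, mul_sum, mul_assoc] using h.psd x
  obtain ⟨m, u, hu⟩ := Matrix.posSemidef_iff_eq_sum_vecMulVec.1 this
  exact ⟨m, u, fun a b => by
    simpa [Matrix.sum_apply, Matrix.vecMulVec_apply] using congrFun (congrFun hu a) b⟩

theorem tr_gram {m : ℕ} {u : Fin m → n → ℝ} (hu : ∀ a b, W a b = ∑ i, u i a * u i b) :
    ∑ a, ∑ b, V a b * W a b = ∑ i, bf V (u i) (u i) := by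
  simp only [hu, mul_sum, bf]
  rw [sum_congr rfl fun a _ => sum_comm, sum_comm]
  exact sum_congr rfl fun i _ => sum_congr rfl fun a _ => sum_congr rfl fun b _ => by ring

theorem Psd.tr_nonneg (hV : Psd V) (hW : Psd W) : 0 ≤ ∑ a, ∑ b, V a b * W a b := by
  obtain ⟨m, u, hu⟩ := hW.gram
  rw [tr_gram hu]
  exact sum_nonneg fun i _ => hV.psd _

theorem p3_eval (x y z w : n → ℝ) :
    ∑ a, ∑ b, ∑ c, ∑ d, P3 V a b c d * (x a * y b * z c * w d) =
      bf V x y * bf V z w + bf V x z * bf V y w + bf V x w * bf V y z := by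
  simp only [P3, add_mul, sum_add_distrib, bf, sum_mul]
  simp only [mul_sum]
  congr 1
  · congr 1
    · refine sum_congr rfl fun a _ => sum_congr rfl fun b _ => sum_congr rfl fun c _ =>
        sum_congr rfl fun d _ => by ring
    · refine sum_congr rfl fun a _ => sum_comm.trans (sum_congr rfl fun b _ =>
        sum_congr rfl fun c _ => sum_congr rfl fun d _ => by ring)
  · refine sum_congr rfl fun a _ => (sum_congr rfl fun b _ => sum_comm).trans
      (sum_comm.trans (sum_congr rfl fun b _ => sum_congr rfl fun c _ => sum_congr rfl fun d _ =>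
        by ring))

theorem sum4_comm {ι : Type} [Fintype ι] (f : ι → n → n → n → n → ℝ) :
    ∑ a, ∑ b, ∑ c, ∑ d, ∑ i, f i a b c d = ∑ i, ∑ a, ∑ b, ∑ c, ∑ d, f i a b c d := by
  rw [sum_comm (γ := ι)]
  refine sum_congr rfl fun a _ => ?_
  rw [sum_comm (γ := ι)]
  refine sum_congr rfl fun b _ => ?_
  rw [sum_comm (γ := ι)]
  exact sum_congr rfl fun c _ => sum_comm

theorem p3_le (hV : Psd V) (hW : Psd W) :
    ∑ a, ∑ b, ∑ c, ∑ d, P3 V a b c d * P3 W a b c d ≤ 9 * (∑ a, ∑ b, V a b * W a b) ^ 2 := by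
  obtain ⟨m, u, hu⟩ := hW.gram
  have e : ∀ a b c d, P3 V a b c d * P3 W a b c d = ∑ p : Fin m × Fin m,
      (P3 V a b c d * (u p.1 a * u p.1 b * u p.2 c * u p.2 d) +
        P3 V a b c d * (u p.1 a * u p.2 b * u p.1 c * u p.2 d) +
        P3 V a b c d * (u p.1 a * u p.2 b * u p.2 c * u p.1 d)) := by
    intro a b c d
    rw [P3.eq_1 W]
    simp only [hu, sum_mul_sum, Fintype.sum_prod_type]
    simp only [← sum_add_distrib, mul_sum]
    exact sum_congr rfl fun i _ => sum_congr rfl fun j _ => by ring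
  simp only [e]
  rw [sum4_comm, tr_gram hu, sq, sum_mul_sum, ← Fintype.sum_prod_type' (α₁ := Fin m), mul_sum]
  refine sum_le_sum fun p _ => ?_
  simp only [sum_add_distrib, p3_eval]
  rw [hV.bf_comm (u p.2) (u p.1)]
  linarith [hV.cs (u p.1) (u p.2)]

theorem Psd.conj (h : Psd V) (C : n → n → ℝ) : Psd fun a b => bf V (C · a) (C · b) := by
  refine ⟨fun a b => h.bf_comm _ _, fun x => (h.psd fun g => ∑ a, x a * C g a).trans (le_of_eq ?_)⟩
  simp only [bf, sum_mul]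
  simp only [mul_sum, sum_mul]
  rw [sum_congr rfl fun g _ => sum_comm, sum_comm]
  refine sum_congr rfl fun a _ => ?_
  rw [sum_congr rfl fun g _ => sum_comm, sum_comm]
  exact sum_congr rfl fun b _ => sum_congr rfl fun g _ => sum_congr rfl fun k _ => by ring

theorem q_le [DecidableEq n] (hV : Psd V) (hW : Psd W) (C : n → n → ℝ) {U : n → n → ℝ} {m : ℝ}
    (h : ∀ a b, m * U a b = V a b + W a b) :
    ∑ a, ∑ b, bf V (C · a) (C · b) * W a b ≤ m ^ 2 * Qf U univ C := by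
  have e : m ^ 2 * Qf U univ C = ∑ a, ∑ b,
      (bf V (C · a) (C · b) + bf W (C · a) (C · b)) * (V a b + W a b) := by
    simp only [Qf, bf, ← sum_add_distrib, sum_mul, mul_sum]
    rw [sum_comm]
    refine sum_congr rfl fun a _ => ?_
    rw [sum_congr rfl fun g _ => sum_comm, sum_comm]
    refine sum_congr rfl fun b _ => sum_congr rfl fun g _ => sum_congr rfl fun k _ => ?_
    rw [← h a b]
    linear_combination (C g a * C k b * (m * U a b)) * h g k
  rw [e]
  simp only [add_mul, mul_add, sum_add_distrib]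
  linarith [(hV.conj C).tr_nonneg hV, (hW.conj C).tr_nonneg hV, (hW.conj C).tr_nonneg hW]

end Real

variable {D : Type u} [CStarAlgebra D] {Λ n : Type} [DecidableEq Λ] [Fintype n]
  {τ : D →ₗ[ℂ] ℂ} {r : Λ → n → D}

/-- The covariance of sums over layers. -/
noncomputable def cov (τ : D →ₗ[ℂ] ℂ) (I : Finset Λ) (a : n → Λ → D) (k k' : n) : ℝ :=
  ∑ i ∈ I, (τ (a k i * a k' i)).re

omit [DecidableEq Λ] in
theorem cov_psd (h : IsTracialState τ) (I : Finset Λ) {a : n → Λ → D}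
    (sa : ∀ k i, IsSelfAdjoint (a k i)) : Psd (cov τ I a) := by
  refine ⟨fun k k' => by simp only [cov, h.2.2 (a k _)], fun x =>
    (sum_nonneg (s := I) fun i _ => psd_of_sa h (a · i) (sa · i) univ x).trans (le_of_eq ?_)⟩
  simp only [bf, cov, mul_sum, sum_mul]
  rw [sum_comm]
  exact sum_congr rfl fun g _ => sum_comm

omit [Fintype n] in
theorem pt (h : Lay τ r) (I : Finset Λ) {a : n → Λ → D} (am : ∀ k i, a k i ∈ LG r {i})
    (a0 : ∀ k i, τ (a k i) = 0) (sa : ∀ k i, IsSelfAdjoint (a k i)) {β m : ℝ} (hβ : 0 ≤ β)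
    (an : ∀ k i, ‖a k i‖ ≤ β) (hI : (#I : ℝ) ≤ m) (k1 k2 k3 k4 : n) :
    |P3 (cov τ I a) k1 k2 k3 k4| ≤ 3 * m ^ 2 * β ^ 4 ∧
      ‖τ ((∑ i ∈ I, a k1 i) * (∑ i ∈ I, a k2 i) * (∑ i ∈ I, a k3 i) * ∑ i ∈ I, a k4 i) -
        (P3 (cov τ I a) k1 k2 k3 k4 : ℝ)‖ ≤ 4 * m * β ^ 4 := by
  have h1 : ∀ k k', |cov τ I a k k'| ≤ m * β ^ 2 := fun k k' => by
    refine (abs_sum_le_sum_abs _ _).trans ((sum_le_sum fun i _ => (Complex.abs_re_le_norm _).trans
      (((tr_st h.tr).norm_le _).trans (norm_mul_le_of_le (an k i) (an k' i)))).trans ?_)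
    rw [sum_const, nsmul_eq_mul, sq]
    gcongr
  have h2 : ∀ k k' l l', |cov τ I a k k' * cov τ I a l l'| ≤ m ^ 2 * β ^ 4 := fun k k' l l' => by
    rw [abs_mul]
    refine (mul_le_mul (h1 k k') (h1 l l') (abs_nonneg _)
      ((abs_nonneg _).trans (h1 k k'))).trans (le_of_eq (by ring))
  have h3 : ∀ k k', ∑ i ∈ I, τ (a k i * a k' i) = (cov τ I a k k' : ℝ) := fun k k' => by
    rw [cov, Complex.ofReal_sum]
    exact sum_congr rfl fun i _ => tr_sa_mul h.tr (sa k i) (sa k' i)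
  refine ⟨?_, ?_⟩
  · have := (abs_add_le _ _).trans (add_le_add ((abs_add_le _ _).trans
      (add_le_add (h2 k1 k2 k3 k4) (h2 k1 k3 k2 k4))) (h2 k1 k4 k2 k3))
    rw [P3]; linarith
  · have := h.four_point I _ _ _ _ (am k1) (am k2) (am k3) (am k4) (a0 k1) (a0 k2) (a0 k3) (a0 k4)
    simp only [h3] at this
    rw [P3]
    push_cast
    refine this.trans ?_
    have h4 : ∑ i ∈ I, ‖a k1 i‖ * ‖a k2 i‖ * ‖a k3 i‖ * ‖a k4 i‖ ≤ ∑ _i ∈ I, β * β * β * β :=
      sum_le_sum fun i _ => by gcongr <;> exact an _ _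
    rw [sum_const, nsmul_eq_mul] at h4
    have h5 : #I * (β * β * β * β) ≤ m * (β * β * β * β) := by gcongr
    nlinarith

theorem split_bound (h : Lay τ r) {I J : Finset Λ} (hIJ : Disjoint I J) {a : n → Λ → D}
    (am : ∀ k i, a k i ∈ LG r {i}) (a0 : ∀ k i, τ (a k i) = 0) (sa : ∀ k i, IsSelfAdjoint (a k i))
    {β m : ℝ} (hβ : 0 ≤ β) (an : ∀ k i, ‖a k i‖ ≤ β) (hm : 1 ≤ m) (hI : (#I : ℝ) ≤ m)
    (hJ : (#J : ℝ) ≤ m) :
    (τ ((∑ k, (∑ i ∈ I, a k i) * ∑ j ∈ J, r j k) ^ 4)).re ≤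
      9 * (∑ k, ∑ k', cov τ I a k k' * cov τ J (fun k j => r j k) k k') ^ 2 +
        (Fintype.card n : ℝ) ^ 4 * (40 * m ^ 3 * β ^ 4) := by
  set η : n → D := fun k => ∑ i ∈ I, a k i
  set γ : n → D := fun k => ∑ j ∈ J, r j k
  have hη : ∀ k, η k ∈ LG r I := fun k => sum_mem_lg I (am k)
  have hγ : ∀ k, γ k ∈ LG r J := fun k => sum_mem_lg J (mem1 · k)
  have hd : Disjoint (I : Set Λ) J := disjoint_coe.2 hIJ
  have k1 : ∀ k l y, γ k * (η l * y) = η l * (γ k * y) := fun k l =>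
    (h.commute hd.symm (hγ k) (hη l)).left_comm
  have e : (∑ k, η k * γ k) ^ 4 = ∑ k1, ∑ k2, ∑ k3, ∑ k4,
      η k1 * η k2 * η k3 * η k4 * (γ k1 * γ k2 * γ k3 * γ k4) := by
    rw [show (∑ k, η k * γ k) ^ 4 = (∑ k, η k * γ k) * ((∑ k, η k * γ k) *
      ((∑ k, η k * γ k) * ∑ k, η k * γ k)) by noncomm_ring]
    simp only [sum_mul]
    simp only [mul_sum, mul_assoc, k1]
  change (τ ((∑ k, η k * γ k) ^ 4)).re ≤ _
  have b : ∀ k1 k2 k3 k4, (τ (η k1 * η k2 * η k3 * η k4 * (γ k1 * γ k2 * γ k3 * γ k4))).re ≤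
      P3 (cov τ I a) k1 k2 k3 k4 * P3 (cov τ J fun k j => r j k) k1 k2 k3 k4 +
        40 * m ^ 3 * β ^ 4 := by
    intro k1 k2 k3 k4
    obtain ⟨p1, p2⟩ := pt h I am a0 sa hβ an hI k1 k2 k3 k4
    obtain ⟨q1, q2⟩ := pt h J (a := fun k j => r j k) (fun k j => mem1 j k) (fun k j => h.zero j k)
      (fun k j => h.sa j k) zero_le_one (fun k j => norm_r h j k) hJ k1 k2 k3 k4
    rw [h.ind _ _ hd _ (mul_mem (mul_mem (mul_mem (hη _) (hη _)) (hη _)) (hη _)) _
      (mul_mem (mul_mem (mul_mem (hγ _) (hγ _)) (hγ _)) (hγ _))]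
    change ‖τ (η k1 * η k2 * η k3 * η k4) - _‖ ≤ _ at p2
    change ‖τ (γ k1 * γ k2 * γ k3 * γ k4) - _‖ ≤ _ at q2
    generalize τ (η k1 * η k2 * η k3 * η k4) = x at p2 ⊢
    generalize τ (γ k1 * γ k2 * γ k3 * γ k4) = y at q2 ⊢
    generalize P3 (cov τ I a) k1 k2 k3 k4 = s at p1 p2 ⊢
    generalize P3 (cov τ J fun k j => r j k) k1 k2 k3 k4 = t at q1 q2 ⊢
    have y1 : ‖y‖ ≤ 7 * m ^ 2 := by
      have := norm_add_le (y - t) t
      rw [sub_add_cancel, Complex.norm_real, Real.norm_eq_abs] at this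
      nlinarith
    have y2 := norm_add_le_of_le (norm_mul_le_of_le p2 y1)
      (norm_mul_le_of_le ((Complex.norm_real s).le.trans p1) q2)
    have y3 := (Complex.re_le_norm _).trans y2
    rw [show (x - s) * y + s * (y - t) = x * y - ((s * t : ℝ) : ℂ) by push_cast; ring,
      Complex.sub_re, Complex.ofReal_re] at y3
    nlinarith
  rw [e]
  simp only [map_sum, Complex.re_sum]
  refine (sum_le_sum fun k1 _ => sum_le_sum fun k2 _ => sum_le_sum fun k3 _ =>
    sum_le_sum fun k4 _ => b k1 k2 k3 k4).trans ?_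
  simp only [sum_add_distrib, sum_const, card_univ, nsmul_eq_mul]
  exact add_le_add (p3_le (cov_psd h.tr I sa) (cov_psd h.tr J fun k j => h.sa j k))
    (le_of_eq (by ring_nf))

theorem core [DecidableEq n] (h : Lay τ r) {L : Finset Λ} (hL : L.Nonempty) (C : n → n → ℝ) {b : ℝ}
    (hb : 0 ≤ b) (hC : ∀ g k, |C g k| ≤ b) :
    (τ (Y0 r L univ C ^ 4)).re ≤ 2304 * Qf (Wbar τ r L) univ C ^ 2 +
      10240 * (Fintype.card n : ℝ) ^ 8 * b ^ 4 / #L := by
  have hm : (1 : ℝ) ≤ #L := by exact_mod_cast card_pos.2 hL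
  have e : Y0 r L univ C = ∑ i ∈ L, ∑ j ∈ L.erase i,
      (#L : ℝ)⁻¹ • ∑ k, (∑ g, C g k • r i g) * r j k := by
    simp only [Y0, Zel, smul_sum, sum_mul, smul_mul_assoc]
    rw [sum_comm, sum_congr rfl fun k _ => sum_comm, sum_comm]
    refine sum_congr rfl fun i _ => ?_
    rw [sum_congr rfl fun k _ => sum_comm, sum_comm]
    exact sum_congr rfl fun j _ => sum_congr rfl fun k _ => sum_congr rfl fun g _ => smul_comm _ _ _
  have sa : ∀ k i, IsSelfAdjoint (∑ g, C g k • r i g) := fun k i =>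
    isSelfAdjoint_sum _ fun g _ => (IsSelfAdjoint.all _).smul (h.sa i g)
  have am : ∀ k i, ∑ g, C g k • r i g ∈ LG r {i} := fun k i => sum_mem fun g _ => by
    rw [← Complex.coe_smul]; exact SMulMemClass.smul_mem _ (mem1 i g)
  rw [e, offdiag_eq]
  refine fourth_avg h.tr _ (powerset_nonempty L) _ (fun I => (IsSelfAdjoint.all _).smul
    (isSelfAdjoint_sum _ fun i hi => isSelfAdjoint_sum _ fun j hj => (IsSelfAdjoint.all _).smul
      (isSelfAdjoint_sum _ fun k _ => ?_))) fun I hI => ?_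
  · have : i ≠ j := fun e => (Finset.mem_sdiff.1 hj).2 (e ▸ hi)
    rw [IsSelfAdjoint, star_mul, (sa k i).star_eq, (h.sa j k).star_eq,
      (h.commute (Set.disjoint_singleton.2 this) (am k i) (mem1 j k)).eq]
  have hIL := mem_powerset.1 hI
  have e2 : (4 : ℝ) • ∑ i ∈ I, ∑ j ∈ L \ I, (#L : ℝ)⁻¹ • ∑ k, (∑ g, C g k • r i g) * r j k =
      (4 * (#L : ℝ)⁻¹) • ∑ k, (∑ i ∈ I, ∑ g, C g k • r i g) * ∑ j ∈ L \ I, r j k := by
    simp only [← smul_sum, smul_smul, sum_mul_sum]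
    rw [sum_congr rfl fun i _ => sum_comm, sum_comm]
  have b1 := split_bound h (I := I) (J := L \ I) disjoint_sdiff am
    (fun k i => by simp [map_sum, tr_rsmul, h.zero]) sa (β := Fintype.card n * b) (by positivity)
    (fun k i => (norm_sum_le_of_le _ fun g _ => show _ ≤ b by
      rw [norm_smul, Real.norm_eq_abs]
      exact (mul_le_of_le_one_right (abs_nonneg _) (norm_r h i g)).trans (hC g k)).trans (by simp))
    hm (by exact_mod_cast card_le_card hIL) (by exact_mod_cast card_le_card sdiff_subset)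
  have e3 : ∀ k k', cov τ I (fun k i => ∑ g, C g k • r i g) k k' =
      bf (cov τ I fun k j => r j k) (C · k) (C · k') := fun k k' => by
    simp only [cov, bf, sum_mul_sum, map_sum, Complex.re_sum, smul_mul_smul_comm, tr_rsmul,
      Complex.re_ofReal_mul]
    simp only [mul_sum, sum_mul]
    rw [sum_comm]
    refine sum_congr rfl fun g _ => ?_
    rw [sum_comm]
    exact sum_congr rfl fun g' _ => sum_congr rfl fun i _ => by ring
  have p1 := cov_psd h.tr I fun k j => h.sa j k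
  have p2 := cov_psd h.tr (L \ I) fun k j => h.sa j k
  have b2 := q_le p1 p2 C (U := Wbar τ r L) (m := #L) fun g k => by
    rw [wbar_eq, mul_inv_cancel_left₀ (by positivity), ← sum_sdiff hIL, add_comm]; rfl
  simp only [e3] at b1
  have b3 := pow_le_pow_left₀ ((p1.conj C).tr_nonneg p2) b2 2
  rw [e2, smul_pow, tr_rsmul, Complex.re_ofReal_mul]
  refine (mul_le_mul_of_nonneg_left (b1.trans (add_le_add
    (mul_le_mul_of_nonneg_left b3 (by norm_num)) le_rfl)) (by positivity)).trans (le_of_eq ?_)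
  field_simp
  ring

end Chaos4Aux

theorem y0_fourth (N : ℕ) (b ε : ℝ) (hε : 0 < ε) : ∃ m₀ : ℕ, ∀ (D : Type u) [CStarAlgebra D]
    (Λ κ : Type) [DecidableEq Λ] [DecidableEq κ] (τ : D →ₗ[ℂ] ℂ) (r : Λ → κ → D), Lay τ r →
      ∀ (L : Finset Λ) (K : Finset κ) (C : κ → κ → ℝ), m₀ ≤ #L → #K ≤ N →
        (∀ g k, |C g k| ≤ b) →
        (τ (Y0 r L K C ^ 4)).re ≤ 2304 * Qf (Wbar τ r L) K C ^ 2 + ε := by
  obtain ⟨m, hm⟩ := exists_nat_ge (10240 * (N : ℝ) ^ 8 * |b| ^ 4 / ε)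
  refine ⟨m + 1, fun D _ Λ κ _ _ τ r h L K C hL hK hC => ?_⟩
  have hL' : (0 : ℝ) < #L := by exact_mod_cast (by omega)
  have := Chaos4Aux.core (h.comp (Subtype.val : K → κ)) (L := L) (card_pos.1 (by omega))
    (fun g k => C g k) (abs_nonneg b) fun g k => (hC g k).trans (le_abs_self b)
  have e1 : Y0 (fun i (g : K) => r i g) L univ (fun g k => C g k) = Y0 r L K C := by
    rw [Y0, Y0, ← sum_coe_sort K]
    exact sum_congr rfl fun g _ => sum_coe_sort K fun k => C g k • Zel r L g k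
  have e2 : Qf (Wbar τ (fun i (g : K) => r i g) L) univ (fun g k => C g k) =
      Qf (Wbar τ r L) K C := by
    simp only [Qf, ← sum_coe_sort K]
    rfl
  rw [e1, e2, Fintype.card_coe] at this
  refine this.trans (add_le_add le_rfl ?_)
  rw [div_le_iff₀ hε] at hm
  rw [div_le_iff₀ hL']
  have h1 : (#K : ℝ) ≤ N := by exact_mod_cast hK
  have h2 : (m : ℝ) ≤ #L := by exact_mod_cast (by omega)
  calc 10240 * (#K : ℝ) ^ 8 * |b| ^ 4 ≤ 10240 * (N : ℝ) ^ 8 * |b| ^ 4 := by gcongr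
    _ ≤ m * ε := hm
    _ ≤ ε * #L := by rw [mul_comm]; gcongr

end Vale.Agent.P095
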