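import Vale.Agent.P095.Tr

/-! Exponentials and rotations. -/

namespace Vale.Agent.P095
open Vale.Agent.P101 Vale.Agent.P101.JS Filter Topology Finset
open scoped ComplexOrder BoundedContinuousFunction symmDiff

universe u
variable {B : Type u} [CStarAlgebra B] {τ : B →ₗ[ℂ] ℂ}

theorem norm_unitary_le {w : B} (h : w ∈ unitary B) : ‖w‖ ≤ 1 := by
  rw [← mul_one w, CStarRing.norm_mem_unitary_mul _ h]
  exact norm_one_le'

namespace ExAux

theorem deriv (x : B) (t : ℝ) : HasDerivAt (fun s => ex s x) (ex t x * Complex.I • x) t := by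
  have e : ∀ s : ℝ, ex s x = NormedSpace.exp (s • Complex.I • x) := fun s => by
    rw [ex, mul_comm, mul_smul, Complex.coe_smul]
  simp only [e]
  exact hasDerivAt_exp_smul_const _ t

theorem comm (x : B) (t : ℝ) : Commute (ex t x) x := ((Commute.refl x).smul_left _).exp_left

theorem st {σ : B →ₗ[ℂ] ℂ} (hs : IsSt σ) {f : ℝ → B} {f' : B} {t : ℝ} (h : HasDerivAt f f' t) :
    HasDerivAt (fun s => σ (f s)) (σ f') t :=
  ((⟨σ, hs.continuous⟩ : B →L[ℂ] ℂ).restrictScalars ℝ).hasFDerivAt.comp_hasDerivAt t h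

theorem mv {f f' : ℝ → ℂ} (h : ∀ t, HasDerivAt f (f' t) t) {θ C : ℝ} (hθ : 0 ≤ θ)
    (hb : ∀ t ∈ Set.Ico 0 θ, ‖f' t‖ ≤ C) : ‖f θ - f 0‖ ≤ C * θ := by
  simpa using norm_image_sub_le_of_norm_deriv_le_segment'
    (fun t _ => (h t).hasDerivWithinAt) hb θ ⟨hθ, le_rfl⟩

end ExAux

theorem ex_unitary (θ : ℝ) {x : B} (hx : IsSelfAdjoint x) : ex θ x ∈ unitary B := by
  let := NormedAlgebra.restrictScalars ℚ ℂ B
  refine NormedSpace.exp_mem_unitary_of_mem_skewAdjoint (skewAdjoint.mem_iff.2 ?_)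
  rw [star_smul, hx.star_eq, ← neg_smul]
  simp

theorem ex_pow (θ : ℝ) (x : B) (k : ℕ) : ex θ x ^ k = ex (k * θ) x := by
  let := NormedAlgebra.restrictScalars ℚ ℂ B
  rw [ex, ex, ← NormedSpace.exp_nsmul, ← Nat.cast_smul_eq_nsmul ℂ, smul_smul]
  push_cast
  rw [mul_left_comm]

theorem map_ex {D : Type*} [CStarAlgebra D] (φ : D →⋆ₐ[ℂ] B) (θ : ℝ) (x : D) :
    φ (ex θ x) = ex θ (φ x) := by
  let := NormedAlgebra.restrictScalars ℚ ℂ B
  let := NormedAlgebra.restrictScalars ℚ ℂ D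
  rw [ex, ex, NormedSpace.map_exp φ (AddMonoidHomClass.continuous_of_bound φ 1 fun x => by
    simpa using NonUnitalStarAlgHom.norm_apply_le φ x), map_smul]

theorem ex_mem_gen {S : Set B} (θ : ℝ) {x : B} (hx : x ∈ Gen S) : ex θ x ∈ Gen S := by
  rw [ex, NormedSpace.exp_eq_tsum ℂ]
  exact tsum_mem (gen_closed S) fun n => SMulMemClass.smul_mem _
    (pow_mem (SMulMemClass.smul_mem _ hx) n)

theorem n2_ex_sub (h : IsTracialState τ) (θ : ℝ) {x y : B} (hx : IsSelfAdjoint x)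
    (hy : IsSelfAdjoint y) : n2 τ (ex θ x - ex θ y) ≤ |θ| * n2 τ (x - y) := by
  have hs := tr_st h
  set w := ex θ x - ex θ y with hw
  have key : ∀ θ : ℝ, 0 ≤ θ → ∀ x y : B, IsSelfAdjoint x → IsSelfAdjoint y →
      ‖τ (star w * (ex θ x - ex θ y))‖ ≤ n2 τ w * n2 τ (x - y) * θ := by
    intro θ hθ x y hx hy
    have d : ∀ t : ℝ, HasDerivAt (fun t => τ (star w * (ex t x * ex (θ - t) y)))
        (τ (star w * (ex t x * (Complex.I • (x - y)) * ex (θ - t) y))) t := fun t => by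
      have d1 := (ExAux.deriv y (θ - t)).scomp t ((hasDerivAt_id t).const_sub θ)
      refine ExAux.st hs (HasDerivAt.const_mul _ ?_)
      refine ((ExAux.deriv x t).mul d1).congr_deriv (Eq.symm ?_)
      rw [(ExAux.comm y (θ - t)).smul_right Complex.I, smul_sub, mul_sub, sub_mul]
      simp [sub_eq_add_neg, mul_assoc]
    have := ExAux.mv d hθ (C := n2 τ w * n2 τ (x - y)) fun t _ => (n2_cs hs _ _).trans <| by
      refine mul_le_mul_of_nonneg_left ?_ (n2_nonneg _ _)
      refine (n2_mul_right h _ _).trans ((mul_le_of_le_one_right (n2_nonneg _ _)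
        (norm_unitary_le (ex_unitary _ hy))).trans ((n2_mul_left hs _ _).trans ?_))
      rw [n2_smul hs, Complex.norm_I, one_mul]
      exact mul_le_of_le_one_left (n2_nonneg _ _) (norm_unitary_le (ex_unitary _ hx))
    simpa [ex, ← map_sub, ← mul_sub] using this
  have h2 : ‖τ (star w * w)‖ ≤ n2 τ w * n2 τ (x - y) * |θ| := by
    rcases le_total 0 θ with hθ | hθ
    · rw [abs_of_nonneg hθ]; exact key θ hθ x y hx hy
    · have := key (-θ) (neg_nonneg.2 hθ) (-x) (-y) hx.neg hy.neg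
      rw [neg_sub_neg, n2_sub_comm τ y x] at this
      simpa [ex, abs_of_nonpos hθ, hw] using this
  rw [hs.norm_eq] at h2
  rcases (n2_nonneg τ w).eq_or_lt with h0 | h0
  · rw [← h0]; exact mul_nonneg (abs_nonneg _) (n2_nonneg _ _)
  · nlinarith

/-- A centred variable with variance about `2` and bounded fourth moment is not degenerate. -/
theorem char_bound (M : ℝ) : ∃ θ₀ : ℝ, 0 < θ₀ ∧ ∀ (D : Type u) [CStarAlgebra D]
    (σ : D →ₗ[ℂ] ℂ) (x : D), IsSt σ → IsSelfAdjoint x → σ x = 0 → 1 ≤ (σ (x ^ 2)).re →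
      (σ (x ^ 2)).re ≤ 3 → (σ (x ^ 4)).re ≤ M → ∀ θ, 0 ≤ θ → θ ≤ θ₀ →
        ‖σ (ex θ x)‖ ≤ 1 - θ ^ 2 / 4 := by
  refine ⟨1 / (4 * (3 + |M|)), by positivity, fun D _ σ x hs hx h0 h1 h3 h4 θ hθ hθ' => ?_⟩
  set C := 3 + |M| with hC
  have hC3 : 3 ≤ C := le_add_of_nonneg_right (abs_nonneg M)
  have d : ∀ (k : ℕ) (t : ℝ), HasDerivAt (fun t => σ ((Complex.I • x) ^ k * ex t x))
      (σ ((Complex.I • x) ^ (k + 1) * ex t x)) t := fun k t => by
    refine ExAux.st hs ?_
    convert (ExAux.deriv x t).const_mul ((Complex.I • x) ^ k) using 1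
    rw [(ExAux.comm x t).smul_right Complex.I, pow_succ, mul_assoc]
  have b3 : ∀ t, ‖σ ((Complex.I • x) ^ 3 * ex t x)‖ ≤ C := fun t => by
    have e : (Complex.I • x) ^ 3 * ex t x = Complex.I ^ 3 • (star x * (ex t x * x ^ 2)) := by
      rw [smul_pow, smul_mul_assoc, (ExAux.comm x t).pow_right, hx.star_eq, ← mul_assoc, ← pow_succ']
    have a1 := n2_sq hs x
    have a2 := n2_sq hs (x ^ 2)
    rw [hx.star_eq, ← sq] at a1
    rw [(hx.pow 2).star_eq, ← pow_add] at a2
    have a3 := (n2_mul_left hs (ex t x) (x ^ 2)).trans (mul_le_of_le_one_left (n2_nonneg _ _)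
      (norm_unitary_le (ex_unitary t hx)))
    rw [e, map_smul, norm_smul, norm_pow, Complex.norm_I, one_pow, one_mul]
    refine (n2_cs hs _ _).trans ((mul_le_mul_of_nonneg_left a3 (n2_nonneg _ _)).trans ?_)
    nlinarith [sq_nonneg (n2 σ x - n2 σ (x ^ 2)), le_abs_self M]
  set v := (σ (x ^ 2)).re
  have hv : σ (x ^ 2) = v := Complex.ext rfl (hs.im_sa (hx.pow 2))
  have b2 : ∀ t, 0 ≤ t → ‖σ ((Complex.I • x) ^ 2 * ex t x) + v‖ ≤ C * t := fun t ht => by
    simpa [ex, smul_pow, hv] using ExAux.mv (d 2) ht fun s _ => b3 s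
  have b1 : ∀ t, 0 ≤ t → ‖σ ((Complex.I • x) ^ 1 * ex t x) + v * t‖ ≤ C * t * t := fun t ht => by
    have := ExAux.mv (fun s => (d 1 s).add ((hasDerivAt_id s).ofReal_comp.const_mul (v : ℂ))) ht
      (C := C * t) fun s hs => by
        simpa using (b2 s hs.1).trans (mul_le_mul_of_nonneg_left hs.2.le (by linarith))
    simpa [ex, h0] using this
  have b0 := ExAux.mv (fun s => (d 0 s).add
    (((hasDerivAt_id s).ofReal_comp.pow 2).const_mul ((v : ℂ) / 2))) hθ (C := C * θ * θ)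
    fun s hs => by
      refine le_trans (le_of_eq ?_) ((b1 s hs.1).trans ?_)
      · congr 2
        simp
        ring
      · have := hs.1
        have := hs.2.le
        gcongr
  have e : σ (ex θ x) = (σ (ex θ x) + v / 2 * θ ^ 2 - 1) + ((1 - v / 2 * θ ^ 2 : ℝ) : ℂ) := by
    push_cast
    ring
  have b4 : ‖σ (ex θ x) + v / 2 * θ ^ 2 - 1‖ ≤ C * θ * θ * θ := by
    simpa [ex, hs.1] using b0
  have a1 : C * θ ≤ 1 / 4 := by
    rw [le_div_iff₀ (by positivity)] at hθ'
    linarith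
  have a2 : θ ≤ 1 / 12 := by nlinarith
  rw [e]
  refine (norm_add_le _ _).trans ?_
  rw [Complex.norm_real, Real.norm_of_nonneg (by nlinarith)]
  nlinarith [mul_le_mul_of_nonneg_right a1 (sq_nonneg θ), mul_le_mul_of_nonneg_right h1 (sq_nonneg θ)]

/-- Telescoping for products of contractions. -/
theorem n2_prod_sub (h : IsTracialState τ) {ι : Type*} (l : List ι) (a b : ι → B)
    (ha : ∀ i, ‖a i‖ ≤ 1) (hb : ∀ i, ‖b i‖ ≤ 1) :
    n2 τ ((l.map a).prod - (l.map b).prod) ≤ (l.map fun i => n2 τ (a i - b i)).sum := by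
  induction l with
  | nil => simp [n2_zero]
  | cons i l ih =>
    have hl : ‖(l.map a).prod‖ ≤ 1 := by
      clear ih
      induction l with
      | nil => exact norm_one_le'
      | cons j l ih =>
        rw [List.map_cons, List.prod_cons]
        exact (norm_mul_le _ _).trans (mul_le_one₀ (ha j) (norm_nonneg _) ih)
    simp only [List.map_cons, List.prod_cons, List.sum_cons]
    refine (n2_triangle (tr_st h) _ (b i * (l.map a).prod) _).trans (add_le_add ?_ ?_)
    · rw [← sub_mul]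
      exact (n2_mul_right h _ _).trans (mul_le_of_le_one_right (n2_nonneg _ _) hl)
    · rw [← mul_sub]
      exact (n2_mul_left (tr_st h) _ _).trans
        ((mul_le_of_le_one_left (n2_nonneg _ _) (hb i)).trans ih)

end Vale.Agent.P095
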