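import Vale.Agent.P095.TDefs

/-! Powers-Stormer: polynomial square roots of covariance operators. -/

namespace Vale.Agent.P095
open Vale.Agent.P101 Vale.Agent.P101.JS Filter Topology Finset
open scoped ComplexOrder BoundedContinuousFunction symmDiff

universe u

namespace MatPSAux
open Matrix

section
variable {n : Type} [Fintype n] [DecidableEq n]

/-- Functions of the eigenvalues. -/
noncomputable def fc (U : unitary (Matrix n n ℝ)) : (n → ℝ) →ₐ[ℝ] Matrix n n ℝ :=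
  (Unitary.conjStarAlgAut ℝ _ U).toAlgEquiv.toAlgHom.comp (Matrix.diagonalAlgHom ℝ)

theorem fc_apply (U : unitary (Matrix n n ℝ)) (f : n → ℝ) :
    fc U f = (U : Matrix n n ℝ) * diagonal f * star (U : Matrix n n ℝ) := rfl

theorem fc_spec {A : Matrix n n ℝ} (hA : A.IsHermitian) : ∃ U, A = fc U hA.eigenvalues :=
  ⟨hA.eigenvectorUnitary, hA.spectral_theorem⟩

theorem fc_psd (U : unitary (Matrix n n ℝ)) {f : n → ℝ} (hf : ∀ i, 0 ≤ f i) :
    (fc U f).PosSemidef :=
  (PosSemidef.diagonal hf).mul_mul_conjTranspose_same _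

theorem fc_herm (U : unitary (Matrix n n ℝ)) (f : n → ℝ) : (fc U f).IsHermitian := by
  rw [fc_apply]
  exact isHermitian_mul_mul_conjTranspose _ (isHermitian_diagonal f)

theorem fc_trace (U : unitary (Matrix n n ℝ)) (f : n → ℝ) : (fc U f).trace = ∑ i, f i := by
  rw [fc_apply, trace_mul_cycle, Unitary.coe_star_mul_self, Matrix.one_mul, trace_diagonal]

theorem fc_trace_mul (U : unitary (Matrix n n ℝ)) {f : n → ℝ} (hf : ∀ i, 0 ≤ f i)
    {B : Matrix n n ℝ} (hB : B.PosSemidef) : 0 ≤ (fc U f * B).trace := by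
  rw [fc_apply, Matrix.mul_assoc, Matrix.mul_assoc, trace_mul_comm, Matrix.mul_assoc]
  refine Finset.sum_nonneg fun i _ => ?_
  rw [diag_apply, diagonal_mul]
  exact mul_nonneg (hf i) (hB.conjTranspose_mul_mul_same (U : Matrix n n ℝ)).diag_nonneg

omit [DecidableEq n] in
theorem trace_sq {X : Matrix n n ℝ} (hX : X.IsHermitian) :
    (X * X).trace = ∑ i, ∑ j, X i j ^ 2 := by
  refine Finset.sum_congr rfl fun i _ => Finset.sum_congr rfl fun j _ => ?_
  have : X j i = X i j := by simpa using hX.apply i j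
  show X i j * X j i = _
  rw [this, sq]

omit [DecidableEq n] in
theorem trace_sq_three {X Y Z : Matrix n n ℝ} (hX : X.IsHermitian) (hY : Y.IsHermitian)
    (hZ : Z.IsHermitian) : ((X + Y + Z) * (X + Y + Z)).trace ≤
      3 * ((X * X).trace + (Y * Y).trace + (Z * Z).trace) := by
  rw [trace_sq ((hX.add hY).add hZ), trace_sq hX, trace_sq hY, trace_sq hZ]
  simp only [← Finset.sum_add_distrib, Finset.mul_sum, Matrix.add_apply]
  refine Finset.sum_le_sum fun i _ => Finset.sum_le_sum fun j _ => ?_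
  nlinarith [sq_nonneg (X i j - Y i j), sq_nonneg (Y i j - Z i j), sq_nonneg (X i j - Z i j)]

theorem powers_stormer {a b R : Matrix n n ℝ} (ha : a.PosSemidef) (hb : b.PosSemidef)
    (hR : R.IsHermitian) (hd : ∀ g, (R * R) g g = 1) (w : n → ℝ)
    (h : a * a - b * b = R * diagonal w * R) : ((a - b) * (a - b)).trace ≤ ∑ g, |w g| := by
  obtain ⟨U, hU⟩ := fc_spec (ha.1.sub hb.1)
  set μ := (ha.1.sub hb.1).eigenvalues
  let s : n → ℝ := fun i => if 0 ≤ μ i then 1 else -1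
  have hs : ∀ i, s i * μ i = |μ i| := by
    intro i
    simp only [s]
    split_ifs with h1
    · rw [one_mul, abs_of_nonneg h1]
    · rw [abs_of_neg (not_le.1 h1)]; ring
  have h1 := fc_trace_mul U (f := s * μ - μ) (fun i => by
    simp only [Pi.sub_apply, Pi.mul_apply, hs]; linarith [le_abs_self (μ i)]) ha
  have h2 := fc_trace_mul U (f := s * μ + μ) (fun i => by
    simp only [Pi.add_apply, Pi.mul_apply, hs]; linarith [neg_abs_le (μ i)]) hb
  rw [map_sub, map_mul, ← hU, Matrix.sub_mul, trace_sub] at h1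
  rw [map_add, map_mul, ← hU, Matrix.add_mul, trace_add] at h2
  have h3 : fc U s * (a - b) = (a - b) * fc U s := by
    rw [hU, ← map_mul, ← map_mul, mul_comm]
  have h4 : (fc U s * (a * b)).trace = (fc U s * (b * a)).trace := by
    rw [← trace_transpose, ← conjTranspose_eq_transpose_of_trivial, conjTranspose_mul,
      conjTranspose_mul, (fc_herm U s).eq, ha.1.eq, hb.1.eq, trace_mul_comm]
  have h5 : ((a - b) * (a - b)).trace ≤ (fc U s * (a * a - b * b)).trace := by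
    simp only [Matrix.mul_sub, Matrix.sub_mul, trace_sub, Matrix.mul_assoc] at h1 h2 ⊢
    linarith
  refine h5.trans ?_
  rw [h, ← Matrix.mul_assoc, ← Matrix.mul_assoc, trace_mul_comm, ← Matrix.mul_assoc,
    ← Matrix.mul_assoc]
  refine Finset.sum_le_sum fun g _ => ?_
  rw [diag_apply, mul_diagonal]
  have h6 := ((fc_psd U (f := 1 - s) fun i => by
    simp only [s, Pi.sub_apply, Pi.one_apply]; split_ifs <;> norm_num
    ).mul_mul_conjTranspose_same R).diag_nonneg (i := g)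
  have h7 := ((fc_psd U (f := 1 + s) fun i => by
    simp only [s, Pi.add_apply, Pi.one_apply]; split_ifs <;> norm_num
    ).mul_mul_conjTranspose_same R).diag_nonneg (i := g)
  rw [hR.eq, map_sub, map_one, Matrix.mul_sub, Matrix.sub_mul, Matrix.mul_one, Matrix.sub_apply,
    hd] at h6
  rw [hR.eq, map_add, map_one, Matrix.mul_add, Matrix.add_mul, Matrix.mul_one, Matrix.add_apply,
    hd] at h7
  refine (le_abs_self _).trans ?_
  rw [abs_mul]
  exact mul_le_of_le_one_left (abs_nonneg _) (abs_le.2 ⟨by linarith, by linarith⟩)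

theorem poly_root {T : Matrix n n ℝ} (hT : T.PosSemidef) (h1 : T.trace = 1) {c : ℕ → ℝ} {d : ℕ}
    {η : ℝ} (hη : η ≤ 1) (hp : ∀ x ∈ Set.Icc (0 : ℝ) 1, |∑ k ∈ range d, c k * x ^ (k + 1) - √x| ≤ η) :
    ∃ a : Matrix n n ℝ, a.PosSemidef ∧ a * a = T ∧
      (∑ k ∈ range d, c k • T ^ (k + 1)).IsHermitian ∧
      ((∑ k ∈ range d, c k • T ^ (k + 1) - a) * (∑ k ∈ range d, c k • T ^ (k + 1) - a)).trace ≤
        Fintype.card n * η ^ 2 ∧
      |((∑ k ∈ range d, c k • T ^ (k + 1)) * (∑ k ∈ range d, c k • T ^ (k + 1))).trace - 1| ≤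
        Fintype.card n * (3 * η) := by
  obtain ⟨U, hU⟩ := fc_spec hT.1
  have h0 := hT.eigenvalues_nonneg
  set l := hT.1.eigenvalues
  rw [hU, fc_trace] at h1
  have hl : ∀ i, l i ∈ Set.Icc (0 : ℝ) 1 := fun i =>
    ⟨h0 i, h1 ▸ Finset.single_le_sum (fun j _ => h0 j) (Finset.mem_univ i)⟩
  have h2 : ∑ k ∈ range d, c k • T ^ (k + 1) =
      fc U fun i => ∑ k ∈ range d, c k * l i ^ (k + 1) := by
    rw [hU]
    simp only [← map_pow, ← map_smul, ← map_sum]
    congr 1
    funext i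
    simp
  rw [h2]
  refine ⟨fc U fun i => √(l i), fc_psd U fun i => Real.sqrt_nonneg _, ?_, fc_herm _ _, ?_, ?_⟩
  · rw [← map_mul, hU]
    congr 1
    funext i
    exact Real.mul_self_sqrt (h0 i)
  · rw [← map_sub, ← map_mul, fc_trace, ← Finset.card_univ, ← nsmul_eq_mul]
    refine Finset.sum_le_card_nsmul _ _ _ fun i _ => ?_
    rw [Pi.mul_apply, ← sq, ← sq_abs]
    exact pow_le_pow_left₀ (abs_nonneg _) (hp _ (hl i)) 2
  · rw [← map_mul, fc_trace, ← h1, ← Finset.sum_sub_distrib, ← Finset.card_univ, ← nsmul_eq_mul]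
    refine (Finset.abs_sum_le_sum_abs _ _).trans (Finset.sum_le_card_nsmul _ _ _ fun i _ => ?_)
    obtain ⟨h3, h4⟩ := abs_le.1 (hp _ (hl i))
    have h5 := Real.mul_self_sqrt (h0 i)
    have h6 := Real.sqrt_nonneg (l i)
    have h7 : √(l i) ≤ 1 := Real.sqrt_le_one.2 (hl i).2
    rw [Pi.mul_apply, abs_le]
    set y := ∑ k ∈ range d, c k * l i ^ (k + 1)
    have h8 : 0 ≤ η := by linarith
    have h9 : (y - √(l i)) ^ 2 ≤ η ^ 2 := sq_le_sq' h3 h4
    constructor <;> nlinarith [sq_nonneg (y - √(l i))]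

end

variable {κ : Type} [DecidableEq κ]

/-- The kernel as a matrix. -/
def Mw (W : κ → κ → ℝ) (F : Finset κ) : Matrix F F ℝ := Matrix.of fun g h => W g h

omit [DecidableEq κ] in
theorem mw_apply (W : κ → κ → ℝ) (F : Finset κ) (g h : F) : Mw W F g h = W g h := rfl

/-- The uniform weight on `K`. -/
noncomputable def wt (K F : Finset κ) (g : F) : ℝ := if g.1 ∈ K then (#K : ℝ)⁻¹ else 0

theorem pw_eq (W : κ → κ → ℝ) {K F : Finset κ} (hKF : K ⊆ F) (k : ℕ) (g h : F) :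
    ((diagonal (wt K F) * Mw W F) ^ k * diagonal (wt K F)) g h =
      if g.1 ∈ K ∧ h.1 ∈ K then Pw W K k g h else 0 := by
  induction k generalizing g with
  | zero =>
    rw [pow_zero, Matrix.one_mul, diagonal_apply, Pw, wt]
    by_cases hgh : g = h
    · subst hgh; simp
    · have : g.1 ≠ h.1 := fun e => hgh (Subtype.ext e)
      simp [hgh, this]
  | succ k ih =>
    rw [pow_succ', Matrix.mul_assoc, Matrix.mul_assoc, diagonal_mul, Matrix.mul_apply, Pw, wt]
    simp only [ih, mw_apply]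
    rw [Finset.sum_coe_sort F fun g' => W g g' * if g' ∈ K ∧ h.1 ∈ K then Pw W K k g' h else 0]
    by_cases hg : g.1 ∈ K
    · by_cases hh : h.1 ∈ K
      · simp [hg, hh, Finset.inter_eq_right.2 hKF]
      · simp [hh]
    · simp [hg]

theorem cf_eq (W : κ → κ → ℝ) {K F : Finset κ} (hKF : K ⊆ F) (c : ℕ → ℝ) (d : ℕ) :
    Mw (Cf c d W K) F =
      ∑ k ∈ range d, c k • ((diagonal (wt K F) * Mw W F) ^ k * diagonal (wt K F)) := by
  ext g h
  simp only [Matrix.sum_apply, Matrix.smul_apply, pw_eq W hKF, mw_apply, Cf]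
  split_ifs <;> simp

omit [DecidableEq κ] in
theorem mw_herm {W : κ → κ → ℝ} (hW : Corr W) (F : Finset κ) : (Mw W F).IsHermitian := by
  ext g h; exact hW.symm _ _

theorem mw_psd {W : κ → κ → ℝ} (hW : Corr W) (F : Finset κ) : (Mw W F).PosSemidef := by
  refine PosSemidef.of_dotProduct_mulVec_nonneg (mw_herm hW F) fun x => ?_
  have h := hW.psd F fun g => if hg : g ∈ F then x ⟨g, hg⟩ else 0
  rw [← Finset.sum_coe_sort] at h
  simp only [← Finset.sum_coe_sort F] at h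
  simpa [dotProduct, mulVec, Mw, Finset.mul_sum, mul_assoc] using h

theorem cf_herm {W : κ → κ → ℝ} (hW : Corr W) {K F : Finset κ} (hKF : K ⊆ F) (c : ℕ → ℝ) (d : ℕ) :
    (Mw (Cf c d W K) F).IsHermitian := by
  rw [cf_eq W hKF, IsHermitian, conjTranspose_sum]
  refine Finset.sum_congr rfl fun k _ => ?_
  rw [conjTranspose_smul, star_trivial, conjTranspose_mul, conjTranspose_pow, conjTranspose_mul,
    (mw_herm hW F).eq, (isHermitian_diagonal _).eq, mul_pow_mul]

omit [DecidableEq κ] in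
theorem qf_eq {W C : κ → κ → ℝ} (hW : Corr W) {F : Finset κ} (hC : (Mw C F).IsHermitian)
    {R : Matrix F F ℝ} (hR : R * R = Mw W F) :
    Qf W F C = ((R * Mw C F * R) * (R * Mw C F * R)).trace := by
  have h1 : ((R * Mw C F * R) * (R * Mw C F * R)).trace =
      (Mw C F * (Mw W F * (Mw C F * Mw W F))).trace := by
    rw [← hR]
    simp only [Matrix.mul_assoc]
    rw [trace_mul_comm]
    simp only [Matrix.mul_assoc]
  rw [h1, Qf, ← Finset.sum_coe_sort]
  simp only [← Finset.sum_coe_sort F, trace, diag_apply, Matrix.mul_apply, Finset.mul_sum]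
  refine Finset.sum_congr rfl fun g _ => Finset.sum_congr rfl fun h _ => ?_
  rw [Finset.sum_comm]
  refine Finset.sum_congr rfl fun h' _ => Finset.sum_congr rfl fun g' _ => ?_
  have h2 : C h' g' = C g' h' := by simpa [Mw] using hC.apply g' h'
  simp only [Mw, Matrix.of_apply, h2, hW.symm g' g]
  ring

theorem conj_cf {W : κ → κ → ℝ} {K F : Finset κ} (hKF : K ⊆ F) (c : ℕ → ℝ) (d : ℕ)
    {R : Matrix F F ℝ} (hR : R * R = Mw W F) : R * Mw (Cf c d W K) F * R =
      ∑ k ∈ range d, c k • (R * diagonal (wt K F) * R) ^ (k + 1) := by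
  rw [cf_eq W hKF, Finset.mul_sum, Finset.sum_mul]
  refine Finset.sum_congr rfl fun k hk => ?_
  rw [Matrix.mul_smul, Matrix.smul_mul, ← hR]
  congr 1
  clear hk
  induction k with
  | zero => simp
  | succ k ih =>
    rw [pow_succ' (R * diagonal (wt K F) * R), ← ih, pow_succ']
    simp only [Matrix.mul_assoc]

theorem tr_one {W : κ → κ → ℝ} (hW : Corr W) {K F : Finset κ} (hKF : K ⊆ F) (hK : 0 < #K)
    {R : Matrix F F ℝ} (hR : R * R = Mw W F) : (R * diagonal (wt K F) * R).trace = 1 := by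
  rw [trace_mul_cycle, hR]
  simp only [trace, diag_apply, mul_diagonal, Mw, Matrix.of_apply, hW.diag, one_mul, wt]
  rw [Finset.sum_coe_sort F fun g => if g ∈ K then (#K : ℝ)⁻¹ else 0]
  have : (#K : ℝ) ≠ 0 := by exact_mod_cast hK.ne'
  simp [Finset.inter_eq_right.2 hKF, this]

theorem exists_root {W : κ → κ → ℝ} (hW : Corr W) (F : Finset κ) :
    ∃ R : Matrix F F ℝ, R.IsHermitian ∧ R * R = Mw W F := by
  obtain ⟨U, hU⟩ := fc_spec (mw_psd hW F).1
  refine ⟨fc U fun i => √((mw_psd hW F).1.eigenvalues i), fc_herm _ _, ?_⟩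
  rw [← map_mul]
  refine Eq.trans ?_ hU.symm
  congr 1
  funext i
  exact Real.mul_self_sqrt ((mw_psd hW F).eigenvalues_nonneg i)

theorem t_psd (K F : Finset κ) {R : Matrix F F ℝ} (hR : R.IsHermitian) :
    (R * diagonal (wt K F) * R).PosSemidef := by
  have := (PosSemidef.diagonal (d := wt K F) fun g => by
    simp only [wt, Pi.zero_apply]; split_ifs <;> positivity).mul_mul_conjTranspose_same R
  rwa [hR.eq] at this

theorem exists_coef {η : ℝ} (hη : 0 < η) : ∃ (d : ℕ) (c : ℕ → ℝ),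
    ∀ x ∈ Set.Icc (0 : ℝ) 1, |∑ k ∈ range d, c k * x ^ (k + 1) - √x| ≤ η := by
  obtain ⟨q, hq⟩ := exists_polynomial_near_of_continuousOn 0 1 (fun x => √x)
    Real.continuous_sqrt.continuousOn (η / 2) (by positivity)
  refine ⟨q.natDegree, fun k => q.coeff (k + 1), fun x hx => ?_⟩
  have h1 := abs_lt.1 (hq x hx)
  have h2 := abs_lt.1 (hq 0 ⟨le_rfl, zero_le_one⟩)
  rw [Polynomial.eval_eq_sum_range, Finset.sum_range_succ', pow_zero, mul_one] at h1
  rw [← Polynomial.coeff_zero_eq_eval_zero, Real.sqrt_zero, sub_zero] at h2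
  rw [abs_le]
  constructor <;> linarith [h1.1, h1.2, h2.1, h2.2]

end MatPSAux

open MatPSAux Matrix in
theorem exists_poly (N : ℕ) (ε : ℝ) (hε : 0 < ε) : ∃ (d : ℕ) (c : ℕ → ℝ),
    ∀ (κ : Type) [DecidableEq κ] (W : κ → κ → ℝ), Corr W → ∀ K₁ K₂ : Finset κ, 0 < N → #K₁ = N →
      #K₂ = N → |Qf W K₁ (Cf c d W K₁) - 1| ≤ ε ∧
        Qf W (K₁ ∪ K₂) (fun g h => Cf c d W K₁ g h - Cf c d W K₂ g h) ≤
          3 * (#(K₁ ∆ K₂) : ℝ) / N + ε := by
  set η := min 1 (ε / (12 * N + 1)) with hη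
  have hη0 : 0 < η := lt_min one_pos (by positivity)
  have hη1 : η ≤ 1 := min_le_left _ _
  have hη2 : η * (12 * N + 1) ≤ ε := (le_div_iff₀ (by positivity)).1 (min_le_right _ _)
  have hN0 : (0 : ℝ) ≤ N := Nat.cast_nonneg N
  obtain ⟨d, c, hp⟩ := exists_coef hη0
  refine ⟨d, c, fun κ _ W hW K₁ K₂ hN h1 h2 => ⟨?_, ?_⟩⟩
  · obtain ⟨R, hR, hRR⟩ := exists_root hW K₁
    obtain ⟨a, -, -, -, -, h3⟩ := poly_root (t_psd K₁ K₁ hR)
      (tr_one hW subset_rfl (h1 ▸ hN) hRR) hη1 hp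
    rw [qf_eq hW (cf_herm hW subset_rfl c d) hRR, conj_cf subset_rfl c d hRR]
    rw [Fintype.card_coe, h1] at h3
    nlinarith
  · obtain ⟨R, hR, hRR⟩ := exists_root hW (K₁ ∪ K₂)
    obtain ⟨a, ha, haa, hh1, h3, -⟩ := poly_root (t_psd K₁ _ hR)
      (tr_one hW subset_union_left (h1 ▸ hN) hRR) hη1 hp
    obtain ⟨b, hb, hbb, hh2, h4, -⟩ := poly_root (t_psd K₂ _ hR)
      (tr_one hW subset_union_right (h2 ▸ hN) hRR) hη1 hp
    have e1 : Mw (fun g h => Cf c d W K₁ g h - Cf c d W K₂ g h) (K₁ ∪ K₂) =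
        Mw (Cf c d W K₁) (K₁ ∪ K₂) - Mw (Cf c d W K₂) (K₁ ∪ K₂) := rfl
    rw [qf_eq hW (by
      rw [e1]; exact (cf_herm hW subset_union_left c d).sub (cf_herm hW subset_union_right c d))
      hRR, e1, Matrix.mul_sub, Matrix.sub_mul _ _ R, conj_cf subset_union_left c d hRR,
      conj_cf subset_union_right c d hRR]
    have h5 := powers_stormer ha hb hR (fun g => by rw [hRR]; exact hW.diag _)
      (wt K₁ _ - wt K₂ _) (by
        rw [haa, hbb, ← Matrix.sub_mul, ← Matrix.mul_sub, diagonal_sub]; rfl)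
    have h6 : ∑ g, |(wt K₁ (K₁ ∪ K₂) - wt K₂ (K₁ ∪ K₂)) g| = (#(K₁ ∆ K₂) : ℝ) / N := by
      have h7 : ∀ g : ↥(K₁ ∪ K₂), |(wt K₁ (K₁ ∪ K₂) - wt K₂ (K₁ ∪ K₂)) g| =
          if g.1 ∈ K₁ ∆ K₂ then (N : ℝ)⁻¹ else 0 := by
        intro g
        simp only [Pi.sub_apply, wt, h1, h2, Finset.mem_symmDiff]
        by_cases a1 : g.1 ∈ K₁ <;> by_cases a2 : g.1 ∈ K₂ <;> simp [a1, a2]
      simp only [h7]
      rw [Finset.sum_coe_sort (K₁ ∪ K₂) fun g => if g ∈ K₁ ∆ K₂ then (N : ℝ)⁻¹ else 0]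
      simp [Finset.inter_eq_right.2 (Finset.symmDiff_subset_union (s := K₁) (t := K₂)),
        div_eq_mul_inv]
    set P := ∑ k ∈ range d, c k • (R * diagonal (wt K₁ (K₁ ∪ K₂)) * R) ^ (k + 1)
    set P' := ∑ k ∈ range d, c k • (R * diagonal (wt K₂ (K₁ ∪ K₂)) * R) ^ (k + 1)
    have h7 := trace_sq_three (hh1.sub ha.1) (ha.1.sub hb.1) (hh2.sub hb.1).neg
    rw [show P - a + (a - b) + -(P' - b) = P - P' by abel, neg_mul_neg] at h7
    have h8 : (Fintype.card ↥(K₁ ∪ K₂) : ℝ) ≤ 2 * N := by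
      have := Finset.card_union_le K₁ K₂
      rw [h1, h2] at this
      rw [Fintype.card_coe]
      exact_mod_cast this.trans (by omega)
    have h9 : (Fintype.card ↥(K₁ ∪ K₂) : ℝ) * η ^ 2 ≤ 2 * N * η :=
      mul_le_mul h8 (by nlinarith) (by positivity) (by positivity)
    rw [h6] at h5
    rw [mul_div_assoc]
    nlinarith

theorem Corr.cf_symm {κ : Type} [DecidableEq κ] {W : κ → κ → ℝ} (hW : Corr W) (c : ℕ → ℝ) (d : ℕ)
    (K : Finset κ) (g h : κ) : Cf c d W K g h = Cf c d W K h g := by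
  by_cases hgh : g ∈ K ∧ h ∈ K
  · simpa [MatPSAux.Mw] using (MatPSAux.cf_herm hW subset_rfl c d).apply ⟨h, hgh.2⟩ ⟨g, hgh.1⟩
  · rw [Cf, Cf, if_neg hgh, if_neg fun h' => hgh h'.symm]

theorem Corr.abs_le {κ : Type} {W : κ → κ → ℝ} (hW : Corr W) (g h : κ) : |W g h| ≤ 1 := by
  classical
  by_cases hgh : g = h
  · rw [hgh, hW.diag, abs_one]
  have key : ∀ t : ℝ, 0 ≤ 1 + 2 * t * W g h + t ^ 2 := fun t => by
    have := hW.psd {g, h} fun k => if k = g then 1 else t
    simp only [Finset.sum_pair hgh, if_pos, if_neg (Ne.symm hgh), hW.diag, hW.symm h g] at this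
    linarith
  rw [_root_.abs_le]
  constructor <;> linarith [key 1, key (-1)]

theorem Corr.abs_cf_le {κ : Type} [DecidableEq κ] {W : κ → κ → ℝ} (hW : Corr W) (c : ℕ → ℝ)
    (d : ℕ) (K : Finset κ) (g h : κ) : |Cf c d W K g h| ≤ ∑ k ∈ range d, |c k| := by
  rw [Cf]
  split_ifs with hgh
  swap
  · rw [abs_zero]; positivity
  have hK : (1 : ℝ) ≤ #K := by exact_mod_cast Finset.card_pos.2 ⟨g, hgh.1⟩
  have key : ∀ k g, |Pw W K k g h| ≤ 1 := by
    intro k
    induction k with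
    | zero =>
      intro g
      rw [Pw]
      split_ifs
      · rw [smul_eq_mul, mul_one, abs_of_nonneg (by positivity)]
        exact inv_le_one_of_one_le₀ hK
      · simp
    | succ k ih =>
      intro g
      rw [Pw, smul_eq_mul, abs_mul, abs_of_nonneg (by positivity), inv_mul_le_iff₀ (by linarith),
        ← nsmul_eq_mul]
      refine (Finset.abs_sum_le_sum_abs _ _).trans (Finset.sum_le_card_nsmul _ _ _ fun g' _ => ?_)
      rw [abs_mul]
      exact mul_le_one₀ (hW.abs_le _ _) (abs_nonneg _) (ih g')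
  refine (Finset.abs_sum_le_sum_abs _ _).trans (Finset.sum_le_sum fun k _ => ?_)
  rw [smul_eq_mul, abs_mul]
  exact mul_le_of_le_one_right (abs_nonneg _) (key k g)

end Vale.Agent.P095
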