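import Vale.Agent.P095.Chaos4
import Vale.Agent.P095.MatPS
import Vale.Agent.P095.Ex

/-! Empirical coefficients may be replaced by their means. -/

namespace Vale.Agent.P095
open Vale.Agent.P101 Vale.Agent.P101.JS Filter Topology Finset
open scoped ComplexOrder BoundedContinuousFunction symmDiff

universe u

namespace ChaosHatAux

variable {κ : Type} [DecidableEq κ]

theorem map_pw {R R' : Type*} [Ring R] [Algebra ℝ R] [Ring R'] [Algebra ℝ R'] (φ : R →+* R')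
    (hs : ∀ (t : ℝ) x, φ (t • x) = t • φ x) (W : κ → κ → R) (K : Finset κ) (k : ℕ) :
    ∀ g h, φ (Pw W K k g h) = Pw (fun g h => φ (W g h)) K k g h := by
  induction k with
  | zero => intro g h; simp only [Pw]; split_ifs <;> simp [hs]
  | succ k ih => intro g h; simp only [Pw, hs, map_sum, map_mul, ih]

theorem map_cf {R R' : Type*} [Ring R] [Algebra ℝ R] [Ring R'] [Algebra ℝ R'] (φ : R →+* R')
    (hs : ∀ (t : ℝ) x, φ (t • x) = t • φ x) (c : ℕ → ℝ) (d : ℕ) (W : κ → κ → R) (K : Finset κ)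
    (g h : κ) : φ (Cf c d W K g h) = Cf c d (fun g h => φ (W g h)) K g h := by
  simp only [Cf]
  split_ifs
  · simp only [map_sum, hs, map_pw φ hs]
  · exact map_zero φ

theorem pw_reindex {R : Type*} [Ring R] [Algebra ℝ R] (W : κ → κ → R) (e : κ ≃ κ) (K : Finset κ)
    (k : ℕ) : ∀ g h, Pw (fun g h => W (e g) (e h)) K k g h = Pw W (K.image e) k (e g) (e h) := by
  induction k with
  | zero => intro g h; simp only [Pw, card_image_of_injective K e.injective, e.injective.eq_iff]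
  | succ k ih =>
    intro g h
    simp only [Pw, card_image_of_injective K e.injective, ih]
    rw [sum_image fun _ _ _ _ h => e.injective h]

theorem cf_reindex {R : Type*} [Ring R] [Algebra ℝ R] (c : ℕ → ℝ) (d : ℕ) (W : κ → κ → R)
    (e : κ ≃ κ) (K : Finset κ) (g h : κ) :
    Cf c d (fun g h => W (e g) (e h)) K g h = Cf c d W (K.image e) (e g) (e h) := by
  simp only [Cf, pw_reindex, e.injective.mem_finset_image]

variable {D : Type u} [CStarAlgebra D] {τ : D →ₗ[ℂ] ℂ}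

omit [DecidableEq κ] in
theorem avg_le (K : Finset κ) {f : κ → ℝ} {b : ℝ} (hb : 0 ≤ b) (hf : ∀ g, f g ≤ b) :
    |(#K : ℝ)⁻¹| * ∑ g ∈ K, f g ≤ b := by
  rw [abs_of_nonneg (by positivity)]
  have h1 : ∑ g ∈ K, f g ≤ #K * b := by
    simpa using sum_le_card_nsmul K f b fun g _ => hf g
  refine (mul_le_mul_of_nonneg_left h1 (by positivity)).trans ?_
  rw [← mul_assoc]
  exact mul_le_of_le_one_left hb inv_mul_le_one

theorem norm_pw {W : κ → κ → D} (hW : ∀ g h, ‖W g h‖ ≤ 1) (K : Finset κ) (k : ℕ) :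
    ∀ g h, ‖Pw W K k g h‖ ≤ 1 := by
  induction k with
  | zero =>
    intro g h
    simp only [Pw]
    split_ifs
    · rw [norm_smul, Real.norm_of_nonneg (by positivity)]
      exact mul_le_one₀ (Nat.cast_inv_le_one _) (norm_nonneg _) norm_one_le'
    · simp
  | succ k ih =>
    intro g h
    simp only [Pw]
    rw [norm_smul, Real.norm_eq_abs]
    refine (mul_le_mul_of_nonneg_left (norm_sum_le _ _) (abs_nonneg _)).trans ?_
    exact avg_le K zero_le_one fun g' =>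
      (norm_mul_le _ _).trans (mul_le_one₀ (hW _ _) (norm_nonneg _) (ih _ _))

theorem n2_pw (hτ : IsTracialState τ) {W W' : κ → κ → D} (hW : ∀ g h, ‖W g h‖ ≤ 1)
    (hW' : ∀ g h, ‖W' g h‖ ≤ 1) {δ : ℝ} (hδ : 0 ≤ δ) (hd : ∀ g h, n2 τ (W g h - W' g h) ≤ δ)
    (K : Finset κ) (k : ℕ) : ∀ g h, n2 τ (Pw W K k g h - Pw W' K k g h) ≤ k * δ := by
  have hs := tr_st hτ
  induction k with
  | zero => intro g h; simp only [Pw, sub_self, n2_zero, Nat.cast_zero, zero_mul, le_refl]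
  | succ k ih =>
    intro g h
    simp only [Pw]
    rw [← smul_sub, ← sum_sub_distrib, n2_rsmul hs]
    refine (mul_le_mul_of_nonneg_left (n2_sum hs _ _) (abs_nonneg _)).trans ?_
    refine avg_le K (by positivity) fun g' => ?_
    have e : W g g' * Pw W K k g' h - W' g g' * Pw W' K k g' h =
        W g g' * (Pw W K k g' h - Pw W' K k g' h) + (W g g' - W' g g') * Pw W' K k g' h := by
      noncomm_ring
    rw [e]
    have h1 := (n2_mul_left hs (W g g') (Pw W K k g' h - Pw W' K k g' h)).trans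
      (mul_le_mul (hW g g') (ih g' h) (n2_nonneg _ _) zero_le_one)
    have h2 := (n2_mul_right hτ (W g g' - W' g g') (Pw W' K k g' h)).trans
      (mul_le_mul (hd g g') (norm_pw hW' K k g' h) (norm_nonneg _) hδ)
    refine (n2_add hs _ _).trans ?_
    push_cast
    linarith

theorem norm_cf {W : κ → κ → D} (hW : ∀ g h, ‖W g h‖ ≤ 1) (c : ℕ → ℝ) (d : ℕ) (K : Finset κ)
    (g h : κ) : ‖Cf c d W K g h‖ ≤ ∑ k ∈ range d, |c k| := by
  simp only [Cf]
  split_ifs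
  · refine (norm_sum_le _ _).trans (sum_le_sum fun k _ => ?_)
    rw [norm_smul, Real.norm_eq_abs]
    exact mul_le_of_le_one_right (abs_nonneg _) (norm_pw hW K k g h)
  · rw [norm_zero]; positivity

theorem n2_cf (hτ : IsTracialState τ) {W W' : κ → κ → D} (hW : ∀ g h, ‖W g h‖ ≤ 1)
    (hW' : ∀ g h, ‖W' g h‖ ≤ 1) {δ : ℝ} (hδ : 0 ≤ δ) (hd : ∀ g h, n2 τ (W g h - W' g h) ≤ δ)
    (c : ℕ → ℝ) (d : ℕ) (K : Finset κ) (g h : κ) :
    n2 τ (Cf c d W K g h - Cf c d W' K g h) ≤ (∑ k ∈ range d, |c k|) * (d * δ) := by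
  have hs := tr_st hτ
  simp only [Cf]
  split_ifs
  · rw [← sum_sub_distrib, sum_mul]
    refine (n2_sum hs _ _).trans (sum_le_sum fun k hk => ?_)
    rw [← smul_sub, n2_rsmul hs]
    refine mul_le_mul_of_nonneg_left ((n2_pw hτ hW hW' hδ hd K k g h).trans ?_) (abs_nonneg _)
    exact mul_le_mul_of_nonneg_right (by exact_mod_cast (mem_range.1 hk).le) hδ
  · rw [sub_self, n2_zero]; positivity

theorem rsmul_mem {S : StarSubalgebra ℂ D} (t : ℝ) {x : D} (hx : x ∈ S) : t • x ∈ S := by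
  rw [← Complex.coe_smul]; exact S.smul_mem hx _

theorem pw_mem {S : StarSubalgebra ℂ D} {W : κ → κ → D} (hW : ∀ g h, W g h ∈ S) (K : Finset κ)
    (k : ℕ) : ∀ g h, Pw W K k g h ∈ S := by
  induction k with
  | zero =>
    intro g h
    simp only [Pw]
    split_ifs
    · exact rsmul_mem _ (one_mem S)
    · exact zero_mem S
  | succ k ih => exact fun g h => rsmul_mem _ (sum_mem fun g' _ => mul_mem (hW _ _) (ih _ _))

theorem map_rsmul {E : Type u} [CStarAlgebra E] (φ : D →⋆ₐ[ℂ] E) (t : ℝ) (x : D) :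
    φ (t • x) = t • φ x := by
  rw [← Complex.coe_smul, map_smul, Complex.coe_smul]

theorem y0_single {Λ : Type} [DecidableEq Λ] (r : Λ → κ → D) (L : Finset Λ) {K : Finset κ}
    {g h : κ} (hg : g ∈ K) (hh : h ∈ K) :
    Y0 r L K (fun a b => if a = g ∧ b = h then 1 else 0) = Zel r L g h := by
  simp [Y0, ite_and, hg, hh, ite_smul]

theorem qf_single {W : κ → κ → ℝ} (hW : Corr W) {K : Finset κ} {g h : κ} (hg : g ∈ K)
    (hh : h ∈ K) : Qf W K (fun a b => if a = g ∧ b = h then 1 else 0) = 1 := by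
  simp [Qf, ite_and, hg, hh, hW.diag]

theorem y0_subset {Λ : Type} [DecidableEq Λ] (r : Λ → κ → D) (L : Finset Λ) {K K' : Finset κ}
    (hK : K ⊆ K') (c : ℕ → ℝ) (d : ℕ) (W : κ → κ → ℝ) :
    Y0 r L K' (Cf c d W K) = Y0 r L K (Cf c d W K) := by
  simp only [Y0]
  symm
  refine (sum_congr rfl fun g _ => sum_subset hK fun h _ hh => ?_).trans
    (sum_subset hK fun g _ hg => sum_eq_zero fun h _ => ?_)
  · simp [Cf, hh]
  · simp [Cf, hg]

omit [DecidableEq κ] in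
theorem sum_abs_le (K : Finset κ) {C : κ → κ → ℝ} {b : ℝ} (hb : ∀ g h, |C g h| ≤ b) :
    ∑ g ∈ K, ∑ h ∈ K, |C g h| ≤ (#K : ℝ) ^ 2 * b := by
  have h1 : ∀ g, ∑ h ∈ K, |C g h| ≤ #K * b := fun g => by
    simpa using sum_le_card_nsmul K _ b fun h _ => hb g h
  have h2 := sum_le_card_nsmul K _ _ fun g _ => h1 g
  rw [nsmul_eq_mul] at h2
  linarith

end ChaosHatAux

open ChaosHatAux

theorem ysa_near (N d : ℕ) (c : ℕ → ℝ) (ε : ℝ) (hε : 0 < ε) : ∃ m₀ : ℕ, ∀ (D : Type u)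
    [CStarAlgebra D] (Λ κ : Type) [DecidableEq Λ] [DecidableEq κ] (τ : D →ₗ[ℂ] ℂ)
    (r : Λ → κ → D), Lay τ r → ∀ (L : Finset Λ) (K : Finset κ), m₀ ≤ #L → #K ≤ N →
      n2 τ (Ysa r L K c d - Y0 r L K (Cf c d (Wbar τ r L) K)) ≤ ε := by
  obtain ⟨m₁, hm₁⟩ := y0_fourth.{u} N 1 1 one_pos
  set A := ∑ k ∈ range d, |c k| with hA
  have hA0 : 0 ≤ A := by positivity
  set η := ε / ((N : ℝ) ^ 2 + 1) with hη
  have hη0 : 0 < η := by positivity
  set δ := η ^ 2 / (98 * A ^ 2 * d + 1) with hδ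
  have hδ0 : 0 < δ := by positivity
  obtain ⟨m₂, hm₂⟩ := exists_nat_ge (1 / δ ^ 2)
  refine ⟨max 1 (max m₁ m₂), fun D _ Λ κ _ _ τ r h L K hL hK => ?_⟩
  have hL1 : 1 ≤ #L := (le_max_left _ _).trans hL
  have hLm₁ : m₁ ≤ #L := ((le_max_left _ _).trans (le_max_right _ _)).trans hL
  have hLm₂ : m₂ ≤ #L := ((le_max_right _ _).trans (le_max_right _ _)).trans hL
  have hne : L.Nonempty := card_pos.1 hL1
  have hs := tr_st h.tr
  have hC := h.corr hne
  have hW' : ∀ g k, ‖algebraMap ℝ D (Wbar τ r L g k)‖ ≤ 1 := fun g k => by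
    rw [norm_algebraMap]
    exact mul_le_one₀ (hC.abs_le g k) (norm_nonneg _) norm_one_le'
  have hd : ∀ g k, n2 τ (What r L g k - algebraMap ℝ D (Wbar τ r L g k)) ≤ δ := fun g k => by
    refine le_of_sq_le_sq ((h.n2_what hne g k).trans ?_) hδ0.le
    have h1 : (0 : ℝ) < #L := by exact_mod_cast hL1
    have h2 : (m₂ : ℝ) ≤ #L := by exact_mod_cast hLm₂
    rw [div_le_iff₀ (by positivity)] at hm₂
    rw [div_le_iff₀ h1]
    nlinarith [sq_nonneg δ]
  have hcf : ∀ g k, algebraMap ℝ D (Cf c d (Wbar τ r L) K g k) =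
      Cf c d (fun g k => algebraMap ℝ D (Wbar τ r L g k)) K g k := fun g k =>
    map_cf (algebraMap ℝ D) (fun t x => by rw [smul_eq_mul, map_mul, Algebra.smul_def]) c d _ K g k
  have key : ∀ g ∈ K, ∀ k ∈ K, n2 τ ((Cf c d (What r L) K g k -
      algebraMap ℝ D (Cf c d (Wbar τ r L) K g k)) * Zel r L g k) ≤ η := by
    intro g hg k hk
    rw [hcf]
    set a := Cf c d (What r L) K g k - Cf c d (fun g k => algebraMap ℝ D (Wbar τ r L g k)) K g k
    have h1 : ‖star a‖ ≤ 2 * A := by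
      rw [norm_star]
      refine (norm_sub_le _ _).trans ?_
      linarith [norm_cf (h.norm_what L) c d K g k, norm_cf hW' c d K g k]
    have h2 : n2 τ a ≤ A * (d * δ) := n2_cf h.tr (h.norm_what L) hW' hδ0.le hd c d K g k
    have h3 : n2 τ (star a * a) ≤ 2 * A * (A * (d * δ)) :=
      (n2_mul_left hs _ _).trans (mul_le_mul h1 h2 (n2_nonneg _ _) (by positivity))
    have h4 : n2 τ (Zel r L g k * star (Zel r L g k)) ≤ 49 := by
      have h5 := hm₁ D Λ κ τ r h L K (fun a b => if a = g ∧ b = k then 1 else 0) hLm₁ hK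
        fun a b => by split_ifs <;> simp
      rw [y0_single r L hg hk, qf_single hC hg hk] at h5
      rw [n2_le_iff hs _ (by norm_num), (h.zel_sa L g k).star_eq, star_mul,
        (h.zel_sa L g k).star_eq]
      have e : Zel r L g k * Zel r L g k * (Zel r L g k * Zel r L g k) = Zel r L g k ^ 4 := by
        noncomm_ring
      rw [e]
      linarith
    refine le_of_sq_le_sq ((n2_holder h.tr _ _).trans ?_) hη0.le
    refine (mul_le_mul h3 h4 (n2_nonneg _ _) (by positivity)).trans ?_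
    have h6 : δ * (98 * A ^ 2 * d + 1) = η ^ 2 := by rw [hδ]; field_simp
    nlinarith
  have h1 : n2 τ (Yhat r L K c d - Y0 r L K (Cf c d (Wbar τ r L) K)) ≤ ε := by
    simp only [Yhat, Y0, ← sum_sub_distrib, Algebra.smul_def, ← sub_mul]
    refine (n2_sum hs _ _).trans ?_
    have h2 : ∀ g ∈ K, n2 τ (∑ k ∈ K, (Cf c d (What r L) K g k -
        algebraMap ℝ D (Cf c d (Wbar τ r L) K g k)) * Zel r L g k) ≤ #K * η := fun g hg => by
      simpa using (n2_sum hs _ _).trans (sum_le_card_nsmul K _ η (key g hg))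
    refine (sum_le_card_nsmul K _ _ h2).trans ?_
    have h3 : (#K : ℝ) ≤ N := by exact_mod_cast hK
    have h4 : η * ((N : ℝ) ^ 2 + 1) = ε := by rw [hη]; field_simp
    have h5 : (#K : ℝ) * #K ≤ N * N := mul_self_le_mul_self (by positivity) h3
    rw [nsmul_eq_mul]
    nlinarith
  have e : Ysa r L K c d - Y0 r L K (Cf c d (Wbar τ r L) K) =
      (2⁻¹ : ℝ) • ((Yhat r L K c d - Y0 r L K (Cf c d (Wbar τ r L) K)) +
        star (Yhat r L K c d - Y0 r L K (Cf c d (Wbar τ r L) K))) := by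
    rw [star_sub, (h.y0_sa L K _).star_eq, Ysa]
    module
  rw [e, n2_rsmul hs]
  have h2 := n2_add hs (Yhat r L K c d - Y0 r L K (Cf c d (Wbar τ r L) K))
    (star (Yhat r L K c d - Y0 r L K (Cf c d (Wbar τ r L) K)))
  rw [n2_star h.tr] at h2
  rw [abs_of_pos (by norm_num)]
  linarith

variable {D : Type u} [CStarAlgebra D] {Λ κ : Type} [DecidableEq Λ] [DecidableEq κ]

theorem ysa_sa (r : Λ → κ → D) (L : Finset Λ) (K : Finset κ) (c : ℕ → ℝ) (d : ℕ) :
    IsSelfAdjoint (Ysa r L K c d) :=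
  (IsSelfAdjoint.all _).smul (IsSelfAdjoint.add_star_self _)

theorem ysa_mem (r : Λ → κ → D) (L : Finset Λ) (K : Finset κ) (c : ℕ → ℝ) (d : ℕ) :
    Ysa r L K c d ∈ LG r (L : Set Λ) := by
  have hr : ∀ i ∈ L, ∀ g, r i g ∈ LG r (L : Set Λ) := fun i hi g =>
    mem_gen_of_mem ⟨i, hi, g, rfl⟩
  have h1 : Yhat r L K c d ∈ LG r (L : Set Λ) := by
    refine sum_mem fun g _ => sum_mem fun h _ => mul_mem ?_ (rsmul_mem _ (sum_mem fun i hi =>
      sum_mem fun j hj => mul_mem (hr i hi g) (hr j (mem_of_mem_erase hj) h)))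
    simp only [Cf]
    split_ifs
    · exact sum_mem fun k _ => rsmul_mem _ (pw_mem (fun g h => rsmul_mem _
        (sum_mem fun i hi => mul_mem (hr i hi g) (hr i hi h))) K k g h)
    · exact zero_mem _
  exact rsmul_mem _ (add_mem h1 (star_mem h1))

theorem map_ysa {E : Type u} [CStarAlgebra E] (φ : D →⋆ₐ[ℂ] E) (r : Λ → κ → D) (L : Finset Λ)
    (K : Finset κ) (c : ℕ → ℝ) (d : ℕ) :
    φ (Ysa r L K c d) = Ysa (fun i g => φ (r i g)) L K c d := by
  have h0 : (fun g h => φ (What r L g h)) = What (fun i g => φ (r i g)) L := by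
    funext g h
    simp only [What, map_rsmul, map_sum, map_mul]
  have h1 : ∀ g h, φ (Cf c d (What r L) K g h) = Cf c d (What (fun i g => φ (r i g)) L) K g h :=
    fun g h => h0 ▸ map_cf (φ : D →+* E) (map_rsmul φ) c d (What r L) K g h
  have h2 : φ (Yhat r L K c d) = Yhat (fun i g => φ (r i g)) L K c d := by
    simp only [Yhat, Zel, map_rsmul, map_sum, map_mul, h1]
  simp only [Ysa, map_rsmul, map_add, map_star, h2]

theorem ysa_reindex (r : Λ → κ → D) (e : κ ≃ κ) (L : Finset Λ) (K : Finset κ) (c : ℕ → ℝ)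
    (d : ℕ) : Ysa (fun i g => r i (e g)) L K c d = Ysa r L (K.image e) c d := by
  have h1 : Yhat (fun i g => r i (e g)) L K c d = Yhat r L (K.image e) c d := by
    simp only [Yhat]
    rw [sum_image fun _ _ _ _ h => e.injective h]
    refine sum_congr rfl fun g _ => ?_
    rw [sum_image fun _ _ _ _ h => e.injective h]
    refine sum_congr rfl fun h _ => ?_
    rw [← cf_reindex]; rfl
  simp only [Ysa, h1]

/-- One block: a non-degenerate and almost invariant variable. -/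
theorem block_bound : ∃ θ₀ : ℝ, 0 < θ₀ ∧ ∀ (N : ℕ) (ε : ℝ), 0 < N → 0 < ε →
    ∃ (d m₀ : ℕ) (c : ℕ → ℝ), ∀ (D : Type u) [CStarAlgebra D] (Λ κ : Type) [DecidableEq Λ]
      [DecidableEq κ] (τ : D →ₗ[ℂ] ℂ) (r : Λ → κ → D), Lay τ r →
      ∀ (L : Finset Λ) (K₁ K₂ : Finset κ), m₀ ≤ #L → #K₁ = N → #K₂ = N →
        (∀ θ, 0 ≤ θ → θ ≤ θ₀ → ‖τ (ex θ (Ysa r L K₁ c d))‖ ≤ 1 - θ ^ 2 / 4 + ε) ∧
        n2 τ (Ysa r L K₁ c d - Ysa r L K₂ c d) ≤ √(6 * (#(K₁ ∆ K₂) : ℝ) / N) + ε := by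
  obtain ⟨θ₀, hθ₀, hchar⟩ := char_bound.{u} (2304 * 4 + 1)
  refine ⟨θ₀, hθ₀, fun N ε hN hε => ?_⟩
  set ε₁ := min (1 / 4) (ε ^ 2 / 27) with hε₁
  have hε₁0 : 0 < ε₁ := by positivity
  have hε₁1 : ε₁ ≤ 1 / 4 := min_le_left _ _
  have hε₁2 : ε₁ ≤ ε ^ 2 / 27 := min_le_right _ _
  obtain ⟨d, c, hpoly⟩ := exists_poly N ε₁ hε₁0
  set A := ∑ k ∈ range d, |c k| with hA
  have hA0 : 0 ≤ A := by positivity
  set ε₂ := ε / (3 * (θ₀ + 1)) with hε₂
  have hε₂0 : 0 < ε₂ := by positivity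
  have hε₂1 : ε₂ * (3 * (θ₀ + 1)) = ε := by rw [hε₂]; field_simp
  obtain ⟨m₁, hm₁⟩ := ysa_near.{u} N d c ε₂ hε₂0
  obtain ⟨m₂, hm₂⟩ := y0_fourth.{u} N A 1 one_pos
  obtain ⟨m₃, hm₃⟩ := exists_nat_ge (2 * (8 * (N : ℝ) ^ 2 * A) ^ 2 / ε₁)
  refine ⟨d, max (max 1 m₁) (max m₂ m₃), c, fun D _ Λ κ _ _ τ r h L K₁ K₂ hL hK₁ hK₂ => ?_⟩
  have hL1 : 1 ≤ #L := ((le_max_left _ _).trans (le_max_left _ _)).trans hL
  have hLm₁ : m₁ ≤ #L := ((le_max_right _ _).trans (le_max_left _ _)).trans hL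
  have hLm₂ : m₂ ≤ #L := ((le_max_left _ _).trans (le_max_right _ _)).trans hL
  have hLm₃ : m₃ ≤ #L := ((le_max_right _ _).trans (le_max_right _ _)).trans hL
  have hne : L.Nonempty := card_pos.1 hL1
  have hs := tr_st h.tr
  have hC := h.corr hne
  have hsmall : ∀ x : ℝ, 0 ≤ x → x ≤ 8 * (N : ℝ) ^ 2 * A → 2 * x ^ 2 / #L ≤ ε₁ := by
    intro x hx0 hx
    have h1 : (0 : ℝ) < #L := by exact_mod_cast hL1
    have h2 : (m₃ : ℝ) ≤ #L := by exact_mod_cast hLm₃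
    rw [div_le_iff₀ hε₁0] at hm₃
    rw [div_le_iff₀ h1]
    have h3 := pow_le_pow_left₀ hx0 hx 2
    nlinarith
  obtain ⟨hq1, hq2⟩ := hpoly κ _ hC K₁ K₂ hN hK₁ hK₂
  have hn1 := hm₁ D Λ κ τ r h L K₁ hLm₁ hK₁.le
  have hn2 := hm₁ D Λ κ τ r h L K₂ hLm₁ hK₂.le
  have hNA : 0 ≤ (N : ℝ) ^ 2 * A := by positivity
  constructor
  · intro θ hθ hθ'
    have h1 := (h.y0_var hne K₁ (hC.cf_symm c d K₁)).trans (hsmall _ (by positivity)
      ((sum_abs_le K₁ (hC.abs_cf_le c d K₁)).trans (by rw [hK₁]; linarith)))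
    have h2 := hm₂ D Λ κ τ r h L K₁ _ hLm₂ hK₁.le (hC.abs_cf_le c d K₁)
    rw [abs_le] at h1 hq1
    have h3 := hchar D τ _ hs (h.y0_sa L K₁ (Cf c d (Wbar τ r L) K₁)) (h.y0_mean L K₁ _)
      (by linarith) (by linarith) (by nlinarith) θ hθ hθ'
    have h4 := (norm_le_n2 hs _).trans (n2_ex_sub h.tr θ (ysa_sa r L K₁ c d)
      (h.y0_sa L K₁ (Cf c d (Wbar τ r L) K₁)))
    rw [map_sub, abs_of_nonneg hθ] at h4
    have h5 := mul_le_mul hθ' hn1 (n2_nonneg _ _) hθ₀.le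
    have h6 := norm_sub_norm_le (τ (ex θ (Ysa r L K₁ c d)))
      (τ (ex θ (Y0 r L K₁ (Cf c d (Wbar τ r L) K₁))))
    nlinarith
  · have e : Y0 r L K₁ (Cf c d (Wbar τ r L) K₁) - Y0 r L K₂ (Cf c d (Wbar τ r L) K₂) =
        Y0 r L (K₁ ∪ K₂)
          fun g k => Cf c d (Wbar τ r L) K₁ g k - Cf c d (Wbar τ r L) K₂ g k := by
      rw [← y0_subset r L (subset_union_left (s₂ := K₂)),
        ← y0_subset r L (subset_union_right (s₁ := K₁))]
      simp only [Y0, sub_smul, sum_sub_distrib]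
    have hb : ∀ g k, |Cf c d (Wbar τ r L) K₁ g k - Cf c d (Wbar τ r L) K₂ g k| ≤ 2 * A :=
      fun g k => (abs_sub _ _).trans (by
        linarith [hC.abs_cf_le c d K₁ g k, hC.abs_cf_le c d K₂ g k])
    have hcard : (#(K₁ ∪ K₂) : ℝ) ≤ 2 * N := by
      have := card_union_le K₁ K₂
      rw [hK₁, hK₂, ← two_mul] at this
      exact_mod_cast this
    have h1 := (h.y0_var hne (K₁ ∪ K₂) (C := fun g k => Cf c d (Wbar τ r L) K₁ g k -
      Cf c d (Wbar τ r L) K₂ g k) fun g k => by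
        rw [hC.cf_symm c d K₁ g k, hC.cf_symm c d K₂ g k]).trans (hsmall _ (by positivity)
      ((sum_abs_le _ hb).trans (by
        have := pow_le_pow_left₀ (by positivity) hcard 2
        nlinarith)))
    have h2 : n2 τ (Y0 r L K₁ (Cf c d (Wbar τ r L) K₁) - Y0 r L K₂ (Cf c d (Wbar τ r L) K₂)) ≤
        √(6 * (#(K₁ ∆ K₂) : ℝ) / N) + ε / 3 := by
      rw [e, n2_le_iff hs _ (by positivity), (h.y0_sa L _ _).star_eq, ← sq, add_sq,
        Real.sq_sqrt (by positivity)]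
      rw [abs_le] at h1
      have h3 : 0 ≤ 2 * √(6 * (#(K₁ ∆ K₂) : ℝ) / N) * (ε / 3) := by positivity
      have h4 : 6 * (#(K₁ ∆ K₂) : ℝ) / N = 2 * (3 * (#(K₁ ∆ K₂) : ℝ) / N) := by ring
      nlinarith
    have h3 := n2_triangle hs (Ysa r L K₁ c d) (Y0 r L K₁ (Cf c d (Wbar τ r L) K₁))
      (Ysa r L K₂ c d)
    have h4 := n2_triangle hs (Y0 r L K₁ (Cf c d (Wbar τ r L) K₁))
      (Y0 r L K₂ (Cf c d (Wbar τ r L) K₂)) (Ysa r L K₂ c d)
    rw [n2_sub_comm] at hn2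
    nlinarith

end Vale.Agent.P095
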