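import Vale.Agent.P095.Tr

/-! Functional calculus of a unitary on the circle, and partitions of the circle. -/

namespace Vale.Agent.P095
open Vale.Agent.P101 Vale.Agent.P101.JS Filter Topology Finset
open scoped ComplexOrder BoundedContinuousFunction symmDiff

universe u

namespace CircleAux
open MeasureTheory

theorem four_nat (k : ℕ) : (fourier k : C(AddCircle (1 : ℝ), ℂ)) = fourier 1 ^ k := by
  induction k with
  | zero => ext x; exact fourier_zero
  | succ k ih =>
    ext x
    rw [pow_succ, ← ih, Nat.cast_succ, fourier_add]; rfl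

theorem four_neg (k : ℤ) : (fourier (-k) : C(AddCircle (1 : ℝ), ℂ)) = star (fourier k) := by
  ext x; exact fourier_neg

theorem dense_ind {p : C(AddCircle (1 : ℝ), ℂ) → Prop} (hc : IsClosed {f | p f})
    (h0 : p 0) (ha : ∀ f g, p f → p g → p (f + g)) (hs : ∀ (c : ℂ) f, p f → p (c • f))
    (h1 : ∀ k : ℕ, p (fourier k)) (h2 : ∀ k : ℕ, p (fourier (-k))) (f : C(AddCircle (1 : ℝ), ℂ)) :
    p f := by
  have hf : f ∈ (Submodule.span ℂ (Set.range (@fourier (1 : ℝ)))).topologicalClosure := by
    rw [span_fourier_closure_eq_top]; trivial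
  refine closure_minimal (t := {f | p f}) (fun g hg => ?_) hc hf
  induction hg using Submodule.span_induction with
  | mem x hx =>
    obtain ⟨k, rfl⟩ := hx
    obtain ⟨n, rfl | rfl⟩ := Int.eq_nat_or_neg k
    · exact h1 n
    · exact h2 n
  | zero => exact h0
  | add x y _ _ hx hy => exact ha _ _ hx hy
  | smul c x _ hx => exact hs _ _ hx

theorem near (n : ℕ) [NeZero n] (x : AddCircle (1 : ℝ)) :
    ∃ j : ZMod n, ‖x - ZMod.toAddCircle j‖ ≤ 1 / (2 * n) := by
  have hn : (0 : ℝ) < n := Nat.cast_pos.2 (NeZero.pos n)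
  induction x using QuotientAddGroup.induction_on with | _ x
  refine ⟨(round (x * n) : ℤ), ?_⟩
  rw [ZMod.toAddCircle_intCast, ← QuotientAddGroup.mk_sub]
  refine QuotientAddGroup.norm_mk_le_norm.trans ?_
  have := abs_sub_round (x * n)
  have e : x - (round (x * n) : ℝ) / n = (x * n - round (x * n)) / n := by field_simp
  rw [Real.norm_eq_abs, e, abs_div, abs_of_pos hn, div_le_div_iff₀ hn (by positivity)]
  nlinarith

theorem far (n : ℕ) [NeZero n] (j : ZMod n) (hj : j ≠ 0) :
    1 / (n : ℝ) ≤ ‖ZMod.toAddCircle j‖ := by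
  have hn : (0 : ℝ) < n := Nat.cast_pos.2 (NeZero.pos n)
  obtain ⟨k, rfl⟩ := ZMod.intCast_surjective j
  rw [ZMod.toAddCircle_intCast, UnitAddCircle.norm_eq]
  set m := round ((k : ℝ) / n)
  have e : (k : ℝ) / n - m = ((k - m * n : ℤ) : ℝ) / n := by push_cast; field_simp
  rw [e, abs_div, abs_of_pos hn]
  refine div_le_div_of_nonneg_right ?_ hn.le
  have : k - m * n ≠ 0 := fun h => hj (by
    rw [sub_eq_zero] at h
    rw [h]; simp)
  rw [← Int.cast_abs]
  exact_mod_cast Int.one_le_abs this

theorem cint (g : AddCircle (1 : ℝ) → ℝ) (hg : Continuous g) :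
    Integrable g AddCircle.haarAddCircle :=
  hg.integrable_of_hasCompactSupport (HasCompactSupport.of_compactSpace g)

theorem real_arcs (n : ℕ) [NeZero n] (ε : ℝ) (hε : 0 < ε) :
    ∃ f : ZMod n → C(AddCircle (1 : ℝ), ℝ), (∀ j x, 0 ≤ f j x) ∧ (∀ j x, f j x ≤ 1) ∧
      (∀ x, ∑ j, f j x = 1) ∧ (∀ j, ∫ x, f j x ∂AddCircle.haarAddCircle = (n : ℝ)⁻¹) ∧
      ∀ j, ∫ x, (f j x - f j x ^ 2) ∂AddCircle.haarAddCircle ≤ ε := by
  have hn : (0 : ℝ) < n := Nat.cast_pos.2 (NeZero.pos n)
  let c : ZMod n →+ AddCircle (1 : ℝ) := ZMod.toAddCircle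
  let ψ : AddCircle (1 : ℝ) → ℝ := fun x => max 0 (1 / (2 * n) + ε / 2 - ‖x‖)
  have ψc : Continuous ψ := by fun_prop
  have ψ0 : ∀ x, 0 ≤ ψ x := fun x => le_max_left _ _
  let s : AddCircle (1 : ℝ) → ℝ := fun x => ∑ i, ψ (x - c i)
  have sc : Continuous s := by fun_prop
  have s0 : ∀ x, 0 < s x := fun x => by
    obtain ⟨j, hj⟩ := near n x
    refine lt_of_lt_of_le ?_ (single_le_sum (f := fun i => ψ (x - c i)) (fun i _ => ψ0 _)
      (mem_univ j))
    exact lt_max_of_lt_right (by change 0 < _ - ‖x - ZMod.toAddCircle j‖; linarith)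
  have st : ∀ x j, s (x - c j) = s x := fun x j =>
    Fintype.sum_equiv (Equiv.addLeft j) _ _ fun i => by
      rw [Equiv.coe_addLeft, map_add, sub_sub]
  let f : ZMod n → C(AddCircle (1 : ℝ), ℝ) := fun j =>
    ⟨fun x => ψ (x - c j) / s x, Continuous.div (by fun_prop) sc fun x => (s0 x).ne'⟩
  have f0 : ∀ j x, 0 ≤ f j x := fun j x => div_nonneg (ψ0 _) (s0 x).le
  have f1 : ∀ j x, f j x ≤ 1 := fun j x => (div_le_one (s0 x)).2
    (single_le_sum (f := fun i => ψ (x - c i)) (fun i _ => ψ0 _) (mem_univ j))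
  have fs : ∀ x, ∑ j, f j x = 1 := fun x => by
    change ∑ j, ψ (x - c j) / s x = 1
    rw [← sum_div]; exact div_self (s0 x).ne'
  have fi := cint
  have ft : ∀ j, ∫ x, f j x ∂AddCircle.haarAddCircle = ∫ x, f 0 x ∂AddCircle.haarAddCircle :=
    fun j => by
      rw [← integral_sub_right_eq_self (fun x => f 0 x) (c j)]
      refine integral_congr_ae (Eventually.of_forall fun x => ?_)
      change ψ (x - c j) / s x = ψ (x - c j - c 0) / s (x - c j)
      rw [st, map_zero, sub_zero]
  have fm : ∀ j, ∫ x, f j x ∂AddCircle.haarAddCircle = (n : ℝ)⁻¹ := fun j => by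
    have h1 := integral_finsetSum (μ := AddCircle.haarAddCircle) univ
      (f := fun j x => f j x) fun j _ => fi _ (f j).continuous
    simp only [fs, ft, integral_const, probReal_univ, smul_eq_mul, mul_one, sum_const, card_univ,
      ZMod.card, nsmul_eq_mul] at h1
    rw [ft]
    exact eq_inv_of_mul_eq_one_right h1.symm
  refine ⟨f, f0, f1, fs, fm, fun j => ?_⟩
  have i2 : Integrable (fun x => f j x ^ 2) AddCircle.haarAddCircle := fi _ (by fun_prop)
  rw [integral_sub (fi _ (f j).continuous) i2, fm]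
  let A := Metric.closedBall (c j) (1 / (2 * n) - ε / 2)
  have hA : MeasurableSet A := Metric.isClosed_closedBall.measurableSet
  have h1 : ∫ x, A.indicator (fun _ => (1 : ℝ)) x ∂AddCircle.haarAddCircle ≤
      ∫ x, f j x ^ 2 ∂AddCircle.haarAddCircle := by
    refine integral_mono ((integrable_const _).indicator hA) i2 fun x => ?_
    by_cases hx : x ∈ A
    · rw [Set.indicator_of_mem hx]
      have h2 : s x = ψ (x - c j) := by
        refine Fintype.sum_eq_single j fun i hi => max_eq_left ?_
        have h3 := far n (j - i) (sub_ne_zero.2 hi.symm)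
        have h4 : ‖x - c j‖ ≤ 1 / (2 * n) - ε / 2 := by rw [← dist_eq_norm]; exact hx
        have h5 : ‖c (j - i)‖ ≤ ‖x - c i‖ + ‖x - c j‖ := by
          rw [map_sub, show c j - c i = (x - c i) - (x - c j) by abel]
          exact norm_sub_le _ _
        have h6 : 1 / (n : ℝ) = 1 / (2 * n) + 1 / (2 * n) := by field_simp; ring
        change 1 / (n : ℝ) ≤ ‖c (j - i)‖ at h3
        linarith
      have h7 : f j x = 1 := by
        change ψ (x - c j) / s x = 1
        rw [← h2]; exact div_self (s0 x).ne'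
      simp only [h7]; norm_num
    · rw [Set.indicator_of_notMem hx]; exact sq_nonneg _
  rw [integral_indicator hA, setIntegral_const, smul_eq_mul, mul_one] at h1
  have h8 : (AddCircle.haarAddCircle : Measure (AddCircle (1 : ℝ))) A =
      ENNReal.ofReal (min 1 (2 * (1 / (2 * n) - ε / 2))) := by
    rw [← AddCircle.volume_closedBall (x := c j), AddCircle.volume_eq_smul_haarAddCircle]
    simp [A]
  rw [measureReal_def, h8, ENNReal.toReal_ofReal'] at h1
  have h9 : (n : ℝ)⁻¹ ≤ 1 := inv_le_one_of_one_le₀ (by exact_mod_cast NeZero.pos n)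
  have h10 : 2 * (1 / (2 * (n : ℝ)) - ε / 2) = (n : ℝ)⁻¹ - ε := by field_simp
  rw [h10, min_eq_right (by linarith)] at h1
  linarith [le_max_left ((n : ℝ)⁻¹ - ε) 0]

end CircleAux

variable {B : Type u} [CStarAlgebra B]

/-- The functional calculus of a unitary. -/
theorem exists_circ (w : B) (hw : w ∈ unitary B) :
    ∃ Γ : C(AddCircle (1 : ℝ), ℂ) →⋆ₐ[ℂ] B, Γ (fourier 1) = w := by
  have hn : IsStarNormal w := isStarNormal_of_mem_unitary hw
  let e : C(Metric.sphere (0 : ℂ) 1, AddCircle (1 : ℝ)) :=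
    ⟨fun z => (AddCircle.homeomorphCircle one_ne_zero).symm (show Circle from z),
      (AddCircle.homeomorphCircle one_ne_zero).symm.continuous⟩
  refine ⟨(cfcHomSuperset hn (spectrum.subset_circle_of_unitary hw)).comp
    (ContinuousMap.compStarAlgHom' ℂ ℂ e), ?_⟩
  refine Eq.trans (congrArg (cfcHomSuperset hn (spectrum.subset_circle_of_unitary hw)) ?_)
    (cfcHomSuperset_id hn _)
  ext z
  change fourier 1 (e z) = (z : ℂ)
  rw [fourier_one, ← AddCircle.homeomorphCircle_apply one_ne_zero]
  exact congrArg (fun y : Circle => (y : ℂ))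
    ((AddCircle.homeomorphCircle one_ne_zero).apply_symm_apply (show Circle from z))

/-- The functional calculus of a unitary (junk value otherwise). -/
noncomputable def circ (w : unitary B) : C(AddCircle (1 : ℝ), ℂ) →⋆ₐ[ℂ] B :=
  (exists_circ (w : B) w.2).choose

theorem circ_one (w : unitary B) : circ w (fourier 1) = w := (exists_circ (w : B) w.2).choose_spec

theorem circ_nat (w : unitary B) (k : ℕ) : circ w (fourier k) = (w : B) ^ k := by
  rw [CircleAux.four_nat, map_pow, circ_one]

theorem circ_neg (w : unitary B) (k : ℕ) : circ w (fourier (-k)) = star (w : B) ^ k := by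
  rw [CircleAux.four_neg, map_star, circ_nat, star_pow]

theorem map_circ {D : Type*} [CStarAlgebra D] (φ : D →⋆ₐ[ℂ] B) (w : unitary D) (w' : unitary B)
    (h : φ w = w') (f : C(AddCircle (1 : ℝ), ℂ)) : φ (circ w f) = circ w' f := by
  refine CircleAux.dense_ind (p := fun f => φ (circ w f) = circ w' f)
    (isClosed_eq ((hom_cont φ).comp (hom_cont _)) (hom_cont _)) (by simp)
    (fun f g hf hg => by rw [map_add, map_add, map_add, hf, hg])
    (fun c f hf => by rw [map_smul, map_smul, map_smul, hf])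
    (fun k => by rw [circ_nat, circ_nat, map_pow, h])
    (fun k => by rw [circ_neg, circ_neg, map_pow, map_star, h]) f

theorem circ_commute (w : unitary B) {x : B} (h : Commute x w) (f : C(AddCircle (1 : ℝ), ℂ)) :
    Commute x (circ w f) := by
  have h' : Commute x (star (w : B)) := by
    have := h.units_inv_right (u := Unitary.toUnits w)
    exact this
  refine CircleAux.dense_ind (p := fun f => Commute x (circ w f))
    (isClosed_eq (continuous_const.mul (hom_cont _)) ((hom_cont _).mul continuous_const))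
    (by rw [map_zero]; exact Commute.zero_right x)
    (fun f g hf hg => by rw [map_add]; exact hf.add_right hg)
    (fun c f hf => by rw [map_smul]; exact hf.smul_right c)
    (fun k => by rw [circ_nat]; exact h.pow_right k)
    (fun k => by rw [circ_neg]; exact h'.pow_right k) f

theorem circ_mem_gen (w : unitary B) {S : Set B} (h : (w : B) ∈ Gen S)
    (f : C(AddCircle (1 : ℝ), ℂ)) : circ w f ∈ Gen S := by
  refine CircleAux.dense_ind (p := fun f => circ w f ∈ Gen S)
    ((gen_closed S).preimage (hom_cont _))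
    (by rw [map_zero]; exact zero_mem _)
    (fun f g hf hg => by rw [map_add]; exact add_mem hf hg)
    (fun c f hf => by rw [map_smul]; exact SMulMemClass.smul_mem c hf)
    (fun k => by rw [circ_nat]; exact pow_mem h k)
    (fun k => by rw [circ_neg]; exact pow_mem (star_mem h) k) f

/-- The Haar integral. -/
noncomputable def hint (f : C(AddCircle (1 : ℝ), ℂ)) : ℂ := ∫ x, f x ∂AddCircle.haarAddCircle

theorem circ_haar (w : unitary B) (φ : B →ₗ[ℂ] ℂ) (hφ : Continuous φ)
    (h : ∀ k, 1 ≤ k → φ ((w : B) ^ k) = 0 ∧ φ (star (w : B) ^ k) = 0)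
    (f : C(AddCircle (1 : ℝ), ℂ)) : φ (circ w f) = φ 1 * hint f := by
  have fi : ∀ g : C(AddCircle (1 : ℝ), ℂ), MeasureTheory.Integrable g AddCircle.haarAddCircle :=
    fun g => (BoundedContinuousFunction.mkOfCompact g).integrable _
  have ha : ∀ f g, hint (f + g) = hint f + hint g := fun f g =>
    MeasureTheory.integral_add (fi f) (fi g)
  have hs : ∀ (c : ℂ) f, hint (c • f) = c * hint f := fun c f =>
    MeasureTheory.integral_const_mul c _
  have hb : ∀ f, ‖hint f‖ ≤ 1 * ‖f‖ := fun f => by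
    have := MeasureTheory.norm_integral_le_of_norm_le_const (μ := AddCircle.haarAddCircle)
      (f := f) (C := ‖f‖) (Eventually.of_forall fun x => f.norm_coe_le_norm x)
    simpa [hint] using this
  let L : C(AddCircle (1 : ℝ), ℂ) →+ ℂ := AddMonoidHom.mk' hint ha
  have hc : Continuous hint := AddMonoidHomClass.continuous_of_bound L 1 hb
  have h0 : hint (fourier 0) = 1 := by simp [hint]
  have h1 : ∀ k : ℤ, k ≠ 0 → hint (fourier k) = 0 := fun k hk =>
    MeasureTheory.integral_eq_zero_of_add_right_eq_neg (μ := AddCircle.haarAddCircle)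
      (fourier_add_half_inv_index hk one_pos)
  refine CircleAux.dense_ind (p := fun f => φ (circ w f) = φ 1 * hint f)
    (isClosed_eq (hφ.comp (hom_cont _)) (continuous_const.mul hc))
    (by simp [hint])
    (fun f g hf hg => by rw [map_add, map_add, hf, hg, ha, mul_add])
    (fun c f hf => by rw [map_smul, map_smul, hf, hs, smul_eq_mul]; ring)
    (fun k => ?_) (fun k => ?_) f
  · rw [circ_nat]
    rcases k.eq_zero_or_pos with rfl | hk
    · rw [pow_zero, Nat.cast_zero, h0, mul_one]
    · rw [(h k hk).1, h1 _ (by exact_mod_cast hk.ne'), mul_zero]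
  · rw [circ_neg]
    rcases k.eq_zero_or_pos with rfl | hk
    · rw [pow_zero, Nat.cast_zero, neg_zero, h0, mul_one]
    · rw [(h k hk).2, h1 _ (neg_ne_zero.2 (by exact_mod_cast hk.ne')), mul_zero]

/-- Almost orthogonal partitions of unity with equal masses. -/
theorem exists_arcs (Ω : Type) [Fintype Ω] [Nonempty Ω] (ε : ℝ) (hε : 0 < ε) :
    ∃ f : Ω → C(AddCircle (1 : ℝ), ℂ), (∀ j, star (f j) = f j) ∧ (∀ j, ‖f j‖ ≤ 1) ∧
      ∑ j, f j = 1 ∧ (∀ j, hint (f j) = (Fintype.card Ω : ℂ)⁻¹) ∧
      ∀ j, (hint (star (f j * f j - f j) * (f j * f j - f j))).re ≤ ε := by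
  have : NeZero (Fintype.card Ω) := ⟨Fintype.card_ne_zero⟩
  obtain ⟨f, f0, f1, fs, fm, fe⟩ := CircleAux.real_arcs (Fintype.card Ω) ε hε
  let e : Ω ≃ ZMod (Fintype.card Ω) := Fintype.equivOfCardEq (ZMod.card _).symm
  have fi := CircleAux.cint
  let F : Ω → C(AddCircle (1 : ℝ), ℂ) := fun j => ⟨fun x => (f (e j) x : ℂ), by fun_prop⟩
  have hF : ∀ j x, F j x = (f (e j) x : ℂ) := fun _ _ => rfl
  refine ⟨F, fun j => ?_, fun j => ?_, ?_, fun j => ?_, fun j => ?_⟩
  · ext x
    rw [ContinuousMap.star_apply, hF]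
    exact Complex.conj_ofReal _
  · refine (ContinuousMap.norm_le _ zero_le_one).2 fun x => ?_
    rw [hF, Complex.norm_real, Real.norm_eq_abs, abs_of_nonneg (f0 _ _)]
    exact f1 _ _
  · ext x
    rw [ContinuousMap.sum_apply, ContinuousMap.one_apply]
    simp only [hF]
    rw [← Complex.ofReal_sum, e.sum_comp fun j => f j x, fs, Complex.ofReal_one]
  · simp only [hint, hF]
    rw [integral_complex_ofReal, fm]; push_cast; rfl
  · have h1 : hint (star (F j * F j - F j) * (F j * F j - F j)) =
        ((∫ x, (f (e j) x - f (e j) x ^ 2) ^ 2 ∂AddCircle.haarAddCircle : ℝ) : ℂ) := by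
      rw [hint, ← integral_complex_ofReal]
      refine MeasureTheory.integral_congr_ae (Eventually.of_forall fun x => ?_)
      simp only [ContinuousMap.mul_apply, ContinuousMap.star_apply, ContinuousMap.sub_apply, hF,
        star_sub, star_mul, RCLike.star_def, Complex.conj_ofReal]
      push_cast; ring
    rw [h1, Complex.ofReal_re]
    refine le_trans (MeasureTheory.integral_mono (fi _ (by fun_prop))
      (fi _ (by fun_prop)) fun x => ?_) (fe (e j))
    have a := f0 (e j) x
    have b := f1 (e j) x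
    have c : 0 ≤ f (e j) x - f (e j) x ^ 2 := by nlinarith
    have d : f (e j) x - f (e j) x ^ 2 ≤ 1 := by nlinarith
    change (f (e j) x - f (e j) x ^ 2) ^ 2 ≤ f (e j) x - f (e j) x ^ 2
    nlinarith

end Vale.Agent.P095
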