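import Vale.Agent.P095.Excise

/-! Disjointness of an excised state from its translate. -/

namespace Vale.Agent.P095
open Vale.Agent.P101 Vale.Agent.P101.JS Filter Topology Finset
open scoped ComplexOrder BoundedContinuousFunction symmDiff

universe u
variable {B : Type u} [CStarAlgebra B]

namespace DisjAux

theorem tri (m m1 m2 l l' p q q' r r' : ℂ) : ‖(l - l') * m‖ ≤ ‖l * (m - q)‖ + ‖p - l * q‖ +
    ‖m1 - p‖ + ‖m1 - m2‖ + ‖m2 - r‖ + ‖r' - r‖ + ‖r' - l' * q'‖ + ‖l' * (m - q')‖ := by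
  have : (l - l') * m = l * (m - q) - (p - l * q) - (m1 - p) + (m1 - m2) + (m2 - r) - (r' - r) +
      (r' - l' * q') - l' * (m - q') := by ring
  rw [this]
  exact norm_sub_le_of_le (norm_add_le_of_le (norm_sub_le_of_le (norm_add_le_of_le
    (norm_add_le_of_le (norm_sub_le_of_le (norm_sub_le _ _) le_rfl) le_rfl) le_rfl) le_rfl) le_rfl)
    le_rfl

theorem riesz {lam : B →ₗ[ℂ] ℂ} (h : IsSt lam) (μ : B →ₗ[ℂ] ℂ) (hμ : ∀ z, ‖μ z‖ ≤ n2 lam z)
    {ε : ℝ} (hε : 0 < ε) : ∃ w, ∀ z, ‖μ z - lam (star w * z)‖ ≤ ε * (1 + ‖z‖ ^ 2) := by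
  let f : B → ℝ := fun w => 2 * (μ w).re - n2 lam w ^ 2
  have hb : BddAbove (Set.range f) := ⟨1, by
    rintro _ ⟨w, rfl⟩
    nlinarith [(Complex.re_le_norm _).trans (hμ w), sq_nonneg (n2 lam w - 1)]⟩
  obtain ⟨w, hw⟩ := exists_lt_of_lt_ciSup (show (⨆ w, f w) - ε ^ 2 < ⨆ w, f w by
    linarith [pow_pos hε 2])
  refine ⟨w, fun z => ?_⟩
  obtain ⟨c, hc, hD⟩ := Complex.exists_norm_eq_mul_self (μ z - lam (star w * z))
  have h1 := le_ciSup hb (w + ((ε : ℂ) * c) • z)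
  have h2 : n2 lam (((ε : ℂ) * c) • z) ^ 2 ≤ ε ^ 2 * ‖z‖ ^ 2 := by
    rw [n2_smul h, norm_mul, hc, mul_one, Complex.norm_real, Real.norm_of_nonneg hε.le, mul_pow]
    gcongr
    exacts [n2_nonneg _ _, n2_le_norm h z]
  have h3 : ∀ y, n2 lam (w + y) ^ 2 = n2 lam w ^ 2 + 2 * (lam (star w * y)).re + n2 lam y ^ 2 :=
    fun y => by
      have := h.map_star (star w * y)
      rw [star_mul, star_star] at this
      simp only [n2_sq h, star_add, add_mul, mul_add, map_add, Complex.add_re, this,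
        Complex.conj_re]
      ring
  have h4 : (((ε : ℂ) * c) * μ z).re - (((ε : ℂ) * c) * lam (star w * z)).re =
      ε * ‖μ z - lam (star w * z)‖ := by
    rw [← Complex.sub_re, ← mul_sub, mul_assoc, ← hD, ← Complex.ofReal_mul, Complex.ofReal_re]
  simp only [f, h3, map_add, map_smul, mul_smul_comm, smul_eq_mul, Complex.add_re] at h1 hw
  have h5 : ε * ‖μ z - lam (star w * z)‖ ≤ ε * (ε * (1 + ‖z‖ ^ 2)) := by
    nlinarith [mul_nonneg (sq_nonneg ε) (sq_nonneg ‖z‖), sq_nonneg ε]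
  exact le_of_mul_le_mul_left h5 hε

theorem riesz' {lam : B →ₗ[ℂ] ℂ} (h : IsSt lam) (μ : B →ₗ[ℂ] ℂ)
    (hμ : ∀ z, ‖μ z‖ ≤ n2 lam (star z)) {ε : ℝ} (hε : 0 < ε) :
    ∃ w, ∀ z, ‖μ z - lam (z * w)‖ ≤ ε * (1 + ‖z‖ ^ 2) := by
  let μ' : B →ₗ[ℂ] ℂ :=
    { toFun := fun z => starRingEnd ℂ (μ (star z))
      map_add' := fun x y => by rw [star_add, map_add, map_add]
      map_smul' := fun c x => by simp }
  obtain ⟨w, hw⟩ := riesz h μ' (fun z => by
    have := hμ (star z)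
    rw [star_star] at this
    exact (Complex.norm_conj _).trans_le this) hε
  refine ⟨w, fun z => ?_⟩
  have := hw (star z)
  change ‖starRingEnd ℂ (μ (star (star z))) - _‖ ≤ _ at this
  rwa [star_star, ← star_mul, h.map_star, ← map_sub, Complex.norm_conj, norm_star] at this

variable {P : Pair B} {a : ℕ → B} {lam : B →ₗ[ℂ] ℂ}

theorem lim (h : Exc P a lam) (y : B) : Tendsto (fun k => ‖y * a k‖) atTop (𝓝 (n2 lam y)) := by
  have h1 : Tendsto (fun k => ‖a k * (star y * y) * a k‖) atTop (𝓝 ‖lam (star y * y)‖) :=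
    tendsto_iff_norm_sub_tendsto_zero.2 (squeeze_zero (fun _ => norm_nonneg _) (fun k => by
      have := abs_norm_sub_norm_le (a k * (star y * y) * a k) (lam (star y * y) • (a k * a k))
      rwa [norm_smul, ExcAux.norm_sq (h.sa k) (h.norm k), mul_one] at this) (h.exc _))
  have h2 := h1.sqrt
  rw [h.st.norm_eq, Real.sqrt_sq (n2_nonneg _ _)] at h2
  refine h2.congr fun k => ?_
  have := CStarRing.norm_star_mul_self (x := y * a k)
  rw [star_mul, (h.sa k).star_eq, mul_assoc, ← mul_assoc (star y), ← mul_assoc] at this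
  rw [this, Real.sqrt_mul_self (norm_nonneg _)]

theorem cluster (h : Exc P a lam) {x : ℕ → B} (hx : ∀ n, ‖x n‖ ≤ 1)
    (hc : ∀ c, Tendsto (fun n => ‖x n * c - c * x n‖) atTop (𝓝 0)) (w : B) :
    Tendsto (fun n => ‖lam (x n * w) - lam (x n) * lam w‖) atTop (𝓝 0) := by
  refine Metric.tendsto_nhds.2 fun ε hε => ?_
  obtain ⟨k, hk⟩ := ((h.exc w).eventually (gt_mem_nhds (half_pos hε))).exists
  have := (hc (a k)).mul_const ‖w‖
  rw [zero_mul] at this
  refine (this.eventually (gt_mem_nhds (half_pos hε))).mono fun n hn => ?_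
  rw [Real.dist_0_eq_abs, abs_norm]
  have e1 : lam (x n * w) = lam (a k * x n * w * a k) := by
    rw [(h.lam_mul k _).2, mul_assoc, (h.lam_mul k _).1]
  have e2 : lam (x n) = lam (x n * (a k * a k)) := by
    rw [← mul_assoc, (h.lam_mul k _).2, (h.lam_mul k _).2]
  have e3 : lam (x n * w) - lam (x n) * lam w = lam (x n * (a k * w * a k - lam w • (a k * a k)) -
      (x n * a k - a k * x n) * w * a k) := by
    rw [e1, e2]
    simp only [mul_sub, sub_mul, map_sub, mul_smul_comm, map_smul, smul_eq_mul, mul_assoc]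
    ring
  rw [e3]
  refine (h.st.norm_le _).trans_lt ?_
  have := norm_sub_le_of_le (norm_mul_le_of_le (hx n) hk.le)
    (norm_mul_le_of_le (norm_mul_le (x n * a k - a k * x n) w) (h.norm k).le)
  linarith

end DisjAux

theorem Exc.disjoint {P : Pair B} {a : ℕ → B} {lam : B →ₗ[ℂ] ℂ} (h : Exc P a lam)
    (α γ : B →⋆ₐ[ℂ] B) (h1 : ∀ z, α (γ z) = z) (h2 : ∀ z, γ (α z) = z) {δ : ℝ} (hδ : 0 < δ)
    (x : ℕ → B) (hx : ∀ n, ‖x n‖ ≤ 1 ∧ δ ≤ (lam (x n - γ (x n))).re)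
    (hc : ∀ c, Tendsto (fun n => ‖x n * c - c * x n‖) atTop (𝓝 0)) (z : B) :
    Tendsto (fun k => ‖a k * z * α (a k)‖) atTop (𝓝 0) := by
  by_contra hne
  obtain ⟨ε₀, hε₀, hfr⟩ : ∃ ε₀ : ℝ, 0 < ε₀ ∧ ∃ᶠ k in atTop, ε₀ ≤ ‖a k * z * α (a k)‖ := by
    by_contra H
    push Not at H
    refine hne (Metric.tendsto_nhds.2 fun ε hε => (H ε hε).mono fun k hk => ?_)
    rwa [Real.dist_0_eq_abs, abs_norm]
  have := frequently_iff_neBot.1 hfr
  let U := Ultrafilter.of (atTop ⊓ 𝓟 {k | ε₀ ≤ ‖a k * z * α (a k)‖})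
  have U1 : (U : Filter ℕ) ≤ atTop := (Ultrafilter.of_le _).trans inf_le_left
  have U2 : ∀ᶠ k in U, ε₀ ≤ ‖a k * z * α (a k)‖ :=
    le_principal_iff.1 ((Ultrafilter.of_le _).trans inf_le_right)
  choose g g1 g2 using fun k => exists_dual_vector'' ℂ (a k * z * α (a k))
  let φ : ℕ → B →ₗ[ℂ] ℂ := fun k =>
    (g k : B →ₗ[ℂ] ℂ) ∘ₗ (LinearMap.mulRight ℂ (α (a k)) ∘ₗ LinearMap.mulLeft ℂ (a k))
  have hφ : ∀ k b, ‖φ k b‖ ≤ ‖a k * b * α (a k)‖ := fun k b =>
    ((g k).le_opNorm (a k * b * α (a k))).trans (mul_le_of_le_one_left (norm_nonneg _) (g1 k))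
  have αn : ∀ k, ‖α (a k)‖ ≤ 1 := fun k =>
    (NonUnitalStarAlgHom.norm_apply_le α _).trans (h.norm k).le
  have k2 : ∀ b, ∃ c, Tendsto (fun k => φ k b) U (𝓝 c) := fun b => by
    obtain ⟨c, -, hc⟩ := (isCompact_closedBall (0 : ℂ) ‖b‖).ultrafilter_le_nhds
      (U.map fun k => φ k b) (le_principal_iff.2 (mem_map.2 (Eventually.of_forall fun k => by
        have := norm_mul_le_of_le (norm_mul_le_of_le (h.norm k).le (le_refl ‖b‖)) (αn k)
        exact mem_closedBall_zero_iff.2 (by linarith [hφ k b]))))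
    exact ⟨c, hc⟩
  choose f hf using k2
  let μ := linearMapOfTendsto f φ (tendsto_pi_nhds.2 hf)
  have hμ : ∀ b, Tendsto (fun k => ‖φ k b‖) U (𝓝 ‖μ b‖) := fun b => (hf b).norm
  have m0 : ε₀ ≤ ‖μ z‖ := ge_of_tendsto (hμ z) (U2.mono fun k hk => by
    change _ ≤ ‖g k (a k * z * α (a k))‖
    rwa [g2, RCLike.norm_ofReal, abs_norm])
  have m1 : ∀ b, ‖μ b‖ ≤ n2 lam (star b) := fun b =>
    le_of_tendsto_of_tendsto' (hμ b) ((DisjAux.lim h (star b)).mono_left U1) fun k => by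
      have := norm_mul_le_of_le (le_refl ‖a k * b‖) (αn k)
      rw [← norm_star (star b * a k), star_mul, star_star, (h.sa k).star_eq]
      linarith [hφ k b]
  have m2 : ∀ b, ‖μ b‖ ≤ n2 lam (γ b) := fun b =>
    le_of_tendsto_of_tendsto' (hμ b) ((DisjAux.lim h (γ b)).mono_left U1) fun k => by
      have := norm_mul_le_of_le (h.norm k).le
        (NonUnitalStarAlgHom.norm_apply_le α (γ b * a k))
      rw [map_mul, h1, ← mul_assoc] at this
      linarith [hφ k b]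
  have μn : ∀ b, ‖μ b‖ ≤ ‖b‖ := fun b =>
    (m1 b).trans ((n2_le_norm h.st _).trans (norm_star b).le)
  obtain ⟨ε, hε, hεe⟩ : ∃ ε : ℝ, 0 < ε ∧ 8 * (ε * (1 + ‖z‖ ^ 2)) = δ * ε₀ :=
    ⟨δ * ε₀ / (8 * (1 + ‖z‖ ^ 2)), by positivity, by field_simp⟩
  obtain ⟨w, hw⟩ := DisjAux.riesz' h.st μ m1 hε
  obtain ⟨w', hw'⟩ := DisjAux.riesz (h.st.comp γ) μ (fun b => by rw [n2_comp]; exact m2 b) hε
  have γn : ∀ n, ‖γ (x n)‖ ≤ 1 := fun n =>
    (NonUnitalStarAlgHom.norm_apply_le γ _).trans (hx n).1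
  have hc' : ∀ c, Tendsto (fun n => ‖γ (x n) * c - c * γ (x n)‖) atTop (𝓝 0) := fun c =>
    squeeze_zero (fun _ => norm_nonneg _) (fun n => by
      have := NonUnitalStarAlgHom.norm_apply_le γ (x n * α c - α c * x n)
      rwa [map_sub, map_mul, map_mul, h2] at this) (hc (α c))
  have c1 := DisjAux.cluster h (fun n => (hx n).1) hc (z * w)
  have c2 := DisjAux.cluster h γn hc' (γ (star w' * z))
  have hp : 0 < δ * ε₀ / 2 := by positivity
  have lim := (c1.add c2).add ((hc z).add (hc' (γ (star w' * z))))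
  simp only [add_zero] at lim
  obtain ⟨n, hn⟩ := (lim.eventually (gt_mem_nhds hp)).exists
  have b1 : ∀ {y : B}, ‖y‖ ≤ ‖z‖ → ε * (1 + ‖y‖ ^ 2) ≤ ε * (1 + ‖z‖ ^ 2) := fun hy => by gcongr
  have e1 := (hw (x n * z)).trans (b1 (by simpa using norm_mul_le_of_le (hx n).1 (le_refl ‖z‖)))
  have e2 := (hw' (z * x n)).trans (b1 (by simpa using norm_mul_le_of_le (le_refl ‖z‖) (hx n).1))
  have e3 := norm_mul_le_of_le ((h.st.norm_le _).trans (hx n).1) (hw z)
  have e4 := norm_mul_le_of_le ((h.st.norm_le _).trans (γn n)) (hw' z)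
  have e5 := μn (x n * z - z * x n)
  have e6 := h.st.norm_le (γ (x n) * γ (star w' * z) - γ (star w' * z) * γ (x n))
  change ‖μ (z * x n) - lam (γ (star w' * (z * x n)))‖ ≤ _ at e2
  change ‖lam (γ (x n)) * (μ z - lam (γ (star w' * z)))‖ ≤ _ at e4
  rw [← mul_assoc, map_mul γ _ (x n)] at e2
  rw [mul_assoc] at e1
  rw [map_sub] at e5 e6
  have e7 : δ * ε₀ ≤ ‖(lam (x n) - lam (γ (x n))) * μ z‖ := by
    rw [norm_mul, ← map_sub]
    exact mul_le_mul ((hx n).2.trans (Complex.re_le_norm _)) m0 hε₀.le (norm_nonneg _)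
  have e8 := DisjAux.tri (μ z) (μ (x n * z)) (μ (z * x n)) (lam (x n)) (lam (γ (x n)))
    (lam (x n * (z * w))) (lam (z * w)) (lam (γ (star w' * z)))
    (lam (γ (star w' * z) * γ (x n))) (lam (γ (x n) * γ (star w' * z)))
  linarith

end Vale.Agent.P095
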