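import Vale.Agent.P095.UAct

/-! Equivariant one-sided intertwining: the isomorphism. -/

namespace Vale.Agent.P095
open Vale.Agent.P101 Vale.Agent.P101.JS Filter Topology Finset
open scoped ComplexOrder BoundedContinuousFunction symmDiff

universe u
open TopologicalSpace

namespace El1Aux

theorem coe_snd {C : Type u} [NonUnitalCStarAlgebra C] (u v : Unitization ℂ C) (c : C) :
    (((u * (c : Unitization ℂ C) * v).snd : C) : Unitization ℂ C) = u * c * v := by
  ext <;> simp

theorem norm_uu {B : Type u} [CStarAlgebra B] {u v : B} (hu : u ∈ unitary B) (hv : v ∈ unitary B)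
    (x : B) : ‖u * x * v‖ = ‖x‖ := by
  rw [CStarRing.norm_mul_mem_unitary _ hv, CStarRing.norm_mem_unitary_mul _ hu]

theorem map_unit {B : Type u} [CStarAlgebra B] (f : B →⋆ₐ[ℂ] B) {u : B} (hu : u ∈ unitary B) :
    f u ∈ unitary B := by
  rw [Unitary.mem_iff] at hu ⊢
  rw [← map_star, ← map_mul, ← map_mul, hu.1, hu.2, map_one]
  exact ⟨rfl, rfl⟩

theorem seq {G : Type} [Group G] {A C : Type u} [NonUnitalCStarAlgebra A]
    [NonUnitalCStarAlgebra C] {β : G →* (C ≃⋆ₐ[ℂ] C)} {φ : A →⋆ₙₐ[ℂ] C} (h : Intertw β φ)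
    (a : ℕ → A) (c : ℕ → C) (γ : ℕ → G) :
    ∃ (u : ℕ → unitary (Unitization ℂ C)) (s : ℕ → Finset A), Monotone s ∧
      (∀ n, a n ∈ s (n + 1)) ∧
      (∀ n, ∀ x ∈ s n, ‖(u (n + 1) : Unitization ℂ C) * (φ x : C) *
        star (u (n + 1) : Unitization ℂ C) -
        (u n : Unitization ℂ C) * (φ x : C) * star (u n : Unitization ℂ C)‖ ≤ (1 / 2) ^ n) ∧
      (∀ n, ∀ x ∈ s n, ∀ j, j ≤ n → ‖(u (n + 1) : Unitization ℂ C) * (φ x : C) *
        (uact β).φ (γ j) (star (u (n + 1) : Unitization ℂ C)) -
        (u n : Unitization ℂ C) * (φ x : C) * (uact β).φ (γ j) (star (u n : Unitization ℂ C))‖ ≤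
          2 * (1 / 2) ^ n) ∧
      ∀ n j, j ≤ n → ∃ b ∈ s (n + 1), ‖(u (n + 1) : Unitization ℂ C) * (φ b : C) *
        star (u (n + 1) : Unitization ℂ C) - (c j : C)‖ ≤ (1 / 2) ^ n := by
  classical
  have h' : ∀ (s : Finset A) (t : Finset C) (n : ℕ), ∃ (z : unitary (Unitization ℂ C)) (B : C → A),
      (∀ a ∈ s, ‖(z : Unitization ℂ C) * (φ a : C) - (φ a : C) * (z : Unitization ℂ C)‖ ≤
        (1 / 2) ^ n) ∧
      (∀ c ∈ t, ‖star (z : Unitization ℂ C) * (c : C) * (z : Unitization ℂ C) - (φ (B c) : C)‖ ≤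
        (1 / 2) ^ n) ∧
      ∀ a ∈ s, ∀ j, j ≤ n → ‖((φ a : C) : Unitization ℂ C) *
        ((uact β).φ (γ j) z - (z : Unitization ℂ C))‖ ≤ (1 / 2) ^ n := by
    intro s t n
    obtain ⟨z, h1, h2, h3⟩ := h s t ((Finset.range (n + 1)).image γ) ((1 / 2) ^ n) (by positivity)
    choose! B hB using h2
    exact ⟨z, B, h1, hB, fun a ha j hj =>
      h3 a ha _ (Finset.mem_image_of_mem _ (Finset.mem_range.2 (by omega)))⟩
  choose Z B hZ hB hG using h'
  let T : ℕ → unitary (Unitization ℂ C) → Finset C := fun n u =>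
    (Finset.range (n + 1)).image fun j =>
      (star (u : Unitization ℂ C) * (c j : C) * (u : Unitization ℂ C)).snd
  let st : ℕ → unitary (Unitization ℂ C) × Finset A := fun n => Nat.rec (1, ∅)
    (fun n p => (p.1 * Z p.2 (T n p.1) n,
      insert (a n) (p.2 ∪ (T n p.1).image (B p.2 (T n p.1) n)))) n
  have e1 : ∀ n, (st (n + 1)).1 = (st n).1 * Z (st n).2 (T n (st n).1) n := fun n => rfl
  have e2 : ∀ n, (st (n + 1)).2 = insert (a n)
      ((st n).2 ∪ (T n (st n).1).image (B (st n).2 (T n (st n).1) n)) := fun n => rfl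
  refine ⟨fun n => (st n).1, fun n => (st n).2, monotone_nat_of_le_succ fun n => ?_,
    fun n => ?_, fun n x hx => ?_, fun n x hx j hj => ?_, fun n j hj => ?_⟩
  · rw [e2]
    exact Finset.subset_union_left.trans (Finset.subset_insert _ _)
  · beta_reduce; rw [e2]; exact Finset.mem_insert_self _ _
  · have h1 := hZ (st n).2 (T n (st n).1) n x hx
    beta_reduce
    rw [e1]
    set z := Z (st n).2 (T n (st n).1) n
    set u := (st n).1
    set y : Unitization ℂ C := ((φ x : C) : Unitization ℂ C)
    have : ((u * z : unitary (Unitization ℂ C)) : Unitization ℂ C) * y *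
        star ((u * z : unitary (Unitization ℂ C)) : Unitization ℂ C) -
        (u : Unitization ℂ C) * y * star (u : Unitization ℂ C) =
        (u : Unitization ℂ C) * (((z : Unitization ℂ C) * y - y * z) *
          star (z : Unitization ℂ C)) * star (u : Unitization ℂ C) := by
      have hz : (z : Unitization ℂ C) * star (z : Unitization ℂ C) = 1 :=
        Unitary.coe_mul_star_self z
      rw [sub_mul, mul_assoc y, hz, mul_one, Submonoid.coe_mul, star_mul]
      noncomm_ring
    rw [this, norm_conj_unit, ← Unitary.coe_star, CStarRing.norm_mul_coe_unitary]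
    exact h1
  · have h1 := hZ (st n).2 (T n (st n).1) n x hx
    have h2 := hG (st n).2 (T n (st n).1) n x hx j hj
    beta_reduce
    rw [e1]
    set z := Z (st n).2 (T n (st n).1) n
    set u := (st n).1
    set y : Unitization ℂ C := ((φ x : C) : Unitization ℂ C)
    set f := (uact β).φ (γ j)
    have hz : f z * f (star (z : Unitization ℂ C)) = 1 := by
      rw [← map_mul, z.2.2, map_one]
    have : ((u * z : unitary (Unitization ℂ C)) : Unitization ℂ C) * y *
        f (star ((u * z : unitary (Unitization ℂ C)) : Unitization ℂ C)) -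
        (u : Unitization ℂ C) * y * f (star (u : Unitization ℂ C)) =
        (u : Unitization ℂ C) * ((((z : Unitization ℂ C) * y - y * z) - y * (f z - z)) *
          f (star (z : Unitization ℂ C))) * f (star (u : Unitization ℂ C)) := by
      have e : ((z : Unitization ℂ C) * y - y * z) - y * (f z - z) = z * y - y * f z := by
        noncomm_ring
      rw [e, sub_mul, mul_assoc y, hz, mul_one, Submonoid.coe_mul, star_mul, map_mul]
      noncomm_ring
    rw [this, norm_uu u.2 (map_unit f (Unitary.star_mem u.2)),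
      CStarRing.norm_mul_mem_unitary _ (map_unit f (Unitary.star_mem z.2))]
    exact (norm_sub_le _ _).trans (by linarith)
  · have hm : (star ((st n).1 : Unitization ℂ C) * (c j : C) * ((st n).1 : Unitization ℂ C)).snd ∈
        T n (st n).1 := Finset.mem_image_of_mem _ (Finset.mem_range.2 (by omega))
    have h1 := hB (st n).2 (T n (st n).1) n _ hm
    beta_reduce
    refine ⟨B (st n).2 (T n (st n).1) n
      (star ((st n).1 : Unitization ℂ C) * (c j : C) * ((st n).1 : Unitization ℂ C)).snd, ?_, ?_⟩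
    · rw [e2]
      exact Finset.mem_insert_of_mem (Finset.mem_union_right _ (Finset.mem_image_of_mem _ hm))
    · rw [coe_snd] at h1
      set b := B (st n).2 (T n (st n).1) n
        (star ((st n).1 : Unitization ℂ C) * (c j : C) * ((st n).1 : Unitization ℂ C)).snd
      set y : Unitization ℂ C := ((c j : C) : Unitization ℂ C)
      have e3 : star (Z (st n).2 (T n (st n).1) n : Unitization ℂ C) *
          (star ((st n).1 : Unitization ℂ C) * y * (st n).1) *
          (Z (st n).2 (T n (st n).1) n : Unitization ℂ C) =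
          star ((st (n + 1)).1 : Unitization ℂ C) * y * (st (n + 1)).1 := by
        rw [e1, Submonoid.coe_mul, star_mul]; noncomm_ring
      rw [e3] at h1
      set w := (st (n + 1)).1
      have hw : (w : Unitization ℂ C) * star (w : Unitization ℂ C) = 1 :=
        Unitary.coe_mul_star_self w
      have : (w : Unitization ℂ C) * (φ b : C) * star (w : Unitization ℂ C) - y =
          -((w : Unitization ℂ C) * (star (w : Unitization ℂ C) * y * w - (φ b : C)) *
            star (w : Unitization ℂ C)) := by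
        have : (w : Unitization ℂ C) * (star (w : Unitization ℂ C) * y * w) *
            star (w : Unitization ℂ C) = y := by
          rw [← mul_assoc, ← mul_assoc, hw, one_mul, mul_assoc, hw, mul_one]
        rw [mul_sub, sub_mul, this]; abel
      rw [this, norm_neg, norm_conj_unit]
      exact h1

theorem cauchy_of_dense {A E : Type*} [PseudoMetricSpace A] [SeparableSpace A] [Nonempty A]
    [PseudoMetricSpace E] (ψ : ℕ → A → E) (hd : ∀ n x y, dist (ψ n x) (ψ n y) = dist x y)
    (h : ∀ n, CauchySeq fun k => ψ k (denseSeq A n)) (x : A) : CauchySeq fun k => ψ k x := by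
  refine Metric.cauchySeq_iff.2 fun ε hε => ?_
  obtain ⟨n, hn⟩ := (denseRange_denseSeq A).exists_dist_lt x (show 0 < ε / 3 by positivity)
  obtain ⟨N, hN⟩ := Metric.cauchySeq_iff.1 (h n) (ε / 3) (by positivity)
  refine ⟨N, fun k hk l hl => ?_⟩
  have h1 := dist_triangle4 (ψ k x) (ψ k (denseSeq A n)) (ψ l (denseSeq A n)) (ψ l x)
  rw [hd, hd, dist_comm (denseSeq A n)] at h1
  linarith [hN k hk l hl]

end El1Aux
open El1Aux

theorem Intertw.exists_iso {G : Type} [Group G] [Countable G] {A C : Type u}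
    [NonUnitalCStarAlgebra A] [NonUnitalCStarAlgebra C] [SeparableSpace A] [SeparableSpace C]
    {β : G →* (C ≃⋆ₐ[ℂ] C)} {φ : A →⋆ₙₐ[ℂ] C} (hφ : Function.Injective φ) (h : Intertw β φ) :
    ∃ (Φ : A ≃⋆ₐ[ℂ] C) (w : ℕ → unitary (Unitization ℂ C)),
      (∀ a, Tendsto (fun n => (w n : Unitization ℂ C) * (φ a : C) * star (w n : Unitization ℂ C))
        atTop (𝓝 (Φ a : C))) ∧
      ∀ g a, CauchySeq fun n => (w n : Unitization ℂ C) * (φ a : C) *
        (uact β).φ g (star (w n : Unitization ℂ C)) := by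
  obtain ⟨γ, hγ⟩ := exists_surjective_nat G
  obtain ⟨u, s, hs, ha, hψ, hG, hc⟩ := seq h (denseSeq A) (denseSeq C) γ
  have hn : ∀ x : A, ‖((φ x : C) : Unitization ℂ C)‖ = ‖x‖ := fun x => by
    rw [Unitization.norm_inr, NonUnitalStarAlgHom.norm_map φ hφ]
  let ψ : ℕ → A → C := fun n x =>
    ((u n : Unitization ℂ C) * (φ x : C) * star (u n : Unitization ℂ C)).snd
  have hcoe : ∀ n x, ((ψ n x : C) : Unitization ℂ C) =
      (u n : Unitization ℂ C) * (φ x : C) * star (u n : Unitization ℂ C) := fun n x => coe_snd _ _ _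
  have hdist : ∀ c c' : C, dist c c' = ‖(c : Unitization ℂ C) - (c' : Unitization ℂ C)‖ :=
    fun c c' => by rw [← Unitization.inr_sub, Unitization.norm_inr, dist_eq_norm]
  have hd : ∀ n x y, dist (ψ n x) (ψ n y) = dist x y := fun n x y => by
    rw [hdist, hcoe, hcoe, ← sub_mul, ← mul_sub, norm_conj_unit, ← Unitization.inr_sub, ← map_sub,
      hn, dist_eq_norm]
  have hstep : ∀ n, ∀ x ∈ s n, ∀ k, dist (ψ (k + n) x) (ψ (k + 1 + n) x) ≤
      (1 / 2) ^ n * (1 / 2) ^ k := fun n x hx k => by
    rw [dist_comm, hdist, hcoe, hcoe, ← pow_add, add_comm n k, add_right_comm]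
    exact hψ (k + n) x (hs (Nat.le_add_left n k) hx)
  have hC0 : ∀ n, ∀ x ∈ s n, CauchySeq fun k => ψ k x := fun n x hx =>
    (cauchySeq_shift n).1 (cauchySeq_of_le_geometric (1 / 2) _ (by norm_num) (hstep n x hx))
  have hC : ∀ x, CauchySeq fun k => ψ k x := cauchy_of_dense ψ hd fun n => hC0 _ _ (ha n)
  choose Ψ hΨ using fun x => cauchySeq_tendsto_of_complete (hC x)
  have hu2 : ∀ n, star (u n : Unitization ℂ C) * (u n : Unitization ℂ C) = 1 := fun n =>
    Unitary.coe_star_mul_self _
  have hinj : Function.Injective (Unitization.inr : C → Unitization ℂ C) :=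
    Unitization.inr_injective
  let Φ : A →⋆ₙₐ[ℂ] C :=
    { toFun := Ψ
      map_smul' := fun r x => tendsto_nhds_unique (hΨ (r • x))
        (((hΨ x).const_smul r).congr fun n => hinj (by
          simp only [Unitization.inr_smul, hcoe, map_smul, mul_smul_comm, smul_mul_assoc]))
      map_mul' := fun x y => tendsto_nhds_unique (hΨ (x * y))
        (((hΨ x).mul (hΨ y)).congr fun n => hinj (by
          simp only [Unitization.inr_mul, hcoe, map_mul, mul_assoc]
          rw [← mul_assoc (star (u n : Unitization ℂ C)), hu2, one_mul]))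
      map_zero' := tendsto_nhds_unique (hΨ 0) (tendsto_const_nhds.congr fun n => hinj (by
        simp only [hcoe, map_zero, Unitization.inr_zero, mul_zero, zero_mul]))
      map_add' := fun x y => tendsto_nhds_unique (hΨ (x + y))
        (((hΨ x).add (hΨ y)).congr fun n => hinj (by
          simp only [Unitization.inr_add, hcoe, map_add, mul_add, add_mul]))
      map_star' := fun x => tendsto_nhds_unique (hΨ (star x))
        ((hΨ x).star.congr fun n => hinj (by
          simp only [Unitization.inr_star, hcoe, map_star, star_mul, star_star, mul_assoc])) }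
  have hI : Isometry Φ := Isometry.of_dist_eq fun x y =>
    tendsto_nhds_unique ((hΨ x).dist (hΨ y)) (by simpa only [hd] using tendsto_const_nhds)
  have hD : DenseRange Φ := by
    refine Metric.denseRange_iff.2 fun y ε hε => ?_
    obtain ⟨j, hj⟩ := (denseRange_denseSeq C).exists_dist_lt y (show 0 < ε / 2 by positivity)
    obtain ⟨m, hm⟩ := exists_pow_lt_of_lt_one (show 0 < ε / 8 by positivity)
      (show (1 / 2 : ℝ) < 1 by norm_num)
    obtain ⟨b, hb, hb'⟩ := hc (j + m) j (Nat.le_add_right _ _)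
    refine ⟨b, ?_⟩
    have h1 := dist_le_of_le_geometric_of_tendsto₀ (1 / 2) _ (by norm_num) (hstep _ b hb)
      ((hΨ b).comp (tendsto_add_atTop_nat (j + m + 1)))
    rw [zero_add] at h1
    rw [← hcoe, ← hdist, dist_comm] at hb'
    have h2 := dist_triangle4 y (denseSeq C j) (ψ (j + m + 1) b) (Ψ b)
    have h3 : (1 / 2 : ℝ) ^ (j + m) ≤ (1 / 2) ^ m :=
      pow_le_pow_of_le_one (by norm_num) (by norm_num) (Nat.le_add_left _ _)
    have h4 : (1 / 2 : ℝ) ^ (j + m + 1) / (1 - 1 / 2) = (1 / 2) ^ (j + m) := by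
      rw [pow_succ]; ring
    change dist y (Ψ b) < ε
    linarith
  have hsurj : Function.Surjective Φ := by
    rw [← Set.range_eq_univ, ← hI.isClosedEmbedding.isClosed_range.closure_eq]
    exact hD.closure_range
  refine ⟨StarAlgEquiv.ofBijective Φ ⟨hI.injective, hsurj⟩, u, fun x => ?_, fun g => ?_⟩
  · have := ((Unitization.isometry_inr (𝕜 := ℂ) (A := C)).continuous.tendsto _).comp (hΨ x)
    exact this.congr fun n => hcoe n x
  · obtain ⟨j, rfl⟩ := hγ g
    refine cauchy_of_dense (fun n x => (u n : Unitization ℂ C) * (φ x : C) *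
      (uact β).φ (γ j) (star (u n : Unitization ℂ C))) (fun n x y => ?_) fun n => ?_
    · rw [dist_eq_norm, ← sub_mul, ← mul_sub, norm_uu (u n).2 (map_unit _ (Unitary.star_mem (u n).2)),
        ← Unitization.inr_sub, ← map_sub, hn, dist_eq_norm]
    · refine (cauchySeq_shift (n + 1 + j)).1 (cauchySeq_of_le_geometric (1 / 2)
        (2 * (1 / 2) ^ (n + 1 + j)) (by norm_num) fun k => ?_)
      rw [dist_comm, dist_eq_norm, mul_assoc 2, ← pow_add, add_comm (n + 1 + j) k,
        add_right_comm k 1]
      exact hG (k + (n + 1 + j)) _ (hs (by omega) (ha n)) j (by omega)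

end Vale.Agent.P095
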