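import Vale.Agent.P095.UAct

/-! Equivariant one-sided intertwining: the cocycle. -/

namespace Vale.Agent.P095
open Vale.Agent.P101 Vale.Agent.P101.JS Filter Topology Finset
open scoped ComplexOrder BoundedContinuousFunction symmDiff

universe u

namespace El2Aux
open scoped MultiplierAlgebra
variable {C : Type u} [NonUnitalCStarAlgebra C]

/-- Left strict convergence. -/
def SL (x : ℕ → Unitization ℂ C) (v : 𝓜(ℂ, C)) : Prop :=
  ∀ c : C, Tendsto (fun n => x n * (c : Unitization ℂ C)) atTop (𝓝 ((v.fst c : C) : Unitization ℂ C))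

theorem ext_fst {v v' : 𝓜(ℂ, C)} (h : ∀ c, v.fst c = v'.fst c) : v = v' := by
  rw [← sub_eq_zero, ← norm_eq_zero, ← DoubleCentralizer.norm_fst, norm_eq_zero,
    DoubleCentralizer.sub_fst, sub_eq_zero]
  exact ContinuousLinearMap.ext h

theorem SL.unique {x : ℕ → Unitization ℂ C} {v v' : 𝓜(ℂ, C)} (h : SL x v) (h' : SL x v') :
    v = v' := ext_fst fun c => Unitization.inr_injective (R := ℂ)
      (tendsto_nhds_unique (h c) (h' c))

theorem tend_mul {B : Type u} [CStarAlgebra B] {x y : ℕ → B} {a b : B} (hx : ∀ n, ‖x n‖ ≤ 1)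
    (hy : Tendsto y atTop (𝓝 a)) (h : Tendsto (fun n => x n * a) atTop (𝓝 b)) :
    Tendsto (fun n => x n * y n) atTop (𝓝 b) := by
  have h0 : Tendsto (fun n => x n * (y n - a)) atTop (𝓝 0) := by
    refine squeeze_zero_norm (fun n => ?_) (tendsto_iff_norm_sub_tendsto_zero.1 hy)
    exact (norm_mul_le _ _).trans (mul_le_of_le_one_left (norm_nonneg _) (hx n))
  have := h0.add h
  rw [zero_add] at this
  exact this.congr fun n => by rw [mul_sub, sub_add_cancel]

theorem SL.mul {x y : ℕ → Unitization ℂ C} {v v' : 𝓜(ℂ, C)} (h : SL x v) (h' : SL y v')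
    (hx : ∀ n, ‖x n‖ ≤ 1) : SL (fun n => x n * y n) (v * v') := fun c =>
  (tend_mul hx (h' c) (h _)).congr fun _ => (mul_assoc _ _ _).symm

theorem SL.coe {y : ℕ → Unitization ℂ C} {c : C} (h : Tendsto y atTop (𝓝 (c : Unitization ℂ C))) :
    SL y (c : 𝓜(ℂ, C)) := fun d => by
  have := h.mul_const (d : Unitization ℂ C)
  rwa [← Unitization.inr_mul] at this

theorem SL.one {y : ℕ → Unitization ℂ C} (h : ∀ n, y n = 1) : SL y (1 : 𝓜(ℂ, C)) := fun d => by
  simp only [h, one_mul]
  exact tendsto_const_nhds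

theorem SL.aut {G : Type} [Group G] (β : G →* (C ≃⋆ₐ[ℂ] C)) (g : G) {x : ℕ → Unitization ℂ C}
    {v : 𝓜(ℂ, C)} (h : SL x v) : SL (fun n => (uact β).φ g (x n)) (extendAut (β g) v) := fun c => by
  have := ((hom_cont ((uact β).φ g)).tendsto _).comp (h ((β g).symm c))
  rw [uact_inr] at this
  refine this.congr fun n => ?_
  simp only [Function.comp, map_mul, uact_inr, StarAlgEquiv.apply_symm_apply]

theorem coe_snd_l (u : Unitization ℂ C) (c : C) :
    (((u * (c : Unitization ℂ C)).snd : C) : Unitization ℂ C) = u * c := by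
  ext <;> simp

theorem coe_snd_r (u : Unitization ℂ C) (c : C) :
    ((((c : Unitization ℂ C) * u).snd : C) : Unitization ℂ C) = c * u := by
  ext <;> simp

theorem lim_inr {y : ℕ → Unitization ℂ C} (hy : CauchySeq y)
    (h : ∀ n, ∃ c : C, (c : Unitization ℂ C) = y n) :
    ∃ c : C, Tendsto y atTop (𝓝 (c : Unitization ℂ C)) := by
  obtain ⟨l, hl⟩ := cauchySeq_tendsto_of_complete hy
  obtain ⟨c, rfl⟩ : l ∈ Set.range (Unitization.inr : C → Unitization ℂ C) :=
    (Unitization.isometry_inr (𝕜 := ℂ) (A := C)).isClosedEmbedding.isClosed_range.mem_of_tendsto hl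
      (Eventually.of_forall h)
  exact ⟨c, hl⟩

theorem exists_clm (f : ℕ → C →ₗ[ℂ] Unitization ℂ C) (hf : ∀ n c, ‖f n c‖ ≤ ‖c‖)
    (h : ∀ c, ∃ d : C, Tendsto (fun n => f n c) atTop (𝓝 (d : Unitization ℂ C))) :
    ∃ L : C →L[ℂ] C, ∀ c, Tendsto (fun n => f n c) atTop (𝓝 ((L c : C) : Unitization ℂ C)) := by
  choose L hL using h
  have hinj : Function.Injective (Unitization.inr : C → Unitization ℂ C) :=
    Unitization.inr_injective
  let L' : C →ₗ[ℂ] C :=
    { toFun := L
      map_add' := fun x y => hinj (tendsto_nhds_unique (hL (x + y)) (by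
        rw [Unitization.inr_add]
        simpa only [map_add] using (hL x).add (hL y)))
      map_smul' := fun r x => hinj (tendsto_nhds_unique (hL (r • x)) (by
        rw [Unitization.inr_smul]
        simpa only [map_smul, RingHom.id_apply] using (hL x).const_smul r)) }
  refine ⟨L'.mkContinuous 1 fun c => ?_, hL⟩
  rw [one_mul, ← Unitization.norm_inr (𝕜 := ℂ)]
  exact le_of_tendsto' (hL c).norm fun n => hf n c

theorem exists_mult {x : ℕ → Unitization ℂ C} (hx : ∀ n, ‖x n‖ ≤ 1)
    (h1 : ∀ c : C, CauchySeq fun n => x n * (c : Unitization ℂ C))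
    (h2 : ∀ c : C, CauchySeq fun n => (c : Unitization ℂ C) * x n) :
    ∃ v : 𝓜(ℂ, C), SL x v ∧ SL (fun n => star (x n)) (star v) := by
  obtain ⟨L, hL⟩ := exists_clm
    (fun n => (LinearMap.mulLeft ℂ (x n)).comp (Unitization.inrHom ℂ ℂ C)) (fun n c => by
      change ‖x n * (c : Unitization ℂ C)‖ ≤ _
      rw [← Unitization.norm_inr (𝕜 := ℂ) c]
      exact (norm_mul_le _ _).trans (mul_le_of_le_one_left (norm_nonneg _) (hx n)))
    fun c => lim_inr (h1 c) fun n => ⟨_, coe_snd_l _ _⟩
  obtain ⟨R, hR⟩ := exists_clm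
    (fun n => (LinearMap.mulRight ℂ (x n)).comp (Unitization.inrHom ℂ ℂ C)) (fun n c => by
      change ‖(c : Unitization ℂ C) * x n‖ ≤ _
      rw [← Unitization.norm_inr (𝕜 := ℂ) c]
      exact (norm_mul_le _ _).trans (mul_le_of_le_one_right (norm_nonneg _) (hx n)))
    fun c => lim_inr (h2 c) fun n => ⟨_, coe_snd_r _ _⟩
  have hL' : ∀ c : C, Tendsto (fun n => x n * (c : Unitization ℂ C)) atTop
      (𝓝 ((L c : C) : Unitization ℂ C)) := hL
  have hR' : ∀ c : C, Tendsto (fun n => (c : Unitization ℂ C) * x n) atTop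
      (𝓝 ((R c : C) : Unitization ℂ C)) := hR
  refine ⟨⟨(L, R), fun a b => Unitization.inr_injective (R := ℂ) ?_⟩, hL', fun c => ?_⟩
  · change ((R a * b : C) : Unitization ℂ C) = ((a * L b : C) : Unitization ℂ C)
    rw [Unitization.inr_mul, Unitization.inr_mul]
    exact tendsto_nhds_unique ((hR' a).mul_const _)
      (((hL' b).const_mul _).congr fun n => (mul_assoc _ _ _).symm)
  · rw [DoubleCentralizer.star_fst, Unitization.inr_star]
    refine (hR' (star c)).star.congr fun n => ?_
    rw [star_mul, ← Unitization.inr_star, star_star]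

theorem cauchy_of_near {B : Type u} [CStarAlgebra B] {x y : ℕ → B} (hx : CauchySeq x)
    (h : Tendsto (fun n => y n - x n) atTop (𝓝 0)) : CauchySeq y := by
  have := hx.add h.cauchySeq
  have e : y = x + fun n => y n - x n := by ext n; simp
  rw [e]; exact this

end El2Aux
open El2Aux

theorem cocycle_of_iso {G : Type} [Group G] {A C : Type u} [NonUnitalCStarAlgebra A]
    [NonUnitalCStarAlgebra C] (α : G →* (A ≃⋆ₐ[ℂ] A)) (β : G →* (C ≃⋆ₐ[ℂ] C))
    (φ : A →⋆ₙₐ[ℂ] C) (he : ∀ g a, β g (φ a) = φ (α g a)) (Φ : A ≃⋆ₐ[ℂ] C)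
    (w : ℕ → unitary (Unitization ℂ C))
    (h1 : ∀ a, Tendsto (fun n => (w n : Unitization ℂ C) * (φ a : C) *
      star (w n : Unitization ℂ C)) atTop (𝓝 (Φ a : C)))
    (h2 : ∀ g a, CauchySeq fun n => (w n : Unitization ℂ C) * (φ a : C) *
      (uact β).φ g (star (w n : Unitization ℂ C))) : CocycleConjugate α β := by
  let x : G → ℕ → Unitization ℂ C := fun g n =>
    (w n : Unitization ℂ C) * (uact β).φ g (star (w n : Unitization ℂ C))
  have hw1 : ∀ n, star (w n : Unitization ℂ C) * (w n : Unitization ℂ C) = 1 := fun n => (w n).2.1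
  have hw2 : ∀ n, (w n : Unitization ℂ C) * star (w n : Unitization ℂ C) = 1 := fun n => (w n).2.2
  have hb1 : ∀ g n, (uact β).φ g (star (w n : Unitization ℂ C)) *
      (uact β).φ g (w n : Unitization ℂ C) = 1 := fun g n => by rw [← map_mul, hw1, map_one]
  have hb2 : ∀ g n, (uact β).φ g (w n : Unitization ℂ C) *
      (uact β).φ g (star (w n : Unitization ℂ C)) = 1 := fun g n => by rw [← map_mul, hw2, map_one]
  have hs : ∀ g n, star (x g n) =
      (uact β).φ g (w n : Unitization ℂ C) * star (w n : Unitization ℂ C) := fun g n => by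
    simp only [x, star_mul, ← map_star, star_star]
  have hu1 : ∀ g n, star (x g n) * x g n = 1 := fun g n => by
    rw [hs, mul_assoc, ← mul_assoc (star _), hw1, one_mul, hb2]
  have hu2 : ∀ g n, x g n * star (x g n) = 1 := fun g n => by
    rw [hs, mul_assoc, ← mul_assoc ((uact β).φ g _), hb1, one_mul, hw2]
  have hx : ∀ g n, ‖x g n‖ ≤ 1 := fun g n =>
    (CStarRing.norm_of_mem_unitary (Unitary.mem_iff.2 ⟨hu1 g n, hu2 g n⟩)).le
  have hx' : ∀ g n, ‖star (x g n)‖ ≤ 1 := fun g n => by rw [norm_star]; exact hx g n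
  have hβ : ∀ g a, Tendsto (fun n => (uact β).φ g ((w n : Unitization ℂ C) * (φ a : C) *
      star (w n : Unitization ℂ C))) atTop (𝓝 (β g (Φ a) : C)) := fun g a => by
    have := ((hom_cont ((uact β).φ g)).tendsto _).comp (h1 a)
    rwa [uact_inr] at this
  have hex : ∀ g, ∃ v, SL (x g) v ∧ SL (fun n => star (x g n)) (star v) := fun g => by
    refine exists_mult (hx g) (fun c => ?_) fun c => ?_
    · obtain ⟨a, rfl⟩ := (Φ.trans (β g)).surjective c
      refine cauchy_of_near (h2 g (α g a)) ?_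
      have h3 := (hβ g a).const_sub ((β g (Φ a) : C) : Unitization ℂ C)
      rw [sub_self] at h3
      refine (tend_mul (hx g) h3 (by simpa only [mul_zero] using tendsto_const_nhds)).congr
        fun n => ?_
      rw [mul_sub, map_mul, map_mul, uact_inr, he]
      congr 1
      simp only [x, mul_assoc]
      rw [← mul_assoc ((uact β).φ g _), hb1, one_mul]
    · obtain ⟨a, rfl⟩ := Φ.surjective c
      refine cauchy_of_near (h2 g a) ?_
      have h3 := ((h1 a).const_sub ((Φ a : C) : Unitization ℂ C)).star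
      rw [sub_self, star_zero] at h3
      have h4 := (tend_mul (hx' g) h3 (by simpa only [mul_zero] using tendsto_const_nhds)).star
      rw [star_zero] at h4
      refine h4.congr fun n => ?_
      rw [star_mul, star_star, star_star, sub_mul]
      congr 1
      simp only [x, mul_assoc]
      rw [← mul_assoc (star _), hw1, one_mul]
  choose v hv hv' using hex
  refine ⟨Φ, v, fun g => Unitary.mem_iff.2 ⟨((hv' g).mul (hv g) (hx' g)).unique (SL.one (hu1 g)),
    ((hv g).mul (hv' g) (hx g)).unique (SL.one (hu2 g))⟩, fun g h => ?_, fun g a => ?_⟩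
  · refine (hv (g * h)).unique ?_
    convert (hv g).mul ((hv h).aut β g) (hx g) using 2 with n
    simp only [x, map_mul, ← (uact β).mul, mul_assoc]
    rw [← mul_assoc ((uact β).φ g _), hb1, one_mul]
  · refine (SL.coe (h1 (α g a))).unique ?_
    rw [mul_assoc]
    intro c
    have h3 := (hβ g a).mul (hv' g c)
    rw [← Unitization.inr_mul] at h3
    refine (tend_mul (hx g) h3 (hv g _)).congr fun n => ?_
    beta_reduce
    rw [hs, map_mul, map_mul, uact_inr, he]
    simp only [x, mul_assoc]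
    rw [← mul_assoc ((uact β).φ g (star _)), hb1, one_mul, ← mul_assoc ((uact β).φ g (star _)), hb1,
      one_mul]

end Vale.Agent.P095
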