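import Vale.Agent.P095.Folsum
import Vale.Agent.P095.Simp

/-! From approximate data in  to exact data in the central sequence algebra. -/

namespace Vale.Agent.P095
open Vale.Agent.P101 Vale.Agent.P101.JS Filter Topology Finset
open scoped ComplexOrder BoundedContinuousFunction symmDiff

universe u
/-- Approximate data in `B`. -/
structure NTB {G : Type} [Group G] {B : Type u} [CStarAlgebra B] (β : Act G B) (t : Finset B)
    (K E : Finset G) (δ : ℝ) (x : B) (s : Bool → Bool × Bool → B) : Prop where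
  norm_x : ‖x‖ ≤ 3
  norm_s : ∀ ν J, ‖s ν J‖ ≤ 3
  comm_x : ∀ a ∈ t, ‖x * a - a * x‖ ≤ δ
  comm_s : ∀ a ∈ t, ∀ ν J, ‖s ν J * a - a * s ν J‖ ≤ δ
  inv : ∀ a ∈ t, ∀ g ∈ K, ‖(β.φ g x - x) * a‖ ≤ δ
  same : ∀ a ∈ t, ∀ J, ‖(star (s true J) * s true J - star (s false J) * s false J) * a‖ ≤ δ
  orth : ∀ J, ‖star (s true J) * s false J‖ ≤ δ
  sum : ∀ a ∈ t, ‖(∑ J, star (s true J) * s true J - yfun x) * a‖ ≤ δ
  wander : ∀ g ∈ E, ∀ ν ν' J, ‖star (s ν J) * β.φ g (s ν' J)‖ ≤ δ

namespace ExactAux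

theorem exists_seq {B : Type u} [CStarAlgebra B] [TopologicalSpace.SeparableSpace B] (P : Pair B) :
    ∃ t : ℕ → Finset B, (∀ n, ∀ a ∈ t n, a ∈ P.I ∧ ‖a‖ ≤ 1) ∧
      ∀ (Φ : ℕ → B →ₗ[ℂ] B) (C : ℝ), (∀ n a, ‖Φ n a‖ ≤ C * ‖a‖) →
        (∀ᶠ n in atTop, ∀ a ∈ t n, ‖Φ n a‖ ≤ 1 / ((n : ℝ) + 1)) →
        ∀ a ∈ P.I, Tendsto (fun n => ‖Φ n a‖) atTop (𝓝 0) := by
  classical
  let U : Set B := {a | a ∈ P.I ∧ ‖a‖ ≤ 1}
  have : SecondCountableTopology B := UniformSpace.secondCountable_of_separable B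
  have : Nonempty U := ⟨⟨0, P.I.zero_mem, by simp⟩⟩
  let q := TopologicalSpace.denseSeq U
  refine ⟨fun n => (range (n + 1)).image fun j => (q j).1, fun n a ha => ?_, fun Φ C hC h => ?_⟩
  · obtain ⟨j, -, rfl⟩ := mem_image.1 ha
    exact (q j).2
  have key : ∀ a : U, Tendsto (fun n => ‖Φ n a‖) atTop (𝓝 0) := fun a => by
    refine Metric.tendsto_nhds.2 fun ε hε => ?_
    obtain ⟨j, hj⟩ := (TopologicalSpace.denseRange_denseSeq U).exists_dist_lt a
      (show 0 < ε / 2 / (|C| + 1) by positivity)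
    rw [Subtype.dist_eq, dist_eq_norm, lt_div_iff₀ (by positivity)] at hj
    filter_upwards [h, eventually_ge_atTop j,
      (tendsto_one_div_add_atTop_nhds_zero_nat (𝕜 := ℝ)).eventually (gt_mem_nhds (half_pos hε))]
      with n h1 h2 h3
    have h4 := h1 _ (mem_image_of_mem _ (mem_range.2 (Nat.lt_succ_of_le h2)))
    have h5 := hC n (a.1 - (q j).1)
    have h6 := norm_le_insert' (Φ n a) (Φ n (q j))
    rw [← map_sub] at h6
    rw [dist_zero_right, norm_norm]
    nlinarith [le_abs_self C, norm_nonneg (a.1 - (q j).1)]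
  intro a ha
  have h0 : (0 : ℝ) < ‖a‖ + 1 := by positivity
  have h1 := (key ⟨((‖a‖ + 1 : ℝ) : ℂ)⁻¹ • a, P.smul_mem _ ha, by
    rw [norm_smul, norm_inv, Complex.norm_of_nonneg h0.le, inv_mul_le_iff₀ h0]
    linarith⟩).const_mul (‖a‖ + 1)
  simpa only [map_smul, norm_smul, norm_inv, Complex.norm_of_nonneg h0.le,
    mul_inv_cancel_left₀ h0.ne', mul_zero] using h1

theorem ev_le {B : Type u} [CStarAlgebra B] {ω : Ultrafilter ℕ} {y : ℕ →ᵇ B}
    {z : UltraPower ω B} {δ : ℝ} (hδ : 0 < δ) (h : ‖z‖ ≤ δ) (e : cls ω B y = z) :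
    ∀ᶠ n in ω, ‖y n‖ ≤ 2 * δ := by
  filter_upwards [ev_norm_le (ω := ω) y hδ] with n hn
  rw [e] at hn
  linarith

end ExactAux

theorem exists_exT {G : Type} [Group G] [Countable G] {B : Type u} [CStarAlgebra B]
    [TopologicalSpace.SeparableSpace B] (P : Pair B) (β : Act G B)
    (hβ : ∀ g, ∀ a ∈ (P.I : Set B), β.φ g a ∈ (P.I : Set B)) {ω : Ultrafilter ℕ}
    (hω : (ω : Filter ℕ) ≤ atTop)
    (h : ∀ (t : Finset B) (K E : Finset G) (δ : ℝ), (∀ a ∈ t, a ∈ P.I ∧ ‖a‖ ≤ 1) →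
      (∀ g ∈ E, ∃ w, (β.fs ω hβ).φ g w ≠ w) → 0 < δ → ∃ x s, NTB β t K E δ x s) :
    ∃ x s, ExT (β.fs ω hβ) x s := by
  classical
  obtain ⟨t, ht, key⟩ := ExactAux.exists_seq P
  obtain ⟨en, hen⟩ := exists_surjective_nat G
  let K : ℕ → Finset G := fun n => (range (n + 1)).image en
  have hK : ∀ g, ∀ᶠ n in atTop, g ∈ K n := fun g => by
    obtain ⟨j, rfl⟩ := hen g
    filter_upwards [eventually_ge_atTop j] with n hn
    exact mem_image_of_mem _ (mem_range.2 (Nat.lt_succ_of_le hn))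
  choose x s H using fun n => h (t n) (K n) ((K n).filter fun g => ∃ w, (β.fs ω hβ).φ g w ≠ w)
    (1 / ((n : ℝ) + 1)) (ht n) (fun g hg => (mem_filter.1 hg).2) Nat.one_div_pos_of_nat
  have hS : ∀ a ∈ (P.I : Set B), star a ∈ (P.I : Set B) := fun a ha => P.star_mem ha
  have cen : ∀ y : ℕ →ᵇ B, (∀ n, ∀ a ∈ t n, ‖y n * a - a * y n‖ ≤ 1 / ((n : ℝ) + 1)) →
      cls ω B y ∈ Cen ω (P.I : Set B) := fun y hy => (cls_mem_cen hS).2 fun a ha => by
    have := key (fun n => LinearMap.mulLeft ℂ (y n) - LinearMap.mulRight ℂ (y n)) (2 * ‖y‖)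
      (fun n a => by
        have h1 := norm_mul_le_of_le (y.norm_coe_le_norm n) (le_refl ‖a‖)
        have h2 := norm_mul_le_of_le (le_refl ‖a‖) (y.norm_coe_le_norm n)
        exact (norm_sub_le_of_le h1 h2).trans (le_of_eq (by ring)))
      (Eventually.of_forall hy) a ha
    simpa only [LinearMap.sub_apply, LinearMap.mulLeft_apply, LinearMap.mulRight_apply,
      norm_sub_rev] using this.mono_left hω
  have ann : ∀ (z : Cen ω (P.I : Set B)) (y : ℕ →ᵇ B), cls ω B y = z.1 →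
      (∀ᶠ n in atTop, ∀ a ∈ t n, ‖y n * a‖ ≤ 1 / ((n : ℝ) + 1)) → fmk ω _ z = 0 := by
    rintro ⟨z, hz⟩ y rfl hy
    exact fmk_eq_zero.2 ((cls_mem_ann hS hz).2 fun a ha => (key (fun n => LinearMap.mulLeft ℂ (y n))
      ‖y‖ (fun n a => norm_mul_le_of_le (y.norm_coe_le_norm n) le_rfl) hy a ha).mono_left hω)
  let X : ℕ →ᵇ B := seqB x 3 fun n => (H n).norm_x
  let S : Bool → Bool × Bool → ℕ →ᵇ B := fun ν J => seqB (fun n => s n ν J) 3
    fun n => (H n).norm_s ν J
  let X' : Cen ω (P.I : Set B) := ⟨cls ω B X, cen X fun n => (H n).comm_x⟩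
  let S' : Bool → Bool × Bool → Cen ω (P.I : Set B) := fun ν J =>
    ⟨cls ω B (S ν J), cen _ fun n a ha => (H n).comm_s a ha ν J⟩
  have small : ∀ (n : ℕ) (y : B), ‖y‖ ≤ 1 / ((n : ℝ) + 1) → ∀ a ∈ t n, ‖y * a‖ ≤ 1 / ((n : ℝ) + 1) :=
    fun n y hy a ha => (norm_mul_le_of_le hy (ht n a ha).2).trans (mul_one _).le
  refine ⟨fmk ω _ X', fun ν J => fmk ω _ (S' ν J), fun g => ?_, fun J => ?_, fun J => ?_, ?_,
    fun g hg ν ν' J => ?_⟩
  · rw [Act.fs_fmk, ← sub_eq_zero, ← map_sub]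
    refine ann _ (compB (β.φ g) X - X) (by rw [map_sub, ← umap_cls]; rfl) ?_
    filter_upwards [hK g] with n hn a ha using (H n).inv a ha g hn
  · rw [← sub_eq_zero, ← map_star, ← map_star, ← map_mul, ← map_mul, ← map_sub]
    exact ann _ (star (S true J) * S true J - star (S false J) * S false J)
      (by simp only [map_sub, map_mul, map_star]; rfl)
      (Eventually.of_forall fun n a ha => (H n).same a ha J)
  · rw [← map_star, ← map_mul]
    exact ann _ (star (S true J) * S false J) (by simp only [map_mul, map_star]; rfl)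
      (Eventually.of_forall fun n => small n _ ((H n).orth J))
  · simp only [← map_star, ← map_mul]
    rw [← sub_eq_zero, ← map_sum, ← map_yfun, ← map_sub]
    refine ann _ (∑ J, star (S true J) * S true J - yfun X) ?_
      (Eventually.of_forall fun n a ha => ?_)
    · have := map_yfun (Cen ω (P.I : Set B)).subtype X'
      simp only [map_sub, map_sum, map_mul, map_star, map_yfun, AddSubgroupClass.coe_sub,
        AddSubmonoidClass.coe_finset_sum]
      exact congrArg₂ _ rfl this.symm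
    · have := (H n).sum a ha
      rw [BoundedContinuousFunction.sub_apply, BoundedContinuousFunction.sum_apply]
      exact this
  · rw [Act.fs_fmk, ← map_star, ← map_mul]
    refine ann _ (star (S ν J) * compB (β.φ g) (S ν' J))
      (by rw [map_mul, map_star, ← umap_cls]; rfl) ?_
    filter_upwards [hK g] with n hn
    exact small n _ ((H n).wander g (mem_filter.2 ⟨hn, hg⟩) ν ν' J)

/-- Approximate data descend from the ultrapower. -/
theorem NTB.descend {G : Type} [Group G] {B : Type u} [CStarAlgebra B] (β : Act G B)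
    (ω : Ultrafilter ℕ) [DecidableEq (UltraPower ω B)] {t : Finset B} {K E : Finset G} {δ : ℝ}
    (hδ : 0 < δ) {x : B} {s : Bool → Bool × Bool → UltraPower ω B} (hs : ∀ ν J, ‖s ν J‖ ≤ 2)
    (h : NTB (β.ultra ω) (t.image (constHom ω B)) K E δ (constHom ω B x) s) :
    ∃ s', NTB β t K E (2 * δ) x s' := by
  choose S hS using fun ν J => cls_surj (s ν J)
  have m : ∀ a ∈ t, constHom ω B a ∈ t.image (constHom ω B) := fun a ha => mem_image_of_mem _ ha
  let c : B → ℕ →ᵇ B := BoundedContinuousFunction.const ℕ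
  have hc : ∀ a, cls ω B (c a) = constHom ω B a := fun a => rfl
  have cst : ∀ (a : B) (r : ℝ), ‖constHom ω B a‖ ≤ r → ‖a‖ ≤ r := fun a r h =>
    le_of_forall_pos_le_add fun ε hε => by
      obtain ⟨n, hn⟩ := (ev_norm_le (ω := ω) (c a) hε).exists
      exact hn.trans (by rw [hc]; linarith)
  have e1 : ∀ᶠ n in ω, ∀ ν J, ‖S ν J n‖ ≤ 3 := by
    simp only [eventually_all]
    intro ν J
    filter_upwards [ev_norm_le (ω := ω) (S ν J) one_pos] with n hn
    rw [hS] at hn
    linarith [hs ν J]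
  have e2 : ∀ᶠ n in ω, ∀ a ∈ t, ∀ ν J, ‖S ν J n * a - a * S ν J n‖ ≤ 2 * δ := by
    simp only [eventually_all_finset, eventually_all]
    exact fun a ha ν J => ExactAux.ev_le (y := S ν J * c a - c a * S ν J) hδ
      (h.comm_s _ (m a ha) ν J) (by simp only [map_sub, map_mul, hS, hc])
  have e3 : ∀ᶠ n in ω, ∀ a ∈ t, ∀ J,
      ‖(star (S true J n) * S true J n - star (S false J n) * S false J n) * a‖ ≤ 2 * δ := by
    simp only [eventually_all_finset, eventually_all]
    exact fun a ha J => ExactAux.ev_le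
      (y := (star (S true J) * S true J - star (S false J) * S false J) * c a) hδ
      (h.same _ (m a ha) J) (by simp only [map_sub, map_mul, map_star, hS, hc])
  have e4 : ∀ᶠ n in ω, ∀ J, ‖star (S true J n) * S false J n‖ ≤ 2 * δ := by
    simp only [eventually_all]
    exact fun J => ExactAux.ev_le (y := star (S true J) * S false J) hδ
      (h.orth J) (by simp only [map_mul, map_star, hS])
  have e5 : ∀ᶠ n in ω, ∀ a ∈ t,
      ‖(∑ J, star (S true J n) * S true J n - yfun x) * a‖ ≤ 2 * δ := by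
    simp only [eventually_all_finset]
    intro a ha
    filter_upwards [ExactAux.ev_le (y := (∑ J, star (S true J) * S true J - c (yfun x)) * c a) hδ
      (h.sum _ (m a ha)) (by simp only [map_sub, map_sum, map_mul, map_star, hS, hc, map_yfun])]
      with n hn
    rw [BoundedContinuousFunction.mul_apply, BoundedContinuousFunction.sub_apply,
      BoundedContinuousFunction.sum_apply] at hn
    exact hn
  have e6 : ∀ᶠ n in ω, ∀ g ∈ E, ∀ ν ν' J, ‖star (S ν J n) * β.φ g (S ν' J n)‖ ≤ 2 * δ := by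
    simp only [eventually_all_finset, eventually_all]
    exact fun g hg ν ν' J => ExactAux.ev_le (y := star (S ν J) * compB (β.φ g) (S ν' J)) hδ
      (h.wander g hg ν ν' J) (by rw [map_mul, map_star, ← umap_cls, hS, hS]; rfl)
  obtain ⟨n, h1, h2, h3, h4, h5, h6⟩ := (e1.and (e2.and (e3.and (e4.and (e5.and e6))))).exists
  refine ⟨fun ν J => S ν J n, cst _ _ h.norm_x, h1, fun a ha => cst _ _ ?_, h2,
    fun a ha g hg => cst _ _ ?_, h3, h4, h5, h6⟩
  · rw [map_sub, map_mul, map_mul]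
    linarith [h.comm_x _ (m a ha)]
  · rw [map_mul, map_sub, ← umap_const]
    exact (h.inv _ (m a ha) g hg).trans (by linarith)

end Vale.Agent.P095
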