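import Vale.Agent.P095.Shrink

/-! An excised state that detects countably many outer endomorphisms. -/

namespace Vale.Agent.P095
open Vale.Agent.P101 Vale.Agent.P101.JS Filter Topology Finset
open scoped ComplexOrder BoundedContinuousFunction symmDiff

universe u
variable {B : Type u} [CStarAlgebra B]

namespace ExcAux

theorem nest {a : ℕ → B} (h : ∀ k, a (k + 1) * a k = a (k + 1)) {k j : ℕ} (hj : k < j) :
    a j * a k = a j := by
  induction j, hj using Nat.le_induction with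
  | base => exact h k
  | succ j _ ih => rw [← h j, mul_assoc, ih]

theorem flip {a b : B} (ha : IsSelfAdjoint a) (hb : IsSelfAdjoint b) (h : a * b = a) :
    b * a = a := by
  simpa only [star_mul, ha.star_eq, hb.star_eq] using congrArg star h

theorem norm_sq {a : B} (ha : IsSelfAdjoint a) (h : ‖a‖ = 1) : ‖a * a‖ = 1 := by
  have := CStarRing.norm_star_mul_self (x := a)
  rwa [ha.star_eq, h, mul_one] at this

theorem lam_eq {P : Pair B} {a : ℕ → B} {lam : B →ₗ[ℂ] ℂ} (h : Exc P a lam) {y z : B}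
    (hyz : ∀ᶠ j in atTop, a j * y * a j = a j * z * a j) : lam y = lam z := by
  have h1 := (h.exc y).add (h.exc z)
  rw [add_zero] at h1
  refine sub_eq_zero.1 (norm_le_zero_iff.1 (ge_of_tendsto h1 (hyz.mono fun j hj => ?_)))
  have := norm_sub_le (a j * z * a j - lam z • (a j * a j)) (a j * y * a j - lam y • (a j * a j))
  rw [hj, sub_sub_sub_cancel_left, ← sub_smul, norm_smul, norm_sq (h.sa j) (h.norm j)] at this
  rw [hj]
  linarith

theorem lam_mul {P : Pair B} {a : ℕ → B} {lam : B →ₗ[ℂ] ℂ} (h : Exc P a lam) (k : ℕ) (z : B) :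
    lam (a k * z) = lam z ∧ lam (z * a k) = lam z := by
  constructor <;> refine lam_eq h ((eventually_gt_atTop k).mono fun j hj => ?_)
  · rw [← mul_assoc, nest h.nest hj]
  · rw [mul_assoc, mul_assoc, flip (h.sa j) (h.sa k) (nest h.nest hj), mul_assoc]

theorem inherit {a a' b : B} {c : ℂ} {ε : ℝ} (ha : IsSelfAdjoint a) (ha' : IsSelfAdjoint a')
    (h1 : ‖a'‖ = 1) (h : a' * a = a') (hb : ‖a * b * a - c • (a * a)‖ ≤ ε) :
    ‖a' * b * a' - c • (a' * a')‖ ≤ ε := by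
  have := norm_mul_le_of_le (norm_mul_le_of_le h1.le hb) h1.le
  have e : a' * (a * b * a - c • (a * a)) * a' =
      a' * a * b * (a * a') - c • (a' * a * (a * a')) := by
    simp only [mul_sub, sub_mul, mul_smul_comm, smul_mul_assoc, mul_assoc]
  rw [e, h, flip ha' ha h] at this
  simpa using this

theorem shrink {P : Pair B} {a e : B} (h : FP P a e) (b : B) {ε : ℝ} (hε : 0 < ε) :
    ∃ (a' e' : B) (c : ℂ), FP P a' e' ∧ a' * a = a' ∧ ‖a' * b * a' - c • (a' * a')‖ ≤ ε := by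
  obtain ⟨a₁, e₁, t₁, f1, n1, k1⟩ := h.shrink (realPart b).2 (half_pos hε)
  obtain ⟨a₂, e₂, t₂, f2, n2, k2⟩ := f1.shrink (imaginaryPart b).2 (half_pos hε)
  have k3 := inherit f1.sa_a f2.sa_a f2.norm_a n2 k1
  refine ⟨a₂, e₂, t₁ + Complex.I * t₂, f2, by rw [← n2, mul_assoc, n1], ?_⟩
  have k4 : ‖Complex.I • (a₂ * (imaginaryPart b : B) * a₂ - (t₂ : ℂ) • (a₂ * a₂))‖ ≤ ε / 2 := by
    rw [norm_smul, Complex.norm_I, one_mul]; exact k2
  have := norm_add_le_of_le k3 k4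
  rw [add_halves] at this
  refine le_trans (le_of_eq (congrArg _ ?_)) this
  conv_lhs => rw [← realPart_add_I_smul_imaginaryPart b]
  simp only [mul_add, add_mul, mul_smul_comm, smul_mul_assoc, smul_sub, add_smul, mul_smul]
  abel

theorem exc_of {P : Pair B} {a : ℕ → B} (mem : ∀ k, a k ∈ P.I) (sa : ∀ k, IsSelfAdjoint (a k))
    (norm : ∀ k, ‖a k‖ = 1) (nest : ∀ k, a (k + 1) * a k = a (k + 1))
    (h : ∀ b, ∀ ε : ℝ, 0 < ε → ∃ c : ℂ, ∀ᶠ k in atTop, ‖a k * b * a k - c • (a k * a k)‖ ≤ ε) :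
    ∃ lam, Exc P a lam := by
  choose g g1 g2 using fun k => exists_dual_vector'' ℂ (a k * a k)
  simp only [fun k => norm_sq (sa k) (norm k), RCLike.ofReal_one] at g2
  let φ : ℕ → B →ₗ[ℂ] ℂ := fun k =>
    (g k : B →ₗ[ℂ] ℂ) ∘ₗ (LinearMap.mulRight ℂ (a k) ∘ₗ LinearMap.mulLeft ℂ (a k))
  have hφ : ∀ k b, φ k b = g k (a k * b * a k) := fun _ _ => rfl
  have k1 : ∀ {k b c ε}, ‖a k * b * a k - c • (a k * a k)‖ ≤ ε → ‖φ k b - c‖ ≤ ε := by
    intro k b c ε hh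
    have := ((g k).le_opNorm _).trans (mul_le_mul (g1 k) hh (norm_nonneg _) zero_le_one)
    rwa [map_sub, map_smul, g2, smul_eq_mul, mul_one, one_mul] at this
  have k2 : ∀ b, ∃ c, Tendsto (fun k => φ k b) atTop (𝓝 c) := fun b =>
    cauchySeq_tendsto_of_complete (Metric.cauchySeq_iff.2 fun ε hε => by
      obtain ⟨c, hc⟩ := h b (ε / 3) (by positivity)
      obtain ⟨N, hN⟩ := eventually_atTop.1 hc
      refine ⟨N, fun m hm n hn => ?_⟩
      have := dist_triangle_right (φ m b) (φ n b) c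
      rw [dist_eq_norm _ c, dist_eq_norm _ c] at this
      linarith [k1 (hN m hm), k1 (hN n hn)])
  choose f hf using k2
  let lam := linearMapOfTendsto f φ (tendsto_pi_nhds.2 hf)
  have l1 : lam 1 = 1 := tendsto_nhds_unique (hf 1) (by simp [hφ, g2])
  have l2 : ∀ b, ‖lam b‖ ≤ 1 * ‖b‖ := fun b => le_of_tendsto' (hf b).norm fun k => by
    have := norm_mul_le_of_le (norm_mul_le_of_le (norm k).le (le_refl ‖b‖)) (norm k).le
    rw [hφ]
    exact ((g k).le_opNorm _).trans (mul_le_mul (g1 k) (by linarith) (norm_nonneg _) zero_le_one)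
  refine ⟨lam, mem, sa, norm, nest, ⟨l1, pos_of_norm_le (lam.mkContinuous 1 l2)
    (lam.mkContinuous_norm_le zero_le_one l2) l1⟩, fun b => ?_⟩
  refine Metric.tendsto_nhds.2 fun ε hε => ?_
  obtain ⟨c, hc⟩ := h b (ε / 3) (by positivity)
  have k3 : ‖f b - c‖ ≤ ε / 3 := le_of_tendsto ((hf b).sub_const c).norm (hc.mono fun _ => k1)
  refine hc.mono fun k hk => ?_
  rw [Real.dist_0_eq_abs, abs_norm]
  have := norm_sub_le_norm_sub_add_norm_sub (a k * b * a k) (c • (a k * a k)) (f b • (a k * a k))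
  rw [← sub_smul, norm_smul, norm_sq (sa k) (norm k), norm_sub_rev c] at this
  change ‖_ - f b • _‖ < ε
  linarith

end ExcAux

theorem Exc.lam_a {P : Pair B} {a : ℕ → B} {lam : B →ₗ[ℂ] ℂ} (h : Exc P a lam) (k : ℕ) :
    lam (a k) = 1 ∧ lam (a k * a k) = 1 := by
  have h1 := (ExcAux.lam_mul h k 1).1
  rw [mul_one, h.st.1] at h1
  exact ⟨h1, (ExcAux.lam_mul h k _).1.trans h1⟩

theorem Exc.lam_mul {P : Pair B} {a : ℕ → B} {lam : B →ₗ[ℂ] ℂ} (h : Exc P a lam) (k : ℕ) (z : B) :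
    lam (a k * z) = lam z ∧ lam (z * a k) = lam z := ExcAux.lam_mul h k z

theorem Pair.exists_exc [TopologicalSpace.SeparableSpace B] (P : Pair B) {ι : Type} [Countable ι]
    (γ : ι → B →⋆ₐ[ℂ] B) (hγ : ∀ i, Outer P (γ i)) : ∃ a lam, Exc P a lam ∧ ∀ i, ∃ δ : ℝ, 0 < δ ∧
      ∃ x : ℕ → B, (∀ n, ‖x n‖ ≤ 1 ∧ δ ≤ (lam (x n - γ i (x n))).re) ∧
        ∀ c, Tendsto (fun n => ‖x n * c - c * x n‖) atTop (𝓝 0) := by
  classical
  obtain ⟨f, hf⟩ := exists_injective_nat ι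
  choose δ hδ H using fun i => FP.shrink_outer (hγ i)
  let x := TopologicalSpace.denseSeq B
  let St := {p : B × B // FP P p.1 p.2}
  let η : ℕ → ℝ := fun n => 1 / ((n : ℝ) + 1)
  have hη : ∀ n, 0 < η n := fun n => Nat.one_div_pos_of_nat
  have ηl : Tendsto η atTop (𝓝 0) := tendsto_one_div_add_atTop_nhds_zero_nat
  have step : ∀ (k : ℕ) (s : St), ∃ s' : St, s'.1.1 * s.1.1 = s'.1.1 ∧
      (∃ c : ℂ, ‖s'.1.1 * x k.unpair.1 * s'.1.1 - c • (s'.1.1 * s'.1.1)‖ ≤ η k.unpair.2) ∧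
      ∀ i, f i = k.unpair.1 → ∃ y : B, ‖y‖ ≤ 1 ∧
        (∀ j ≤ k.unpair.2, ‖y * x j - x j * y‖ ≤ η k.unpair.2) ∧
        ∀ lam : B →ₗ[ℂ] ℂ, IsSt lam → lam (s'.1.1 * s'.1.1) = 1 → δ i ≤ (lam (y - γ i y)).re := by
    rintro k ⟨⟨a, e⟩, h⟩
    obtain ⟨a₁, e₁, c, f1, n1, k1⟩ := ExcAux.shrink h (x k.unpair.1) (hη k.unpair.2)
    by_cases hi : ∃ i, f i = k.unpair.1
    · obtain ⟨i, hi⟩ := hi
      obtain ⟨a₂, e₂, y, f2, n2, -, y1, y2, y3⟩ := H i a₁ e₁ f1
        ((range (k.unpair.2 + 1)).image x) _ (hη k.unpair.2)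
      refine ⟨⟨(a₂, e₂), f2⟩, ?_, ⟨c, ExcAux.inherit f1.sa_a f2.sa_a f2.norm_a n2 k1⟩, fun j hj => ?_⟩
      · change a₂ * a = a₂
        rw [← n2, mul_assoc, n1]
      · obtain rfl : j = i := hf (hj.trans hi.symm)
        exact ⟨y, y1, fun j hj => y2 _ (mem_image_of_mem _ (mem_range.2 (by omega))), y3⟩
    · exact ⟨⟨(a₁, e₁), f1⟩, n1, ⟨c, k1⟩, fun i h => (hi ⟨i, h⟩).elim⟩
  choose nx h1 h2 h3 using step
  obtain ⟨a₀, e₀, h₀⟩ := P.exists_fp
  let s : ℕ → St := fun k => Nat.rec ⟨(a₀, e₀), h₀⟩ nx k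
  let a : ℕ → B := fun k => (s k).1.1
  have nest : ∀ k, a (k + 1) * a k = a (k + 1) := fun k => h1 k (s k)
  have dn : ∀ (b : B) (ε : ℝ), 0 < ε → ∃ j, ‖b - x j‖ < ε := fun b ε hε => by
    simpa only [dist_eq_norm] using (TopologicalSpace.denseRange_denseSeq B).exists_dist_lt b hε
  obtain ⟨lam, hl⟩ := ExcAux.exc_of (P := P) (a := a) (fun k => (s k).2.mem_a)
    (fun k => (s k).2.sa_a) (fun k => (s k).2.norm_a) nest fun b ε hε => by
      obtain ⟨j, hj⟩ := dn b _ (half_pos hε)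
      obtain ⟨n, hn⟩ := (ηl.eventually (gt_mem_nhds (half_pos hε))).exists
      obtain ⟨c, hc⟩ := h2 (Nat.pair j n) (s _)
      rw [Nat.unpair_pair] at hc
      refine ⟨c, (eventually_gt_atTop (Nat.pair j n + 1)).mono fun k hk => ?_⟩
      have k1 := ExcAux.inherit (s (Nat.pair j n + 1)).2.sa_a (s k).2.sa_a (s k).2.norm_a
        (ExcAux.nest nest hk) hc
      have k2 := norm_mul_le_of_le (norm_mul_le_of_le (s k).2.norm_a.le hj.le) (s k).2.norm_a.le
      have := norm_add_le_of_le k2 k1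
      rw [mul_sub, sub_mul, sub_add_sub_cancel] at this
      change ‖(s k).1.1 * b * (s k).1.1 - c • ((s k).1.1 * (s k).1.1)‖ ≤ ε
      dsimp only at hn this
      linarith
  refine ⟨a, lam, hl, fun i => ⟨δ i, hδ i, ?_⟩⟩
  choose y y1 y2 y3 using fun n => h3 (Nat.pair (f i) n) (s _) i (by rw [Nat.unpair_pair])
  simp only [Nat.unpair_pair] at y2
  refine ⟨y, fun n => ⟨y1 n, y3 n lam hl.st (hl.lam_a (Nat.pair (f i) n + 1)).2⟩, fun c => ?_⟩
  refine Metric.tendsto_nhds.2 fun ε hε => ?_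
  obtain ⟨j, hj⟩ := dn c (ε / 3) (by positivity)
  filter_upwards [eventually_ge_atTop j, ηl.eventually (gt_mem_nhds (show 0 < ε / 3 by positivity))]
    with n hn hn'
  rw [Real.dist_0_eq_abs, abs_norm, show y n * c - c * y n =
    y n * (c - x j) + (y n * x j - x j * y n) - (c - x j) * y n by noncomm_ring]
  linarith [norm_sub_le_of_le (norm_add_le_of_le (norm_mul_le_of_le (y1 n) (le_refl ‖c - x j‖))
    (y2 n j hn)) (norm_mul_le_of_le (le_refl ‖c - x j‖) (y1 n))]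

end Vale.Agent.P095
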