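import Vale.Agent.P095.FS
import Vale.Agent.P095.Simp

/-! Group elements acting non-trivially on central sequences are outer. -/

namespace Vale.Agent.P095
open Vale.Agent.P101 Vale.Agent.P101.JS Filter Topology Finset
open scoped ComplexOrder BoundedContinuousFunction symmDiff

universe u

namespace FOAux

theorem sa_lift {A D : Type u} [CStarAlgebra A] [CStarAlgebra D] (φ : A →⋆ₐ[ℂ] D) (x : A)
    (h : IsSelfAdjoint (φ x)) : ∃ y, IsSelfAdjoint y ∧ φ y = φ x ∧ ‖y‖ ≤ ‖x‖ :=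
  ⟨realPart x, (realPart x).2, by rw [map_realPart, h.coe_realPart], realPart.norm_le x⟩

theorem lower {D : Type u} [CStarAlgebra D] {y e p b : D} {C δ η : ℝ} (hp : IsSelfAdjoint p)
    (hb : IsSelfAdjoint b) (he : IsSelfAdjoint e) (pe : Commute p e) (pb : Commute p b)
    (eb : Commute e b) (h0 : p * b ≠ 0) (hC : 0 ≤ C + δ) (hη : 0 ≤ 1 - η)
    (h1 : ∃ u, p * y * p - δ • (p * p) = star u * u)
    (h2 : ∃ u, b * (e * e) * b - (1 - η) • (b * b) = star u * u) :
    (C + δ) * (1 - η) ≤ ‖e * (algebraMap ℝ D C + y) * e‖ := by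
  let := CStarAlgebra.spectralOrder D
  have := CStarAlgebra.spectralOrderedRing D
  obtain ⟨u, hu⟩ := h1
  obtain ⟨u', hu'⟩ := h2
  have k1 := star_left_conjugate_nonneg (star_mul_self_nonneg u) (e * b)
  have k2 := smul_nonneg hC (star_left_conjugate_nonneg (star_mul_self_nonneg u') p)
  rw [← hu] at k1
  rw [← hu'] at k2
  have k3 : ((C + δ) * (1 - η)) • (star (p * b) * (p * b)) ≤
      star (p * b) * (e * (algebraMap ℝ D C + y) * e) * (p * b) := by
    rw [← sub_nonneg]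
    convert add_nonneg k1 k2 using 1
    have c1 : ∀ z, p * (e * z) = e * (p * z) := fun z => pe.left_comm z
    have c2 : ∀ z, p * (b * z) = b * (p * z) := fun z => pb.left_comm z
    have c3 : ∀ z, e * (b * z) = b * (e * z) := fun z => eb.left_comm z
    simp only [star_mul, hp.star_eq, hb.star_eq, he.star_eq, Algebra.algebraMap_eq_smul_one,
      mul_add, add_mul, mul_sub, sub_mul, mul_smul_comm, smul_mul_assoc, mul_assoc, c1, c2, c3,
      pb.eq, pe.eq, eb.eq, mul_one]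
    module
  have k4 := CStarAlgebra.norm_le_norm_of_nonneg_of_le
    (smul_nonneg (mul_nonneg hC hη) (star_mul_self_nonneg _)) k3
  have k5 := norm_mul_le_of_le (norm_mul_le_of_le (norm_star (p * b)).le
    (le_refl ‖e * (algebraMap ℝ D C + y) * e‖)) (le_refl ‖p * b‖)
  rw [norm_smul, Real.norm_of_nonneg (mul_nonneg hC hη), CStarRing.norm_star_mul_self] at k4
  have := norm_pos_iff.2 h0
  refine le_of_mul_le_mul_right (a := ‖p * b‖ * ‖p * b‖) ?_ (by positivity)
  linarith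

theorem cfc_sq {D : Type u} [CStarAlgebra D] {f : ℝ → ℝ} (hf : Continuous f) (h0 : ∀ t, 0 ≤ f t)
    (a : D) : ∃ u, cfc f a = star u * u :=
  ⟨cfc (fun t => √(f t)) a, by
    rw [(cfc_sa _ a).star_eq, cfc_mul' hf.sqrt hf.sqrt]
    exact cfc_congr fun t _ => (Real.mul_self_sqrt (h0 t)).symm⟩

theorem bump1 {D : Type u} [CStarAlgebra D] {Y : D} (hY : IsSelfAdjoint Y) (δ : ℝ) :
    ∃ u, cfc (fun t : ℝ => max (t - δ) 0) Y * Y * cfc (fun t : ℝ => max (t - δ) 0) Y -
      δ • (cfc (fun t : ℝ => max (t - δ) 0) Y * cfc (fun t : ℝ => max (t - δ) 0) Y) =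
        star u * u := by
  set f : ℝ → ℝ := fun t => max (t - δ) 0
  have hf : Continuous f := by fun_prop
  obtain ⟨u, hu⟩ := cfc_sq (f := fun t => f t * t * f t - δ • (f t * f t))
    (by fun_prop) (fun t => by
      simp only [f, smul_eq_mul]
      rcases le_total (t - δ) 0 with h | h
      · simp [max_eq_right h]
      · rw [max_eq_left h]; nlinarith [mul_nonneg (mul_nonneg h h) h]) Y
  rw [cfc_sub _ _ Y (by fun_prop) (by fun_prop), cfc_smul _ _ Y (by fun_prop),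
    ← cfc_mul' hf hf, ← cfc_mul' (f := fun t => f t * t) (by fun_prop) hf,
    ← cfc_mul' (g := fun t => t) hf continuous_id, cfc_id' ℝ Y] at hu
  exact ⟨u, hu⟩

theorem bump2 {B : Type u} [CStarAlgebra B] {e : B} (es : IsSelfAdjoint e) (e1 : ‖e‖ = 1) {η : ℝ}
    (hη : 0 < η) : ∃ b c u, IsSelfAdjoint b ∧ b ≠ 0 ∧ b = e * c ∧ Commute e b ∧
      b * (e * e) * b - ((1 - η : ℝ) : ℂ) • (b * b) = star u * u := by
  let k : ℝ → ℝ := fun s => s * max (s * s - (1 - η)) 0
  have hk : Continuous k := by fun_prop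
  have : Nontrivial B := ⟨⟨e, 0, fun h => by simp [h] at e1⟩⟩
  obtain ⟨u, hu⟩ := cfc_sq (f := fun t => k t * (t * t) * k t - (1 - η) • (k t * k t))
    (by fun_prop) (fun t => by
      simp only [k, smul_eq_mul]
      rcases le_total (t * t - (1 - η)) 0 with h | h
      · simp [max_eq_right h]
      · rw [max_eq_left h]
        nlinarith [mul_nonneg (mul_nonneg (mul_nonneg h h) h) (mul_self_nonneg t)]) e
  rw [cfc_sub _ _ e (by fun_prop) (by fun_prop), cfc_smul _ _ e (by fun_prop),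
    ← cfc_mul' hk hk, ← cfc_mul' (f := fun t => k t * (t * t)) (by fun_prop) hk,
    ← cfc_mul' (g := fun t => t * t) hk (by fun_prop),
    ← cfc_mul' (f := fun t => t) (g := fun t => t) continuous_id continuous_id,
    cfc_id' ℝ e, ← Complex.coe_smul] at hu
  refine ⟨cfc k e, cfc (fun s => max (s * s - (1 - η)) 0) e, u, cfc_sa k e, fun h => ?_, ?_,
    ((Commute.refl e).cfc_real k).symm, hu⟩
  · have : ∀ s ∈ spectrum ℝ e, s * s = 1 → False := fun s hs h1 => by
      have h2 := norm_apply_le_norm_cfc k e hs hk.continuousOn es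
      rw [h, norm_zero, norm_le_zero_iff, mul_eq_zero, h1] at h2
      rcases h2 with rfl | h2
      · simp at h1
      · linarith [le_max_left (1 - (1 - η)) 0]
    rcases CStarAlgebra.norm_or_neg_norm_mem_spectrum es with h | h <;>
      exact this _ h (by simp [e1])
  · have := cfc_mul' (f := fun s => s) (g := fun s => max (s * s - (1 - η)) 0) continuous_id
      (by fun_prop) e
    rw [cfc_id' ℝ e] at this
    exact this.symm

theorem ann_of {B : Type u} [CStarAlgebra B] (P : Pair B) {ω : Ultrafilter ℕ}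
    {p : Cen ω (P.I : Set B)} {b : B} (bI : b ∈ P.I) (b0 : b ≠ 0)
    (h : p.1 * constHom ω B b = 0) : p ∈ Ann ω (P.I : Set B) := by
  have : ∀ a ∈ P.I, p.1 * constHom ω B a = 0 := fun a ha => by
    have hc : IsClosed {a : B | p.1 * constHom ω B a = 0} :=
      isClosed_eq (continuous_const.mul (hom_cont _)) continuous_const
    refine closure_minimal ?_ hc (P.simple _ bI b0 a ha)
    rintro _ ⟨ι, _, _, u, v, rfl⟩
    change _ * constHom ω B _ = 0
    rw [map_sum, mul_sum]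
    refine sum_eq_zero fun i _ => ?_
    rw [map_mul, map_mul, ← mul_assoc, ← mul_assoc, ← (P.cen_comm p (u i)).eq,
      mul_assoc (constHom ω B (u i)), h, mul_zero, zero_mul]
  exact fun a ha => ⟨this a ha, by rw [← map_star]; exact this _ (P.star_mem ha)⟩

theorem reduce {D : Type u} [CStarAlgebra D] (γ : D →⋆ₐ[ℂ] D) (h : ∃ w, γ w ≠ w) :
    ∃ w, IsSelfAdjoint w ∧ ‖w‖ < 1 ∧ ∃ r : ℝ, 0 < r ∧ r ∈ spectrum ℝ (w - γ w) := by
  obtain ⟨w, hw, hne⟩ : ∃ w, IsSelfAdjoint w ∧ γ w ≠ w := by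
    obtain ⟨w, hw⟩ := h
    by_cases h1 : γ (realPart w) = realPart w
    · refine ⟨_, (imaginaryPart w).2, fun h2 => hw ?_⟩
      rw [← realPart_add_I_smul_imaginaryPart w, map_add, map_smul, h1, h2]
    · exact ⟨_, (realPart w).2, h1⟩
  obtain ⟨c, hc, hc1⟩ : ∃ c : ℝ, 0 < c ∧ c * ‖w‖ < 1 :=
    ⟨(‖w‖ + 1)⁻¹, by positivity, by rw [inv_mul_lt_iff₀ (by positivity)]; linarith⟩
  have hn : ∀ c' : ℝ, |c'| = c → ‖c' • w‖ < 1 := fun c' h => by
    rwa [norm_smul, Real.norm_eq_abs, h]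
  have hs : ∀ c' : ℝ, IsSelfAdjoint (c' • w) := fun c' => (IsSelfAdjoint.all c').smul hw
  have he : ∀ c' : ℝ, c' • w - γ (c' • w) = c' • (w - γ w) := fun c' => by
    rw [smul_sub, ← Complex.coe_smul c' w, map_smul, Complex.coe_smul, Complex.coe_smul]
  have h0 : c • (w - γ w) ≠ 0 := smul_ne_zero hc.ne' (sub_ne_zero.2 hne.symm)
  have : Nontrivial D := ⟨⟨_, _, h0⟩⟩
  rcases CStarAlgebra.norm_or_neg_norm_mem_spectrum (a := c • (w - γ w))
    ((IsSelfAdjoint.all c).smul (hw.sub (hw.map γ))) with h1 | h1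
  · exact ⟨_, hs c, hn c (abs_of_pos hc), _, norm_pos_iff.2 h0, by rwa [he]⟩
  · refine ⟨_, hs (-c), hn _ (by rw [abs_neg, abs_of_pos hc]), _, norm_pos_iff.2 h0, ?_⟩
    rw [he, neg_smul, ← spectrum.neg_eq]
    exact h1

theorem main {G : Type} [Group G] {B : Type u} [CStarAlgebra B] (P : Pair B) (β : Act G B)
    (hβ : ∀ g, ∀ a ∈ (P.I : Set B), β.φ g a ∈ (P.I : Set B)) (ω : Ultrafilter ℕ) (g : G)
    {w : FS ω (P.I : Set B)} (hw : IsSelfAdjoint w) (hw1 : ‖w‖ < 1) {r : ℝ} (hr : 0 < r)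
    (hsp : r ∈ spectrum ℝ (w - (β.fs ω hβ).φ g w)) : Outer P (β.φ g) := by
  obtain ⟨X₀, hX₀, hX₀n⟩ := fmk_lift w (sub_pos.2 hw1)
  obtain ⟨X, Xs, hX, Xn⟩ := sa_lift (fmk ω _) X₀ (hX₀ ▸ hw)
  rw [hX₀] at hX
  let Y := X - cmap ω (β.φ g) (β.sub_image hβ g) X
  have Ys : IsSelfAdjoint Y := Xs.sub (Xs.map _)
  have hY : fmk ω _ Y = w - (β.fs ω hβ).φ g w := by rw [map_sub, ← hX, Act.fs_fmk]
  let f : ℝ → ℝ := fun t => max (t - r / 2) 0
  have hf : Continuous f := by fun_prop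
  have hp : cfc f Y ∉ Ann ω (P.I : Set B) := fun h => by
    have h1 := fmk_eq_zero.2 h
    rw [map_cfcR _ hf Ys, hY] at h1
    have h2 := norm_apply_le_norm_cfc f _ hsp hf.continuousOn (hY ▸ Ys.map _)
    rw [h1, norm_zero, norm_le_zero_iff] at h2
    linarith [le_max_left (r - r / 2) 0]
  obtain ⟨d₀, hd₀⟩ := cls_surj X.1
  have Xs' : IsSelfAdjoint X.1 := Xs.map (Cen ω (P.I : Set B)).subtype
  obtain ⟨d, ds, hd, -⟩ := sa_lift (cls ω B) d₀ (hd₀ ▸ Xs')
  rw [hd₀] at hd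
  let j := constHom ω B
  refine ⟨r / 2, half_pos hr, fun e he es e1 t ε C hε hC => ?_⟩
  obtain ⟨η, hη, η1, η2⟩ : ∃ η : ℝ, 0 < η ∧ η ≤ 1 ∧ (C + r / 2) * η ≤ ε / 2 :=
    ⟨min 1 (ε / 2 / (C + r / 2)), by positivity, min_le_left _ _,
      (le_div_iff₀' (by positivity)).1 (min_le_right _ _)⟩
  obtain ⟨b, b', u', bs, b0, hb, eb, hu'⟩ := bump2 es e1 hη
  have bI : b ∈ P.I := hb ▸ P.I.mul_mem_right _ he
  obtain ⟨u, hu⟩ := bump1 Ys (r / 2)
  have low := lower (y := Y.1) (p := (cfc f Y).1) (C := C) (δ := r / 2) (η := η)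
    ((cfc_sa f Y).map (Cen ω (P.I : Set B)).subtype) (bs.map j) (es.map j)
    (P.cen_comm _ e).symm (P.cen_comm _ _).symm (eb.map j) (fun h => hp (ann_of P bI b0 h))
    (by linarith) (by linarith) ⟨u.1, congrArg Subtype.val hu⟩ ⟨j u', by
      rw [← map_star, ← map_mul j (star u'), ← hu', ← Complex.coe_smul]
      simp only [map_sub, map_mul, map_smul]⟩
  let c := BoundedContinuousFunction.const ℕ e
  let Z : ℕ →ᵇ B := c * (BoundedContinuousFunction.const ℕ (algebraMap ℝ B C) +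
    (d - compB (β.φ g) d)) * c
  have hZ : cls ω B Z = j e * (algebraMap ℝ _ C + Y.1) * j e := by
    rw [map_mul, map_mul, map_add, map_sub, ← umap_cls, hd, ← constHom_eq, ← constHom_eq,
      IsScalarTower.algebraMap_apply ℝ ℂ B, AlgHomClass.commutes,
      ← IsScalarTower.algebraMap_apply]
    rfl
  have ev1 : ∀ᶠ n in ω, C + r / 2 - ε ≤ ‖Z n‖ := by
    by_contra H
    have := norm_cls_le ((Ultrafilter.eventually_not.2 H).mono fun n hn => (not_le.1 hn).le)
    rw [hZ] at this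
    linarith [low.trans this]
  have ev2 := ev_norm_le (ω := ω) d (ε := 1 - ‖X‖) (by linarith)
  have ev3 : ∀ᶠ n in ω, ∀ a ∈ t, ‖d n * a - a * d n‖ ≤ ε := by
    rw [eventually_all_finset]
    intro a _
    have := (P.cen_comm X a).eq.symm
    rw [← hd, constHom_eq, ← map_mul, ← map_mul, cls_eq] at this
    exact this.eventually (ge_mem_nhds hε)
  obtain ⟨n, h1, h2, h3⟩ := (ev1.and (ev2.and ev3)).exists
  refine ⟨d n, congrArg (fun x : ℕ →ᵇ B => x n) ds, ?_, h3, ?_⟩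
  · rw [hd] at h2
    change _ ≤ ‖X‖ + _ at h2
    linarith
  · rw [add_sub_assoc (algebraMap ℝ B C)]
    exact h1

end FOAux

theorem outer_of_ne {G : Type} [Group G] {B : Type u} [CStarAlgebra B] (P : Pair B) (β : Act G B)
    (hβ : ∀ g, ∀ a ∈ (P.I : Set B), β.φ g a ∈ (P.I : Set B)) (ω : Ultrafilter ℕ) (g : G)
    (h : ∃ w, (β.fs ω hβ).φ g w ≠ w) : Outer P (β.φ g) := by
  obtain ⟨w, h1, h2, r, h3, h4⟩ := FOAux.reduce _ h
  exact FOAux.main P β hβ ω g h1 h2 h3 h4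

end Vale.Agent.P095
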