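import Vale.Agent.P095.Basic

/-! The central sequence algebra `F(B, S) = (B_ω ∩ S') / Ann(S)`. -/

namespace Vale.Agent.P095
open Vale.Agent.P101 Vale.Agent.P101.JS Filter Topology Finset
open scoped BoundedContinuousFunction

universe u
variable (ω : Ultrafilter ℕ) {B B' : Type u} [CStarAlgebra B] [CStarAlgebra B']

/-- The map induced on ultrapowers. -/
noncomputable def umap (φ : B →⋆ₐ[ℂ] B') : UltraPower ω B →⋆ₐ[ℂ] UltraPower ω B' :=
  (exists_ultraMap ω φ).choose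

theorem umap_cls (φ : B →⋆ₐ[ℂ] B') (x : ℕ →ᵇ B) : umap ω φ (cls ω B x) = cls ω B' (compB φ x) :=
  (exists_ultraMap ω φ).choose_spec x

theorem constHom_eq (a : B) : constHom ω B a = cls ω B (BoundedContinuousFunction.const ℕ a) := rfl

theorem umap_const (φ : B →⋆ₐ[ℂ] B') (a : B) :
    umap ω φ (constHom ω B a) = constHom ω B' (φ a) := umap_cls ω φ _

/-- The action induced on the ultrapower. -/
noncomputable def Act.ultra {G : Type} [Group G] (β : Act G B) : Act G (UltraPower ω B) where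
  φ g := umap ω (β.φ g)
  one x := by
    obtain ⟨x, rfl⟩ := cls_surj x
    rw [umap_cls]; congr 1; ext n; exact β.one _
  mul g h x := by
    obtain ⟨x, rfl⟩ := cls_surj x
    rw [umap_cls, umap_cls, umap_cls]; congr 1; ext n; exact β.mul _ _ _

/-- The relative commutant of `S` in the ultrapower. -/
noncomputable def Cen (S : Set B) : StarSubalgebra ℂ (UltraPower ω B) :=
  StarSubalgebra.centralizer ℂ (constHom ω B '' S)

variable {ω}

theorem mem_cen {S : Set B} {x : UltraPower ω B} : x ∈ Cen ω S ↔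
    ∀ a ∈ S, Commute (constHom ω B a) x ∧ Commute (star (constHom ω B a)) x := by
  rw [Cen, StarSubalgebra.mem_centralizer_iff]
  exact ⟨fun h a ha => h _ ⟨a, ha, rfl⟩, by rintro h _ ⟨a, ha, rfl⟩; exact h a ha⟩

instance cen_closed (S : Set B) : IsClosed (Cen ω S : Set (UltraPower ω B)) := by
  have : (Cen ω S : Set (UltraPower ω B)) = ⋂ a ∈ S,
      ({x | constHom ω B a * x = x * constHom ω B a} ∩
        {x | star (constHom ω B a) * x = x * star (constHom ω B a)}) := by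
    ext x
    simp only [SetLike.mem_coe, mem_cen, Set.mem_iInter]
    rfl
  rw [this]
  exact isClosed_biInter fun a _ => (isClosed_eq (by fun_prop) (by fun_prop)).inter
    (isClosed_eq (by fun_prop) (by fun_prop))

noncomputable instance cenCStar (S : Set B) : CStarAlgebra (Cen ω S) :=
  StarSubalgebra.cstarAlgebra _

variable (ω) in
/-- The annihilator of `S`. -/
def Ann (S : Set B) : Ideal (Cen ω S) where
  carrier := {x | ∀ a ∈ S, x.1 * constHom ω B a = 0 ∧ x.1 * star (constHom ω B a) = 0}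
  add_mem' := fun {x y} hx hy a ha => by
    change (x.1 + y.1) * _ = 0 ∧ (x.1 + y.1) * _ = 0
    simp only [add_mul, (hx a ha).1, (hx a ha).2, (hy a ha).1, (hy a ha).2, add_zero, and_self]
  zero_mem' := fun a _ => by simp
  smul_mem' := fun c x hx a ha => by
    change (c.1 * x.1) * _ = 0 ∧ (c.1 * x.1) * _ = 0
    simp only [mul_assoc, (hx a ha).1, (hx a ha).2, mul_zero, and_self]

theorem mem_ann {S : Set B} {x : Cen ω S} : x ∈ Ann ω S ↔
    ∀ a ∈ S, x.1 * constHom ω B a = 0 ∧ x.1 * star (constHom ω B a) = 0 := Iff.rfl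

instance ann_two (S : Set B) : (Ann ω S).IsTwoSided := ⟨fun {x} c hx a ha => by
  have h := mem_cen.1 c.2 a ha
  change (x.1 * c.1) * _ = 0 ∧ (x.1 * c.1) * _ = 0
  rw [mul_assoc, mul_assoc, ← h.1.eq, ← h.2.eq, ← mul_assoc, ← mul_assoc,
    (hx a ha).1, (hx a ha).2, zero_mul]
  exact ⟨rfl, rfl⟩⟩

instance ann_closed (S : Set B) : IsClosed (Ann ω S : Set (Cen ω S)) := by
  have : (Ann ω S : Set (Cen ω S)) = ⋂ a ∈ S, ({x | x.1 * constHom ω B a = 0} ∩
      {x | x.1 * star (constHom ω B a) = 0}) := by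
    ext x
    simp only [SetLike.mem_coe, mem_ann, Set.mem_iInter]
    rfl
  rw [this]
  exact isClosed_biInter fun a _ => (isClosed_eq (by fun_prop) (by fun_prop)).inter
    (isClosed_eq (by fun_prop) (by fun_prop))

instance ann_star (S : Set B) : IsStarIdeal (Ann ω S) := isStarIdeal_of_closed _ (ann_closed S)

variable (ω) in
/-- The central sequence algebra of `S` in `B`. -/
abbrev FS (S : Set B) : Type u := Cen ω S ⧸ Ann ω S

noncomputable instance fsCStar (S : Set B) : CStarAlgebra (FS ω S) := quotCStarAlgebra _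

variable (ω) in
/-- The quotient map. -/
noncomputable def fmk (S : Set B) : Cen ω S →⋆ₐ[ℂ] FS ω S := qmk (Ann ω S)

theorem fmk_surj {S : Set B} (y : FS ω S) : ∃ x, fmk ω S x = y := Ideal.Quotient.mk_surjective y

theorem fmk_eq_zero {S : Set B} {x : Cen ω S} : fmk ω S x = 0 ↔ x ∈ Ann ω S :=
  Ideal.Quotient.eq_zero_iff_mem

theorem fmk_eq {S : Set B} {x y : Cen ω S} : fmk ω S x = fmk ω S y ↔ x - y ∈ Ann ω S :=
  Ideal.Quotient.eq

theorem fmk_lift {S : Set B} (y : FS ω S) {ε : ℝ} (hε : 0 < ε) :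
    ∃ x, fmk ω S x = y ∧ ‖x‖ < ‖y‖ + ε := norm_mk_lt y hε

theorem norm_mul_const_le {S : Set B} (x : Cen ω S) {a : B} (ha : a ∈ S) :
    ‖x.1 * constHom ω B a‖ ≤ ‖fmk ω S x‖ * ‖a‖ := by
  refine le_of_forall_pos_le_add fun ε hε => ?_
  obtain ⟨y, hy, hn⟩ := fmk_lift (fmk ω S x) (show 0 < ε / (‖a‖ + 1) by positivity)
  have h0 := (fmk_eq.1 hy a ha).1
  change (y.1 - x.1) * _ = 0 at h0
  rw [sub_mul, sub_eq_zero] at h0
  rw [← h0]
  have h1 : ‖constHom ω B a‖ ≤ ‖a‖ := NonUnitalStarAlgHom.norm_apply_le _ a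
  have h2 : ε / (‖a‖ + 1) * ‖a‖ ≤ ε := by
    rw [div_mul_eq_mul_div, div_le_iff₀ (by positivity)]; nlinarith
  calc ‖y.1 * constHom ω B a‖ ≤ (‖fmk ω S x‖ + ε / (‖a‖ + 1)) * ‖a‖ :=
        norm_mul_le_of_le hn.le h1
    _ ≤ _ := by rw [add_mul]; linarith

theorem umap_mem_cen (φ : B →⋆ₐ[ℂ] B') {S : Set B} {S' : Set B'} (h : S' ⊆ φ '' S)
    (x : Cen ω S) : umap ω φ x.1 ∈ Cen ω S' := mem_cen.2 fun a ha => by
  obtain ⟨b, hb, rfl⟩ := h ha
  rw [← umap_const, ← map_star]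
  exact ⟨(mem_cen.1 x.2 b hb).1.map _, (mem_cen.1 x.2 b hb).2.map _⟩

variable (ω) in
/-- The map induced on relative commutants. -/
noncomputable def cmap (φ : B →⋆ₐ[ℂ] B') {S : Set B} {S' : Set B'} (h : S' ⊆ φ '' S) :
    Cen ω S →⋆ₐ[ℂ] Cen ω S' :=
  ((umap ω φ).comp (Cen ω S).subtype).codRestrict _ (umap_mem_cen φ h)

theorem cmap_coe (φ : B →⋆ₐ[ℂ] B') {S : Set B} {S' : Set B'} (h : S' ⊆ φ '' S) (x : Cen ω S) :
    (cmap ω φ h x).1 = umap ω φ x.1 := rfl

variable (ω) in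
/-- The map induced on central sequence algebras. -/
noncomputable def fmap (φ : B →⋆ₐ[ℂ] B') {S : Set B} {S' : Set B'} (h : S' ⊆ φ '' S) :
    FS ω S →⋆ₐ[ℂ] FS ω S' :=
  { Ideal.Quotient.liftₐ (Ann ω S) ((fmk ω S').comp (cmap ω φ h) : Cen ω S →ₐ[ℂ] FS ω S')
      fun x hx => fmk_eq_zero.2 fun a ha => by
        obtain ⟨b, hb, rfl⟩ := h ha
        change umap ω φ x.1 * _ = 0 ∧ umap ω φ x.1 * _ = 0
        rw [← umap_const, ← map_star, ← map_mul, ← map_mul, (hx b hb).1, (hx b hb).2, map_zero]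
        exact ⟨rfl, rfl⟩ with
    map_star' := by rintro ⟨x⟩; exact map_star ((fmk ω S').comp (cmap ω φ h)) x }

theorem fmap_fmk (φ : B →⋆ₐ[ℂ] B') {S : Set B} {S' : Set B'} (h : S' ⊆ φ '' S) (x : Cen ω S) :
    fmap ω φ h (fmk ω S x) = fmk ω S' (cmap ω φ h x) := rfl

theorem Act.sub_image {G : Type} [Group G] (β : Act G B) {S : Set B}
    (h : ∀ g, ∀ a ∈ S, β.φ g a ∈ S) (g : G) : S ⊆ β.φ g '' S :=
  fun a ha => ⟨β.φ g⁻¹ a, h _ a ha, β.apply_inv g a⟩

variable (ω) in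
/-- The action induced on the central sequence algebra. -/
noncomputable def Act.fs {G : Type} [Group G] (β : Act G B) {S : Set B}
    (h : ∀ g, ∀ a ∈ S, β.φ g a ∈ S) : Act G (FS ω S) where
  φ g := fmap ω (β.φ g) (β.sub_image h g)
  one x := by
    obtain ⟨x, rfl⟩ := fmk_surj x
    rw [fmap_fmk]; congr 1; exact Subtype.ext ((β.ultra ω).one _)
  mul g k x := by
    obtain ⟨x, rfl⟩ := fmk_surj x
    rw [fmap_fmk, fmap_fmk, fmap_fmk]; congr 1; exact Subtype.ext ((β.ultra ω).mul _ _ _)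

theorem Act.fs_fmk {G : Type} [Group G] (β : Act G B) {S : Set B}
    (h : ∀ g, ∀ a ∈ S, β.φ g a ∈ S) (g : G) (x : Cen ω S) :
    (β.fs ω h).φ g (fmk ω S x) = fmk ω S (cmap ω (β.φ g) (β.sub_image h g) x) := rfl

theorem cls_mem_cen {S : Set B} (hS : ∀ a ∈ S, star a ∈ S) {x : ℕ →ᵇ B} :
    cls ω B x ∈ Cen ω S ↔ ∀ a ∈ S, Tendsto (fun n => ‖a * x n - x n * a‖) ω (𝓝 0) := by
  have e : ∀ a, Commute (constHom ω B a) (cls ω B x) ↔
      Tendsto (fun n => ‖a * x n - x n * a‖) ω (𝓝 0) := fun a => by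
    rw [constHom_eq, commute_iff_eq, ← map_mul, ← map_mul, cls_eq]; rfl
  rw [mem_cen]
  refine ⟨fun h a ha => (e a).1 (h a ha).1, fun h a ha => ⟨(e a).2 (h a ha), ?_⟩⟩
  rw [← map_star]
  exact (e _).2 (h _ (hS a ha))

theorem cls_mem_ann {S : Set B} (hS : ∀ a ∈ S, star a ∈ S) {x : ℕ →ᵇ B}
    (hx : cls ω B x ∈ Cen ω S) : (⟨cls ω B x, hx⟩ : Cen ω S) ∈ Ann ω S ↔
      ∀ a ∈ S, Tendsto (fun n => ‖x n * a‖) ω (𝓝 0) := by
  have e : ∀ a, cls ω B x * constHom ω B a = 0 ↔ Tendsto (fun n => ‖x n * a‖) ω (𝓝 0) :=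
    fun a => by
      rw [constHom_eq, ← map_mul, ← map_zero (cls ω B), cls_eq]
      simp
  rw [mem_ann]
  refine ⟨fun h a ha => (e a).1 (h a ha).1, fun h a ha => ⟨(e a).2 (h a ha), ?_⟩⟩
  rw [← map_star]
  exact (e _).2 (h _ (hS a ha))

/-- Elements of the relative commutant of the ideal commute with all constants. -/
theorem Pair.cen_comm (P : Pair B) (x : Cen ω (P.I : Set B)) (b : B) :
    Commute (constHom ω B b) x.1 := by
  obtain ⟨c, hc⟩ := P.span b
  have h := (mem_cen.1 x.2 _ hc).1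
  rw [map_sub, AlgHomClass.commutes] at h
  have := h.add_left (Algebra.commutes c x.1)
  rwa [sub_add_cancel] at this

end Vale.Agent.P095
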