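import Vale.Agent.P095.HomotA

/-! Commutators of unitaries commuting with a dimension drop algebra are null-homotopic. -/

namespace Vale.Agent.P095
open Vale.Agent.P101 Vale.Agent.P101.JS Filter Topology Finset
open scoped ComplexOrder BoundedContinuousFunction symmDiff

universe u

namespace HomotAux
open scoped TensorProduct

/-- Evaluation of the first factor. -/
noncomputable def evT {X D : Type*} [TopologicalSpace X] [CStarAlgebra D] (z : X) :
    C(X, ℂ) ⊗[ℂ] D →⋆ₐ[ℂ] D :=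
  starLift ((StarAlgHom.ofId ℂ D).comp (ContinuousMap.evalStarAlgHom ℂ ℂ z)) (StarAlgHom.id ℂ D)
    fun a b => Algebra.commutes (a z) b

theorem evT_tmul {X D : Type*} [TopologicalSpace X] [CStarAlgebra D] (z : X) (f : C(X, ℂ))
    (d : D) : evT z (f ⊗ₜ[ℂ] d) = f z • d := (Algebra.smul_def (f z) d).symm

theorem evT_ext {X D : Type*} [TopologicalSpace X] [CStarAlgebra D] {x y : C(X, ℂ) ⊗[ℂ] D}
    (h : ∀ z, evT z x = evT z y) : x = y := by
  rw [← sub_eq_zero]
  have h0 : ∀ z, evT z (x - y) = 0 := fun z => by rw [map_sub, h z, sub_self]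
  obtain ⟨b, hb⟩ := TensorProduct.eq_repr_basis_right (Module.Basis.ofVectorSpace ℂ D) (x - y)
  rw [← hb] at h0 ⊢
  refine Finset.sum_eq_zero fun i hi => ?_
  have : b i = 0 := ContinuousMap.ext fun z => by
    have h1 := h0 z
    rw [Finsupp.sum, map_sum] at h1
    simp only [evT_tmul] at h1
    exact linearIndependent_iff'.1 (Module.Basis.ofVectorSpace ℂ D).linearIndependent _ _ h1 i hi
  simp only [this, TensorProduct.zero_tmul]

theorem exists_path {E D : Type*} [CStarAlgebra E] [CStarAlgebra D] (κ : D →⋆ₐ[ℂ] E)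
    (v : unitary E) (hv : ∀ f, Commute (v : E) (κ f)) (K : ℝ → ℂ → D)
    (k1 : ∀ r z, K r z = ∑ j ∈ range 7, (lag j).eval z • K r j)
    (k2 : ∀ r z, star z * z = 1 → K r z ∈ unitary D) (k3 : ∀ z, Continuous fun r => K r z)
    (k4 : ∀ z, K 0 z = z • 1) :
    ∃ U : ℝ → unitary E, Continuous U ∧ U 0 = v ∧ ∃ l : ℕ → E, (∀ j f, Commute (l j) (κ f)) ∧
      (U 1 : E) - 1 = ∑ j ∈ range 7, l j * κ (K 1 j - 1) := by
  have hn : IsStarNormal (v : E) := inferInstance
  have hc : ∀ f g, Commute (cfcHom (R := ℂ) hn f) (κ g) := fun f g =>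
    (hv g).cfcHom hn (by simpa [map_star] using (hv (star g)).star_star) f
  let Γ := starLift (cfcHom (R := ℂ) hn) κ hc
  let l : ℕ → C(spectrum ℂ (v : E), ℂ) := fun j => ⟨fun z => (lag j).eval z.1, by fun_prop⟩
  let h : ℝ → C(spectrum ℂ (v : E), ℂ) ⊗[ℂ] D := fun r =>
    ∑ j ∈ range 7, l j ⊗ₜ K r j
  have h1 : ∀ r z, evT z (h r) = K r z.1 := fun r z => by
    simp only [h, map_sum, evT_tmul]
    exact (k1 r z.1).symm
  have h2 : ∀ r (z : spectrum ℂ (v : E)), K r z.1 ∈ unitary D := fun r z =>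
    k2 r _ (by
      have := spectrum.norm_eq_one_of_unitary v.2 z.2
      rw [Complex.star_def, Complex.conj_mul', this]; simp)
  have h3 : ∀ r, Γ (h r) ∈ unitary E := fun r =>
    ⟨by rw [← map_star, ← map_mul, evT_ext (x := star (h r) * h r) (y := 1) fun z => by
        rw [map_mul, map_star, h1, (h2 r z).1]; exact (evT z).map_one'.symm, map_one],
      by rw [← map_star, ← map_mul, evT_ext (x := h r * star (h r)) (y := 1) fun z => by
        rw [map_mul, map_star, h1, (h2 r z).2]; exact (evT z).map_one'.symm, map_one]⟩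
  have h4 : ∀ r, Γ (h r) = ∑ j ∈ range 7, cfcHom (R := ℂ) hn (l j) * κ (K r j) := fun r => by
    simp only [h, map_sum, Γ, starLift_tmul]
  refine ⟨fun r => ⟨Γ (h r), h3 r⟩, Continuous.subtype_mk ?_ _, Subtype.ext ?_,
    fun j => cfcHom (R := ℂ) hn (l j), fun j => hc _, ?_⟩
  · simp only [h4]
    exact continuous_finsetSum _ fun j _ =>
      continuous_const.mul ((hom_cont κ).comp (k3 j))
  · change Γ (h 0) = v
    rw [evT_ext (x := h 0) (y := (ContinuousMap.id ℂ).restrict _ ⊗ₜ 1) fun z => by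
      rw [h1, k4, evT_tmul]; rfl, starLift_tmul, cfcHom_id, map_one, mul_one]
  · change Γ (h 1) - 1 = _
    have : ∑ j ∈ range 7, l j = 1 := ContinuousMap.ext fun z => by
      simpa [l] using (lag_pow (k := 0) (by omega) z.1).symm
    simp only [h4, map_sub, map_one, mul_sub, mul_one, sum_sub_distrib, ← map_sum, this]

theorem flip_in {E Z : Type u} [CStarAlgebra E] [CStarAlgebra Z] (hZ : MaxFlip Z)
    (S : StarSubalgebra ℂ E) (hS : IsClosed (S : Set E)) (β γ : Z →⋆ₐ[ℂ] E) (hβ : ∀ z, β z ∈ S)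
    (hγ : ∀ z, γ z ∈ S) (h : ∀ x y, Commute (β x) (γ y)) (s : Finset Z) {ε : ℝ} (hε : 0 < ε) :
    ∃ v : unitary E, (v : E) ∈ S ∧ ∀ z ∈ s, ‖v * β z * star (v : E) - γ z‖ < ε := by
  let : CStarAlgebra S := StarSubalgebra.cstarAlgebra S
  obtain ⟨v, hv, h1⟩ := hZ S (β.codRestrict S hβ) (γ.codRestrict S hγ)
    (fun x y => Subtype.ext (h x y)) s ε hε
  exact ⟨⟨v, congrArg Subtype.val hv.1, congrArg Subtype.val hv.2⟩, v.2, h1⟩

theorem mem_cent {E : Type u} [CStarAlgebra E] {T : Set E} (hT : ∀ t ∈ T, star t ∈ T) {x : E} :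
    x ∈ StarSubalgebra.centralizer ℂ T ↔ ∀ t ∈ T, Commute x t := by
  rw [StarSubalgebra.mem_centralizer_iff]
  exact ⟨fun h t ht => (h t ht).1.symm, fun h t ht => ⟨(h t ht).symm, (h _ (hT t ht)).symm⟩⟩

end HomotAux
open HomotAux

theorem commutator_joined {E : Type u} [CStarAlgebra E] (κ : DimDrop 2 3 →⋆ₐ[ℂ] E)
    (v w : unitary E) (hv : ∀ f, Commute (v : E) (κ f)) (hw : ∀ f, Commute (w : E) (κ f)) :
    v * w * star v * star w ∈ pathComponent (1 : unitary E) := by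
  obtain ⟨U, u1, u2, l, u3, u4⟩ := exists_path κ v hv (H 0 0) (H_interp 0 0)
    (fun r _ => H_unitary 0 0 r) (H_cont 0 0) (H_zero 0 0)
  obtain ⟨W, w1, w2, m, w3, w4⟩ := exists_path κ w hw (H 1 1) (H_interp 1 1)
    (fun r _ => H_unitary 1 1 r) (H_cont 1 1) (H_zero 1 1)
  have key : ∀ {c d : Fin 2} {c' d' : Fin 3} (l m : ℕ → E), c ≠ d → c' ≠ d' →
      (∀ j f, Commute (m j) (κ f)) → (∑ j ∈ range 7, l j * κ (H c c' 1 j - 1)) *
        ∑ j ∈ range 7, m j * κ (H d d' 1 j - 1) = 0 := by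
    intro c d c' d' l m h h' hm
    rw [sum_mul_sum]
    refine sum_eq_zero fun j _ => sum_eq_zero fun k _ => ?_
    rw [mul_assoc, ← mul_assoc (κ _), ← (hm k _).eq, mul_assoc, ← map_mul, H_orth h h', map_zero,
      mul_zero, mul_zero]
  have a1 := key l m (show (0 : Fin 2) ≠ 1 by decide) (show (0 : Fin 3) ≠ 1 by decide) w3
  have a2 := key m l (show (1 : Fin 2) ≠ 0 by decide) (show (1 : Fin 3) ≠ 0 by decide) u3
  rw [← u4, ← w4] at a1 a2
  have hc : U 1 * W 1 = W 1 * U 1 := Subtype.ext (by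
    change (U 1 : E) * W 1 = W 1 * U 1
    linear_combination (norm := noncomm_ring) a1 - a2)
  refine Joined.symm ⟨⟨⟨fun r => U r * W r * star (U r) * star (W r), by fun_prop⟩, ?_, ?_⟩⟩
  · simp [u2, w2]
  · simp [hc, Unitary.star_eq_inv]

theorem lift_unitary_of_path {E F : Type u} [CStarAlgebra E] [CStarAlgebra F] (π : E →⋆ₐ[ℂ] F)
    (hπ : Function.Surjective π) {v : unitary F} (hv : v ∈ pathComponent (1 : unitary F)) :
    ∃ w ∈ unitary E, π w = v := by
  obtain ⟨l, rfl⟩ := Unitary.mem_pathComponentOne_iff.1 hv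
  clear hv
  induction l with
  | nil => exact ⟨1, one_mem _, by simp⟩
  | cons x l ih =>
    obtain ⟨w, hw, h⟩ := ih
    obtain ⟨y, hy⟩ := hπ x
    have e : π (realPart y : E) = x := by
      rw [realPart_apply_coe, ← algebraMap_smul ℂ, map_smul, map_add, map_star, hy, x.2.star_eq,
        algebraMap_smul, ← two_smul ℝ, smul_smul]
      simp
    refine ⟨selfAdjoint.expUnitary (realPart y) * w, mul_mem (Subtype.prop _) hw, ?_⟩
    let : NormedAlgebra ℚ E := .restrictScalars ℚ ℂ E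
    let : NormedAlgebra ℚ F := .restrictScalars ℚ ℂ F
    rw [map_mul, h, List.map_cons, List.prod_cons, Submonoid.coe_mul, selfAdjoint.expUnitary_coe,
      selfAdjoint.expUnitary_coe, NormedSpace.map_exp π (hom_cont π), map_smul, e]

/-- An invariant unitary in the component of the identity that conjugates one copy of `Z` to a
commuting one. -/
theorem exists_flip {G : Type} [Group G] {E Z : Type u} [CStarAlgebra E] [CStarAlgebra Z]
    (β : Act G E) (hZ : MaxFlip Z) (θ₁ θ₂ ι : Z →⋆ₐ[ℂ] E) (κ : DimDrop 2 3 →⋆ₐ[ℂ] E)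
    (i1 : ∀ g z, β.φ g (θ₁ z) = θ₁ z) (i2 : ∀ g z, β.φ g (θ₂ z) = θ₂ z)
    (i3 : ∀ g z, β.φ g (ι z) = ι z) (c12 : ∀ x y, Commute (θ₁ x) (θ₂ y))
    (c1 : ∀ x y, Commute (θ₁ x) (κ y)) (c2 : ∀ x y, Commute (θ₂ x) (κ y))
    (c3 : ∀ x y, Commute (θ₁ x) (ι y)) (c4 : ∀ x y, Commute (θ₂ x) (ι y))
    (c5 : ∀ x y, Commute (ι x) (κ y)) (s : Finset Z) {ε : ℝ} (hε : 0 < ε) :
    ∃ w ∈ pathComponent (1 : unitary E), (∀ g, β.φ g w = w) ∧
      ∀ z ∈ s, ‖star (w : E) * ι z * w - θ₁ z‖ ≤ ε := by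
  have hcl : ∀ T : Set E, IsClosed ((β.fix ⊓ StarSubalgebra.centralizer ℂ T : StarSubalgebra ℂ E) :
      Set E) := fun T => β.fix_closed.inter (Set.isClosed_centralizer _)
  have s1 : ∀ t ∈ Set.range κ, star t ∈ Set.range κ := by
    rintro _ ⟨f, rfl⟩; exact ⟨star f, map_star _ _⟩
  have s2 : ∀ t ∈ Set.range θ₂ ∪ Set.range κ, star t ∈ Set.range θ₂ ∪ Set.range κ := by
    rintro _ (⟨f, rfl⟩ | h)
    exacts [Or.inl ⟨star f, map_star _ _⟩, Or.inr (s1 _ h)]
  have hδ : 0 < ε / 3 := by positivity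
  obtain ⟨v, ⟨v1, v2⟩, v3⟩ := flip_in hZ _ (hcl (Set.range θ₂ ∪ Set.range κ)) θ₁ ι
    (fun z => ⟨fun g => i1 g z, (mem_cent s2).2 (by
      rintro _ (⟨f, rfl⟩ | ⟨f, rfl⟩); exacts [c12 _ _, c1 _ _])⟩)
    (fun z => ⟨fun g => i3 g z, (mem_cent s2).2 (by
      rintro _ (⟨f, rfl⟩ | ⟨f, rfl⟩); exacts [(c4 _ _).symm, c5 _ _])⟩) c3 s hδ
  obtain ⟨U, ⟨u1, u2⟩, u3⟩ := flip_in hZ _ (hcl (Set.range κ)) θ₂ θ₁
    (fun z => ⟨fun g => i2 g z, (mem_cent s1).2 (by rintro _ ⟨f, rfl⟩; exact c2 _ _)⟩)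
    (fun z => ⟨fun g => i1 g z, (mem_cent s1).2 (by rintro _ ⟨f, rfl⟩; exact c1 _ _)⟩)
    (fun x y => (c12 y x).symm) s hδ
  have v4 := (mem_cent s2).1 v2
  refine ⟨_, commutator_joined κ v U (fun f => v4 _ (Or.inr ⟨f, rfl⟩))
    fun f => (mem_cent s1).1 u2 _ ⟨f, rfl⟩, fun g => ?_, fun z hz => ?_⟩
  · exact mul_mem (mul_mem (mul_mem v1 u1) (star_mem v1)) (star_mem u1) g
  · let W := U * v * star U
    have a1 : ‖(star (v * U * star v * star U : unitary E) : E) * (ι z - v * θ₁ z * star (v : E)) *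
        (v * U * star v * star U : unitary E)‖ < ε / 3 := by
      rw [CStarRing.norm_mul_coe_unitary, ← Unitary.coe_star, CStarRing.norm_coe_unitary_mul,
        norm_sub_rev]
      exact v3 z hz
    have a2 : ‖(W : E) * (θ₁ z - U * θ₂ z * star (U : E)) * (star W : unitary E)‖ < ε / 3 := by
      rw [CStarRing.norm_mul_coe_unitary, CStarRing.norm_coe_unitary_mul, norm_sub_rev]
      exact u3 z hz
    have e : (star (v * U * star v * star U : unitary E) : E) * ι z *
        (v * U * star v * star U : unitary E) - θ₁ z =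
        (star (v * U * star v * star U : unitary E) : E) * (ι z - v * θ₁ z * star (v : E)) *
          (v * U * star v * star U : unitary E) +
        (W : E) * (θ₁ z - U * θ₂ z * star (U : E)) * (star W : unitary E) +
        (U * θ₂ z * star (U : E) - θ₁ z) := by
      have b1 : ∀ x : E, star (v : E) * (v * x) = x := fun x => by
        rw [← mul_assoc, v.2.1, one_mul]
      have b2 : ∀ x : E, star (U : E) * (U * x) = x := fun x => by
        rw [← mul_assoc, U.2.1, one_mul]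
      have b3 : ∀ x : E, (v : E) * (θ₂ z * (star (v : E) * x)) = θ₂ z * x := fun x => by
        rw [← mul_assoc, (v4 _ (Or.inl ⟨z, rfl⟩)).eq, mul_assoc, ← mul_assoc (v : E), v.2.2, one_mul]
      simp only [W, Submonoid.coe_mul, Unitary.coe_star, star_mul, star_star, mul_sub, sub_mul,
        mul_assoc, b1, b2, b3]
      abel
    rw [e]
    refine (norm_add₃_le).trans ?_
    linarith [u3 z hz]

end Vale.Agent.P095
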