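import Vale.Agent.P095.MatPos

/-! Basic properties of the minimal tensor product. -/

namespace Vale.Agent.P095
open Vale.Agent.P101 Vale.Agent.P101.JS Filter Topology Finset
open scoped ComplexOrder BoundedContinuousFunction symmDiff

universe u
variable {A Z C : Type u} [NonUnitalCStarAlgebra A] [CStarAlgebra Z] [NonUnitalCStarAlgebra C]
  {t : A → Z → C}

/-- The algebraic properties of elementary tensors. -/
structure TensorProps (t : A → Z → C) : Prop where
  add_left : ∀ a a' z, t (a + a') z = t a z + t a' z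
  add_right : ∀ a z z', t a (z + z') = t a z + t a z'
  smul_left : ∀ (c : ℂ) a z, t (c • a) z = c • t a z
  smul_right : ∀ (c : ℂ) a z, t a (c • z) = c • t a z
  mul : ∀ a a' z z', t a z * t a' z' = t (a * a') (z * z')
  star : ∀ a z, star (t a z) = t (star a) (star z)
  norm_le : ∀ a z, ‖t a z‖ ≤ ‖a‖ * ‖z‖
  dense : Dense (Submodule.span ℂ {c | ∃ a b, c = t a b} : Set C)

theorem IsMinTensor.exists_rep (h : IsMinTensor t) : ∃ (E : Type u) (_ : CStarAlgebra E)
    (I : A →⋆ₙₐ[ℂ] E) (J : Z →⋆ₐ[ℂ] E) (σ : C →⋆ₙₐ[ℂ] E), Function.Injective σ ∧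
      (∀ a z, J z * I a = I a * J z) ∧ ∀ a z, σ (t a z) = I a * J z := by
  obtain ⟨-, H, K, _, _, _, _, _, _, π, ρ, σ, -, -, hσ, hs⟩ := h
  obtain ⟨I, J, hIJ, hk⟩ := exists_pair (StarAlgHom.id ℂ (H →L[ℂ] H)) ρ
  exact ⟨_, inferInstance, (I : (H →L[ℂ] H) →⋆ₙₐ[ℂ] _).comp π, J, σ, hσ, fun a z => hIJ (π a) z,
    fun a z => NucAux.ext_tmul fun x y => (hs a z x y).trans (hk (π a) z x y).symm⟩

theorem IsMinTensor.props (h : IsMinTensor t) : TensorProps t := by
  obtain ⟨E, _, I, J, σ, hσ, hc, hs⟩ := h.exists_rep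
  refine ⟨fun a a' z => hσ ?_, fun a z z' => hσ ?_, fun c a z => hσ ?_, fun c a z => hσ ?_,
    fun a a' z z' => hσ ?_, fun a z => hσ ?_, fun a z => ?_, h.dense⟩
  · rw [map_add, hs, hs, hs, map_add, add_mul]
  · rw [map_add, hs, hs, hs, map_add, mul_add]
  · rw [map_smul, hs, hs, map_smul, smul_mul_assoc]
  · rw [map_smul, hs, hs, map_smul, mul_smul_comm]
  · rw [map_mul, hs, hs, hs, map_mul, map_mul, mul_assoc, ← mul_assoc (J z), hc, mul_assoc,
      mul_assoc]
  · rw [map_star, hs, hs, star_mul, ← map_star, ← map_star, hc]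
  · rw [← NonUnitalStarAlgHom.norm_map σ hσ, hs]
    exact (norm_mul_le _ _).trans (mul_le_mul (NonUnitalStarAlgHom.norm_apply_le I a)
      (NonUnitalStarAlgHom.norm_apply_le J z) (norm_nonneg _) (norm_nonneg _))

theorem IsMinTensor.inj [Nontrivial Z] (h : IsMinTensor t) {a : A} (ha : t a 1 = 0) : a = 0 := by
  obtain ⟨-, H, K, _, _, _, _, _, _, π, ρ, σ, hπ, hρ, -, hs⟩ := h
  obtain ⟨k, hk⟩ := NucAux.nontriv hρ
  refine hπ ?_
  ext x
  simpa [ha, hk] using (congrArg norm (hs a 1 x k)).symm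

/-- The embedding `a ↦ a ⊗ 1`. -/
noncomputable def TensorProps.left (h : TensorProps t) : A →⋆ₙₐ[ℂ] C where
  toFun a := t a 1
  map_smul' c a := h.smul_left c a 1
  map_zero' := by simpa using h.smul_left 0 0 1
  map_add' a a' := h.add_left a a' 1
  map_mul' a a' := by rw [h.mul, mul_one]
  map_star' a := by rw [h.star, star_one]

theorem TensorProps.separable [TopologicalSpace.SeparableSpace A]
    [TopologicalSpace.SeparableSpace Z] (h : TensorProps t) :
    TopologicalSpace.SeparableSpace C := by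
  let f : A →ₗ[ℂ] Z →ₗ[ℂ] C := LinearMap.mk₂ ℂ t h.add_left h.smul_left h.add_right h.smul_right
  have hc : Continuous fun p : A × Z => t p.1 p.2 :=
    (f.mkContinuous₂ 1 fun a z => by rw [one_mul]; exact h.norm_le a z).continuous₂
  have h1 : TopologicalSpace.IsSeparable {c | ∃ a b, c = t a b} := by
    refine (TopologicalSpace.isSeparable_range hc).mono ?_
    rintro _ ⟨a, b, rfl⟩
    exact ⟨(a, b), rfl⟩
  have h2 := (h1.span (R := ℂ)).closure
  rw [h.dense.closure_eq] at h2
  exact TopologicalSpace.isSeparable_univ_iff.1 h2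

end Vale.Agent.P095
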