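import Vale.Agent.P095.Tensor

/-! The action on the minimal tensor product. -/

namespace Vale.Agent.P095
open Vale.Agent.P101 Vale.Agent.P101.JS Filter Topology Finset
open scoped ComplexOrder BoundedContinuousFunction symmDiff

universe u
variable {A Z C : Type u} [NonUnitalCStarAlgebra A] [CStarAlgebra Z] [NonUnitalCStarAlgebra C]
  {t : A → Z → C}

namespace TensorAutAux
open scoped TensorProduct InnerProductSpace
open UniformSpace
variable {H K : Type u} [NormedAddCommGroup H] [InnerProductSpace ℂ H] [CompleteSpace H]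
  [NormedAddCommGroup K] [InnerProductSpace ℂ K] {n J J' : Type} [Fintype n] [Fintype J]
  [Fintype J']

/-- The Gram matrix of a family of elementary tensors. -/
noncomputable def gram (u : J → n → A) (v : J → n → K) (l l' : n) : A :=
  ∑ j, ∑ j', ⟪v j l, v j' l'⟫_ℂ • (star (u j l) * u j' l')

omit [Fintype n] in
theorem gram_star (u : J → n → A) (v : J → n → K) (l l' : n) :
    star (gram u v l l') = gram u v l' l := by
  simp only [gram, star_sum, star_smul, star_mul, star_star, RCLike.star_def, inner_conj_symm]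
  exact sum_comm

theorem inner_star (φ : A →⋆ₙₐ[ℂ] (H →L[ℂ] H)) (a b : A) (x y : H) :
    ⟪x, φ (star a * b) y⟫_ℂ = ⟪φ a x, φ b y⟫_ℂ := by
  rw [map_mul, map_star, mul_apply_eq_comp, ContinuousLinearMap.star_eq_adjoint,
    ContinuousLinearMap.adjoint_inner_right]

theorem quad (φ : A →⋆ₙₐ[ℂ] (H →L[ℂ] H)) (u : J → n → A) (v : J → n → K) (h : n → H) :
    ∑ l, ∑ l', ⟪h l, φ (gram u v l l') (h l')⟫_ℂ =
      ((‖(∑ l, ∑ j, φ (u j l) (h l) ⊗ₜ[ℂ] v j l : H ⊗[ℂ] K)‖ ^ 2 : ℝ) : ℂ) := by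
  rw [Complex.ofReal_pow, ← Complex.coe_algebraMap, ← inner_self_eq_norm_sq_to_K (𝕜 := ℂ)]
  simp only [gram, map_sum, map_smul, _root_.sum_apply,
    smul_apply, inner_sum, sum_inner, inner_smul_right, inner_star,
    TensorProduct.inner_tmul]
  refine sum_comm.trans (sum_congr rfl fun l' _ => ?_)
  refine (sum_congr rfl fun l _ => sum_comm).trans (sum_comm.trans ?_)
  exact sum_congr rfl fun j' _ => sum_congr rfl fun l _ => sum_congr rfl fun j _ => mul_comm _ _

theorem transfer (π φ : A →⋆ₙₐ[ℂ] (H →L[ℂ] H)) (hπ : Function.Injective π) (u : J → n → A)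
    (v : J → n → K) (u' : J' → n → A) (v' : J' → n → K) {N : ℝ} (hN : 0 ≤ N)
    (H1 : ∀ h : n → H, ‖(∑ l, ∑ j, π (u j l) (h l) ⊗ₜ[ℂ] v j l : H ⊗[ℂ] K)‖ ≤
      N * ‖(∑ l, ∑ j, π (u' j l) (h l) ⊗ₜ[ℂ] v' j l : H ⊗[ℂ] K)‖) (h : n → H) :
    ‖(∑ l, ∑ j, φ (u j l) (h l) ⊗ₜ[ℂ] v j l : H ⊗[ℂ] K)‖ ≤
      N * ‖(∑ l, ∑ j, φ (u' j l) (h l) ⊗ₜ[ℂ] v' j l : H ⊗[ℂ] K)‖ := by
  let := CStarAlgebra.spectralOrder A
  have := CStarAlgebra.spectralOrderedRing A
  let m : n → n → A := fun l l' => ((N ^ 2 : ℝ) : ℂ) • gram u' v' l l' - gram u v l l'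
  have q : ∀ (ψ : A →⋆ₙₐ[ℂ] (H →L[ℂ] H)) (h : n → H), ∑ l, ∑ l', ⟪h l, ψ (m l l') (h l')⟫_ℂ =
      (((N * ‖(∑ l, ∑ j, ψ (u' j l) (h l) ⊗ₜ[ℂ] v' j l : H ⊗[ℂ] K)‖) ^ 2 -
        ‖(∑ l, ∑ j, ψ (u j l) (h l) ⊗ₜ[ℂ] v j l : H ⊗[ℂ] K)‖ ^ 2 : ℝ) : ℂ) := fun ψ h => by
    rw [mul_pow, Complex.ofReal_sub, Complex.ofReal_mul, ← quad, ← quad]
    simp only [m, map_sub, map_smul, sub_apply,
      smul_apply, inner_sub_right, inner_smul_right, sum_sub_distrib, mul_sum]
  obtain ⟨Y, hY⟩ := mat_pos m (fun i j => by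
    simp only [m, star_sub, star_smul, gram_star, RCLike.star_def, Complex.conj_ofReal])
    fun d => by
      refine NucAux.nonneg_of_map π hπ ?_
      rw [ContinuousLinearMap.nonneg_iff_isPositive, ContinuousLinearMap.isPositive_iff_complex]
      intro x
      have e : ⟪x, π (∑ i, ∑ j, star (d i) * m i j * d j) x⟫_ℂ =
          ∑ l, ∑ l', ⟪π (d l) x, π (m l l') (π (d l') x)⟫_ℂ := by
        simp only [map_sum, _root_.sum_apply, inner_sum, mul_assoc, inner_star]
        simp only [map_mul, mul_apply_eq_comp]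
      rw [q] at e
      rw [← inner_conj_symm, e, Complex.conj_ofReal]
      refine ⟨by simp only [RCLike.re_to_complex, Complex.ofReal_re], ?_⟩
      simp only [RCLike.re_to_complex, Complex.ofReal_re]
      exact sub_nonneg.2 (pow_le_pow_left₀ (norm_nonneg _) (H1 _) 2)
  have e := q φ h
  have e2 : ∑ l, ∑ l', ⟪h l, φ (m l l') (h l')⟫_ℂ =
      ((∑ q, ‖∑ l, φ (Y q l) (h l)‖ ^ 2 : ℝ) : ℂ) := by
    have : ∀ q, ((‖∑ l, φ (Y q l) (h l)‖ ^ 2 : ℝ) : ℂ) =
        ∑ l, ∑ l', ⟪φ (Y q l) (h l), φ (Y q l') (h l')⟫_ℂ := fun q => by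
      rw [Complex.ofReal_pow, ← Complex.coe_algebraMap, ← inner_self_eq_norm_sq_to_K (𝕜 := ℂ),
        sum_inner]
      simp only [inner_sum]
    simp only [hY, map_sum, _root_.sum_apply, inner_sum, inner_star,
      Complex.ofReal_sum, this]
    exact (sum_congr rfl fun l _ => sum_comm).trans sum_comm
  rw [e2, Complex.ofReal_inj] at e
  have h0 : 0 ≤ ∑ q, ‖∑ l, φ (Y q l) (h l)‖ ^ 2 := sum_nonneg fun _ _ => sq_nonneg _
  exact (pow_le_pow_iff_left₀ (norm_nonneg _) (by positivity) two_ne_zero).1 (by linarith)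

omit [CompleteSpace H] in
theorem cpl_sum {ι : Type*} (s : Finset ι) (f : ι → H ⊗[ℂ] K) :
    ((∑ i ∈ s, f i : H ⊗[ℂ] K) : Completion (H ⊗[ℂ] K)) = ∑ i ∈ s, (f i : Completion _) :=
  map_sum (Completion.toComplL : H ⊗[ℂ] K →L[ℂ] Completion (H ⊗[ℂ] K)) f s

end TensorAutAux
open TensorAutAux

open scoped TensorProduct in
theorem IsMinTensor.norm_aut (h : IsMinTensor t) (e : A ≃⋆ₐ[ℂ] A) {ι : Type} (s : Finset ι)
    (a : ι → A) (z : ι → Z) : ‖∑ i ∈ s, t (e (a i)) (z i)‖ ≤ ‖∑ i ∈ s, t (a i) (z i)‖ := by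
  have hp := h.props
  obtain ⟨-, H, K, _, _, _, _, _, _, π, ρ, σ, hπ, -, hσ, hs⟩ := h
  rw [← sum_coe_sort s, ← sum_coe_sort s]
  set N := ‖∑ i : s, t (a i) (z i)‖ with hN
  let φ : A →⋆ₙₐ[ℂ] (H →L[ℂ] H) := π.comp (e : A →⋆ₙₐ[ℂ] A)
  have app : ∀ (b : s → A) (y : s → Z) {n : Type} [Fintype n] (x : n → H) (k : n → K),
      σ (∑ i, t (b i) (y i)) ((∑ l, x l ⊗ₜ[ℂ] k l : H ⊗[ℂ] K) : UniformSpace.Completion _) =
        ((∑ l, ∑ i, π (b i) (x l) ⊗ₜ[ℂ] ρ (y i) (k l) : H ⊗[ℂ] K) :
          UniformSpace.Completion _) := fun b y n _ x k => by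
    simp only [cpl_sum, map_sum, _root_.sum_apply, hs]
  have key : ∀ {n : Type} [Fintype n] (c : n → A) (x : n → H) (k : n → K),
      ‖σ (∑ i : s, t (e (a i)) (z i))
        ((∑ l, φ (c l) (x l) ⊗ₜ[ℂ] k l : H ⊗[ℂ] K) : UniformSpace.Completion _)‖ ≤
      N * ‖((∑ l, φ (c l) (x l) ⊗ₜ[ℂ] k l : H ⊗[ℂ] K) : UniformSpace.Completion (H ⊗[ℂ] K))‖ :=
    fun {n} _ c x k => by
      have := transfer π φ hπ (fun (i : s) l => a i * c l) (fun (i : s) l => ρ (z i) (k l))
        (fun (_ : Unit) l => c l) (fun _ l => k l) (norm_nonneg (∑ i : s, t (a i) (z i)))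
        (fun x => by
          have h1 := (σ (∑ i : s, t (a i) (z i))).le_opNorm
            ((∑ l, π (c l) (x l) ⊗ₜ[ℂ] k l : H ⊗[ℂ] K) : UniformSpace.Completion _)
          rw [app, NonUnitalStarAlgHom.norm_map σ hσ, UniformSpace.Completion.norm_coe,
            UniformSpace.Completion.norm_coe] at h1
          simpa only [map_mul, mul_apply_eq_comp, univ_unique, sum_singleton] using h1) x
      rw [app, UniformSpace.Completion.norm_coe, UniformSpace.Completion.norm_coe]
      simp only [map_mul, mul_apply_eq_comp, univ_unique, sum_singleton] at this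
      exact this
  rw [← NonUnitalStarAlgHom.norm_map σ hσ]
  set T := σ (∑ i : s, t (e (a i)) (z i)) with hT
  have hst : star T = σ (∑ i : s, t (e (star (a i))) (star (z i))) := by
    simp only [hT, ← map_star σ, star_sum, hp.star, map_star e]
  have h2 : ‖T * star T‖ ≤ N * ‖star T‖ := by
    refine ContinuousLinearMap.opNorm_le_bound _ (by positivity) fun w => ?_
    rw [mul_apply_eq_comp, mul_assoc]
    refine le_trans ?_ (mul_le_mul_of_nonneg_left ((star T).le_opNorm w) (norm_nonneg _))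
    induction w using UniformSpace.Completion.induction_on with
    | hp => exact isClosed_le (by fun_prop) (by fun_prop)
    | ih w =>
      obtain ⟨S, rfl⟩ := TensorProduct.exists_finset w
      let b := S.equivFin.symm
      have e1 : ∑ i ∈ S, i.1 ⊗ₜ[ℂ] i.2 = ∑ l, (b l).1.1 ⊗ₜ[ℂ] (b l).1.2 := by
        rw [← sum_coe_sort S]
        exact (b.sum_comp fun i => i.1.1 ⊗ₜ[ℂ] i.1.2).symm
      rw [e1, hst, app, ← Fintype.sum_prod_type']
      exact key (fun p : Fin #S × s => star (a p.2)) _ _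
  have h3 : ‖T * star T‖ = ‖T‖ * ‖T‖ := by
    rw [hT, ← map_star, ← map_mul, NonUnitalStarAlgHom.norm_map σ hσ,
      NonUnitalStarAlgHom.norm_map σ hσ, CStarRing.norm_self_mul_star]
  have h4 : ‖star T‖ = ‖T‖ := by
    rw [hT, ← map_star, NonUnitalStarAlgHom.norm_map σ hσ, NonUnitalStarAlgHom.norm_map σ hσ,
      norm_star]
  rw [h3, h4] at h2
  rcases (norm_nonneg T).eq_or_lt with h0 | h0
  · rw [← h0]; exact norm_nonneg _
  · exact le_of_mul_le_mul_right h2 h0

namespace TensorAutAux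

theorem span_ind (hp : TensorProps t) {p : C → Prop} (hc : IsClosed {c | p c})
    (h1 : ∀ a z, p (t a z)) (h0 : p 0) (ha : ∀ x y, p x → p y → p (x + y)) (c : C) : p c := by
  refine closure_minimal (t := {c | p c}) (fun c hc => ?_) hc (hp.dense c)
  have : ∀ r : ℂ, p (r • c) := by
    induction hc using Submodule.span_induction with
    | mem c hc => obtain ⟨a, b, rfl⟩ := hc; exact fun r => hp.smul_left r a b ▸ h1 _ _
    | zero => exact fun r => by rwa [smul_zero]
    | add x y _ _ hx hy => exact fun r => by rw [smul_add]; exact ha _ _ (hx r) (hy r)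
    | smul c x _ hx => exact fun r => by rw [smul_smul]; exact hx _
  simpa using this 1

theorem exists_clm (h : IsMinTensor t) (e : A ≃⋆ₐ[ℂ] A) :
    ∃ E : C →L[ℂ] C, ∀ a z, E (t a z) = t (e a) z := by
  have hp := h.props
  let p : ((A × Z) →₀ ℂ) →ₗ[ℂ] C := Finsupp.linearCombination ℂ fun x => t x.1 x.2
  let q : ((A × Z) →₀ ℂ) →ₗ[ℂ] C := Finsupp.linearCombination ℂ fun x => t (e x.1) x.2
  have hd : DenseRange p := by
    refine hp.dense.mono ?_
    rw [← LinearMap.coe_range, Finsupp.range_linearCombination]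
    refine Submodule.span_mono ?_
    rintro _ ⟨a, b, rfl⟩
    exact ⟨(a, b), rfl⟩
  have hn : ∀ x, ‖q x‖ ≤ 1 * ‖p x‖ := fun x => by
    let b := x.support.equivFin.symm
    have e1 : ∀ f : A × Z → C, ∑ i ∈ x.support, f i = ∑ l, f (b l) := fun f => by
      rw [← sum_coe_sort x.support]
      exact (b.sum_comp fun i => f i).symm
    have := h.norm_aut e univ (fun l => (b l).1.1) fun l => x (b l) • (b l).1.2
    simpa only [p, q, Finsupp.linearCombination_apply, Finsupp.sum, e1, one_mul, hp.smul_right]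
      using this
  refine ⟨q.extendOfNorm p, fun a z => ?_⟩
  have := LinearMap.extendOfNorm_eq hd ⟨1, hn⟩ (Finsupp.single (a, z) 1)
  simpa only [p, q, Finsupp.linearCombination_single, one_smul] using this

theorem exists_aut (h : IsMinTensor t) (e : A ≃⋆ₐ[ℂ] A) :
    ∃ E : C ≃⋆ₐ[ℂ] C, ∀ a z, E (t a z) = t (e a) z := by
  have hp := h.props
  obtain ⟨E, hE⟩ := exists_clm h e
  obtain ⟨F, hF⟩ := exists_clm h e.symm
  refine ⟨{ toFun := E
            invFun := F
            left_inv := span_ind hp (isClosed_eq (by fun_prop) (by fun_prop))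
              (fun a z => by rw [hE, hF, e.symm_apply_apply]) (by simp)
              fun x y hx hy => by rw [map_add, map_add, hx, hy]
            right_inv := span_ind hp (isClosed_eq (by fun_prop) (by fun_prop))
              (fun a z => by rw [hF, hE, e.apply_symm_apply]) (by simp)
              fun x y hx hy => by rw [map_add, map_add, hx, hy]
            map_mul' := fun x y => ?_
            map_add' := map_add E
            map_star' := span_ind hp (isClosed_eq (by fun_prop) (by fun_prop))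
              (fun a z => by rw [hp.star, hE, hE, hp.star, map_star]) (by simp)
              fun x y hx hy => by rw [star_add, map_add, map_add, hx, hy, star_add]
            map_smul' := map_smul E }, hE⟩
  refine span_ind hp (p := fun x => E (x * y) = E x * E y) (isClosed_eq (by fun_prop) (by fun_prop))
    (fun a z => ?_) (by simp) (fun x x' hx hx' => by
      rw [add_mul, map_add, map_add, hx, hx', add_mul]) x
  exact span_ind hp (p := fun y => E (t a z * y) = E (t a z) * E y)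
    (isClosed_eq (by fun_prop) (by fun_prop))
    (fun a' z' => by rw [hp.mul, hE, hE, hE, hp.mul, map_mul]) (by simp) (fun x x' hx hx' => by
      rw [mul_add, map_add, map_add, hx, hx', mul_add]) y

end TensorAutAux

theorem IsMinTensor.exists_action (h : IsMinTensor t) {G : Type} [Group G]
    (α : G →* (A ≃⋆ₐ[ℂ] A)) :
    ∃ β : G →* (C ≃⋆ₐ[ℂ] C), ∀ g a z, β g (t a z) = t (α g a) z := by
  have hp := h.props
  choose E hE using fun g => exists_aut h (α g)
  have hc : ∀ g, Continuous (E g) := fun g => (autCLM (E g)).continuous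
  refine ⟨MonoidHom.mk' E fun g k => StarAlgEquiv.ext fun c => ?_, hE⟩
  change E (g * k) c = E g (E k c)
  exact span_ind hp (p := fun c => E (g * k) c = E g (E k c))
    (isClosed_eq (hc _) ((hc g).comp (hc k)))
    (fun a z => by rw [hE, hE, hE, map_mul]; rfl) (by simp)
    (fun x y hx hy => by rw [map_add, map_add, map_add, hx, hy]) c

end Vale.Agent.P095
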