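import Vale.Agent.P095.Basic

/-! The action on the unitization. -/

namespace Vale.Agent.P095
open Vale.Agent.P101 Vale.Agent.P101.JS Filter Topology Finset
open scoped ComplexOrder BoundedContinuousFunction symmDiff

universe u
/-- The action induced on the unitization. -/
noncomputable def uact {G : Type} [Group G] {A : Type u} [NonUnitalCStarAlgebra A]
    (α : G →* (A ≃⋆ₐ[ℂ] A)) : Act G (Unitization ℂ A) where
  φ g := Unitization.starMap (α g : A →⋆ₙₐ[ℂ] A)
  one x := by
    induction x using Unitization.ind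
    simp [Unitization.algebraMap_eq_inl]
  mul g h x := by
    induction x using Unitization.ind
    simp [Unitization.algebraMap_eq_inl]

@[simp] theorem uact_inr {G : Type} [Group G] {A : Type u} [NonUnitalCStarAlgebra A]
    (α : G →* (A ≃⋆ₐ[ℂ] A)) (g : G) (a : A) :
    (uact α).φ g (a : Unitization ℂ A) = (α g a : A) := by
  simp [uact]

/-- The hypothesis of the equivariant one-sided intertwining argument. -/
def Intertw {G : Type} [Group G] {A C : Type u} [NonUnitalCStarAlgebra A]
    [NonUnitalCStarAlgebra C] (β : G →* (C ≃⋆ₐ[ℂ] C)) (φ : A →⋆ₙₐ[ℂ] C) : Prop :=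
  ∀ (s : Finset A) (t : Finset C) (K : Finset G) (ε : ℝ), 0 < ε →
    ∃ w : unitary (Unitization ℂ C),
      (∀ a ∈ s, ‖(w : Unitization ℂ C) * (φ a : C) - (φ a : C) * (w : Unitization ℂ C)‖ ≤ ε) ∧
      (∀ c ∈ t, ∃ a, ‖star (w : Unitization ℂ C) * (c : C) * (w : Unitization ℂ C) - (φ a : C)‖ ≤ ε) ∧
      ∀ a ∈ s, ∀ g ∈ K,
        ‖((φ a : C) : Unitization ℂ C) * ((uact β).φ g w - (w : Unitization ℂ C))‖ ≤ ε

end Vale.Agent.P095
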