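import Vale.Agent.P095.FS
import Vale.Agent.P095.Tensor
import Vale.Agent.P095.TensorAut
import Vale.Agent.P095.UAct
import Vale.Agent.P095.Homot
import Vale.Agent.P095.Simp

/-! The intertwining unitaries. -/

namespace Vale.Agent.P095
open Vale.Agent.P101 Vale.Agent.P101.JS Filter Topology Finset
open scoped ComplexOrder BoundedContinuousFunction symmDiff

universe u
open TopologicalSpace

namespace FlipAux
variable {A Z C : Type u} [NonUnitalCStarAlgebra A] [CStarAlgebra Z] [NonUnitalCStarAlgebra C]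
  {t : A → Z → C} {ω : Ultrafilter ℕ}

/-- The image of `A` in the unitization of the tensor product. -/
def SL (t : A → Z → C) : Set (Unitization ℂ C) := Set.range fun a => ((t a 1 : C) : Unitization ℂ C)

/-- Constant elementary tensors. -/
noncomputable def ct (ω : Ultrafilter ℕ) (t : A → Z → C) (a : A) (z : Z) :
    UltraPower ω (Unitization ℂ C) := constHom ω _ ((t a z : C) : Unitization ℂ C)

theorem t_sub (ht : TensorProps t) (a b : A) (z : Z) : t (a - b) z = t a z - t b z := by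
  rw [eq_sub_iff_add_eq, ← ht.add_left, sub_add_cancel]

theorem fmk_eq_of (ht : TensorProps t) {x y : Cen ω (SL t)}
    (h : ∀ a, x.1 * ct ω t a 1 = y.1 * ct ω t a 1) : fmk ω _ x = fmk ω _ y := by
  refine fmk_eq.2 ?_
  rintro _ ⟨a, rfl⟩
  change (x.1 - y.1) * _ = 0 ∧ (x.1 - y.1) * _ = 0
  rw [← map_star, ← Unitization.inr_star, ht.star, star_one, sub_mul, sub_mul, sub_eq_zero,
    sub_eq_zero]
  exact ⟨h _, h _⟩

omit [NonUnitalCStarAlgebra A] in
theorem cen_comm (x : Cen ω (SL t)) (a : A) : Commute (ct ω t a 1) x.1 :=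
  (mem_cen.1 x.2 _ ⟨a, rfl⟩).1

theorem exists_iota [SeparableSpace A] (ht : TensorProps t) (hω : (ω : Filter ℕ) ≤ atTop) :
    ∃ (ι : Z →⋆ₐ[ℂ] FS ω (SL t)) (X : Z → Cen ω (SL t)), (∀ z, ι z = fmk ω _ (X z)) ∧
      ∀ z a, (X z).1 * ct ω t a 1 = ct ω t a z := by
  obtain ⟨e, he, hl⟩ := exists_seq_unit A
  let x : Z → ℕ →ᵇ Unitization ℂ C := fun z =>
    seqB (fun n => ((t (e n) z : C) : Unitization ℂ C)) ‖z‖ fun n => by
      rw [Unitization.norm_inr]
      exact (ht.norm_le _ _).trans (mul_le_of_le_one_left (norm_nonneg _) (he n).2)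
  have lim : ∀ (b : ℕ → A) (a : A) (z : Z), Tendsto b atTop (𝓝 a) →
      Tendsto (fun n => ‖((t (b n) z : C) : Unitization ℂ C) - (t a z : C)‖) ω (𝓝 0) :=
    fun b a z h => by
      refine (squeeze_zero (fun _ => norm_nonneg _) (g := fun n => ‖b n - a‖ * ‖z‖) (fun n => ?_)
        (by simpa using (h.sub_const a).norm.mul_const ‖z‖)).mono_left hω
      rw [← Unitization.inr_sub, ← t_sub ht, Unitization.norm_inr]
      exact ht.norm_le _ _
  have m1 : ∀ z w a, cls ω _ (x z) * ct ω t a w = ct ω t a (z * w) := fun z w a => by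
    rw [ct, ct, constHom_eq, constHom_eq, ← map_mul, cls_eq]
    refine (lim _ a (z * w) (hl a).1).congr fun n => ?_
    rw [← ht.mul, Unitization.inr_mul]
    rfl
  have m2 : ∀ z w a, ct ω t a w * cls ω _ (x z) = ct ω t a (w * z) := fun z w a => by
    rw [ct, ct, constHom_eq, constHom_eq, ← map_mul, cls_eq]
    refine (lim _ a (w * z) (hl a).2).congr fun n => ?_
    rw [← ht.mul, Unitization.inr_mul]
    rfl
  have cen : ∀ z, cls ω _ (x z) ∈ Cen ω (SL t) := fun z => mem_cen.2 (by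
    have k : ∀ a, Commute (ct ω t a 1) (cls ω _ (x z)) := fun a => by
      rw [commute_iff_eq, m1, m2, one_mul, mul_one]
    rintro _ ⟨a, rfl⟩
    rw [← map_star, ← Unitization.inr_star, ht.star, star_one]
    exact ⟨k _, k _⟩)
  let X : Z → Cen ω (SL t) := fun z => ⟨_, cen z⟩
  have hs : ∀ (c : ℂ) z, X (c • z) = c • X z := fun c z => Subtype.ext (by
    change cls ω _ (x (c • z)) = c • cls ω _ (x z)
    rw [← map_smul]
    congr 1
    ext1 n
    change ((t (e n) (c • z) : C) : Unitization ℂ C) = c • ((t (e n) z : C) : Unitization ℂ C)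
    rw [ht.smul_right, Unitization.inr_smul])
  have h1 : fmk ω _ (X 1) = 1 := by
    rw [← map_one (fmk ω (SL t))]
    refine fmk_eq_of ht fun a => ?_
    change cls ω _ (x 1) * _ = 1 * _
    rw [m1, one_mul, one_mul]
  have halg : ∀ c, fmk ω _ (X (algebraMap ℂ Z c)) = algebraMap ℂ _ c := fun c => by
    rw [Algebra.algebraMap_eq_smul_one, hs, map_smul, h1, Algebra.algebraMap_eq_smul_one]
  refine ⟨{ toFun := fun z => fmk ω _ (X z)
            map_one' := h1
            map_mul' := fun z w => ?_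
            map_zero' := by simpa using halg 0
            map_add' := fun z w => ?_
            commutes' := halg
            map_star' := fun z => ?_ }, X, fun _ => rfl, fun z a => by
              simpa using m1 z 1 a⟩
  · rw [← map_mul]
    refine fmk_eq_of ht fun a => ?_
    change cls ω _ (x (z * w)) * _ = cls ω _ (x z) * cls ω _ (x w) * _
    rw [mul_assoc, m1, m1, m1, mul_assoc]
  · rw [← map_add]
    congr 1
    refine Subtype.ext ?_
    change cls ω _ (x (z + w)) = cls ω _ (x z) + cls ω _ (x w)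
    rw [← map_add]
    congr 1
    ext1 n
    change ((t (e n) (z + w) : C) : Unitization ℂ C) =
      ((t (e n) z : C) : Unitization ℂ C) + ((t (e n) w : C) : Unitization ℂ C)
    rw [ht.add_right, Unitization.inr_add]
  · rw [← map_star]
    congr 1
    refine Subtype.ext ?_
    change cls ω _ (x (star z)) = star (cls ω _ (x z))
    rw [← map_star]
    congr 1
    ext1 n
    change ((t (e n) (star z) : C) : Unitization ℂ C) = star ((t (e n) z : C) : Unitization ℂ C)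
    rw [← Unitization.inr_star, ht.star, (he n).1.star_eq]

/-- The unitization of the left embedding. -/
noncomputable def lu (ht : TensorProps t) : Unitization ℂ A →⋆ₐ[ℂ] Unitization ℂ C :=
  Unitization.starMap ht.left

theorem lu_inr (ht : TensorProps t) (a : A) : lu ht (a : Unitization ℂ A) = (t a 1 : C) := by
  simp [lu, TensorProps.left]

theorem lu_comm (ht : TensorProps t) (y : Unitization ℂ A) (a : A) (z : Z) :
    ‖lu ht y * (t a z : C) - (t a z : C) * lu ht y‖ ≤ ‖(a : Unitization ℂ A) * y - y * a‖ * ‖z‖ := by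
  induction y using Unitization.ind with
  | inl_add_inr r b =>
    rw [← Unitization.algebraMap_eq_inl, map_add, AlgHomClass.commutes, lu_inr, add_mul, mul_add,
      mul_add, add_mul, Algebra.commutes, Algebra.commutes, add_sub_add_left_eq_sub,
      add_sub_add_left_eq_sub, ← Unitization.inr_mul, ← Unitization.inr_mul,
      ← Unitization.inr_mul, ← Unitization.inr_mul, ← Unitization.inr_sub, ← Unitization.inr_sub,
      Unitization.norm_inr, Unitization.norm_inr, ht.mul, ht.mul, one_mul, mul_one, ← t_sub ht,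
      norm_sub_rev]
    exact ht.norm_le _ _

variable {G : Type} [Group G] {α : G →* (A ≃⋆ₐ[ℂ] A)} {β : G →* (C ≃⋆ₐ[ℂ] C)}

theorem sl_inv (hβ : ∀ g a z, β g (t a z) = t (α g a) z) :
    ∀ g, ∀ c ∈ SL t, (uact β).φ g c ∈ SL t := by
  rintro g _ ⟨a, rfl⟩
  exact ⟨α g a, by simp only [uact_inr, hβ]⟩

theorem equi (ht : TensorProps t) (hβ : ∀ g a z, β g (t a z) = t (α g a) z)
    {S : Set (Unitization ℂ A)} (hS : SL t ⊆ lu ht '' S) (hα : ∀ g, ∀ a ∈ S, (uact α).φ g a ∈ S)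
    (g : G) (y : FS ω S) : ((uact β).fs ω (sl_inv hβ)).φ g (fmap ω (lu ht) hS y) =
      fmap ω (lu ht) hS (((uact α).fs ω hα).φ g y) := by
  have eq0 : ∀ g y, (uact β).φ g (lu ht y) = lu ht ((uact α).φ g y) := fun g y => by
    induction y using Unitization.ind with
    | inl_add_inr r b =>
      simp only [← Unitization.algebraMap_eq_inl, map_add, AlgHomClass.commutes, lu_inr, uact_inr,
        hβ]
  obtain ⟨y, rfl⟩ := fmk_surj y
  obtain ⟨x, hx⟩ := cls_surj y.1
  rw [Act.fs_fmk, fmap_fmk, fmap_fmk, Act.fs_fmk]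
  congr 1
  refine Subtype.ext ?_
  simp only [cmap_coe, ← hx, umap_cls]
  congr 1
  ext1 n
  exact eq0 g _

theorem inv_iota (ht : TensorProps t) (hβ : ∀ g a z, β g (t a z) = t (α g a) z)
    {X : Cen ω (SL t)} {z : Z} (hX : ∀ a, X.1 * ct ω t a 1 = ct ω t a z) (g : G) :
    ((uact β).fs ω (sl_inv hβ)).φ g (fmk ω _ X) = fmk ω _ X := by
  have uct : ∀ g a z, umap ω ((uact β).φ g) (ct ω t a z) = ct ω t (α g a) z := fun g a z => by
    rw [ct, umap_const, uact_inr, hβ, ct]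
  rw [Act.fs_fmk]
  refine fmk_eq_of ht fun a => ?_
  have : α g (α g⁻¹ a) = a := by
    change (α g * α g⁻¹) a = a
    rw [← map_mul, mul_inv_cancel, map_one]; rfl
  rw [cmap_coe, hX, ← this, ← uct, ← map_mul, hX, uct]

theorem comm_iota (ht : TensorProps t) {S : Set (Unitization ℂ A)} (hS : SL t ⊆ lu ht '' S)
    (h1 : ∀ a ∈ S, star a ∈ S) (h2 : ∀ a : A, (a : Unitization ℂ A) ∈ S) {X : Cen ω (SL t)}
    {z : Z} (hX : ∀ a, X.1 * ct ω t a 1 = ct ω t a z) (y : FS ω S) :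
    Commute (fmap ω (lu ht) hS y) (fmk ω _ X) := by
  obtain ⟨y, rfl⟩ := fmk_surj y
  rw [fmap_fmk, commute_iff_eq, ← map_mul, ← map_mul]
  refine fmk_eq_of ht fun a => ?_
  change (cmap ω _ hS y).1 * X.1 * _ = X.1 * (cmap ω _ hS y).1 * _
  rw [mul_assoc, mul_assoc, ← (cen_comm (cmap ω _ hS y) a).eq, ← mul_assoc X.1, hX, cmap_coe]
  obtain ⟨y, hy⟩ := y
  obtain ⟨x, rfl⟩ := cls_surj y
  have := (cls_mem_cen h1).1 hy a (h2 a)
  rw [umap_cls, ct, constHom_eq, ← map_mul, ← map_mul, cls_eq]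
  exact squeeze_zero (fun _ => norm_nonneg _) (fun n => lu_comm ht (x n) a z)
    (by simpa using this.mul_const ‖z‖)

theorem elem (ht : TensorProps t) {S : Set (Unitization ℂ A)} (hS : SL t ⊆ lu ht '' S)
    {X : Cen ω (SL t)} {z : Z} (hX : ∀ a, X.1 * ct ω t a 1 = ct ω t a z) (W : Cen ω (SL t))
    (Θ : Cen ω S) {y : ℕ →ᵇ Unitization ℂ A} (hy : cls ω _ y = Θ.1) (a : A) :
    ‖star W.1 * ct ω t a z * W.1 - cls ω _ (compB (lu ht) (y * .const ℕ (a : Unitization ℂ A)))‖ ≤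
      ‖star (fmk ω _ W) * fmk ω _ X * fmk ω _ W - fmap ω (lu ht) hS (fmk ω _ Θ)‖ *
        ‖((t a 1 : C) : Unitization ℂ C)‖ := by
  have h := norm_mul_const_le (star W * X * W - cmap ω _ hS Θ) (a := ((t a 1 : C) : Unitization ℂ C))
    ⟨a, rfl⟩
  rw [map_sub, map_mul, map_mul, map_star, ← fmap_fmk] at h
  refine le_trans (le_of_eq ?_) h
  congr 1
  change _ = (star W.1 * X.1 * W.1 - umap ω (lu ht) Θ.1) * ct ω t a 1
  rw [sub_mul, mul_assoc _ W.1, ← (cen_comm W a).eq, ← hX, ← umap_cls, map_mul, hy,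
    ← constHom_eq, map_mul, umap_const, lu_inr]
  simp only [mul_assoc, ct]

theorem key (ht : TensorProps t) (I : Ideal (Unitization ℂ A)) {J : Type*} {l : Filter J}
    (W : J → UltraPower ω (Unitization ℂ C)) (hW : ∀ j, W j ∈ unitary _)
    (h : ∀ a z, ∀ δ : ℝ, 0 < δ → ∀ᶠ j in l, ∃ Y : ℕ →ᵇ Unitization ℂ A, (∀ n, Y n ∈ I) ∧
      ‖star (W j) * ct ω t a z * W j - cls ω _ (compB (lu ht) Y)‖ ≤ δ) :
    ∀ c : C, ∀ δ : ℝ, 0 < δ → ∀ᶠ j in l, ∃ Y : ℕ →ᵇ Unitization ℂ A, (∀ n, Y n ∈ I) ∧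
      ‖star (W j) * constHom ω _ (c : Unitization ℂ C) * W j - cls ω _ (compB (lu ht) Y)‖ ≤ δ := by
  have conj : ∀ j (x : UltraPower ω (Unitization ℂ C)), ‖star (W j) * x * W j‖ = ‖x‖ :=
    fun j x => by
      rw [CStarRing.norm_mul_mem_unitary _ (hW j),
        CStarRing.norm_mem_unitary_mul _ (Unitary.star_mem (hW j))]
  refine TensorAutAux.span_ind ht (isClosed_of_closure_subset fun c hc δ hδ => ?_)
    h (fun δ hδ => .of_forall fun j => ⟨0, fun _ => I.zero_mem, by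
      simpa using hδ.le⟩) fun c d hc hd δ hδ => ?_
  · obtain ⟨d, hd, h⟩ := Metric.mem_closure_iff.1 hc (δ / 2) (half_pos hδ)
    filter_upwards [hd _ (half_pos hδ)] with j ⟨Y, h1, h2⟩
    refine ⟨Y, h1, ?_⟩
    have h3 := (conj j (constHom ω _ ((c - d : C) : Unitization ℂ C))).trans_le
      (NonUnitalStarAlgHom.norm_apply_le (constHom ω _) _)
    rw [Unitization.norm_inr, ← dist_eq_norm, Unitization.inr_sub, map_sub, mul_sub,
      sub_mul] at h3
    linarith [norm_sub_le_norm_sub_add_norm_sub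
      (star (W j) * constHom ω _ (c : Unitization ℂ C) * W j)
      (star (W j) * constHom ω _ (d : Unitization ℂ C) * W j) (cls ω _ (compB (lu ht) Y))]
  · filter_upwards [hc _ (half_pos hδ), hd _ (half_pos hδ)] with j ⟨Y, h1, h2⟩ ⟨Y', h3, h4⟩
    refine ⟨Y + Y', fun n => I.add_mem (h1 n) (h3 n), ?_⟩
    rw [Unitization.inr_add, map_add, map_add, map_add, mul_add, add_mul, add_sub_add_comm]
    linarith [norm_add_le_of_le h2 h4]

theorem fin (ht : TensorProps t) (hβ : ∀ g a z, β g (t a z) = t (α g a) z) (W : Cen ω (SL t))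
    (hW : W.1 ∈ unitary _)
    (hi : ∀ g, ((uact β).fs ω (sl_inv hβ)).φ g (fmk ω _ W) = fmk ω _ W)
    (s : Finset A) (T : Finset C) (K : Finset G) {ε : ℝ} (hε : 0 < ε)
    (hj : ∀ c ∈ T, ∃ Y : ℕ →ᵇ Unitization ℂ A, (∀ n, ∃ a : A, Y n = a) ∧
      ‖star W.1 * constHom ω _ (c : Unitization ℂ C) * W.1 - cls ω _ (compB (lu ht) Y)‖ ≤ ε / 2) :
    ∃ w : unitary (Unitization ℂ C),
      (∀ a ∈ s, ‖(w : Unitization ℂ C) * (t a 1 : C) - (t a 1 : C) * (w : Unitization ℂ C)‖ ≤ ε) ∧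
      (∀ c ∈ T, ∃ a,
        ‖star (w : Unitization ℂ C) * (c : C) * (w : Unitization ℂ C) - (t a 1 : C)‖ ≤ ε) ∧
      ∀ a ∈ s, ∀ g ∈ K,
        ‖((t a 1 : C) : Unitization ℂ C) * ((uact β).φ g w - (w : Unitization ℂ C))‖ ≤ ε := by
  obtain ⟨x, hx, hxw⟩ := lift_unitary hW
  have q1 : ∀ a ∈ s, ∀ᶠ m in ω, ‖x m * (t a 1 : C) - (t a 1 : C) * x m‖ ≤ ε := fun a _ => by
    have := ev_norm_le (ω := ω) (x * .const ℕ ((t a 1 : C) : Unitization ℂ C) -
      .const ℕ ((t a 1 : C) : Unitization ℂ C) * x) hε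
    have h2 := sub_eq_zero.2 (cen_comm W a).eq.symm
    rw [ct] at h2
    rw [map_sub, map_mul, map_mul, hxw, ← constHom_eq, h2, norm_zero, zero_add] at this
    exact this
  have q2 : ∀ c ∈ T, ∀ᶠ m in ω, ∃ a, ‖star (x m) * (c : C) * x m - (t a 1 : C)‖ ≤ ε :=
    fun c hc => by
      obtain ⟨Y, h1, h2⟩ := hj c hc
      have := ev_norm_le (ω := ω) (star x * .const ℕ (c : Unitization ℂ C) * x - compB (lu ht) Y)
        (half_pos hε)
      rw [map_sub, map_mul, map_mul, map_star, hxw, ← constHom_eq] at this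
      filter_upwards [this] with m hm
      obtain ⟨a, ha⟩ := h1 m
      refine ⟨a, ?_⟩
      rw [← lu_inr ht, ← ha]
      exact hm.trans ((add_le_add h2 le_rfl).trans (add_halves ε).le)
  have q3 : ∀ a ∈ s, ∀ᶠ m in ω, ∀ g ∈ K,
      ‖((t a 1 : C) : Unitization ℂ C) * ((uact β).φ g (x m) - x m)‖ ≤ ε := fun a _ =>
    (eventually_all_finset K).2 fun g _ => by
      have := ev_norm_le (ω := ω) (.const ℕ ((t a 1 : C) : Unitization ℂ C) *
        (compB ((uact β).φ g) x - x)) hε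
      have h1 := hi g
      rw [Act.fs_fmk, fmk_eq] at h1
      have h2 := (cen_comm (cmap ω ((uact β).φ g) ((uact β).sub_image (sl_inv hβ) g) W - W)
        a).eq.trans (h1 _ ⟨a, rfl⟩).1
      rw [map_mul, map_sub, ← umap_cls, hxw, ← constHom_eq] at this
      change ct ω t a 1 * (umap ω ((uact β).φ g) W.1 - W.1) = 0 at h2
      rw [ct] at h2
      rw [h2, norm_zero, zero_add] at this
      exact this
  obtain ⟨m, ⟨m1, m2⟩, m3⟩ := ((((eventually_all_finset s).2 q1).and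
    ((eventually_all_finset T).2 q2)).and ((eventually_all_finset s).2 q3)).exists
  exact ⟨⟨x m, hx m⟩, m1, m2, m3⟩

end FlipAux
open FlipAux

theorem intertw_of_homs {G : Type} [Group G] {A Z C : Type u} [NonUnitalCStarAlgebra A]
    [CStarAlgebra Z] [NonUnitalCStarAlgebra C] [SeparableSpace A] {t : A → Z → C}
    (ht : TensorProps t) (hZ : MaxFlip Z) (α : G →* (A ≃⋆ₐ[ℂ] A)) (β : G →* (C ≃⋆ₐ[ℂ] C))
    (hβ : ∀ g a z, β g (t a z) = t (α g a) z) (P : Pair (Unitization ℂ A))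
    (hP : ∀ x, x ∈ P.I ↔ ∃ a : A, x = a)
    (hα : ∀ g, ∀ a ∈ (P.I : Set (Unitization ℂ A)), (uact α).φ g a ∈ (P.I : Set _))
    {ω : Ultrafilter ℕ} (hω : (ω : Filter ℕ) ≤ atTop)
    (θ₁ θ₂ : Z →⋆ₐ[ℂ] FS ω (P.I : Set (Unitization ℂ A)))
    (κ : DimDrop 2 3 →⋆ₐ[ℂ] FS ω (P.I : Set (Unitization ℂ A)))
    (i1 : ∀ g z, ((uact α).fs ω hα).φ g (θ₁ z) = θ₁ z)
    (i2 : ∀ g z, ((uact α).fs ω hα).φ g (θ₂ z) = θ₂ z) (c12 : ∀ x y, Commute (θ₁ x) (θ₂ y))
    (c1 : ∀ x y, Commute (θ₁ x) (κ y)) (c2 : ∀ x y, Commute (θ₂ x) (κ y)) :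
    Intertw β ht.left := by
  classical
  obtain ⟨ι, X, hι, hX⟩ := exists_iota ht hω
  have hS : SL t ⊆ lu ht '' (P.I : Set (Unitization ℂ A)) := by
    rintro _ ⟨a, rfl⟩
    exact ⟨a, (hP _).2 ⟨a, rfl⟩, lu_inr ht a⟩
  let F := fmap ω (lu ht) hS
  have cF : ∀ y z, Commute (F y) (ι z) := fun y z => by
    rw [hι]
    exact comm_iota ht hS (fun a ha => P.star_mem ha) (fun a => (hP _).2 ⟨a, rfl⟩) (hX z) y
  have flip := fun j : Finset Z × ℕ => exists_flip ((uact β).fs ω (sl_inv hβ)) hZ (F.comp θ₁)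
    (F.comp θ₂) ι (F.comp κ) (fun g z => (equi ht hβ hS hα g _).trans (congrArg F (i1 g z)))
    (fun g z => (equi ht hβ hS hα g _).trans (congrArg F (i2 g z)))
    (fun g z => by rw [hι]; exact inv_iota ht hβ (hX z) g) (fun x y => (c12 x y).map F)
    (fun x y => (c1 x y).map F) (fun x y => (c2 x y).map F) (fun x y => cF _ y)
    (fun x y => cF _ y) (fun x y => (cF _ x).symm) j.1
    (ε := 1 / ((j.2 : ℝ) + 1)) Nat.one_div_pos_of_nat
  choose w hw hwi hwz using flip
  choose W hWu hW using fun j => lift_unitary_of_path (fmk ω (SL t)) fmk_surj (hw j)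
  have hWu' : ∀ j, (W j).1 ∈ unitary (UltraPower ω (Unitization ℂ C)) := fun j =>
    ⟨congrArg Subtype.val (hWu j).1, congrArg Subtype.val (hWu j).2⟩
  have lim : ∀ z, Tendsto (fun j => ‖star (w j : FS ω (SL t)) * ι z * w j - F (θ₁ z)‖) atTop
      (𝓝 0) := fun z => by
    refine squeeze_zero' (.of_forall fun _ => norm_nonneg _) ?_
      (tendsto_one_div_add_atTop_nhds_zero_nat.comp (prod_atTop_atTop_eq (α := Finset Z)
        (β := ℕ) ▸ tendsto_snd))
    filter_upwards [eventually_ge_atTop (({z} : Finset Z), 0)] with j hj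
    exact hwz j z (hj.1 (mem_singleton_self z))
  have k := key ht P.I (l := atTop) (fun j => (W j).1) hWu' fun a z δ hδ => by
    obtain ⟨Θ, hΘ⟩ := fmk_surj (θ₁ z)
    obtain ⟨y, hy⟩ := cls_surj Θ.1
    have := (lim z).mul_const ‖((t a 1 : C) : Unitization ℂ C)‖
    rw [zero_mul] at this
    filter_upwards [this.eventually (ge_mem_nhds hδ)] with j hj
    have h1 := elem ht hS (hX z) (W j) Θ hy a
    rw [hW, ← hι, hΘ] at h1
    exact ⟨_, fun n => P.I.mul_mem_left _ ((hP _).2 ⟨a, rfl⟩), h1.trans hj⟩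
  intro s T K ε hε
  obtain ⟨j, hj⟩ := ((eventually_all_finset T).2 fun c _ => k c _ (half_pos hε)).exists
  refine fin ht hβ (W j) (hWu' j) (fun g => by rw [hW]; exact hwi j g) s T K hε fun c hc => ?_
  obtain ⟨Y, h1, h2⟩ := hj c hc
  exact ⟨Y, fun n => (hP _).1 (h1 n), h2⟩

end Vale.Agent.P095
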