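import Vale.Agent.P095.Basic

/-! Amenable groups satisfy the Følner condition (via the marriage theorem). -/

namespace Vale.Agent.P095
open Vale.Agent.P101 Vale.Agent.P101.JS Filter Topology Finset
open scoped ComplexOrder BoundedContinuousFunction symmDiff

universe u

namespace FolnerAux
open scoped Pointwise ENNReal
variable {G : Type} [Group G] [DecidableEq G]

theorem doubling (h : ¬ Folner G) : ∃ T : Finset G, ∀ K : Finset G, 2 * #K ≤ #(T * K) := by
  unfold Folner at h
  push Not at h
  obtain ⟨S, ε, hε, h⟩ := h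
  have h1 : ∀ K : Finset G, (1 + ε / 2) * #K ≤ #(insert 1 S * K) := by
    intro K
    rcases K.eq_empty_or_nonempty with rfl | hK
    · simp
    obtain ⟨s, hs, hlt⟩ := h K hK
    set K' := K.image (s * ·)
    have c1 : #K' = #K := card_image_of_injective _ (mul_right_injective s)
    have c2 : #(K' ∆ K) ≤ #(K' \ K) + #(K \ K') := card_union_le _ _
    have c3 : #(K \ K') = #(K' \ K) := (card_sdiff_comm c1).symm
    have c4 : #(K' \ K) + #K = #(K' ∪ K) := card_sdiff_add_card _ _
    have c5 : #(K' ∪ K) ≤ #(insert 1 S * K) := by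
      refine card_le_card fun x hx => ?_
      rcases mem_union.1 hx with hx | hx
      · obtain ⟨y, hy, rfl⟩ := mem_image.1 hx
        exact mul_mem_mul (mem_insert_of_mem hs) hy
      · simpa using mul_mem_mul (mem_insert_self 1 S) hx
    have d2 : (#(K' ∆ K) : ℝ) ≤ 2 * #(K' \ K) := by exact_mod_cast (by omega)
    have d4 : (#(K' \ K) : ℝ) + #K ≤ #(insert 1 S * K) := by exact_mod_cast (by omega)
    linarith
  have h2 : ∀ (n : ℕ) (K : Finset G), (1 + ε / 2) ^ n * #K ≤ #(insert 1 S ^ n * K) := by
    intro n K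
    induction n with
    | zero => simp
    | succ n ih =>
      rw [pow_succ', pow_succ', mul_assoc, mul_assoc]
      exact (mul_le_mul_of_nonneg_left ih (by positivity)).trans (h1 _)
  obtain ⟨n, hn⟩ := pow_unbounded_of_one_lt (2 : ℝ) (show 1 < 1 + ε / 2 by linarith)
  refine ⟨insert 1 S ^ n, fun K => ?_⟩
  have := (mul_le_mul_of_nonneg_right hn.le (Nat.cast_nonneg #K)).trans (h2 n K)
  exact_mod_cast this

/-- The indicator of a predicate as a bounded function. -/
noncomputable def ind (p : G → Prop) [DecidablePred p] : lp (fun _ : G => ℝ) ∞ :=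
  ⟨fun x => if p x then 1 else 0, memℓp_infty ⟨1, by
    rintro _ ⟨x, rfl⟩
    beta_reduce
    split_ifs <;> simp⟩⟩

omit [Group G] [DecidableEq G] in
theorem ind_apply (p : G → Prop) [DecidablePred p] (x : G) : ind p x = if p x then 1 else 0 := rfl

end FolnerAux

open FolnerAux in
theorem IsAmenable.folner {G : Type} [Group G] [DecidableEq G] (h : IsAmenable G) : Folner G := by
  by_contra hF
  obtain ⟨T, hT⟩ := doubling hF
  obtain ⟨φ, hφ, hφT⟩ := (all_card_le_biUnion_card_iff_exists_injective
    fun x : G × Bool => T.image (· * x.1)).1 fun s => by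
      refine le_trans ?_ ((hT (s.image Prod.fst)).trans (card_le_card fun x hx => ?_))
      · have : s ⊆ s.image Prod.fst ×ˢ univ := fun x hx => by simp [mem_image_of_mem _ hx]
        simpa [mul_comm] using card_le_card this
      · obtain ⟨t, ht, y, hy, rfl⟩ := mem_mul.1 hx
        obtain ⟨z, hz, rfl⟩ := mem_image.1 hy
        exact mem_biUnion.2 ⟨z, hz, mem_image_of_mem _ ht⟩
  obtain ⟨m, m0, m1, mi⟩ := h
  have e1 : ∀ b, ∑ t ∈ T, m (ind fun x => φ (x, b) = t * x) = 1 := by
    intro b
    rw [← map_sum]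
    refine m1 _ fun x => ?_
    obtain ⟨t, ht, e⟩ := mem_image.1 (hφT (x, b))
    simp only [lp.coeFn_sum, Finset.sum_apply, ind_apply, ← e, mul_left_inj]
    rw [sum_ite_eq, if_pos ht]
  have e2 : ∀ b t, m (ind fun y => φ (t⁻¹ * y, b) = y) = m (ind fun x => φ (x, b) = t * x) :=
    fun b t => mi t _ _ fun x => by simp [ind_apply]
  have e3 := m0 (ind (fun _ => True) - ∑ p ∈ T ×ˢ (univ : Finset Bool),
      ind fun y => φ (p.1⁻¹ * y, p.2) = y) fun y => by
    simp only [lp.coeFn_sub, lp.coeFn_sum, Pi.sub_apply, Finset.sum_apply, ind_apply, if_true,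
      sum_boole, sub_nonneg, Nat.cast_le_one]
    refine card_le_one.2 fun p hp q hq => ?_
    have := hφ ((mem_filter.1 hp).2.trans (mem_filter.1 hq).2.symm)
    simp only [Prod.mk.injEq, mul_left_inj, inv_inj] at this
    exact Prod.ext this.1 this.2
  rw [map_sub, map_sum, m1 _ fun x => by simp [ind_apply], sum_product_right] at e3
  simp only [e2, e1] at e3
  norm_num at e3

end Vale.Agent.P095
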