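import Vale.Agent.P095.Rich

/-! Følner sums: exact wandering data exclude characters of the fixed point algebra. -/

namespace Vale.Agent.P095
open Vale.Agent.P101 Vale.Agent.P101.JS Filter Topology Finset
open scoped ComplexOrder BoundedContinuousFunction symmDiff

universe u
/-- Exact data in the central sequence algebra. -/
structure ExT {G : Type} [Group G] {F : Type u} [CStarAlgebra F] (β : Act G F) (x : F)
    (s : Bool → Bool × Bool → F) : Prop where
  inv : ∀ g, β.φ g x = x
  same : ∀ J, star (s true J) * s true J = star (s false J) * s false J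
  orth : ∀ J, star (s true J) * s false J = 0
  sum : ∑ J, star (s true J) * s true J = yfun x
  wander : ∀ g, (∃ w, β.φ g w ≠ w) → ∀ ν ν' J, star (s ν J) * β.φ g (s ν' J) = 0

namespace FolsumAux
variable {G : Type} [Group G] [DecidableEq G] {F : Type u} [CStarAlgebra F] {β : Act G F} {x : F}
  {s : Bool → Bool × Bool → F}

open Classical in
/-- The weight of an automorphism. -/
noncomputable def wg (β : Act G F) (K : Finset G) (γ : F →⋆ₐ[ℂ] F) : ℝ := (K.filter (β.φ · = γ)).card / K.card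

open Classical in
/-- The Følner sum. -/
noncomputable def fs (β : Act G F) (K : Finset G) (z : F) : F := ∑ γ ∈ K.image β.φ, √(wg β K γ) • γ z

omit [DecidableEq G] in
theorem gram [DecidableEq (F →⋆ₐ[ℂ] F)] (hs : ExT β x s) (K : Finset G) (a : (F →⋆ₐ[ℂ] F) → ℝ) (ν ν' : Bool)
    (J : Bool × Bool) : star (∑ γ ∈ K.image β.φ, a γ • γ (s ν J)) * ∑ γ ∈ K.image β.φ, a γ • γ (s ν' J) =
      ∑ γ ∈ K.image β.φ, a γ ^ 2 • γ (star (s ν J) * s ν' J) := by
  rw [star_sum, sum_mul_sum]
  refine sum_congr rfl fun γ h => (sum_eq_single_of_mem γ h fun γ' h' c => ?_).trans (by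
    simp [smul_smul, sq, map_star])
  obtain ⟨g, -, rfl⟩ := mem_image.1 h
  obtain ⟨g', -, rfl⟩ := mem_image.1 h'
  have := congrArg (β.φ g) (hs.wander (g⁻¹ * g') (by
    by_contra d
    push Not at d
    exact c (StarAlgHom.ext fun w => by rw [← congrArg (β.φ g) (d w), β.mul, β.apply_inv])) ν ν' J)
  rw [map_mul, β.mul, β.apply_inv, map_zero, map_star] at this
  simp [this]

omit [DecidableEq G] in
theorem norm_sq [DecidableEq (F →⋆ₐ[ℂ] F)] (hs : ExT β x s) (K : Finset G) (a : (F →⋆ₐ[ℂ] F) → ℝ) (ν : Bool)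
    (J : Bool × Bool) : ‖∑ γ ∈ K.image β.φ, a γ • γ (s ν J)‖ ^ 2 ≤ (∑ γ ∈ K.image β.φ, a γ ^ 2) * ‖s ν J‖ ^ 2 := by
  rw [sq, ← CStarRing.norm_star_mul_self, gram hs, sum_mul]
  refine norm_sum_le_of_le _ fun γ _ => ?_
  rw [norm_smul, Real.norm_of_nonneg (sq_nonneg _), sq ‖_‖, ← CStarRing.norm_star_mul_self]
  exact mul_le_mul_of_nonneg_left (NonUnitalStarAlgHom.norm_apply_le γ _) (sq_nonneg _)

omit [DecidableEq G] in
theorem wg_nonneg (K : Finset G) (γ : F →⋆ₐ[ℂ] F) : 0 ≤ wg β K γ := by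
  unfold wg
  positivity

omit [DecidableEq G] in
open Classical in
theorem sum_wg {K : Finset G} (h : K.Nonempty) : ∑ γ ∈ K.image β.φ, √(wg β K γ) ^ 2 = 1 := by
  simp only [Real.sq_sqrt (wg_nonneg _ _)]
  simp only [wg, ← sum_div, ← Nat.cast_sum, ← card_eq_sum_card_image]
  exact div_self (by exact_mod_cast h.card_pos.ne')

theorem act_fs (K : Finset G) (g : G) (z : F) : β.φ g (fs β K z) = fs β (K.image (g * ·)) z := by
  classical
  have e : ∀ k, β.φ (g * k) = (β.φ g).comp (β.φ k) := fun k => StarAlgHom.ext (β.mul g k)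
  have i : Function.Injective fun γ : F →⋆ₐ[ℂ] F => (β.φ g).comp γ := fun γ γ' h =>
    StarAlgHom.ext fun w => β.injective g (DFunLike.congr_fun h w)
  rw [fs, fs, image_image, show β.φ ∘ (g * ·) = (fun γ => (β.φ g).comp γ) ∘ β.φ from funext e, ← image_image,
    sum_image i.injOn, map_sum]
  refine sum_congr rfl fun γ _ => ?_
  rw [← Complex.coe_smul, map_smul, Complex.coe_smul, wg, wg, filter_image,
    card_image_of_injective _ (mul_right_injective g), card_image_of_injective _ (mul_right_injective g)]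
  simp only [e, i.eq_iff]
  rfl

theorem fs_sub (hs : ExT β x s) {K K' : Finset G} (h : K'.card = K.card) (ν : Bool) (J : Bool × Bool) :
    ‖fs β K' (s ν J) - fs β K (s ν J)‖ ^ 2 ≤ (K' ∆ K).card / K.card * ‖s ν J‖ ^ 2 := by
  classical
  have e : ∀ L ⊆ K' ∪ K, fs β L (s ν J) = ∑ γ ∈ (K' ∪ K).image β.φ, √(wg β L γ) • γ (s ν J) := fun L hL =>
    sum_subset (image_subset_image hL) fun γ _ c => by
      rw [wg, filter_eq_empty_iff.2 fun k hk d => c (mem_image.2 ⟨k, hk, d⟩)]
      simp
  rw [e _ subset_union_left, e _ subset_union_right, ← sum_sub_distrib]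
  simp only [← sub_smul]
  refine (norm_sq hs _ _ ν J).trans (mul_le_mul_of_nonneg_right ?_ (sq_nonneg _))
  rw [card_eq_sum_card_fiberwise (s := K' ∆ K) (f := β.φ) (t := (K' ∪ K).image β.φ) fun k hk =>
    mem_image_of_mem _ (symmDiff_subset_union hk), Nat.cast_sum, sum_div]
  refine sum_le_sum fun γ _ => ?_
  have a : ∀ L L' : Finset G, ((L.filter (β.φ · = γ)).card : ℝ) ≤ (L'.filter (β.φ · = γ)).card +
      ((L ∆ L').filter (β.φ · = γ)).card := fun L L' => by
    exact_mod_cast (card_le_card fun k => by simp only [mem_union, mem_filter, mem_symmDiff]; tauto).trans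
      (card_union_le _ _)
  have a1 := div_le_div_of_nonneg_right (a K' K) (Nat.cast_nonneg (α := ℝ) K.card)
  have a2 := div_le_div_of_nonneg_right (a K K') (Nat.cast_nonneg (α := ℝ) K.card)
  rw [add_div, symmDiff_comm] at a2
  rw [add_div] at a1
  have b1 := Real.sq_sqrt (wg_nonneg (β := β) K γ)
  have b2 := Real.sq_sqrt (wg_nonneg (β := β) K' γ)
  have b3 := Real.sqrt_nonneg (wg β K γ)
  have b4 := Real.sqrt_nonneg (wg β K' γ)
  conv_rhs at b1 => rw [wg]
  conv_rhs at b2 => rw [wg, h]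
  rcases le_total √(wg β K γ) √(wg β K' γ) with c | c <;> nlinarith

end FolsumAux

open FolsumAux in
theorem ExT.no_char {G : Type} [Group G] [DecidableEq G] [Countable G] {F : Type u}
    [CStarAlgebra F] {β : Act G F} (h : Reidx β) (hG : Folner G) {x : F}
    {s : Bool → Bool × Bool → F} (hs : ExT β x s) : ∀ χ : β.fix →⋆ₙₐ[ℂ] ℂ, χ = 0 := by
  classical
  intro χ
  by_contra c0
  have c1 : χ 1 = 1 := by
    by_contra c
    refine c0 (NonUnitalStarAlgHom.ext fun a => ?_)
    have : χ 1 * χ a = 1 * χ a := by rw [← map_mul, one_mul, one_mul]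
    exact (mul_eq_mul_right_iff.1 this).resolve_left c
  obtain ⟨e, he⟩ := exists_surjective_nat G
  choose K K0 K1 using fun n : ℕ => hG ((range (n + 1)).image e) (1 / (n + 1)) (by positivity)
  have b : ∀ ν J n, ‖fs β (K n) (s ν J)‖ ≤ ‖s ν J‖ := fun ν J n => by
    have := norm_sq hs (K n) (fun γ => √(wg β (K n) γ)) ν J
    rw [sum_wg (K0 n), one_mul] at this
    exact (pow_le_pow_iff_left₀ (norm_nonneg _) (norm_nonneg _) two_ne_zero).1 this
  let ω := hyperfilter ℕ
  let S : Bool → Bool × Bool → UltraPower ω F := fun ν J => cls ω F (seqB _ _ (b ν J))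
  have S1 : ∀ ν J, S ν J ∈ (β.ultra ω).fix := fun ν J g => by
    change umap ω _ (cls ω F _) = _
    rw [umap_cls, cls_eq]
    obtain ⟨m, rfl⟩ := he g
    have t : Tendsto (fun n : ℕ => √(1 / (n + 1) * ‖s ν J‖ ^ 2)) atTop (𝓝 0) := by
      simpa only [zero_mul, Real.sqrt_zero] using (tendsto_one_div_add_atTop_nhds_zero_nat.mul_const (‖s ν J‖ ^ 2)).sqrt
    refine (squeeze_zero' (Eventually.of_forall fun _ => norm_nonneg _) ?_ t).mono_left Nat.hyperfilter_le_atTop
    filter_upwards [eventually_ge_atTop m] with n hn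
    rw [compB_apply, seqB_apply, act_fs]
    refine Real.le_sqrt_of_sq_le ((fs_sub hs (card_image_of_injective _ (mul_right_injective _)) ν J).trans
      (mul_le_mul_of_nonneg_right ((div_le_iff₀ (by exact_mod_cast (K0 n).card_pos)).2 (K1 n _ ?_)) (sq_nonneg _)))
    exact mem_image_of_mem _ (mem_range.2 (by omega))
  have X1 : constHom ω F x ∈ (β.ultra ω).fix := fun g => (umap_const ω _ _).trans (congrArg _ (hs.inv g))
  obtain ⟨D, _, _, φ, y, φ1, φ2⟩ := exists_sep (B := (β.ultra ω).fix) fun o : Option (Bool × Bool × Bool) =>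
    o.elim ⟨_, X1⟩ fun z => ⟨_, S1 z.1 z.2⟩
  obtain ⟨ψ, ψ1, -⟩ := h.big D Set.univ (apxF_of_ultra ω ((β.ultra ω).fix.subtype.comp φ) fun g d => (φ d).2 g)
    fun _ => 0
  let ψ' : D →⋆ₐ[ℂ] β.fix := ψ.codRestrict _ fun d g => ψ1 g trivial d
  let χ' : D →⋆ₐ[ℂ] ℂ := StarAlgHom.comp ⟨⟨⟨⟨⟨χ, c1⟩, map_mul χ⟩, map_zero χ, map_add χ⟩, fun c => by
    simp [Algebra.algebraMap_eq_smul_one, c1]⟩, map_star χ⟩ ψ'
  have i : ∀ {a a' : D}, (φ a).1 = (φ a').1 → χ' a = χ' a' := fun h => congrArg _ (φ1 (Subtype.ext h))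
  have g : ∀ ν ν' J, (φ (star (y (some (ν, J))) * y (some (ν', J)))).1 = star (S ν J) * S ν' J := fun ν ν' J => by
    rw [map_mul, map_star, φ2, φ2]
    rfl
  have g' : ∀ ν ν' J n, (star (seqB _ _ (b ν J)) * seqB _ _ (b ν' J)) n =
      ∑ γ ∈ (K n).image β.φ, √(wg β (K n) γ) ^ 2 • γ (star (s ν J) * s ν' J) := fun ν ν' J n => gram hs _ _ _ _ _
  refine char_yfun χ' (y none) ((i (a' := ∑ J, star (y (some (true, J))) * y (some (true, J))) ?_).trans ?_)
  · rw [map_yfun, φ2, map_sum, AddSubmonoidClass.coe_finset_sum]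
    simp only [g, S, ← map_star, ← map_mul, ← map_sum]
    refine (map_yfun (β.ultra ω).fix.subtype _).trans ((map_yfun (constHom ω F) x).symm.trans (congrArg (cls ω F) ?_))
    ext n
    rw [BoundedContinuousFunction.sum_apply]
    simp only [g']
    rw [sum_comm]
    simp only [← smul_sum, ← map_sum, hs.sum]
    rw [sum_congr rfl fun γ hγ => show _ = √(wg β (K n) γ) ^ 2 • yfun x by
      obtain ⟨k, -, rfl⟩ := mem_image.1 hγ
      rw [map_yfun, hs.inv], ← sum_smul, sum_wg (K0 n), one_smul]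
    rfl
  · rw [map_sum]
    refine sum_eq_zero fun J _ => ?_
    have a1 := i (a := star (y (some (true, J))) * y (some (true, J)))
      (a' := star (y (some (false, J))) * y (some (false, J))) (by
        simp only [g, S, ← map_star, ← map_mul]
        exact congrArg _ (BoundedContinuousFunction.ext fun n => by rw [g', g', hs.same]))
    have a2 := i (a := star (y (some (true, J))) * y (some (false, J))) (a' := 0) (by
      simp only [g, S, ← map_star, ← map_mul, map_zero]
      exact (congrArg _ (BoundedContinuousFunction.ext fun n => by simp [g', hs.orth])).trans (map_zero _))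
    rw [map_mul, map_zero, mul_eq_zero] at a2
    rcases a2 with a2 | a2
    · rw [map_mul, a2, zero_mul]
    · rw [a1, map_mul, a2, mul_zero]

end Vale.Agent.P095
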