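import Vale.Agent.P095.Basic

/-! Positivity criterion for matrices over a C*-algebra; the sandwich estimate. -/

namespace Vale.Agent.P095
open Vale.Agent.P101 Vale.Agent.P101.JS Filter Topology Finset
open scoped ComplexOrder BoundedContinuousFunction symmDiff

universe u

theorem MatPosAux.test {E : Type*} [NonUnitalCStarAlgebra E] (M : E) (hM : IsSelfAdjoint M) :
    ∃ N S : E, star N * M * N = -(star S * S) ∧ (S = 0 → ∃ Y, M = star Y * Y) := by
  let := CStarAlgebra.spectralOrder E
  have := CStarAlgebra.spectralOrderedRing E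
  obtain ⟨T, hT⟩ := CStarAlgebra.nonneg_iff_eq_star_mul_self.1 (CFC.negPart_nonneg M)
  have hN : IsSelfAdjoint M⁻ := (CFC.negPart_nonneg M).isSelfAdjoint
  refine ⟨M⁻, T * M⁻, ?_, fun hS => ?_⟩
  · nth_rw 2 [← CFC.posPart_sub_negPart M hM]
    rw [star_mul, hN.star_eq, mul_sub, CFC.negPart_mul_posPart, zero_sub, neg_mul, mul_assoc,
      mul_assoc, ← mul_assoc (star T), ← hT]
  · have h0 : M⁻ = 0 := by
      refine (CStarRing.star_mul_self_eq_zero_iff _).1 ?_
      rw [hN.star_eq]
      nth_rw 1 [hT]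
      rw [mul_assoc, hS, mul_zero]
    exact CStarAlgebra.nonneg_iff_eq_star_mul_self.1 ((CFC.negPart_eq_zero_iff M hM).1 h0)

theorem mat_pos {A : Type*} [NonUnitalCStarAlgebra A] {n : Type} [Fintype n] (m : n → n → A)
    (hm : ∀ i j, star (m i j) = m j i)
    (h : ∀ d : n → A, ∃ b, ∑ i, ∑ j, star (d i) * m i j * d j = star b * b) :
    ∃ Y : n → n → A, ∀ i j, m i j = ∑ q, star (Y q i) * Y q j := by
  let := CStarAlgebra.spectralOrder A
  have := CStarAlgebra.spectralOrderedRing A
  let M : CStarMatrix n n A := CStarMatrix.ofMatrix m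
  have hM : IsSelfAdjoint M := by
    ext i j
    rw [CStarMatrix.star_apply]
    exact hm j i
  obtain ⟨N, S, e, hS⟩ := MatPosAux.test M hM
  obtain ⟨Y, hY⟩ := hS (by
    ext q k
    obtain ⟨b, hb⟩ := h fun i => N i k
    have h1 : (star N * M * N) k k = star b * b := by
      rw [← hb, CStarMatrix.mul_apply, sum_comm]
      refine sum_congr rfl fun j _ => ?_
      rw [CStarMatrix.mul_apply, sum_mul]
      rfl
    have h2 : ∑ q, star (S q k) * S q k = -(star b * b) := by
      rw [← h1, e]
      change _ = - -((star S * S) k k)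
      rw [neg_neg, CStarMatrix.mul_apply]
      rfl
    have h3 : star (S q k) * S q k ≤ 0 :=
      (single_le_sum (f := fun q => star (S q k) * S q k)
        (fun q _ => star_mul_self_nonneg _) (mem_univ q)).trans
        (h2 ▸ neg_nonpos.2 (star_mul_self_nonneg b))
    exact CStarRing.star_mul_self_eq_zero_iff _ |>.1 (le_antisymm h3 (star_mul_self_nonneg _)))
  refine ⟨fun i j => Y i j, fun i j => ?_⟩
  change M i j = _
  rw [hY, CStarMatrix.mul_apply]
  rfl

variable {B : Type u} [CStarAlgebra B]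

namespace MatPosAux

theorem gram {n : Type} [Fintype n] (Y : Matrix n n ℂ) (u : n → B) :
    ∑ b, star (∑ d, Y b d • u d) * (∑ d, Y b d • u d) =
      ∑ d, ∑ d', (star Y * Y) d d' • (star (u d) * u d') := by
  simp only [star_sum, star_smul, sum_mul_sum, smul_mul_smul_comm, Matrix.mul_apply,
    Matrix.star_apply, sum_smul]
  rw [sum_comm]
  exact sum_congr rfl fun d _ => sum_comm

open scoped Matrix.Norms.L2Operator in
theorem gram_le [PartialOrder B] [StarOrderedRing B] {n : Type} [Fintype n] [DecidableEq n]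
    (X : Matrix n n ℂ) (u : n → B) :
    ∑ b, star (∑ d, X b d • u d) * (∑ d, X b d • u d) ≤ (‖X‖ ^ 2) • ∑ d, star (u d) * u d := by
  let := CStarAlgebra.spectralOrder (Matrix n n ℂ)
  have := CStarAlgebra.spectralOrderedRing (Matrix n n ℂ)
  obtain ⟨Y, hY⟩ := CStarAlgebra.nonneg_iff_eq_star_mul_self.1
    (sub_nonneg.2 (CStarAlgebra.star_mul_le_algebraMap_norm_sq (a := X)))
  have h1 : 0 ≤ ∑ b, star (∑ d, Y b d • u d) * (∑ d, Y b d • u d) :=
    sum_nonneg fun b _ => star_mul_self_nonneg _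
  rw [gram, ← hY] at h1
  rw [gram, ← sub_nonneg]
  convert h1 using 1
  simp only [Matrix.sub_apply, sub_smul, sum_sub_distrib, Matrix.algebraMap_matrix_apply,
    ite_smul, zero_smul, sum_ite_eq, mem_univ, if_true, smul_sum]
  congr 1

theorem tendsto_norm (ω : Ultrafilter ℕ) (x : ℕ →ᵇ B) :
    Tendsto (fun n => ‖x n‖) ω (𝓝 ‖cls ω B x‖) := by
  refine tendsto_order.2 ⟨fun c hc => ?_, fun c hc => ?_⟩
  · by_contra h
    rw [← Ultrafilter.eventually_not] at h
    exact absurd (norm_cls_le (h.mono fun n hn => not_lt.1 hn)) (not_le.2 hc)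
  · filter_upwards [ev_norm_le (ω := ω) x (half_pos (sub_pos.2 hc))] with n hn
    linarith

end MatPosAux

theorem col_cs {n : Type} [Fintype n] (u y : n → B) :
    ‖∑ b, star (u b) * y b‖ ≤ √‖∑ b, star (u b) * u b‖ * √‖∑ b, star (y b) * y b‖ := by
  let := CStarAlgebra.spectralOrder B
  have := CStarAlgebra.spectralOrderedRing B
  have := CStarModule.norm_inner_le (A := B) (WithCStarModule B (n → B))
    (x := (WithCStarModule.equiv B _).symm fun b => star (y b))
    (y := (WithCStarModule.equiv B _).symm fun b => star (u b))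
  rw [WithCStarModule.pi_norm, WithCStarModule.pi_norm, WithCStarModule.pi_inner] at this
  simpa [WithCStarModule.inner_def, mul_comm] using this

open scoped Matrix.Norms.L2Operator in
/-- Scalar matrices between columns, with an extra summation index. -/
theorem sandwich {n M : Type} [Fintype n] [DecidableEq n] [Fintype M] (X : Matrix n n ℂ)
    (u u' : M → n → B) :
    ‖∑ m, ∑ b, ∑ d, X b d • (star (u m b) * u' m d)‖ ≤
      ‖X‖ * √‖∑ m, ∑ b, star (u m b) * u m b‖ * √‖∑ m, ∑ b, star (u' m b) * u' m b‖ := by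
  let := CStarAlgebra.spectralOrder B
  have := CStarAlgebra.spectralOrderedRing B
  have h1 := col_cs (n := M × n) (fun p => u p.1 p.2) fun p => ∑ d, X p.2 d • u' p.1 d
  simp only [Fintype.sum_prod_type] at h1
  have h2 : ‖∑ m, ∑ b, star (∑ d, X b d • u' m d) * ∑ d, X b d • u' m d‖ ≤
      ‖X‖ ^ 2 * ‖∑ m, ∑ b, star (u' m b) * u' m b‖ := by
    have := CStarAlgebra.norm_le_norm_of_nonneg_of_le
      (sum_nonneg fun m _ => sum_nonneg fun b _ => star_mul_self_nonneg _)
      (sum_le_sum (s := univ) fun m _ => MatPosAux.gram_le X (u' m))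
    rwa [← smul_sum, norm_smul, Real.norm_of_nonneg (sq_nonneg _)] at this
  have h3 := Real.sqrt_le_sqrt h2
  rw [Real.sqrt_mul (sq_nonneg _), Real.sqrt_sq (norm_nonneg _)] at h3
  simp only [← mul_smul_comm, ← mul_sum]
  refine h1.trans ((mul_le_mul_of_nonneg_left h3 (Real.sqrt_nonneg _)).trans_eq ?_)
  ring

open scoped Matrix.Norms.L2Operator in
theorem sw_scalar {n : Type} [Fintype n] [DecidableEq n] (X : Matrix n n ℂ) (a : B) :
    SW (fun b d => X b d • a) (‖X‖ * ‖a‖) := by
  let := CStarAlgebra.spectralOrder B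
  have := CStarAlgebra.spectralOrderedRing B
  intro u u'
  have h1 := sandwich (M := Unit) X (fun _ => u) fun _ d => a * u' d
  simp only [univ_unique, sum_singleton] at h1
  have h2 : ‖∑ b, star (a * u' b) * (a * u' b)‖ ≤ ‖a‖ ^ 2 * ‖∑ b, star (u' b) * u' b‖ := by
    have := CStarAlgebra.norm_le_norm_of_nonneg_of_le
      (sum_nonneg fun b _ => star_mul_self_nonneg (a * u' b))
      (sum_le_sum (s := univ) (g := fun b => ‖star a * a‖ • (star (u' b) * u' b)) fun b _ => by
        have := CStarAlgebra.star_left_conjugate_le_norm_smul (a := u' b) (b := star a * a)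
        simpa only [star_mul, mul_assoc] using this)
    rwa [← smul_sum, norm_smul, norm_norm, CStarRing.norm_star_mul_self, ← sq] at this
  have h3 := Real.sqrt_le_sqrt h2
  rw [Real.sqrt_mul (sq_nonneg _), Real.sqrt_sq (norm_nonneg _)] at h3
  simp only [mul_smul_comm, smul_mul_assoc, mul_assoc]
  refine h1.trans ((mul_le_mul_of_nonneg_left h3 (by positivity)).trans_eq ?_)
  ring

theorem SW.mono {n : Type} [Fintype n] {X : n → n → B} {ε ε' : ℝ} (h : SW X ε) (hε : ε ≤ ε') :
    SW X ε' := fun u u' => (h u u').trans (by gcongr)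

theorem SW.add {n : Type} [Fintype n] {X Y : n → n → B} {ε ε' : ℝ} (h : SW X ε) (h' : SW Y ε') :
    SW (fun b d => X b d + Y b d) (ε + ε') := fun u u' => by
  simp only [mul_add, add_mul, sum_add_distrib]
  exact (norm_add_le _ _).trans (add_le_add (h u u') (h' u u'))

theorem SW.sum {n ι : Type} [Fintype n] (s : Finset ι) {X : ι → n → n → B} {ε : ι → ℝ}
    (h : ∀ i ∈ s, SW (X i) (ε i)) : SW (fun b d => ∑ i ∈ s, X i b d) (∑ i ∈ s, ε i) := by
  classical
  induction s using Finset.induction_on with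
  | empty => intro u u'; simp
  | insert i s hi ih =>
    simp only [sum_insert hi]
    exact (h i (mem_insert_self _ _)).add (ih fun j hj => h j (mem_insert_of_mem hj))

theorem SW.ultra {n : Type} [Fintype n] {X : n → n → B} {ε : ℝ} (hε : 0 ≤ ε) (h : SW X ε)
    (ω : Ultrafilter ℕ) : SW (fun b d => constHom ω B (X b d)) ε := by
  intro u u'
  choose s hs using cls_surj (ω := ω) (A := B)
  have e1 : ∑ b, ∑ d, star (u b) * constHom ω B (X b d) * u' d = cls ω B (∑ b, ∑ d,
      star (s (u b)) * BoundedContinuousFunction.const ℕ (X b d) * s (u' d)) := by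
    simp only [map_sum, map_mul, map_star, hs]; rfl
  have e2 : ∀ u : n → UltraPower ω B, ∑ b, star (u b) * u b =
      cls ω B (∑ b, star (s (u b)) * s (u b)) := fun u => by
    simp only [map_sum, map_mul, map_star, hs]
  rw [e1, e2, e2]
  refine le_of_tendsto_of_tendsto' (MatPosAux.tendsto_norm ω _)
    (((MatPosAux.tendsto_norm ω _).sqrt.const_mul ε).mul (MatPosAux.tendsto_norm ω _).sqrt)
    fun k => ?_
  simp only [BoundedContinuousFunction.sum_apply]
  exact h (fun b => s (u b) k) fun b => s (u' b) k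

/-- Lifting columns through a quotient map. -/
theorem lift_col (I : Ideal B) [I.IsTwoSided] [IsClosed (I : Set B)] [IsStarIdeal I] {n : Type}
    [Fintype n] (v : n → B) {ε : ℝ} (hε : 0 < ε) : ∃ r : B, 1 - r ∈ I ∧
      ‖∑ b, star (v b * r) * (v b * r)‖ ≤ ‖qmk I (∑ b, star (v b) * v b)‖ + ε := by
  set h := ∑ b, star (v b) * v b with hh
  obtain ⟨z, hz, hz'⟩ := norm_mk_lt (qmk I h) (half_pos hε)
  have hy : z - h ∈ I := by rw [← Ideal.Quotient.eq, hz]; rfl
  obtain ⟨r, k, hr, h1, h2, h3, -⟩ := exists_unit (z - h) (half_pos hε)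
  refine ⟨r, h3 ▸ I.mul_mem_left _ (I.mul_mem_left _ hy), ?_⟩
  have e : ∑ b, star (v b * r) * (v b * r) = r * (z * r - (z - h) * r) := by
    rw [← sub_mul, sub_sub_cancel, hh, sum_mul, mul_sum]
    simp only [star_mul, hr.star_eq, mul_assoc]
  rw [e]
  calc _ ≤ 1 * ‖z * r - (z - h) * r‖ := norm_mul_le_of_le h1 le_rfl
    _ ≤ ‖z * r‖ + ‖(z - h) * r‖ := by rw [one_mul]; exact norm_sub_le _ _
    _ ≤ ‖z‖ * 1 + ε / 2 := add_le_add (norm_mul_le_of_le le_rfl h1) h2
    _ ≤ _ := by linarith

end Vale.Agent.P095
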