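import Vale.Agent.P095.HTtree
import Vale.Agent.P095.MatPos

/-! The Haagerup trick. -/

namespace Vale.Agent.P095
open Vale.Agent.P101 Vale.Agent.P101.JS Filter Topology Finset
open scoped ComplexOrder BoundedContinuousFunction symmDiff

universe u

namespace HTAux
open Matrix HTtreeAux
open scoped Matrix.Norms.L2Operator

theorem norm_le {m n : Type} [Fintype m] [Fintype n] [DecidableEq n] (A : Matrix m n ℂ) {c : ℝ}
    (hc : 0 ≤ c) (h : ∀ ξ : n → ℂ, (star (A *ᵥ ξ) ⬝ᵥ (A *ᵥ ξ)).re ≤ c ^ 2 * ∑ x, ‖ξ x‖ ^ 2) :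
    ‖A‖ ≤ c := by
  rw [l2_opNorm_def]
  refine ContinuousLinearMap.opNorm_le_bound _ hc fun x => ?_
  have h1 := h x.ofLp
  rw [← EuclideanSpace.norm_sq_eq, dotProduct_comm, ← EuclideanSpace.inner_toLp_toLp,
    ← mul_pow] at h1
  have h2 := inner_self_eq_norm_sq (𝕜 := ℂ) (WithLp.toLp 2 (A *ᵥ x.ofLp) : EuclideanSpace ℂ m)
  exact (pow_le_pow_iff_left₀ (norm_nonneg _) (by positivity) two_ne_zero).1 (h2.ge.trans h1)

theorem re_self {n : Type} [Fintype n] (ξ : n → ℂ) : (star ξ ⬝ᵥ ξ).re = ∑ x, ‖ξ x‖ ^ 2 := by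
  rw [dotProduct, Complex.re_sum]
  refine Finset.sum_congr rfl fun x _ => ?_
  rw [Pi.star_apply, Complex.star_def, Complex.conj_mul', ← Complex.ofReal_pow, Complex.ofReal_re]

theorem self_eq {m n : Type} [Fintype m] [Fintype n] (A : Matrix m n ℂ) (ξ : n → ℂ) :
    star (A *ᵥ ξ) ⬝ᵥ (A *ᵥ ξ) = star ξ ⬝ᵥ ((Aᴴ * A) *ᵥ ξ) := by
  rw [star_mulVec, ← dotProduct_mulVec, mulVec_mulVec]

theorem half_le {m n : Type} [Fintype m] [Fintype n] [DecidableEq n] {W : Bool → Matrix m n ℂ}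
    (hW : (W true)ᴴ * W true + (W false)ᴴ * W false = 1) (h : Bool) (ξ : n → ℂ) :
    (star (W h *ᵥ ξ) ⬝ᵥ (W h *ᵥ ξ)).re ≤ ∑ x, ‖ξ x‖ ^ 2 := by
  have h1 : (star (W true *ᵥ ξ) ⬝ᵥ (W true *ᵥ ξ)).re +
      (star (W false *ᵥ ξ) ⬝ᵥ (W false *ᵥ ξ)).re = ∑ x, ‖ξ x‖ ^ 2 := by
    rw [self_eq, self_eq, ← Complex.add_re, ← dotProduct_add, ← add_mulVec, hW, one_mulVec,
      re_self]
  have h2 : ∀ h, 0 ≤ (star (W h *ᵥ ξ) ⬝ᵥ (W h *ᵥ ξ)).re := fun h => by
    rw [re_self]; positivity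
  have := h2 true
  have := h2 false
  cases h <;> linarith

theorem single_le {n Λ : Type} [Fintype n] [Fintype Λ] (W : Λ → Matrix n n ℂ) (μ : Λ)
    (ξ : n → ℂ) : (star ξ ⬝ᵥ (((W μ)ᴴ * W μ) *ᵥ ξ)).re ≤
      (star ξ ⬝ᵥ ((∑ ν, (W ν)ᴴ * W ν) *ᵥ ξ)).re := by
  rw [Matrix.sum_mulVec, dotProduct_sum, Complex.re_sum]
  refine Finset.single_le_sum (f := fun ν => (star ξ ⬝ᵥ (((W ν)ᴴ * W ν) *ᵥ ξ)).re)
    (fun q _ => ?_) (mem_univ μ)
  rw [← self_eq, re_self]
  positivity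

variable {B : Type u} [CStarAlgebra B]

theorem col_le {M k n : Type} [Fintype M] [Fintype k] [Fintype n] {c : M → k → B}
    (hc : ‖∑ m, ∑ p, star (c m p) * c m p‖ ≤ 1) (u : n → B) :
    ‖∑ m, ∑ x : k × n, star (c m x.1 * u x.2) * (c m x.1 * u x.2)‖ ≤ ‖∑ b, star (u b) * u b‖ := by
  let := CStarAlgebra.spectralOrder B
  have := CStarAlgebra.spectralOrderedRing B
  have h0 : 0 ≤ ∑ m, ∑ p, star (c m p) * c m p :=
    Finset.sum_nonneg fun _ _ => Finset.sum_nonneg fun _ _ => star_mul_self_nonneg _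
  refine CStarAlgebra.norm_le_norm_of_nonneg_of_le
    (Finset.sum_nonneg fun _ _ => Finset.sum_nonneg fun _ _ => star_mul_self_nonneg _) ?_
  have e : ∑ m, ∑ x : k × n, star (c m x.1 * u x.2) * (c m x.1 * u x.2) =
      ∑ b, star (u b) * (∑ m, ∑ p, star (c m p) * c m p) * u b := by
    simp only [Fintype.sum_prod_type_right, Finset.mul_sum, Finset.sum_mul, star_mul, mul_assoc]
    rw [Finset.sum_comm]
  rw [e]
  refine Finset.sum_le_sum fun b _ =>
    (CStarAlgebra.star_left_conjugate_le_norm_smul (IsSelfAdjoint.of_nonneg h0)).trans ?_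
  conv_rhs => rw [← one_smul ℝ (star (u b) * u b)]
  exact smul_le_smul_of_nonneg_right hc (star_mul_self_nonneg _)

theorem psi_sw {M k n : Type} [Fintype M] [Fintype k] [DecidableEq k] [Fintype n] [DecidableEq n]
    {c : M → k → B} (hc : ‖∑ m, ∑ p, star (c m p) * c m p‖ ≤ 1) (X : Matrix (k × n) (k × n) ℂ) :
    SW (fun b d => ∑ m, ∑ p, ∑ q, X (p, b) (q, d) • (star (c m p) * c m q)) ‖X‖ := by
  intro u u'
  have h := sandwich X (fun m x => c m x.1 * u x.2) fun m x => c m x.1 * u' x.2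
  have e : ∑ b, ∑ d, star (u b) * (∑ m, ∑ p, ∑ q, X (p, b) (q, d) • (star (c m p) * c m q)) *
      u' d = ∑ m, ∑ x : k × n, ∑ y : k × n,
        X x y • (star (c m x.1 * u x.2) * (c m y.1 * u' y.2)) := by
    simp only [Fintype.sum_prod_type_right, Finset.mul_sum, Finset.sum_mul, star_mul, mul_assoc,
      mul_smul_comm, smul_mul_assoc]
    conv_lhs => enter [2, b]; rw [Finset.sum_comm]
    rw [Finset.sum_comm]
    refine Finset.sum_congr rfl fun m _ => Finset.sum_congr rfl fun b _ => ?_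
    rw [Finset.sum_comm]
  rw [e]
  refine h.trans (mul_le_mul (mul_le_mul_of_nonneg_left (Real.sqrt_le_sqrt (col_le hc u))
    (norm_nonneg _)) (Real.sqrt_le_sqrt (col_le hc u')) (Real.sqrt_nonneg _) (by positivity))

/-- The amplification of a matrix. -/
def amp (k : Type) {V n : Type} [DecidableEq k] (W : Matrix V n ℂ) : Matrix (k × V) (k × n) ℂ :=
  Matrix.of fun x y => if x.1 = y.1 then W x.2 y.2 else 0

theorem amp_mulVec {k V n : Type} [Fintype k] [DecidableEq k] [Fintype n] (W : Matrix V n ℂ)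
    (ξ : k × n → ℂ) : amp k W *ᵥ ξ = fun x : k × V => (W *ᵥ fun b => ξ (x.1, b)) x.2 := by
  ext x
  simp [amp, mulVec, dotProduct, Fintype.sum_prod_type]

theorem amp_apply {k V n : Type} [Fintype k] [DecidableEq k] [Fintype V] (W : Matrix V n ℂ)
    (Y : Matrix (k × V) (k × V) ℂ) (p q : k) (b d : n) :
    ((amp k W)ᴴ * (Y * amp k W)) (p, b) (q, d) =
      ∑ x, ∑ y, star (W x b) * (Y (p, x) (q, y) * W y d) := by
  simp [amp, Matrix.mul_apply, Fintype.sum_prod_type, Finset.mul_sum, apply_ite star]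

theorem wm_apply {ι V L k n : Type} [Fintype ι] [DecidableEq ι] [Fintype V] [DecidableEq V]
    [Fintype L] [Fintype k] [DecidableEq k] (lam : B →ₗ[ℂ] ℂ) (d : L → k → B)
    {σ : ι → Equiv.Perm V} (h1 : ∀ i x, σ i (σ i x) = x) (a b : ι → B) (W : Matrix V n ℂ)
    (p q : k) (r s : n) :
    ((amp k W)ᴴ * (Wm lam d σ a b * amp k W)) (p, r) (q, s) = ∑ i, ∑ j, if i ≠ j then
      ((W.submatrix (σ i) id)ᴴ * W.submatrix (σ j) id) r s *
        ∑ l, lam (star (d l p) * (star (a i) * b j) * d l q) else 0 := by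
  rw [amp_apply]
  simp only [Wm, Matrix.of_apply, Finset.mul_sum, Finset.sum_mul]
  conv_lhs => enter [2, x]; rw [Finset.sum_comm]; enter [2, i]; rw [Finset.sum_comm]
  rw [Finset.sum_comm]
  refine Finset.sum_congr rfl fun i _ => ?_
  rw [Finset.sum_comm]
  refine Finset.sum_congr rfl fun j _ => ?_
  rw [← Finset.mul_sum]
  generalize ∑ l, lam (star (d l p) * (star (a i) * b j) * d l q) = t
  by_cases e : i = j
  · simp [e]
  rw [if_pos e, Matrix.mul_apply, Finset.sum_mul, ← Equiv.sum_comp (σ i)]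
  refine Finset.sum_congr rfl fun δ _ => ?_
  rw [← Equiv.sum_comp (σ j)]
  simp [h1, e]
  ring

theorem four_sq (k : ℕ) : (4 : ℝ) * k * k ≤ 4 ^ (k + 1) := by
  have h : (k : ℝ) ≤ 2 ^ k := by exact_mod_cast k.lt_two_pow_self.le
  have e : (4 : ℝ) ^ (k + 1) = 4 * 2 ^ k * 2 ^ k := by
    rw [mul_assoc, ← mul_pow, pow_succ']; norm_num
  rw [e]
  have h0 : (0 : ℝ) ≤ k := k.cast_nonneg
  gcongr

end HTAux

open scoped Matrix.Norms.L2Operator in
open Matrix in
theorem haagerup {B : Type u} [CStarAlgebra B] {P : Pair B} {lam : B →ₗ[ℂ] ℂ} (hl : IsSt lam)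
    (h : CPL P lam) {ι Λ : Type} [Fintype ι] [Fintype Λ] [DecidableEq Λ] (z : ι → B)
    (hz : ∀ i, z i ∈ P.I) {κ η : ℝ} (hκ : 0 ≤ κ) (hκ1 : κ ≤ 1) (hη : 0 < η)
    (h1 : ‖∑ i, star (z i) * z i‖ ≤ 1) (h2 : ‖∑ i, z i * star (z i)‖ ≤ κ ^ 2) :
    ∃ n : ℕ, 0 < n ∧ ∀ p, p = n ∨ p = n + 1 →
      ∃ (T : Λ → ι → Bool → Matrix (Fin p) (Fin p) ℂ) (Q : Bool → Matrix (Fin p) (Fin p) ℂ),
        Q true + Q false = 1 ∧ (∀ h, SW (fun b d => Q h b d • (1 : B)) 1) ∧
        ∀ μ μ' h, SW (fun b d => ∑ i, ∑ j, ((T μ i h)ᴴ * T μ' j h) b d • (star (z i) * z j) -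
          if μ = μ' then Q h b d • ∑ i, star (z i) * z i else 0)
          (10 * (Fintype.card Λ + 1) * κ + η) := by
  classical
  set ε : ℝ := η / (2 * ((Fintype.card ι : ℝ) ^ 2 + 1)) with hε
  obtain ⟨L, M, k, d, c, hP, hap⟩ := h (univ.image fun q : ι × ι => star (z q.1) * z q.2)
    (fun a ha => by
      obtain ⟨q, -, rfl⟩ := mem_image.1 ha
      exact P.I.mul_mem_left _ (hz _)) ε (by positivity)
  obtain ⟨V, _, _, _, σ, ℓ, fst, g1, g2, g3, g4⟩ := exists_graph (Λ × ι) (4 * (k + 1) + 4)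
  let a : Λ → Λ × ι → B := fun μ s => if s.1 = μ then z s.2 else 0
  have ha : ∀ μ, ‖∑ s, star (a μ s) * a μ s‖ ≤ 1 ∧ ‖∑ s, a μ s * star (a μ s)‖ ≤ κ ^ 2 := fun μ => by
    constructor
    · convert h1 using 2
      simp [a, Fintype.sum_prod_type_right]
    · convert h2 using 2
      simp [a, Fintype.sum_prod_type_right]
  have hmom := moment_bound hl hP.form g1 g2 g3 g4 (fun q : Λ × Λ => a q.1) (fun q => a q.2)
    hκ hκ1 (fun q => ha q.1) fun q => ha q.2
  set X := ∑ q : Λ × Λ, (Wm lam d σ (a q.1) (a q.2))ᴴ * Wm lam d σ (a q.1) (a q.2) with hX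
  have hXp : X.PosSemidef := Matrix.posSemidef_sum _ fun q _ => posSemidef_conjTranspose_mul_self _
  set t : ℝ := 8 * Fintype.card Λ * κ + η / 4 with ht
  have ht0 : 0 < t := by positivity
  have hθ : 4 * Fintype.card (Fin k) * (X ^ (k + 1)).trace.re ≤
      Fintype.card V * (t ^ 2) ^ (k + 1) := by
    refine (mul_le_mul_of_nonneg_left hmom (by positivity)).trans ?_
    rw [Fintype.card_fin, Fintype.card_prod, Nat.cast_mul]
    have e1 : 4 * ((Fintype.card Λ : ℝ) * Fintype.card Λ * (4 * κ) ^ 2) ≤ t ^ 2 := by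
      rw [show 4 * ((Fintype.card Λ : ℝ) * Fintype.card Λ * (4 * κ) ^ 2) =
        (8 * Fintype.card Λ * κ) ^ 2 by ring]
      exact pow_le_pow_left₀ (by positivity) (by linarith) 2
    have e2 := pow_le_pow_left₀ (by positivity) e1 (k + 1)
    rw [mul_pow] at e2
    have e3 := mul_le_mul_of_nonneg_right (HTAux.four_sq k) (show (0 : ℝ) ≤
      ((Fintype.card Λ : ℝ) * Fintype.card Λ * (4 * κ) ^ 2) ^ (k + 1) by positivity)
    have e4 := mul_le_mul_of_nonneg_left (e3.trans e2) (Nat.cast_nonneg (Fintype.card V))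
    exact le_of_eq_of_le (by ring) e4
  refine ⟨Fintype.card V, Fintype.card_pos, fun p hp => ?_⟩
  obtain ⟨W, hW, hWX⟩ := exists_halves X hXp (pow_pos ht0 2) (k + 1) hθ (p := p) (by omega)
  obtain ⟨e⟩ : Nonempty (V ↪ Fin p) :=
    Function.Embedding.nonempty_of_card_le (by rw [Fintype.card_fin]; omega)
  let J : Matrix (Fin p) V ℂ := Matrix.of fun b x => if b = e x then 1 else 0
  have hJ : Jᴴ * J = 1 := by
    ext x y
    simp [J, Matrix.mul_apply, Matrix.one_apply, apply_ite star, eq_comm]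
  let A : Λ × ι → Bool → Matrix V (Fin p) ℂ := fun s h => (W h).submatrix (σ s) id
  have hT : ∀ s s' h, (J * A s h)ᴴ * (J * A s' h) = (A s h)ᴴ * A s' h := fun s s' h => by
    rw [conjTranspose_mul, Matrix.mul_assoc, ← Matrix.mul_assoc Jᴴ, hJ, Matrix.one_mul]
  have hA : ∀ s h, (A s h)ᴴ * A s h = (W h)ᴴ * W h := fun s h => by
    ext b d
    simp only [A, Matrix.mul_apply, conjTranspose_apply, submatrix_apply, id]
    exact Equiv.sum_comp (σ s) fun x => star (W h x b) * W h x d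
  have hWn : ∀ h, ‖W h‖ ≤ 1 := fun h =>
    HTAux.norm_le _ zero_le_one fun ξ => by simpa using HTAux.half_le hW h ξ
  have hAn : ∀ s h, ‖A s h‖ ≤ 1 := fun s h => by
    have := l2_opNorm_conjTranspose_mul_self (A s h)
    rw [hA, l2_opNorm_conjTranspose_mul_self] at this
    nlinarith [hWn h, norm_nonneg (W h), norm_nonneg (A s h)]
  have hAA : ∀ s s' h, ‖(A s h)ᴴ * A s' h‖ ≤ 1 := fun s s' h => by
    refine (l2_opNorm_mul _ _).trans ?_
    rw [l2_opNorm_conjTranspose]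
    exact mul_le_one₀ (hAn s h) (norm_nonneg _) (hAn s' h)
  refine ⟨fun μ i h => J * A (μ, i) h, fun h => (W h)ᴴ * W h, hW, fun h => ?_, fun μ μ' h => ?_⟩
  · refine (sw_scalar ((W h)ᴴ * W h) (1 : B)).mono (mul_le_one₀ ?_ (norm_nonneg _) norm_one_le')
    rw [l2_opNorm_conjTranspose_mul_self]
    exact mul_le_one₀ (hWn h) (norm_nonneg _) (hWn h)
  let G : ι × ι → Matrix (Fin p) (Fin p) ℂ := fun q =>
    if (μ, q.1) ≠ (μ', q.2) then (A (μ, q.1) h)ᴴ * A (μ', q.2) h else 0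
  have hG : ∀ q, ‖G q‖ ≤ 1 := fun q => by
    simp only [G]
    split_ifs
    · exact hAA _ _ _
    · simp
  let Y := (HTAux.amp (Fin k) (W h))ᴴ * (Wm lam d σ (a μ) (a μ') * HTAux.amp (Fin k) (W h))
  have hY : ‖Y‖ ≤ t := by
    refine (l2_opNorm_mul _ _).trans ?_
    rw [l2_opNorm_conjTranspose, ← one_mul t]
    refine mul_le_mul (HTAux.norm_le _ zero_le_one fun ξ => ?_)
      (HTAux.norm_le _ ht0.le fun ξ => ?_) (norm_nonneg _) zero_le_one
    · rw [HTAux.re_self, HTAux.amp_mulVec, one_pow, one_mul, Fintype.sum_prod_type,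
        Fintype.sum_prod_type]
      refine Finset.sum_le_sum fun q _ => ?_
      have := HTAux.half_le hW h fun b => ξ (q, b)
      rwa [HTAux.re_self] at this
    · rw [← mulVec_mulVec, HTAux.self_eq, HTAux.amp_mulVec, Fintype.sum_prod_type]
      refine le_trans ?_ (hWX h fun q b => ξ (q, b))
      exact HTAux.single_le (fun q : Λ × Λ => Wm lam d σ (a q.1) (a q.2)) (μ, μ') _
  have s1 := SW.sum univ fun (q : ι × ι) _ => (sw_scalar (G q)
    (star (z q.1) * z q.2 - Psi lam d c (star (z q.1) * z q.2))).mono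
      (mul_le_mul (hG q) (hap _ (mem_image_of_mem _ (mem_univ q))) (norm_nonneg _) zero_le_one)
  have s2 := (s1.add (HTAux.psi_sw hP.col Y)).mono
    (ε' := 10 * (Fintype.card Λ + 1) * κ + η) (by
      rw [Finset.sum_const, card_univ, Fintype.card_prod, nsmul_eq_mul, Nat.cast_mul, one_mul]
      have e1 : (Fintype.card ι : ℝ) * Fintype.card ι * ε ≤ η / 2 := by
        rw [hε, ← mul_div_assoc, div_le_div_iff₀ (by positivity) (by positivity)]
        nlinarith
      have : 0 ≤ (Fintype.card Λ : ℝ) * κ := by positivity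
      nlinarith)
  convert s2 using 3 with b b'
  have e1 : ∀ q q', Y (q, b) (q', b') = ∑ r : ι × ι, G r b b' *
      ∑ l, lam (star (d l q) * (star (z r.1) * z r.2) * d l q') := fun q q' => by
    simp only [Y]
    rw [HTAux.wm_apply lam d g1, Fintype.sum_prod_type, Fintype.sum_prod_type,
      Finset.sum_eq_single μ (fun ν _ hν => by simp [a, hν]) (by simp)]
    refine Finset.sum_congr rfl fun i _ => ?_
    rw [Fintype.sum_prod_type, Finset.sum_eq_single μ' (fun ν _ hν => by simp [a, hν]) (by simp)]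
    refine Finset.sum_congr rfl fun j _ => ?_
    simp only [G, a, if_true]
    split_ifs
    · rfl
    · simp
  have e2 : ∑ m, ∑ q, ∑ q', Y (q, b) (q', b') • (star (c m q) * c m q') =
      ∑ r : ι × ι, G r b b' • Psi lam d c (star (z r.1) * z r.2) := by
    simp only [e1, Psi, Finset.smul_sum, Finset.sum_smul, Finset.mul_sum, mul_smul]
    conv_rhs => enter [2, r]; rw [Finset.sum_comm]; enter [2, m]; rw [Finset.sum_comm]
                enter [2, q]; rw [Finset.sum_comm]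
    conv_rhs => rw [Finset.sum_comm]; enter [2, m]; rw [Finset.sum_comm]; enter [2, q]
                rw [Finset.sum_comm]
  rw [e2, ← Finset.sum_add_distrib]
  simp only [← smul_add, sub_add_cancel, hT, Fintype.sum_prod_type, G]
  by_cases hμ : μ = μ'
  · subst hμ
    rw [if_pos rfl, Finset.smul_sum, ← Finset.sum_sub_distrib]
    refine Finset.sum_congr rfl fun i _ => ?_
    rw [← Finset.add_sum_erase _ _ (mem_univ i), ← Finset.add_sum_erase _ _ (mem_univ i), hA,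
      add_sub_cancel_left, if_neg (by simp), Matrix.zero_apply, zero_smul, zero_add]
    refine Finset.sum_congr rfl fun j hj => ?_
    rw [if_pos (by simpa [eq_comm] using hj)]
  · simp [hμ]

end Vale.Agent.P095
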