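import Vale.Agent.P095.Basic
import Vale.Agent.P090.Words

/-! Finite models of a tree, and large subspaces where a matrix is small. -/

namespace Vale.Agent.P095
open Vale.Agent.P101 Vale.Agent.P101.JS Filter Topology Finset
open scoped ComplexOrder BoundedContinuousFunction symmDiff

universe u

open Vale.Agent.P090 in
theorem exists_graph (ι : Type) [Fintype ι] [DecidableEq ι] (R : ℕ) :
    ∃ (V : Type) (_ : Fintype V) (_ : DecidableEq V) (_ : Nonempty V) (σ : ι → Equiv.Perm V)
      (ℓ : V → V → ℕ) (fst : V → V → Option ι), (∀ i x, σ i (σ i x) = x) ∧ (∀ v, ℓ v v = 0) ∧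
      (∀ v i x, ℓ v (σ i x) ≤ ℓ v x + 1) ∧
      ∀ v i x, ℓ v x < R → (fst v (σ i x) = some i ↔ fst v x ≠ some i) := by
  classical
  letI : Fintype (Ball ι R) := Fintype.ofFinite _
  refine ⟨Equiv.Perm (Ball ι R), inferInstance, inferInstance, ⟨1⟩,
    fun i => Equiv.mulLeft (flipP R i), fun v x => ((x * v⁻¹) (rootB ι R)).1.length,
    fun v x => ((x * v⁻¹) (rootB ι R)).1.head?, fun i x => ?_, fun v => ?_, fun v i x => ?_,
    fun v i x hx => ?_⟩
  · ext l
    simp [flipP, flipB_flipB]
  · simp [rootB]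
  · have e : ((Equiv.mulLeft (flipP R i)) x * v⁻¹) (rootB ι R) =
        flipB R i ((x * v⁻¹) (rootB ι R)) := rfl
    beta_reduce
    rw [e]
    generalize (x * v⁻¹) (rootB ι R) = l
    by_cases h : (push i l.1).length ≤ R
    · rw [flipB_val R i l h]; exact length_push_le i l.1
    · unfold flipB
      rw [dif_neg h]; omega
  · have e : ((Equiv.mulLeft (flipP R i)) x * v⁻¹) (rootB ι R) =
        flipB R i ((x * v⁻¹) (rootB ι R)) := rfl
    beta_reduce at hx ⊢
    rw [e]
    revert hx
    generalize (x * v⁻¹) (rootB ι R) = l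
    intro hx
    have h : (push i l.1).length ≤ R := (length_push_le i l.1).trans hx
    rw [flipB_val R i l h]
    rcases push_cases i l.1 with ⟨h1, h2⟩ | h1
    · rw [h2]; simp [h1]
    · have h3 := l.2.1
      rw [h1] at h3
      have h4 := (red_cons.1 h3).1
      have h5 : l.1.head? = some i := by rw [h1]; rfl
      simp [h4, h5]

namespace HTgraphAux
open Matrix

theorem trace_pow {n : Type} [Fintype n] [DecidableEq n] {X : Matrix n n ℂ} (hX : X.IsHermitian)
    (N : ℕ) : (X ^ N).trace.re = ∑ i, hX.eigenvalues i ^ N := by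
  conv_lhs => rw [hX.spectral_theorem, ← map_pow, Unitary.conjStarAlgAut_apply, trace_mul_cycle,
    Unitary.coe_star_mul_self, one_mul, diagonal_pow, trace_diagonal]
  simp only [Pi.pow_apply, Function.comp_apply, Complex.re_sum]
  refine Finset.sum_congr rfl fun i _ => ?_
  change (((hX.eigenvalues i : ℝ) : ℂ) ^ N).re = _
  rw [← Complex.ofReal_pow, Complex.ofReal_re]

theorem form_le {n : Type} [Fintype n] [DecidableEq n] {X : Matrix n n ℂ} (hX : X.IsHermitian)
    {θ : ℝ} (η : n → ℂ)
    (h : ∀ i, θ < hX.eigenvalues i → star (hX.eigenvectorBasis i).ofLp ⬝ᵥ η = 0) :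
    (star η ⬝ᵥ (X *ᵥ η)).re ≤ θ * ∑ x, ‖η x‖ ^ 2 := by
  set b := hX.eigenvectorBasis with hb
  set y : EuclideanSpace ℂ n := WithLp.toLp 2 η with hy
  have h1 : ∑ x, ‖η x‖ ^ 2 = ∑ i, ‖inner ℂ (b i) y‖ ^ 2 := by
    rw [b.sum_sq_norm_inner_right, EuclideanSpace.norm_sq_eq]
  have h2 : star η ⬝ᵥ (X *ᵥ η) = inner ℂ y (WithLp.toLp 2 (X *ᵥ η)) := by
    rw [hy, EuclideanSpace.inner_toLp_toLp, dotProduct_comm]
  have h3 : ∀ i, inner ℂ (b i) (WithLp.toLp 2 (X *ᵥ η) : EuclideanSpace ℂ n) =
      (hX.eigenvalues i : ℂ) * inner ℂ (b i) y := fun i => by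
    have e := hX.mulVec_eigenvectorBasis i
    rw [← hb] at e
    rw [EuclideanSpace.inner_eq_star_dotProduct, EuclideanSpace.inner_eq_star_dotProduct]
    simp only [hy]
    have e2 : star (b i).ofLp ᵥ* X = star (X *ᵥ (b i).ofLp) := by rw [star_mulVec, hX.eq]
    rw [dotProduct_comm, dotProduct_mulVec, e2, e, dotProduct_comm η]
    simp [star_smul]
  rw [h1, h2, ← b.sum_inner_mul_inner, Complex.re_sum, Finset.mul_sum]
  refine Finset.sum_le_sum fun i _ => ?_
  rw [h3, ← inner_conj_symm y, mul_left_comm, Complex.conj_mul', ← Complex.ofReal_pow,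
    ← Complex.ofReal_mul, Complex.ofReal_re]
  by_cases hi : θ < hX.eigenvalues i
  · have : inner ℂ (b i) y = 0 := by
      rw [EuclideanSpace.inner_eq_star_dotProduct, dotProduct_comm]; exact h i hi
    rw [this]; simp
  · exact mul_le_mul_of_nonneg_right (not_lt.1 hi) (sq_nonneg _)

end HTgraphAux

open Matrix in
theorem exists_halves {V k : Type} [Fintype V] [DecidableEq V] [Nonempty V] [Fintype k]
    [DecidableEq k] (X : Matrix (k × V) (k × V) ℂ) (hX : X.PosSemidef) {θ : ℝ} (hθ : 0 < θ) (N : ℕ)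
    (h : 4 * Fintype.card k * (X ^ N).trace.re ≤ Fintype.card V * θ ^ N) {p : ℕ}
    (hp : p ≤ Fintype.card V + 1) : ∃ W : Bool → Matrix V (Fin p) ℂ,
      (W true)ᴴ * W true + (W false)ᴴ * W false = 1 ∧ ∀ (h : Bool) (ξ : k → Fin p → ℂ),
        (star (fun x : k × V => (W h *ᵥ ξ x.1) x.2) ⬝ᵥ
          (X *ᵥ fun x : k × V => (W h *ᵥ ξ x.1) x.2)).re ≤ θ * ∑ a, ∑ b, ‖ξ a b‖ ^ 2 := by
  classical
  set T : Finset (k × V) := univ.filter fun i => θ < hX.1.eigenvalues i with hT
  have hT1 : (#T : ℝ) * θ ^ N ≤ (X ^ N).trace.re := by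
    rw [HTgraphAux.trace_pow hX.1, ← nsmul_eq_mul, ← Finset.sum_const]
    refine (Finset.sum_le_sum fun i hi => ?_).trans (Finset.sum_le_sum_of_subset_of_nonneg
      (Finset.subset_univ T) fun i _ _ => pow_nonneg (hX.eigenvalues_nonneg i) N)
    exact pow_le_pow_left₀ hθ.le (mem_filter.1 hi).2.le N
  have hT2 : 4 * (Fintype.card k * #T) ≤ Fintype.card V := by
    have h0 : (0 : ℝ) < θ ^ N := pow_pos hθ N
    have : (4 * (Fintype.card k * #T) : ℝ) * θ ^ N ≤ Fintype.card V * θ ^ N := by
      refine le_trans ?_ h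
      have := mul_le_mul_of_nonneg_left hT1 (show (0 : ℝ) ≤ 4 * Fintype.card k by positivity)
      linarith
    exact_mod_cast le_of_mul_le_mul_right this h0
  let s : k × T → EuclideanSpace ℂ V := fun q =>
    WithLp.toLp 2 fun x => (hX.1.eigenvectorBasis q.2.1).ofLp (q.1, x)
  let D : Submodule ℂ (EuclideanSpace ℂ V) := Submodule.span ℂ (Set.range s)
  have hD : Module.finrank ℂ D ≤ Fintype.card k * #T := by
    have := finrank_range_le_card (R := ℂ) s
    simpa [Set.finrank] using this
  have hD2 := Submodule.finrank_add_finrank_orthogonal D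
  rw [finrank_euclideanSpace] at hD2
  have hV : 0 < Fintype.card V := Fintype.card_pos
  set m := Module.finrank ℂ Dᗮ with hm
  have hpm : p ≤ 2 * m := by omega
  let b := stdOrthonormalBasis ℂ Dᗮ
  let idx : Fin p → Fin m := fun j =>
    if hj : j.1 < m then ⟨j.1, hj⟩ else ⟨j.1 - m, by omega⟩
  let side : Fin p → Bool := fun j => decide (j.1 < m)
  let w : Bool → Fin p → EuclideanSpace ℂ V := fun h j =>
    if side j = h then (b (idx j) : EuclideanSpace ℂ V) else 0
  have hw : ∀ h j j', inner ℂ (w h j) (w h j') = if j = j' ∧ side j = h then 1 else 0 := by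
    intro h j j'
    by_cases h1 : side j = h
    · by_cases h2 : side j' = h
      · simp only [w, if_pos h1, if_pos h2, h1, and_true]
        rw [← Submodule.coe_inner, orthonormal_iff_ite.1 b.orthonormal]
        congr 1
        have h3 : (j.1 < m ↔ j'.1 < m) := by
          have := h1.trans h2.symm
          simpa [side] using this
        refine propext ⟨fun e => ?_, fun e => by rw [e]⟩
        by_cases h4 : j.1 < m
        · simp only [idx, dif_pos h4, dif_pos (h3.1 h4), Fin.mk.injEq] at e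
          exact Fin.ext e
        · simp only [idx, dif_neg h4, dif_neg (mt h3.2 h4), Fin.mk.injEq] at e
          have := mt h3.2 h4
          exact Fin.ext (by omega)
      · have : j ≠ j' := fun e => h2 (e ▸ h1)
        simp [w, h2, this]
    · simp [w, h1]
  let W : Bool → Matrix V (Fin p) ℂ := fun h => Matrix.of fun x j => (w h j).ofLp x
  have hW : ∀ h j j', ((W h)ᴴ * W h) j j' = if j = j' ∧ side j = h then 1 else 0 := by
    intro h j j'
    rw [← hw, EuclideanSpace.inner_eq_star_dotProduct, Matrix.mul_apply, dotProduct_comm]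
    rfl
  have hmv : ∀ h (ζ : Fin p → ℂ), WithLp.toLp 2 (W h *ᵥ ζ) = ∑ j, ζ j • w h j := by
    intro h ζ
    ext x
    simp [W, Matrix.mulVec, dotProduct, mul_comm]
  refine ⟨W, ?_, fun h ξ => ?_⟩
  · ext j j'
    rw [Matrix.add_apply, hW, hW, Matrix.one_apply]
    by_cases e : j = j' <;> cases side j <;> simp [e]
  · refine (HTgraphAux.form_le hX.1 _ fun i hi => ?_).trans (mul_le_mul_of_nonneg_left ?_ hθ.le)
    · rw [dotProduct, Fintype.sum_prod_type]
      refine Finset.sum_eq_zero fun a _ => ?_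
      have h1 : s (a, ⟨i, by simp [hT, hi]⟩) ∈ D := Submodule.subset_span ⟨_, rfl⟩
      have h2 : (WithLp.toLp 2 (W h *ᵥ ξ a) : EuclideanSpace ℂ V) ∈ Dᗮ := by
        rw [hmv]
        refine Submodule.sum_mem _ fun j _ => Submodule.smul_mem _ _ ?_
        simp only [w]
        split_ifs
        · exact (b _).2
        · exact Submodule.zero_mem _
      have h3 := Submodule.inner_right_of_mem_orthogonal h1 h2
      rw [EuclideanSpace.inner_toLp_toLp, dotProduct_comm] at h3
      exact h3
    · rw [Fintype.sum_prod_type]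
      refine Finset.sum_le_sum fun a _ => ?_
      have h1 := EuclideanSpace.norm_sq_eq (WithLp.toLp 2 (W h *ᵥ ξ a) : EuclideanSpace ℂ V)
      rw [← h1, hmv, ← inner_self_eq_norm_sq (𝕜 := ℂ), sum_inner]
      simp only [inner_sum, inner_smul_left, inner_smul_right, hw, map_sum]
      refine Finset.sum_le_sum fun j _ => ?_
      rw [Finset.sum_eq_single j (fun j' _ hj => by simp [hj.symm]) (by simp)]
      by_cases e : side j = h
      · simp [e, Complex.mul_conj', ← Complex.ofReal_pow]
      · simp [e]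

end Vale.Agent.P095
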