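import Vale.Agent.P095.Tr
import Vale.Agent.P095.HTgraph

/-! The tree estimate and the moment bound. -/

namespace Vale.Agent.P095
open Vale.Agent.P101 Vale.Agent.P101.JS Filter Topology Finset
open scoped ComplexOrder BoundedContinuousFunction symmDiff

universe u
variable {B : Type u} [CStarAlgebra B]

/-- The scalar matrix of the off-diagonal part of `T_a^* T_b`. -/
noncomputable def Wm {ι V L k : Type} [Fintype ι] [DecidableEq ι] [DecidableEq V] [Fintype L]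
    (lam : B →ₗ[ℂ] ℂ) (d : L → k → B) (σ : ι → Equiv.Perm V) (a b : ι → B) :
    Matrix (k × V) (k × V) ℂ := Matrix.of fun x y =>
  ∑ i, ∑ j, if i ≠ j ∧ σ i x.2 = σ j y.2 then
    ∑ l, lam (star (d l x.1) * (star (a i) * b j) * d l y.1) else 0

namespace HTtreeAux
variable {lam : B →ₗ[ℂ] ℂ}

theorem col_bound (hl : IsSt lam) {ι : Type} [Fintype ι] (a : ι → B) (u : B) :
    ∑ i, n2 lam (a i * u) ^ 2 ≤ ‖∑ i, star (a i) * a i‖ * n2 lam u ^ 2 := by
  have h1 : ∑ i, n2 lam (a i * u) ^ 2 = (lam (star u * ((∑ i, star (a i) * a i) * u))).re := by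
    rw [Finset.sum_mul, Finset.mul_sum, map_sum, Complex.re_sum]
    refine Finset.sum_congr rfl fun i _ => ?_
    rw [n2_sq hl, star_mul]; simp only [mul_assoc]
  rw [h1]
  refine (Complex.re_le_norm _).trans ((n2_cs hl _ _).trans ?_)
  have := mul_le_mul_of_nonneg_left (n2_mul_left hl (∑ i, star (a i) * a i) u) (n2_nonneg lam u)
  nlinarith

theorem cs_sum (hl : IsSt lam) {V : Type} (s : Finset V) (x y : V → B) :
    ‖∑ v ∈ s, lam (star (x v) * y v)‖ ≤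
      √(∑ v ∈ s, n2 lam (x v) ^ 2) * √(∑ v ∈ s, n2 lam (y v) ^ 2) :=
  (norm_sum_le _ _).trans ((Finset.sum_le_sum fun _ _ => n2_cs hl _ _).trans
    (Real.sum_mul_le_sqrt_mul_sqrt _ _ _))

theorem row_bound (hl : IsSt lam) {ι : Type} [Fintype ι] (a : ι → B) {κ : ℝ} (hκ : 0 ≤ κ)
    (ha : ‖∑ i, a i * star (a i)‖ ≤ κ ^ 2) (s : Finset ι) (u : ι → B) :
    n2 lam (∑ i ∈ s, a i * u i) ^ 2 ≤ κ ^ 2 * ∑ i ∈ s, n2 lam (u i) ^ 2 := by
  set y := ∑ i ∈ s, a i * u i with hy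
  have h1 : n2 lam y ^ 2 = (∑ i ∈ s, lam (star (star (a i) * y) * u i)).re := by
    rw [n2_sq hl, ← map_sum]
    congr 2
    conv_lhs => rw [hy, Finset.mul_sum]
    refine Finset.sum_congr rfl fun i _ => ?_
    rw [star_mul, star_star, mul_assoc]
  have h2 : ∑ i ∈ s, n2 lam (star (a i) * y) ^ 2 ≤ (κ * n2 lam y) ^ 2 := by
    refine (Finset.sum_le_sum_of_subset_of_nonneg (Finset.subset_univ s)
      fun _ _ _ => sq_nonneg _).trans ((col_bound hl (fun i => star (a i)) y).trans ?_)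
    simp only [star_star]
    rw [mul_pow]
    exact mul_le_mul_of_nonneg_right ha (sq_nonneg _)
  have h0 := n2_nonneg lam y
  have h3 := (Complex.re_le_norm _).trans (cs_sum hl s (fun i => star (a i) * y) u)
  rw [← h1] at h3
  have h4 : √(∑ i ∈ s, n2 lam (star (a i) * y) ^ 2) ≤ κ * n2 lam y :=
    Real.sqrt_le_iff.2 ⟨by positivity, h2⟩
  have hS : 0 ≤ ∑ i ∈ s, n2 lam (u i) ^ 2 := Finset.sum_nonneg fun _ _ => sq_nonneg _
  set t := √(∑ i ∈ s, n2 lam (u i) ^ 2) with ht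
  have ht0 : 0 ≤ t := Real.sqrt_nonneg _
  have ht2 : ∑ i ∈ s, n2 lam (u i) ^ 2 = t ^ 2 := (Real.sq_sqrt hS).symm
  have h5 : n2 lam y ^ 2 ≤ κ * n2 lam y * t := h3.trans (mul_le_mul_of_nonneg_right h4 ht0)
  rw [ht2, ← mul_pow]
  nlinarith [sq_nonneg (n2 lam y - κ * t)]

section tree
variable {ι V : Type} [Fintype ι] [DecidableEq ι] [Fintype V] {σ : ι → Equiv.Perm V}
  {f : V → Option ι}

theorem reidx (h1 : ∀ i x, σ i (σ i x) = x) (F : ι → V → V → ℝ) :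
    ∑ δ, ∑ i, F i δ (σ i δ) = ∑ x, ∑ i, F i (σ i x) x := by
  rw [Finset.sum_comm, Finset.sum_comm (s := univ) (t := univ) (f := fun x i => F i (σ i x) x)]
  refine Finset.sum_congr rfl fun i _ => ?_
  rw [← Equiv.sum_comp (σ i)]
  simp only [h1]

theorem out_sum (h1 : ∀ i x, σ i (σ i x) = x) (w : V → ℝ) (hw : ∀ x, 0 ≤ w x)
    (h : ∀ x i, w x ≠ 0 → f (σ i x) ≠ some i → f x = some i) :
    ∑ δ, ∑ i ∈ univ.filter (fun i => f δ ≠ some i), w (σ i δ) ≤ ∑ x, w x := by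
  simp only [Finset.sum_filter]
  rw [reidx h1 (fun i δ x => if f δ ≠ some i then w x else 0)]
  refine Finset.sum_le_sum fun x _ => ?_
  by_cases hx : w x = 0
  · simp [hx]
  refine le_trans (Finset.sum_le_sum (g := fun i => if f x = some i then w x else 0)
    fun i _ => ?_) ?_
  · by_cases h2 : f (σ i x) ≠ some i
    · rw [if_pos h2, if_pos (h x i hx h2)]
    · rw [if_neg h2]; split_ifs; exacts [hw x, le_rfl]
  · cases e : f x with
    | none => simp [hw x]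
    | some j => simp

theorem outer_bound (hl : IsSt lam) (h1 : ∀ i x, σ i (σ i x) = x) (a : ι → B) {κ : ℝ} (hκ : 0 ≤ κ)
    (ha : ‖∑ i, a i * star (a i)‖ ≤ κ ^ 2) (u : V → B)
    (h : ∀ x i, u x ≠ 0 → f (σ i x) ≠ some i → f x = some i) :
    √(∑ δ, n2 lam (∑ i ∈ univ.filter (fun i => f δ ≠ some i), a i * u (σ i δ)) ^ 2) ≤
      κ * √(∑ x, n2 lam (u x) ^ 2) := by
  rw [← Real.sqrt_sq hκ, ← Real.sqrt_mul (sq_nonneg _)]
  refine Real.sqrt_le_sqrt ((Finset.sum_le_sum fun δ _ => row_bound hl a hκ ha _ _).trans ?_)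
  rw [← Finset.mul_sum]
  refine mul_le_mul_of_nonneg_left (out_sum h1 (fun x => n2 lam (u x) ^ 2)
    (fun _ => sq_nonneg _) fun x i hx => h x i fun e => hx ?_) (sq_nonneg _)
  simp [e, n2_zero]

theorem inner_bound (hl : IsSt lam) (h1 : ∀ i x, σ i (σ i x) = x) (a : ι → B)
    (ha : ‖∑ i, star (a i) * a i‖ ≤ 1) (u : V → B) :
    √(∑ δ, n2 lam (∑ i ∈ univ.filter (fun i => ¬ f δ ≠ some i), a i * u (σ i δ)) ^ 2) ≤
      √(∑ x, n2 lam (u x) ^ 2) := by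
  refine Real.sqrt_le_sqrt (le_trans (Finset.sum_le_sum
    (g := fun δ => ∑ i, n2 lam (a i * u (σ i δ)) ^ 2) fun δ _ => ?_) ?_)
  · cases e : f δ with
    | none => simp [n2_zero, Finset.sum_nonneg, sq_nonneg]
    | some j =>
      have : univ.filter (fun i => ¬ some j ≠ some i) = {j} := by ext i; simp [eq_comm]
      rw [this, Finset.sum_singleton]
      exact Finset.single_le_sum (f := fun i => n2 lam (a i * u (σ i δ)) ^ 2)
        (fun _ _ => sq_nonneg _) (mem_univ j)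
  · rw [reidx h1 (fun i _ x => n2 lam (a i * u x) ^ 2)]
    refine Finset.sum_le_sum fun x _ => (col_bound hl a (u x)).trans ?_
    exact mul_le_of_le_one_left (sq_nonneg _) ha

theorem diag_bound (hl : IsSt lam) (h1 : ∀ i x, σ i (σ i x) = x) (a : ι → B) {κ : ℝ} (hκ : 0 ≤ κ)
    (ha : ‖∑ i, a i * star (a i)‖ ≤ κ ^ 2) (u : V → B)
    (h : ∀ x i, u x ≠ 0 → f (σ i x) ≠ some i → f x = some i) :
    √(∑ δ, ∑ i ∈ univ.filter (fun i => f δ ≠ some i), n2 lam (a i * u (σ i δ)) ^ 2) ≤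
      κ * √(∑ x, n2 lam (u x) ^ 2) := by
  rw [← Real.sqrt_sq hκ, ← Real.sqrt_mul (sq_nonneg _)]
  refine Real.sqrt_le_sqrt (le_trans (Finset.sum_le_sum (g := fun δ => κ ^ 2 *
    ∑ i ∈ univ.filter (fun i => f δ ≠ some i), n2 lam (u (σ i δ)) ^ 2) fun δ _ => ?_) ?_)
  · rw [Finset.mul_sum]
    refine Finset.sum_le_sum fun i _ => ?_
    simpa using row_bound hl a hκ ha {i} (fun _ => u (σ i δ))
  rw [← Finset.mul_sum]
  refine mul_le_mul_of_nonneg_left (out_sum h1 (fun x => n2 lam (u x) ^ 2)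
    (fun _ => sq_nonneg _) fun x i hx => h x i fun e => hx ?_) (sq_nonneg _)
  simp [e, n2_zero]

omit [Fintype V] in
theorem split (o : Option ι) (A C : ι → B) :
    (∑ i, ∑ j, if i ≠ j then star (A i) * C j else 0) =
      star (∑ i ∈ univ.filter (fun i => o ≠ some i), A i) *
        (∑ i ∈ univ.filter (fun i => o ≠ some i), C i) -
      (∑ i ∈ univ.filter (fun i => o ≠ some i), star (A i) * C i) +
      star (∑ i ∈ univ.filter (fun i => ¬ o ≠ some i), A i) *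
        (∑ i ∈ univ.filter (fun i => o ≠ some i), C i) +
      star (∑ i ∈ univ.filter (fun i => o ≠ some i), A i) *
        (∑ i ∈ univ.filter (fun i => ¬ o ≠ some i), C i) := by
  have e1 : (∑ i, ∑ j, if i ≠ j then star (A i) * C j else 0) =
      star (∑ i, A i) * (∑ i, C i) - ∑ i, star (A i) * C i := by
    rw [star_sum, Finset.sum_mul_sum, ← Finset.sum_sub_distrib]
    refine Finset.sum_congr rfl fun i _ => ?_
    rw [← Finset.sum_filter, Finset.filter_ne, Finset.sum_erase_eq_sub (mem_univ i)]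
  have e2 : star (∑ i ∈ univ.filter (fun i => ¬ o ≠ some i), A i) *
      (∑ i ∈ univ.filter (fun i => ¬ o ≠ some i), C i) =
      ∑ i ∈ univ.filter (fun i => ¬ o ≠ some i), star (A i) * C i := by
    cases o with
    | none => simp
    | some j =>
      have : univ.filter (fun i => ¬ some j ≠ some i) = {j} := by ext i; simp [eq_comm]
      simp only [this, Finset.sum_singleton]
  rw [e1, ← Finset.sum_filter_add_sum_filter_not univ (fun i => o ≠ some i) A,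
    ← Finset.sum_filter_add_sum_filter_not univ (fun i => o ≠ some i) C,
    ← Finset.sum_filter_add_sum_filter_not univ (fun i => o ≠ some i) fun i => star (A i) * C i,
    ← e2, star_add]
  noncomm_ring

theorem tree_bound (hl : IsSt lam) (h1 : ∀ i x, σ i (σ i x) = x) (a b : ι → B) {κ : ℝ}
    (hκ : 0 ≤ κ) (hκ1 : κ ≤ 1)
    (ha : ‖∑ i, star (a i) * a i‖ ≤ 1 ∧ ‖∑ i, a i * star (a i)‖ ≤ κ ^ 2)
    (hb : ‖∑ i, star (b i) * b i‖ ≤ 1 ∧ ‖∑ i, b i * star (b i)‖ ≤ κ ^ 2) (u u' : V → B)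
    (h : ∀ x i, u x ≠ 0 → f (σ i x) ≠ some i → f x = some i)
    (h' : ∀ x i, u' x ≠ 0 → f (σ i x) ≠ some i → f x = some i) :
    ‖∑ δ, lam (∑ i, ∑ j, if i ≠ j then star (a i * u (σ i δ)) * (b j * u' (σ j δ)) else 0)‖ ≤
      4 * κ * (√(∑ x, n2 lam (u x) ^ 2) * √(∑ x, n2 lam (u' x) ^ 2)) := by
  simp only [fun δ => split (f δ) (fun i => a i * u (σ i δ)) fun j => b j * u' (σ j δ),
    map_add, map_sub, Finset.sum_add_distrib, Finset.sum_sub_distrib]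
  have o1 := outer_bound hl h1 a hκ ha.2 u h
  have o2 := outer_bound hl h1 b hκ hb.2 u' h'
  have i1 := inner_bound (f := f) hl h1 a ha.1 u
  have i2 := inner_bound (f := f) hl h1 b hb.1 u'
  have d1 := diag_bound hl h1 a hκ ha.2 u h
  have d2 := diag_bound hl h1 b hκ hb.2 u' h'
  have hs := Real.sqrt_nonneg (∑ x, n2 lam (u x) ^ 2)
  have hs' := Real.sqrt_nonneg (∑ x, n2 lam (u' x) ^ 2)
  have t1 := (cs_sum hl univ _ _).trans (mul_le_mul o1 o2 (Real.sqrt_nonneg _) (by positivity))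
  have t3 := (cs_sum hl univ _ _).trans (mul_le_mul i1 o2 (Real.sqrt_nonneg _) (by positivity))
  have t4 := (cs_sum hl univ _ _).trans (mul_le_mul o1 i2 (Real.sqrt_nonneg _) (by positivity))
  have t2 : ‖∑ δ, lam (∑ i ∈ univ.filter (fun i => f δ ≠ some i),
      star (a i * u (σ i δ)) * (b i * u' (σ i δ)))‖ ≤
      κ * √(∑ x, n2 lam (u x) ^ 2) * (κ * √(∑ x, n2 lam (u' x) ^ 2)) := by
    refine le_trans ?_ (mul_le_mul d1 d2 (Real.sqrt_nonneg _) (by positivity))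
    simp only [map_sum]
    rw [Finset.sum_sigma', Finset.sum_sigma', Finset.sum_sigma']
    refine (norm_sum_le _ _).trans ((Finset.sum_le_sum fun _ _ => n2_cs hl _ _).trans
      (Real.sum_mul_le_sqrt_mul_sqrt _ _ _))
  refine (norm_add_le_of_le (norm_add_le_of_le (norm_sub_le_of_le t1 t2) t3) t4).trans ?_
  have hp := mul_nonneg hs hs'
  have hk : κ * κ ≤ κ := mul_le_of_le_one_left hκ hκ1
  nlinarith [mul_le_mul_of_nonneg_right hk hp]

end tree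

open Matrix

/-- The Euclidean norm. -/
noncomputable def nn {n : Type} [Fintype n] (ξ : n → ℂ) : ℝ :=
  ‖(WithLp.toLp 2 ξ : EuclideanSpace ℂ n)‖

theorem nn_eq {n : Type} [Fintype n] (ξ : n → ℂ) : nn ξ = √(∑ x, ‖ξ x‖ ^ 2) :=
  EuclideanSpace.norm_eq _

theorem nn_sq {n : Type} [Fintype n] (ξ : n → ℂ) : nn ξ ^ 2 = ‖star ξ ⬝ᵥ ξ‖ := by
  rw [dotProduct_comm, ← EuclideanSpace.inner_toLp_toLp, inner_self_eq_norm_sq_to_K, nn]
  simp

theorem nn_sum {n Λ : Type} [Fintype n] [Fintype Λ] (ξ : Λ → n → ℂ) :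
    nn (∑ μ, ξ μ) ≤ ∑ μ, nn (ξ μ) := by
  unfold nn
  rw [WithLp.toLp_sum]
  exact norm_sum_le _ _

theorem le_of_sq {x c : ℝ} (hx : 0 ≤ x) (hc : 0 ≤ c) (h : x ^ 2 ≤ x * c) : x ≤ c := by
  by_contra h'
  have := not_le.1 h'
  nlinarith

theorem form_bound {ι V L k : Type} [Fintype ι] [DecidableEq ι] [Fintype V] [DecidableEq V]
    [Fintype L] [Fintype k] (hl : IsSt lam) {d : L → k → B} (hd : ∀ ξ : k → ℂ,
      ∑ l, (lam (star (∑ p, ξ p • d l p) * ∑ p, ξ p • d l p)).re ≤ ∑ p, ‖ξ p‖ ^ 2)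
    {σ : ι → Equiv.Perm V} {f : V → Option ι} (h1 : ∀ i x, σ i (σ i x) = x) (a b : ι → B) {κ : ℝ}
    (hκ : 0 ≤ κ) (hκ1 : κ ≤ 1)
    (ha : ‖∑ i, star (a i) * a i‖ ≤ 1 ∧ ‖∑ i, a i * star (a i)‖ ≤ κ ^ 2)
    (hb : ‖∑ i, star (b i) * b i‖ ≤ 1 ∧ ‖∑ i, b i * star (b i)‖ ≤ κ ^ 2) (ξ η : k × V → ℂ)
    (h : ∀ x i, ξ x ≠ 0 → f (σ i x.2) ≠ some i → f x.2 = some i)
    (h' : ∀ x i, η x ≠ 0 → f (σ i x.2) ≠ some i → f x.2 = some i) :
    ‖star ξ ⬝ᵥ (Wm lam d σ a b *ᵥ η)‖ ≤ 4 * κ * (nn ξ * nn η) := by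
  let U : (k × V → ℂ) → L → V → B := fun ζ l x => ∑ p, ζ (p, x) • d l p
  have hU : ∀ ζ : k × V → ℂ, (∀ x i, ζ x ≠ 0 → f (σ i x.2) ≠ some i → f x.2 = some i) →
      ∀ l x i, U ζ l x ≠ 0 → f (σ i x) ≠ some i → f x = some i := fun ζ hζ l x i hx => by
    obtain ⟨p, -, hp⟩ := Finset.exists_ne_zero_of_sum_ne_zero hx
    exact hζ (p, x) i fun e => hp (by rw [e, zero_smul])
  have hN : ∀ ζ : k × V → ℂ, √(∑ l, √(∑ x, n2 lam (U ζ l x) ^ 2) ^ 2) ≤ nn ζ := fun ζ => by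
    rw [nn_eq, Fintype.sum_prod_type_right]
    refine Real.sqrt_le_sqrt ?_
    simp only [Real.sq_sqrt (Finset.sum_nonneg fun _ _ => sq_nonneg _)]
    rw [Finset.sum_comm]
    refine Finset.sum_le_sum fun x _ => ?_
    simp only [n2_sq hl]
    exact hd fun p => ζ (p, x)
  let F : L → ι → ι → V → V → ℂ := fun l i j x y =>
    lam (star (a i * U ξ l x) * (b j * U η l y))
  have hF : ∀ l i j x y, F l i j x y = ∑ p, ∑ q, star (ξ (p, x)) *
      (lam (star (d l p) * (star (a i) * b j) * d l q) * η (q, y)) := fun l i j x y => by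
    simp only [F, U, star_mul, star_sum, Finset.sum_mul, Finset.mul_sum, map_sum, star_smul,
      smul_mul_assoc, mul_smul_comm, map_smul, smul_eq_mul]
    rw [Finset.sum_comm]
    refine Finset.sum_congr rfl fun p _ => Finset.sum_congr rfl fun q _ => ?_
    simp only [mul_assoc]
    ring
  have e1 : star ξ ⬝ᵥ (Wm lam d σ a b *ᵥ η) =
      ∑ x, ∑ y, ∑ i, ∑ j, if i ≠ j ∧ σ i x = σ j y then ∑ l, F l i j x y else 0 := by
    simp only [dotProduct, mulVec, Wm, Matrix.of_apply, Fintype.sum_prod_type_right,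
      Pi.star_apply, Finset.mul_sum, Finset.sum_mul]
    refine Finset.sum_congr rfl fun x _ => ?_
    rw [Finset.sum_comm]
    refine Finset.sum_congr rfl fun y _ => ?_
    rw [Finset.sum_comm' (t' := univ) (s' := fun _ => univ) (by simp)]
    conv_lhs => enter [2, q]; rw [Finset.sum_comm]
    rw [Finset.sum_comm]
    refine Finset.sum_congr rfl fun i _ => ?_
    conv_lhs => enter [2, q]; rw [Finset.sum_comm]
    rw [Finset.sum_comm]
    refine Finset.sum_congr rfl fun j _ => ?_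
    split_ifs
    · simp only [hF, Finset.mul_sum, Finset.sum_mul]
      rw [Finset.sum_comm]
      conv_lhs => enter [2, q]; rw [Finset.sum_comm]
      rw [Finset.sum_comm]
    · simp
  have e2 : (∑ x, ∑ y, ∑ i, ∑ j, if i ≠ j ∧ σ i x = σ j y then ∑ l, F l i j x y else 0) =
      ∑ l, ∑ δ, lam (∑ i, ∑ j, if i ≠ j then
        star (a i * U ξ l (σ i δ)) * (b j * U η l (σ j δ)) else 0) := by
    have e3 : ∀ i j, (∑ x, ∑ y, if i ≠ j ∧ σ i x = σ j y then ∑ l, F l i j x y else 0) =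
        ∑ δ, ∑ l, if i ≠ j then F l i j (σ i δ) (σ j δ) else 0 := fun i j => by
      rw [← Equiv.sum_comp (σ i)]
      refine Finset.sum_congr rfl fun δ _ => ?_
      rw [← Equiv.sum_comp (σ j)]
      by_cases e : i = j <;> simp [h1, e]
    conv_lhs => enter [2, x]; rw [Finset.sum_comm]; enter [2, i]; rw [Finset.sum_comm]
    rw [Finset.sum_comm]
    conv_lhs => enter [2, i]; rw [Finset.sum_comm]
    simp only [e3, map_sum, apply_ite lam, map_zero]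
    conv_lhs => enter [2, i]; rw [Finset.sum_comm]; enter [2, δ]; rw [Finset.sum_comm]
    rw [Finset.sum_comm]
    conv_lhs => enter [2, δ]; rw [Finset.sum_comm]
    rw [Finset.sum_comm]
  rw [e1, e2]
  refine (norm_sum_le _ _).trans ((Finset.sum_le_sum fun l _ =>
    tree_bound hl h1 a b hκ hκ1 ha hb _ _ (hU ξ h l) (hU η h' l)).trans ?_)
  rw [← Finset.mul_sum]
  refine mul_le_mul_of_nonneg_left ((Real.sum_mul_le_sqrt_mul_sqrt _ _ _).trans
    (mul_le_mul (hN ξ) (hN η) (Real.sqrt_nonneg _) (norm_nonneg _))) (by positivity)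

theorem supp_step {n : Type} [Fintype n] (W : Matrix n n ℂ) (ℓ : n → ℕ)
    (hW : ∀ x y, W x y ≠ 0 → ℓ x ≤ ℓ y + 2) {η : n → ℂ} {m : ℕ} (h : ∀ y, η y ≠ 0 → ℓ y ≤ m) :
    ∀ x, (W *ᵥ η) x ≠ 0 → ℓ x ≤ m + 2 := fun x hx => by
  obtain ⟨y, -, hy⟩ := Finset.exists_ne_zero_of_sum_ne_zero hx
  have := hW x y (left_ne_zero_of_mul hy)
  have := h y (right_ne_zero_of_mul hy)
  omega

theorem power_bound {n Λ : Type} [Fintype n] [DecidableEq n] [Fintype Λ] (W : Λ → Matrix n n ℂ)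
    (ℓ : n → ℕ) (hW : ∀ μ x y, W μ x y ≠ 0 → ℓ x ≤ ℓ y + 2 ∧ ℓ y ≤ ℓ x + 2) {c : ℝ} (hc : 0 ≤ c)
    {R : ℕ} (h : ∀ μ (ξ η : n → ℂ), (∀ y, ξ y ≠ 0 → ℓ y ≤ R) → (∀ y, η y ≠ 0 → ℓ y ≤ R) →
      ‖star ξ ⬝ᵥ (W μ *ᵥ η)‖ ≤ c * (nn ξ * nn η)) (e : n → ℂ) (he : ∀ y, e y ≠ 0 → ℓ y ≤ 0)
    (m : ℕ) (hm : 4 * m ≤ R) :
    (∀ y, (((∑ μ, (W μ)ᴴ * W μ) ^ m) *ᵥ e) y ≠ 0 → ℓ y ≤ 4 * m) ∧
      nn (((∑ μ, (W μ)ᴴ * W μ) ^ m) *ᵥ e) ≤ (Fintype.card Λ * c ^ 2) ^ m * nn e := by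
  induction m with
  | zero => simpa using he
  | succ m ih =>
    obtain ⟨i1, i2⟩ := ih (by omega)
    rw [pow_succ', ← mulVec_mulVec]
    set η := ((∑ μ, (W μ)ᴴ * W μ) ^ m) *ᵥ e
    have s1 : ∀ μ y, (W μ *ᵥ η) y ≠ 0 → ℓ y ≤ 4 * m + 2 := fun μ =>
      supp_step (W μ) ℓ (fun x y hxy => (hW μ x y hxy).1) i1
    have s2 : ∀ μ y, ((W μ)ᴴ *ᵥ (W μ *ᵥ η)) y ≠ 0 → ℓ y ≤ 4 * m + 2 + 2 := fun μ =>
      supp_step (W μ)ᴴ ℓ (fun x y hxy => (hW μ y x (by simpa using hxy)).2) (s1 μ)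
    have n1 : ∀ μ, nn (W μ *ᵥ η) ≤ c * nn η := fun μ => by
      refine le_of_sq (norm_nonneg _) (mul_nonneg hc (norm_nonneg _)) ?_
      rw [nn_sq]
      refine (h μ _ η (fun y hy => (s1 μ y hy).trans (by omega))
        fun y hy => (i1 y hy).trans (by omega)).trans (le_of_eq (by ring))
    have n2 : ∀ μ, nn ((W μ)ᴴ *ᵥ (W μ *ᵥ η)) ≤ c * nn (W μ *ᵥ η) := fun μ => by
      refine le_of_sq (norm_nonneg _) (mul_nonneg hc (norm_nonneg _)) ?_
      rw [nn_sq, star_mulVec, conjTranspose_conjTranspose, ← dotProduct_mulVec]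
      refine (h μ _ _ (fun y hy => (s1 μ y hy).trans (by omega))
        fun y hy => (s2 μ y hy).trans (by omega)).trans (le_of_eq (by ring))
    rw [Matrix.sum_mulVec]
    simp only [← mulVec_mulVec]
    refine ⟨fun y hy => ?_, (nn_sum _).trans ?_⟩
    · rw [Finset.sum_apply] at hy
      obtain ⟨μ, -, hμ⟩ := Finset.exists_ne_zero_of_sum_ne_zero hy
      exact (s2 μ y hμ).trans (by omega)
    · refine (Finset.sum_le_sum fun μ _ => (n2 μ).trans (mul_le_mul_of_nonneg_left ((n1 μ).trans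
        (mul_le_mul_of_nonneg_left i2 hc)) hc)).trans (le_of_eq ?_)
      rw [Finset.sum_const, card_univ, nsmul_eq_mul]
      ring

end HTtreeAux

open Matrix in
theorem moment_bound {ι V L k Λ : Type} [Fintype ι] [DecidableEq ι] [Fintype V] [DecidableEq V]
    [Fintype L] [Fintype k] [DecidableEq k] [Fintype Λ] {lam : B →ₗ[ℂ] ℂ} (hl : IsSt lam)
    {d : L → k → B} (hd : ∀ ξ : k → ℂ,
      ∑ l, (lam (star (∑ p, ξ p • d l p) * ∑ p, ξ p • d l p)).re ≤ ∑ p, ‖ξ p‖ ^ 2)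
    {σ : ι → Equiv.Perm V} {ℓ : V → V → ℕ} {fst : V → V → Option ι} {N : ℕ}
    (h1 : ∀ i x, σ i (σ i x) = x) (h2 : ∀ v, ℓ v v = 0) (h3 : ∀ v i x, ℓ v (σ i x) ≤ ℓ v x + 1)
    (h4 : ∀ v i x, ℓ v x < 4 * N + 4 → (fst v (σ i x) = some i ↔ fst v x ≠ some i))
    (a b : Λ → ι → B) {κ : ℝ} (hκ : 0 ≤ κ) (hκ1 : κ ≤ 1)
    (ha : ∀ μ, ‖∑ i, star (a μ i) * a μ i‖ ≤ 1 ∧ ‖∑ i, a μ i * star (a μ i)‖ ≤ κ ^ 2)
    (hb : ∀ μ, ‖∑ i, star (b μ i) * b μ i‖ ≤ 1 ∧ ‖∑ i, b μ i * star (b μ i)‖ ≤ κ ^ 2) :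
    ((∑ μ, (Wm lam d σ (a μ) (b μ))ᴴ * Wm lam d σ (a μ) (b μ)) ^ N).trace.re ≤
      Fintype.card k * Fintype.card V * (Fintype.card Λ * (4 * κ) ^ 2) ^ N := by
  rw [Matrix.trace, Complex.re_sum, ← Nat.cast_mul, ← Fintype.card_prod, ← nsmul_eq_mul,
    ← card_univ, ← Finset.sum_const]
  refine Finset.sum_le_sum fun x _ => ?_
  have key : ∀ (ζ : k × V → ℂ), (∀ y, ζ y ≠ 0 → ℓ x.2 y.2 ≤ 4 * N) → ∀ y i, ζ y ≠ 0 →
      fst x.2 (σ i y.2) ≠ some i → fst x.2 y.2 = some i := fun ζ hζ y i hy hf => by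
    by_contra hc
    exact hf ((h4 x.2 i y.2 (by have := hζ y hy; omega)).2 hc)
  have two : ∀ i j y z, σ i y = σ j z → ℓ x.2 y ≤ ℓ x.2 z + 2 := fun i j y z e => by
    have a1 := h3 x.2 i (σ i y)
    have a2 := h3 x.2 j z
    rw [h1, e] at a1
    omega
  obtain ⟨-, hn⟩ := HTtreeAux.power_bound (fun μ => Wm lam d σ (a μ) (b μ)) (fun y => ℓ x.2 y.2)
    (fun μ y z hyz => by
      obtain ⟨i, -, hi⟩ := Finset.exists_ne_zero_of_sum_ne_zero hyz
      obtain ⟨j, -, hj⟩ := Finset.exists_ne_zero_of_sum_ne_zero hi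
      have e : σ i y.2 = σ j z.2 := by
        by_contra e
        exact hj (if_neg fun hh => e hh.2)
      exact ⟨two i j _ _ e, two j i _ _ e.symm⟩)
    (c := 4 * κ) (by positivity) (R := 4 * N)
    (fun μ ξ η hξ hη => HTtreeAux.form_bound hl hd h1 (a μ) (b μ) hκ hκ1 (ha μ) (hb μ) ξ η
      (key ξ hξ) (key η hη)) (Pi.single x 1)
    (fun y hy => by
      have : y = x := by
        by_contra e
        exact hy (Pi.single_eq_of_ne e _)
      rw [this, h2]) N le_rfl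
  have h5 : HTtreeAux.nn (Pi.single x (1 : ℂ) : k × V → ℂ) = 1 := by
    unfold HTtreeAux.nn
    rw [PiLp.toLp_single, PiLp.norm_single, norm_one]
  rw [h5, mul_one, mulVec_single_one] at hn
  refine (Complex.re_le_norm _).trans (le_trans ?_ hn)
  generalize (∑ μ, (Wm lam d σ (a μ) (b μ))ᴴ * Wm lam d σ (a μ) (b μ)) ^ N = Y
  exact PiLp.norm_apply_le (WithLp.toLp 2 (Y.col x) : EuclideanSpace ℂ (k × V)) x

end Vale.Agent.P095
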