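import Vale.Agent.P095.KM

/-! The reduction, packaged for layers of matrix units. -/

namespace Vale.Agent.P095
open Vale.Agent.P101 Vale.Agent.P101.JS Filter Topology Finset
open scoped ComplexOrder BoundedContinuousFunction symmDiff

universe u

namespace KM2Aux
variable {D : Type u} [CStarAlgebra D]

theorem comm_sym {x v : D} (a : Bool) (h : Commute x v) (h' : Commute x (star v)) :
    Commute x (sym a v) := by
  cases a
  · exact (h.sub_right h').smul_right _
  · exact h.add_right h'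

theorem comm {Λ κ : Type} {r : Λ → κ → D} (hsa : ∀ i g, IsSelfAdjoint (r i g))
    (hc : ∀ i j, i ≠ j → ∀ g h, Commute (r i g) (r j h)) {I J : Set Λ} (hIJ : Disjoint I J)
    {a b : D} (ha : a ∈ LG r I) (hb : b ∈ LG r J) : Commute a b := by
  have key : ∀ j ∈ J, ∀ h, Commute a (r j h) := fun j hj h =>
    (commute_gen (x := r j h) (by
      rintro _ ⟨i, hi, g, rfl⟩
      rw [(hsa i g).star_eq, and_self]
      exact hc j i (hIJ.symm.ne_of_mem hj hi) h g) a ha).symm
  refine commute_gen ?_ b hb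
  rintro _ ⟨j, hj, h, rfl⟩
  rw [(hsa j h).star_eq, and_self]
  exact key j hj h

end KM2Aux

/-- Layers of matrix units: estimates for independent layers hold for all traces. -/
theorem layer_reduce {M : Type u} [CStarAlgebra M] {Λ κ : Type} (v : Λ → κ → M) (S : Set M)
    (hv : ∀ i g, MU (v i g))
    (hc : ∀ i j, i ≠ j → ∀ g h, Commute (v i g) (v j h) ∧ Commute (v i g) (star (v j h)))
    (hS : ∀ y ∈ Gen S, ∀ i g, Commute (v i g) y) :
    ∃ (D : Type u) (_ : CStarAlgebra D) (j : D →⋆ₐ[ℂ] M) (r : Λ → κ × Bool → D),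
      Function.Injective j ∧ (∀ i g a, j (r i (g, a)) = sym a (v i g)) ∧
      (∀ y ∈ Gen S, ∃ y', j y' = y) ∧
      ∀ (w : D) (c : ℝ), (∀ τ, Lay τ r → Fac τ r → (τ w).re ≤ c) →
        ∀ τ, IsTracialState τ → (τ (j w)).re ≤ c := by
  let A := Gen (S ∪ {x | ∃ i g, x = sym g.2 (v i (g : κ × Bool).1)})
  let r : Λ → κ × Bool → A := fun i g =>
    ⟨sym g.2 (v i g.1), mem_gen_of_mem (Or.inr ⟨i, g, rfl⟩)⟩
  have hsa : ∀ i g, IsSelfAdjoint (r i g) := fun i g => Subtype.ext (sym_sa _ _)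
  have hsq : ∀ i g, r i g * r i g = 1 := fun i g => Subtype.ext ((hv i g.1).sym_sq _)
  have hc' : ∀ i j, i ≠ j → ∀ g h, Commute (r i g) (r j h) := fun i j hij g h => by
    have h1 := KM2Aux.comm_sym h.2 (hc i j hij g.1 h.1).1 (hc i j hij g.1 h.1).2
    exact Subtype.ext (KM2Aux.comm_sym g.2 h1.symm
      (by simpa [(sym_sa _ _).star_eq] using h1.symm.star_star)).symm
  refine ⟨A, inferInstance, A.subtype, r, Subtype.val_injective, fun _ _ _ => rfl,
    fun y hy => ⟨⟨y, gen_mono (fun x hx => mem_gen_of_mem (Or.inl hx)) hy⟩, rfl⟩,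
    fun w c h τ hτ => fac_reduce r (A.subtype ⁻¹' S) hsa hsq hc' (fun y hy i g => ?_) ?_ w c
      (fun σ hσ hF => h σ ⟨hσ, hsa, hsq, hc', fun i g => ?_, fun I J hIJ a ha b hb => hF J b hb a
        fun i hi g => KM2Aux.comm hsa hc' hIJ ha (mem_gen_of_mem ⟨i, hi, g, rfl⟩)⟩ hF) _
      (tr_comp hτ A.subtype)⟩
  · have h1 : (y : M) ∈ Gen S := gen_mono
      (fun x hx => mem_gen_of_mem (Set.image_preimage_subset _ _ hx)) (map_mem_gen A.subtype hy)
    exact Subtype.ext (KM2Aux.comm_sym g.2 (hS _ h1 i g.1).symm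
      (by simpa using (hS _ (star_mem h1) i g.1).symm.star_star))
  · refine eq_top_iff.2 fun y _ => ?_
    set T := Gen (A.subtype ⁻¹' S ∪ {x | ∃ i g, x = r i g})
    have h1 : A ≤ T.map A.subtype := by
      refine StarSubalgebra.topologicalClosure_minimal (StarAlgebra.adjoin_le ?_)
        ((gen_closed _).isClosedEmbedding_subtypeVal.isClosedMap _ (gen_closed _))
      rintro x (hx | ⟨i, g, rfl⟩)
      · exact ⟨⟨x, mem_gen_of_mem (Or.inl hx)⟩, mem_gen_of_mem (Or.inl hx), rfl⟩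
      · exact ⟨r i g, mem_gen_of_mem (Or.inr ⟨i, g, rfl⟩), rfl⟩
    obtain ⟨z, hz, e⟩ := h1 y.2
    rwa [← Subtype.ext e]
  · have h1 : r i g * r i (g.1, !g.2) = -(r i (g.1, !g.2) * r i g) := by
      obtain ⟨g, _ | _⟩ := g
      · exact Subtype.ext (neg_eq_iff_eq_neg.1 (hv i g).sym_anti.symm)
      · exact Subtype.ext (hv i g).sym_anti
    have h2 := hσ.2.2 (r i (g.1, !g.2) * r i g) (r i (g.1, !g.2))
    rw [← mul_assoc, hsq, one_mul, mul_assoc, h1, mul_neg, ← mul_assoc, hsq, one_mul,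
      map_neg] at h2
    linear_combination (-1 / 2 : ℂ) * h2

theorem Lay.comp {D : Type u} [CStarAlgebra D] {Λ κ κ' : Type} {τ : D →ₗ[ℂ] ℂ} {r : Λ → κ → D}
    (h : Lay τ r) (f : κ' → κ) : Lay τ fun i g => r i (f g) := by
  have e : ∀ I, LG (fun i g => r i (f g)) I ≤ LG r I := fun I =>
    gen_mono fun _ ⟨i, hi, g, e⟩ => mem_gen_of_mem ⟨i, hi, f g, e⟩
  exact ⟨h.tr, fun _ _ => h.sa _ _, fun _ _ => h.sq _ _, fun i j hij _ _ => h.comm i j hij _ _,
    fun _ _ => h.zero _ _, fun I J hIJ a ha b hb => h.ind I J hIJ a (e I ha) b (e J hb)⟩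

/-- Products over distinct blocks of layers factorize. -/
theorem Fac.prod {D : Type u} [CStarAlgebra D] {Λ κ ι : Type} {τ : D →ₗ[ℂ] ℂ} {r : Λ → κ → D}
    (h : Lay τ r) (hF : Fac τ r) (J : ι → Set Λ) (hJ : Pairwise fun b b' => Disjoint (J b) (J b'))
    (x : ι → D) (hx : ∀ b, x b ∈ LG r (J b)) (l : List ι) (hl : l.Nodup) (y : D)
    (hy : ∀ i g, Commute y (r i g)) :
    τ (y * (l.map x).prod) = τ y * (l.map fun b => τ (x b)).prod := by
  induction l with
  | nil => simp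
  | cons b l ih =>
    obtain ⟨h1, h2⟩ := List.nodup_cons.1 hl
    have h3 : ∀ z ∈ LG r (J b), Commute (l.map x).prod z := fun z hz =>
      Commute.list_prod_left _ _ fun _ hw => by
        obtain ⟨b', hb', rfl⟩ := List.mem_map.1 hw
        exact KM2Aux.comm h.sa h.comm (hJ (ne_of_mem_of_not_mem hb' h1)) (hx b') hz
    rw [List.map_cons, List.prod_cons, List.map_cons, List.prod_cons, ← (h3 _ (hx b)).eq,
      ← mul_assoc, hF (J b) _ (hx b) _ fun i hi g =>
        (hy i g).mul_left (h3 _ (mem_gen_of_mem ⟨i, hi, g, rfl⟩)), ih h2]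
    ring

theorem Lay.commute {D : Type u} [CStarAlgebra D] {Λ κ : Type} {τ : D →ₗ[ℂ] ℂ} {r : Λ → κ → D}
    (h : Lay τ r) {I J : Set Λ} (hIJ : Disjoint I J) {a b : D} (ha : a ∈ LG r I)
    (hb : b ∈ LG r J) : Commute a b := KM2Aux.comm h.sa h.comm hIJ ha hb

/-- A good system contains infinitely many commuting equivariant layers. -/
theorem TSys.Good.layers {G : Type} [Group G] [Countable G] {X : TSys.{u} G} (h : X.Good)
    (S : Set X.M) (hS : S.Countable) : ∃ v : ℕ → X.M, (∀ i, MU (v i)) ∧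
      (∀ i j, i ≠ j → ∀ g h, Commute (X.act.φ g (v i)) (X.act.φ h (v j)) ∧
        Commute (X.act.φ g (v i)) (star (X.act.φ h (v j)))) ∧
      ∀ y ∈ Gen S, ∀ i g, Commute (X.act.φ g (v i)) y := by
  choose f h1 h2 using h
  let T : ℕ → {S : Set X.M // S.Countable} := fun n => Nat.rec ⟨S, hS⟩
    (fun _ T => ⟨T.1 ∪ Set.range fun g => X.act.φ g (f T.1 T.2),
      T.2.union (Set.countable_range _)⟩) n
  have hm : Monotone fun n => (T n).1 := monotone_nat_of_le_succ fun n => Set.subset_union_left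
  have key : ∀ i j, j < i → ∀ h, X.act.φ h (f (T j).1 (T j).2) ∈ Gen (T i).1 := fun i j hij h =>
    mem_gen_of_mem (hm hij (Or.inr ⟨h, rfl⟩))
  refine ⟨fun n => f (T n).1 (T n).2, fun _ => h1 _ _, fun i j hij g h => ?_, fun y hy i g =>
    h2 _ _ g y (gen_mono (fun x hx => mem_gen_of_mem (hm i.zero_le hx)) hy)⟩
  rcases hij.lt_or_gt with hij | hij
  · exact ⟨(h2 _ _ h _ (key j i hij g)).symm,
      by simpa using (h2 _ _ h _ (star_mem (key j i hij g))).symm.star_star⟩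
  · exact ⟨h2 _ _ g _ (key i j hij h), h2 _ _ g _ (star_mem (key i j hij h))⟩

end Vale.Agent.P095
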