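import Vale.Agent.P095.Basic

/-! Tracial systems, independent layers and the second chaos. -/

namespace Vale.Agent.P095
open Vale.Agent.P101 Vale.Agent.P101.JS Filter Topology Finset
open scoped ComplexOrder BoundedContinuousFunction

universe u

/-- A unital C*-algebra with an action and an invariant set of tracial states. -/
structure TSys (G : Type) [Group G] where
  M : Type u
  [inst : CStarAlgebra M]
  act : Act G M
  T : Set (M →ₗ[ℂ] ℂ)
  tr : ∀ τ ∈ T, IsTracialState τ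
  inv : ∀ τ ∈ T, ∀ g, τ ∘ₗ (act.φ g).toAlgHom.toLinearMap ∈ T

attribute [instance] TSys.inst

namespace TSys
variable {G : Type} [Group G]

/-- Exact matrix units whose orbits commute with a given separable subalgebra. -/
def Good (X : TSys.{u} G) : Prop :=
  ∀ S : Set X.M, S.Countable → ∃ v, MU v ∧ ∀ g, ∀ y ∈ Gen S, Commute (X.act.φ g v) y

/-- Tracially approximate matrix units whose orbits commute with a given separable subalgebra. -/
def AGood (X : TSys.{u} G) : Prop :=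
  ∀ S : Set X.M, S.Countable → ∀ ε : ℝ, 0 < ε → ∃ v, ‖v‖ ≤ 1 ∧
    (∀ τ ∈ X.T, n2 τ (v * v) ≤ ε ∧ n2 τ (1 - star v * v - v * star v) ≤ ε) ∧
    ∀ g, ∀ y ∈ Gen S, Commute (X.act.φ g v) y

/-- A tracially approximate, tracially almost invariant matrix unit. -/
def Sol (X : TSys.{u} G) (K : Finset G) (ε C : ℝ) : Prop :=
  ∃ x : X.M, ‖x‖ ≤ C ∧ ∀ τ ∈ X.T, n2 τ (x * x) ≤ ε ∧ n2 τ (1 - star x * x - x * star x) ≤ ε ∧
    ∀ g ∈ K, n2 τ (X.act.φ g x - x) ≤ ε

/-- An extension that reflects solutions. -/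
structure Ext (X Y : TSys.{u} G) where
  ι : X.M →⋆ₐ[ℂ] Y.M
  equi : ∀ g x, Y.act.φ g (ι x) = ι (X.act.φ g x)
  le : ∀ (w : X.M) (c : ℝ), (∀ τ ∈ X.T, (τ w).re ≤ c) → ∀ τ ∈ Y.T, (τ (ι w)).re ≤ c
  desc : ∀ (K : Finset G) (ε C ε' C' : ℝ), ε < ε' → C < C' → Y.Sol K ε C → X.Sol K ε' C'

/-- Composition of extensions. -/
noncomputable def Ext.trans {X Y Z : TSys.{u} G} (E : Ext X Y) (F : Ext Y Z) : Ext X Z where
  ι := F.ι.comp E.ι
  equi g x := by
    change Z.act.φ g (F.ι (E.ι x)) = F.ι (E.ι _)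
    rw [F.equi, E.equi]
  le w c h := F.le _ c (E.le w c h)
  desc K ε C ε' C' h1 h2 h := E.desc K ((ε + ε') / 2) ((C + C') / 2) ε' C' (by linarith)
    (by linarith) (F.desc K ε C _ _ (by linarith) (by linarith) h)

theorem Ext.trans_ι {X Y Z : TSys.{u} G} (E : Ext X Y) (F : Ext Y Z) (x : X.M) :
    (E.trans F).ι x = F.ι (E.ι x) := rfl

theorem Ext.null {X Y : TSys.{u} G} (E : Ext X Y) {w : X.M} (h : ∀ τ ∈ X.T, τ w = 0) :
    ∀ τ ∈ Y.T, τ (E.ι w) = 0 := fun τ hτ => by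
  have k : ∀ c : ℂ, (c * τ (E.ι w)).re ≤ 0 := fun c => by
    have := E.le (c • w) 0 (fun σ hσ => by rw [map_smul, h σ hσ, smul_zero, Complex.zero_re])
      τ hτ
    rwa [map_smul, map_smul, smul_eq_mul] at this
  have k1 := k (starRingEnd ℂ (τ (E.ι w)))
  rw [Complex.conj_mul', ← Complex.ofReal_pow, Complex.ofReal_re] at k1
  exact norm_eq_zero.1 (pow_eq_zero_iff two_ne_zero |>.1 (le_antisymm k1 (sq_nonneg _)))

theorem Ext.mem_gen {X Y : TSys.{u} G} (E : Ext X Y) {S : Set X.M} {y : X.M} (hy : y ∈ Gen S) :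
    E.ι y ∈ Gen (E.ι '' S) := by
  have : Gen S ≤ (Gen (E.ι '' S)).comap E.ι :=
    StarSubalgebra.topologicalClosure_minimal
      (StarAlgebra.adjoin_le fun s hs => StarSubalgebra.le_topologicalClosure _
        (StarAlgebra.subset_adjoin ℂ _ ⟨s, hs, rfl⟩))
      ((gen_closed _).preimage (hom_cont E.ι))
  exact this hy

/-- A tracial ultrapower of `X`. -/
structure Ultra (X : TSys.{u} G) where
  Y : TSys.{u} G
  E : Ext X Y
  cl : (ℕ →ᵇ X.M) →⋆ₐ[ℂ] Y.M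
  cl_const : ∀ a, cl (BoundedContinuousFunction.const ℕ a) = E.ι a
  cl_act : ∀ g d, Y.act.φ g (cl d) = cl (compB (X.act.φ g) d)
  cl_eq_zero : ∀ d : ℕ →ᵇ X.M,
    (∀ ε : ℝ, 0 < ε → ∀ᶠ n in atTop, ∀ τ ∈ X.T, n2 τ (d n) ≤ ε) → cl d = 0
  tr_le : ∀ (d : ℕ →ᵇ X.M) (c : ℝ),
    (∀ ε : ℝ, 0 < ε → ∀ᶠ n in atTop, ∀ τ ∈ X.T, (τ (d n)).re ≤ c + ε) →
      ∀ τ ∈ Y.T, (τ (cl d)).re ≤ c
  good : X.AGood → Y.Good

/-- Equivariant commuting unitary labels that separate the translates of a matrix unit. -/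
structure Str (X : TSys.{u} G) (v : X.M) (U : Bool → X.M) : Prop where
  mu : MU v
  unit : ∀ a, U a ∈ unitary X.M
  comm : ∀ a b g h, Commute (X.act.φ g (U a)) (X.act.φ h (U b))
  comm_v : ∀ a g h, Commute (X.act.φ g (U a)) (X.act.φ h v)
  sep : ∀ τ ∈ X.T, ∀ a g h (k : ℕ), 1 ≤ k →
    τ ((X.act.φ g (sym a v) - X.act.φ h (sym a v)) ^ 2 *
      (X.act.φ g (U a) ^ k * star (X.act.φ h (U a)) ^ k)) = 0

/-- Equivariant commuting finite labels: equal labels force close translates. -/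
structure Lab (X : TSys.{u} G) {C : Type} [Fintype C] (v : X.M) (e : C → X.M) (η : ℝ) : Prop where
  mu : MU v
  proj : ∀ c, IsStarProjection (e c)
  sum : ∑ c, e c = 1
  comm : ∀ c c' g h, Commute (X.act.φ g (e c)) (X.act.φ h (e c'))
  comm_v : ∀ c g h, Commute (X.act.φ g (e c)) (X.act.φ h v)
  sep : ∀ τ ∈ X.T, ∀ g h, (τ (star (X.act.φ g v - X.act.φ h v) * (X.act.φ g v - X.act.φ h v) *
    ∑ c, X.act.φ g (e c) * X.act.φ h (e c))).re ≤ η

end TSys

section Layers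
variable {D : Type u} [CStarAlgebra D] {Λ κ : Type}

/-- The algebra generated by the layers in `I`. -/
abbrev LG (r : Λ → κ → D) (I : Set Λ) : StarSubalgebra ℂ D := Gen {x | ∃ i ∈ I, ∃ g, x = r i g}

/-- `τ` factorizes between a set of layers and its commutant. -/
def Fac (τ : D →ₗ[ℂ] ℂ) (r : Λ → κ → D) : Prop :=
  ∀ (J : Set Λ), ∀ b ∈ LG r J, ∀ a, (∀ i ∈ J, ∀ g, Commute a (r i g)) → τ (a * b) = τ a * τ b

/-- Independent layers of centred symmetries. -/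
structure Lay (τ : D →ₗ[ℂ] ℂ) (r : Λ → κ → D) : Prop where
  tr : IsTracialState τ
  sa : ∀ i g, IsSelfAdjoint (r i g)
  sq : ∀ i g, r i g * r i g = 1
  comm : ∀ i j, i ≠ j → ∀ g h, Commute (r i g) (r j h)
  zero : ∀ i g, τ (r i g) = 0
  ind : ∀ I J : Set Λ, Disjoint I J → ∀ a ∈ LG r I, ∀ b ∈ LG r J, τ (a * b) = τ a * τ b

variable [DecidableEq Λ] [DecidableEq κ]

/-- The empirical covariance. -/
noncomputable def What (r : Λ → κ → D) (L : Finset Λ) (g h : κ) : D :=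
  ((#L : ℝ)⁻¹) • ∑ i ∈ L, r i g * r i h

/-- The covariance. -/
noncomputable def Wbar (τ : D →ₗ[ℂ] ℂ) (r : Λ → κ → D) (L : Finset Λ) (g h : κ) : ℝ :=
  (τ (What r L g h)).re

/-- The entries of `(w W)^k w`, where `w` is the uniform weight on `K`. -/
noncomputable def Pw {R : Type*} [Ring R] [Algebra ℝ R] (W : κ → κ → R) (K : Finset κ) :
    ℕ → κ → κ → R
  | 0, g, h => if g = h then ((#K : ℝ)⁻¹) • (1 : R) else 0
  | k + 1, g, h => ((#K : ℝ)⁻¹) • ∑ g' ∈ K, W g g' * Pw W K k g' h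

/-- The coefficient matrix `∑ c k (w W)^k w`, extended by zero outside `K × K`. -/
noncomputable def Cf {R : Type*} [Ring R] [Algebra ℝ R] (c : ℕ → ℝ) (d : ℕ) (W : κ → κ → R)
    (K : Finset κ) (g h : κ) : R :=
  if g ∈ K ∧ h ∈ K then ∑ k ∈ range d, c k • Pw W K k g h else 0

/-- The elementary second chaos. -/
noncomputable def Zel (r : Λ → κ → D) (L : Finset Λ) (g h : κ) : D :=
  ((#L : ℝ)⁻¹) • ∑ i ∈ L, ∑ j ∈ L.erase i, r i g * r j h

/-- The second chaos with scalar coefficients. -/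
noncomputable def Y0 (r : Λ → κ → D) (L : Finset Λ) (K : Finset κ) (C : κ → κ → ℝ) : D :=
  ∑ g ∈ K, ∑ h ∈ K, C g h • Zel r L g h

/-- The second chaos with empirical coefficients. -/
noncomputable def Yhat (r : Λ → κ → D) (L : Finset Λ) (K : Finset κ) (c : ℕ → ℝ) (d : ℕ) : D :=
  ∑ g ∈ K, ∑ h ∈ K, Cf c d (What r L) K g h * Zel r L g h

/-- Its self-adjoint part. -/
noncomputable def Ysa (r : Λ → κ → D) (L : Finset Λ) (K : Finset κ) (c : ℕ → ℝ) (d : ℕ) : D :=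
  (2⁻¹ : ℝ) • (Yhat r L K c d + star (Yhat r L K c d))

/-- The squared Hilbert-Schmidt norm of `W^{1/2} C W^{1/2}`. -/
noncomputable def Qf (W : κ → κ → ℝ) (K : Finset κ) (C : κ → κ → ℝ) : ℝ :=
  ∑ g ∈ K, ∑ h ∈ K, ∑ g' ∈ K, ∑ h' ∈ K, C g h * C g' h' * W g g' * W h h'

/-- A real symmetric positive semidefinite kernel with unit diagonal. -/
structure Corr (W : κ → κ → ℝ) : Prop where
  symm : ∀ g h, W g h = W h g
  diag : ∀ g, W g g = 1
  psd : ∀ (s : Finset κ) (x : κ → ℝ), 0 ≤ ∑ g ∈ s, ∑ h ∈ s, x g * W g h * x h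

/-- The rotation `cos s + i sin s r`. -/
noncomputable def rot (s : ℝ) (r : D) : D :=
  (Real.cos s : ℂ) • (1 : D) + (Complex.I * Real.sin s) • r

/-- The product of the rotations over a list of layers. -/
noncomputable def Urot (s : ℝ) (r : Λ → D) (l : List Λ) : D := (l.map fun i => rot s (r i)).prod

end Layers

end Vale.Agent.P095
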