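import Vale.Agent.P095.Tr
import Vale.Agent.P095.TDefs

/-! Tracial ultrapowers exist. -/

namespace Vale.Agent.P095
open Vale.Agent.P101 Vale.Agent.P101.JS Filter Topology Finset
open scoped ComplexOrder BoundedContinuousFunction symmDiff

universe u

namespace TUltraAux
variable {G : Type} [Group G] (X : TSys.{u} G)

/-- Sequences that are tracially null along the hyperfilter. -/
def J : Ideal (ℕ →ᵇ X.M) where
  carrier := {d | ∀ t : ℕ → X.M →ₗ[ℂ] ℂ, (∀ n, t n ∈ X.T) →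
    Tendsto (fun n => n2 (t n) (d n)) (hyperfilter ℕ) (𝓝 0)}
  add_mem' := fun {x y} hx hy t ht => squeeze_zero (fun _ => n2_nonneg _ _)
    (fun n => n2_add (tr_st (X.tr _ (ht n))) (x n) (y n))
    (by simpa using Tendsto.add (hx t ht) (hy t ht))
  zero_mem' := fun t _ => (tendsto_const_nhds (x := (0 : ℝ))).congr fun n => (n2_zero (t n)).symm
  smul_mem' := fun c x hx t ht => squeeze_zero (fun _ => n2_nonneg _ _)
    (fun n => (n2_mul_left (tr_st (X.tr _ (ht n))) (c n) (x n)).trans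
      (mul_le_mul_of_nonneg_right (c.norm_coe_le_norm n) (n2_nonneg _ _)))
    (by simpa using Tendsto.const_mul ‖c‖ (hx t ht))

instance J_two : (J X).IsTwoSided :=
  ⟨fun {x} c hx t ht => squeeze_zero (fun _ => n2_nonneg _ _)
    (fun n => (n2_mul_right (X.tr _ (ht n)) (x n) (c n)).trans
      (mul_le_mul_of_nonneg_left (c.norm_coe_le_norm n) (n2_nonneg _ _)))
    (by simpa using Tendsto.mul_const ‖c‖ (hx t ht))⟩

instance J_star : IsStarIdeal (J X) :=
  ⟨fun x hx t ht => Tendsto.congr (fun n => (n2_star (X.tr _ (ht n)) (x n)).symm) (hx t ht)⟩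

instance J_closed : IsClosed (J X : Set (ℕ →ᵇ X.M)) := by
  refine isClosed_of_closure_subset fun x hx t ht => ?_
  refine Metric.tendsto_nhds.2 fun ε hε => ?_
  obtain ⟨y, hy, h⟩ := Metric.mem_closure_iff.1 hx (ε / 2) (half_pos hε)
  filter_upwards [Metric.tendsto_nhds.1 (hy t ht) (ε / 2) (half_pos hε)] with n hn
  have hs := tr_st (X.tr _ (ht n))
  rw [Real.dist_eq, sub_zero, abs_of_nonneg (n2_nonneg _ _)] at hn ⊢
  have h1 := n2_add hs (x n - y n) (y n)
  have h2 := n2_le_norm hs (x n - y n)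
  have h3 : ‖x n - y n‖ ≤ ‖x - y‖ := (x - y).norm_coe_le_norm n
  rw [dist_eq_norm] at h
  rw [sub_add_cancel] at h1
  linarith

/-- The quotient. -/
abbrev Q : Type u := (ℕ →ᵇ X.M) ⧸ J X

noncomputable instance QC : CStarAlgebra (Q X) := quotCStarAlgebra _

/-- The class map. -/
noncomputable def q : (ℕ →ᵇ X.M) →⋆ₐ[ℂ] Q X := qmk (J X)

theorem q_surj (y : Q X) : ∃ x, q X x = y := Ideal.Quotient.mk_surjective y

theorem q_zero {d : ℕ →ᵇ X.M} : q X d = 0 ↔ d ∈ J X := Ideal.Quotient.eq_zero_iff_mem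

theorem exists_act (g : G) : ∃ F : Q X →⋆ₐ[ℂ] Q X,
    ∀ d, F (q X d) = q X (compB (X.act.φ g) d) := by
  let H := (q X).comp (compB (X.act.φ g))
  have hH : ∀ x ∈ J X, (H : (ℕ →ᵇ X.M) →ₐ[ℂ] Q X) x = 0 := fun x hx =>
    (q_zero X).2 fun t ht => by
      refine (hx (fun n => t n ∘ₗ (X.act.φ g).toAlgHom.toLinearMap)
        fun n => X.inv _ (ht n) g).congr fun n => ?_
      exact n2_comp (X.act.φ g) (x n)
  exact ⟨{ Ideal.Quotient.liftₐ (J X) (H : (ℕ →ᵇ X.M) →ₐ[ℂ] Q X) hH with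
    map_star' := by rintro ⟨x⟩; exact map_star H x }, fun x => rfl⟩

/-- The action on the quotient. -/
noncomputable def act : Act G (Q X) where
  φ g := (exists_act X g).choose
  one x := by
    obtain ⟨x, rfl⟩ := q_surj X x
    rw [(exists_act X 1).choose_spec]; congr 1; ext n; exact X.act.one _
  mul g h x := by
    obtain ⟨x, rfl⟩ := q_surj X x
    rw [(exists_act X _).choose_spec, (exists_act X _).choose_spec, (exists_act X _).choose_spec]
    congr 1; ext n; exact X.act.mul _ _ _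

theorem act_q (g : G) (d : ℕ →ᵇ X.M) : (act X).φ g (q X d) = q X (compB (X.act.φ g) d) :=
  (exists_act X g).choose_spec d

/-- Limit traces. -/
def Lim (t : ℕ → X.M →ₗ[ℂ] ℂ) (σ : Q X →ₗ[ℂ] ℂ) : Prop :=
  ∀ d : ℕ →ᵇ X.M, Tendsto (fun n => t n (d n)) (hyperfilter ℕ) (𝓝 (σ (q X d)))

theorem exists_lim (t : ℕ → X.M →ₗ[ℂ] ℂ) (ht : ∀ n, t n ∈ X.T) : ∃ σ, Lim X t σ := by
  have h1 : ∀ d : ℕ →ᵇ X.M, ∃ c, Tendsto (fun n => t n (d n)) (hyperfilter ℕ) (𝓝 c) := fun d => by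
    obtain ⟨c, -, hc⟩ := (isCompact_closedBall (0 : ℂ) ‖d‖).ultrafilter_le_nhds
      ((hyperfilter ℕ).map fun n => t n (d n)) (by
        rw [Ultrafilter.coe_map, le_principal_iff, Filter.mem_map]
        refine Eventually.of_forall fun n => ?_
        rw [mem_closedBall_zero_iff]
        exact ((tr_st (X.tr _ (ht n))).norm_le _).trans (d.norm_coe_le_norm n))
    exact ⟨c, hc⟩
  choose L hL using h1
  let L' : (ℕ →ᵇ X.M) →ₗ[ℂ] ℂ :=
    { toFun := L
      map_add' := fun x y => tendsto_nhds_unique (hL (x + y))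
        (((hL x).add (hL y)).congr fun n => (map_add (t n) (x n) (y n)).symm)
      map_smul' := fun c x => tendsto_nhds_unique (hL (c • x))
        (((hL x).const_smul c).congr fun n => (map_smul (t n) c (x n)).symm) }
  have h0 : ∀ d ∈ J X, L d = 0 := fun d hd => tendsto_nhds_unique (hL d)
    (squeeze_zero_norm (fun n => norm_le_n2 (tr_st (X.tr _ (ht n))) (d n)) (hd t ht))
  have h2 : ∀ x y, q X x = q X y → L x = L y := fun x y hxy => by
    have := h0 (x - y) ((q_zero X).1 (by rw [map_sub, hxy, sub_self]))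
    change L' (x - y) = 0 at this
    rw [map_sub, sub_eq_zero] at this
    exact this
  choose s hs using q_surj X
  refine ⟨{ toFun := fun y => L (s y)
            map_add' := fun x y => ?_
            map_smul' := fun c x => ?_ }, fun d => ?_⟩
  · rw [h2 (s (x + y)) (s x + s y) (by rw [map_add, hs, hs, hs])]
    exact map_add L' _ _
  · rw [h2 (s (c • x)) (c • s x) (by rw [map_smul, hs, hs])]
    exact map_smul L' _ _
  · change Tendsto _ _ (𝓝 (L (s (q X d))))
    rw [h2 _ d (hs _)]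
    exact hL d

variable {X}

theorem Lim.tr {t : ℕ → X.M →ₗ[ℂ] ℂ} (ht : ∀ n, t n ∈ X.T) {σ : Q X →ₗ[ℂ] ℂ} (h : Lim X t σ) :
    IsTracialState σ := by
  refine ⟨?_, fun x => ?_, fun x y => ?_⟩
  · have := h 1
    rw [map_one] at this
    exact tendsto_nhds_unique this (tendsto_const_nhds.congr fun n => (X.tr _ (ht n)).1.symm)
  · obtain ⟨x, rfl⟩ := q_surj X x
    have := h (star x * x)
    rw [map_mul, map_star] at this
    exact ge_of_tendsto' this fun n => (X.tr _ (ht n)).2.1 (x n)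
  · obtain ⟨x, rfl⟩ := q_surj X x
    obtain ⟨y, rfl⟩ := q_surj X y
    rw [← map_mul, ← map_mul]
    exact tendsto_nhds_unique (h (x * y)) ((h (y * x)).congr fun n => (X.tr _ (ht n)).2.2 _ _)

theorem Lim.n2 {t : ℕ → X.M →ₗ[ℂ] ℂ} {σ : Q X →ₗ[ℂ] ℂ} (h : Lim X t σ) (d : ℕ →ᵇ X.M) :
    Tendsto (fun n => n2 (t n) (d n)) (hyperfilter ℕ) (𝓝 (n2 σ (q X d))) := by
  have := h (star d * d)
  rw [map_mul, map_star] at this
  exact ((Complex.continuous_re.tendsto _).comp this).sqrt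

variable (X)

/-- The tracial ultrapower. -/
noncomputable def Y : TSys.{u} G where
  M := Q X
  act := act X
  T := {σ | ∃ t : ℕ → X.M →ₗ[ℂ] ℂ, (∀ n, t n ∈ X.T) ∧ Lim X t σ}
  tr := fun _ ⟨_, ht, h⟩ => h.tr ht
  inv := fun σ ⟨t, ht, h⟩ g => ⟨fun n => t n ∘ₗ (X.act.φ g).toAlgHom.toLinearMap,
    fun n => X.inv _ (ht n) g, fun d => by
      change Tendsto _ _ (𝓝 (σ ((act X).φ g (q X d))))
      rw [act_q]
      exact h (compB (X.act.φ g) d)⟩

theorem tr_le (d : ℕ →ᵇ X.M) (c : ℝ)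
    (hd : ∀ ε : ℝ, 0 < ε → ∀ᶠ n in atTop, ∀ τ ∈ X.T, (τ (d n)).re ≤ c + ε) :
    ∀ τ ∈ (Y X).T, (τ (q X d)).re ≤ c := by
  rintro σ ⟨t, ht, h⟩
  refine le_of_forall_pos_le_add fun ε hε => ?_
  refine le_of_tendsto ((Complex.continuous_re.tendsto _).comp (h d)) ?_
  filter_upwards [Nat.hyperfilter_le_atTop (hd ε hε)] with n hn using hn _ (ht n)

theorem q_eq_zero (d : ℕ →ᵇ X.M)
    (hd : ∀ ε : ℝ, 0 < ε → ∀ᶠ n in atTop, ∀ τ ∈ X.T, n2 τ (d n) ≤ ε) : q X d = 0 := by
  refine (q_zero X).2 fun t ht => Metric.tendsto_nhds.2 fun ε hε => ?_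
  filter_upwards [Nat.hyperfilter_le_atTop (hd (ε / 2) (half_pos hε))] with n hn
  rw [Real.dist_eq, sub_zero, abs_of_nonneg (n2_nonneg _ _)]
  linarith [hn _ (ht n)]

/-- Constant sequences. -/
noncomputable def cst : X.M →⋆ₐ[ℂ] (ℕ →ᵇ X.M) where
  toFun := BoundedContinuousFunction.const ℕ
  map_one' := rfl
  map_mul' := fun _ _ => rfl
  map_zero' := rfl
  map_add' := fun _ _ => rfl
  commutes' := fun _ => rfl
  map_star' := fun _ => rfl

theorem desc (K : Finset G) (ε C ε' C' : ℝ) (h1 : ε < ε') (h2 : C < C') (h : (Y X).Sol K ε C) :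
    X.Sol K ε' C' := by
  obtain ⟨x, hx, h⟩ := h
  obtain ⟨d, hd, hd'⟩ := norm_mk_lt (I := J X) x (sub_pos.2 h2)
  obtain rfl : q X d = x := hd
  by_contra hc
  have h3 : ∀ n, ∃ τ ∈ X.T, ¬(n2 τ (d n * d n) ≤ ε' ∧
      n2 τ (1 - star (d n) * d n - d n * star (d n)) ≤ ε' ∧
      ∀ g ∈ K, n2 τ (X.act.φ g (d n) - d n) ≤ ε') := fun n => by
    by_contra h4
    push Not at h4
    refine hc ⟨d n, (d.norm_coe_le_norm n).trans ?_, h4⟩
    have : ‖q X d‖ ≤ C := hx
    have h5 : ‖d‖ < ‖q X d‖ + (C' - C) := hd'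
    linarith
  choose t ht h3 using h3
  obtain ⟨σ, hσ⟩ := exists_lim X t ht
  obtain ⟨a1, a2, a3⟩ := h σ ⟨t, ht, hσ⟩
  have b1 := (hσ.n2 (d * d)).eventually (gt_mem_nhds (a := ε') (by
    rw [map_mul]; exact a1.trans_lt h1))
  have b2 := (hσ.n2 (1 - star d * d - d * star d)).eventually (gt_mem_nhds (a := ε') (by
    rw [map_sub, map_sub, map_mul, map_mul, map_star, map_one]; exact a2.trans_lt h1))
  have b3 : ∀ᶠ n in hyperfilter ℕ, ∀ g ∈ K, n2 (t n) (X.act.φ g (d n) - d n) < ε' :=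
    (eventually_all_finset K).2 fun g hg =>
      (hσ.n2 (compB (X.act.φ g) d - d)).eventually (gt_mem_nhds (a := ε') (by
        rw [map_sub, ← act_q]; exact (a3 g hg).trans_lt h1))
  obtain ⟨n, c1, c2, c3⟩ := (b1.and (b2.and b3)).exists
  exact h3 n ⟨c1.le, c2.le, fun g hg => (c3 g hg).le⟩

theorem good (h : X.AGood) : (Y X).Good := by
  intro S hS
  choose s hs using q_surj X
  have h1 : ∀ n : ℕ, ∃ v, ‖v‖ ≤ 1 ∧
      (∀ τ ∈ X.T, n2 τ (v * v) ≤ 1 / ((n : ℝ) + 1) ∧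
        n2 τ (1 - star v * v - v * star v) ≤ 1 / ((n : ℝ) + 1)) ∧
      ∀ g, ∀ y ∈ Gen ((fun y => s y n) '' S), Commute (X.act.φ g v) y := fun n =>
    h _ (hS.image _) _ Nat.one_div_pos_of_nat
  choose v v1 v2 v3 using h1
  have ev : ∀ ε : ℝ, 0 < ε → ∀ᶠ n : ℕ in atTop, 1 / ((n : ℝ) + 1) ≤ ε := fun ε hε =>
    (tendsto_one_div_add_atTop_nhds_zero_nat (𝕜 := ℝ)).eventually (ge_mem_nhds hε)
  let d := seqB v 1 v1
  refine ⟨q X d, ⟨?_, ?_⟩, fun g => commute_gen fun y hy => ?_⟩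
  · change q X d * q X d = 0
    rw [← map_mul]
    refine q_eq_zero X _ fun ε hε => ?_
    filter_upwards [ev ε hε] with n hn τ hτ using (v2 n τ hτ).1.trans hn
  · change star (q X d) * q X d + q X d * star (q X d) = 1
    have : q X (1 - star d * d - d * star d) = 0 := by
      refine q_eq_zero X _ fun ε hε => ?_
      filter_upwards [ev ε hε] with n hn τ hτ using (v2 n τ hτ).2.trans hn
    rw [map_sub, map_sub, map_mul, map_mul, map_star, map_one, sub_sub, sub_eq_zero] at this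
    exact this.symm
  · have k : ∀ e : ℕ →ᵇ X.M, (∀ n, e n ∈ Gen ((fun y => s y n) '' S)) →
        Commute ((act X).φ g (q X d)) (q X e) := fun e he => by
      rw [act_q]
      refine Commute.map ?_ (q X)
      ext n
      exact (v3 n g _ (he n)).eq
    have m : ∀ n, s y n ∈ Gen ((fun y => s y n) '' S) := fun n => mem_gen_of_mem ⟨y, hy, rfl⟩
    have k1 := k (s y) m
    have k2 := k (star (s y)) fun n => star_mem (m n)
    rw [map_star] at k2
    rw [hs y] at k1 k2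
    exact ⟨k1, k2⟩

end TUltraAux

theorem TSys.exists_ultra {G : Type} [Group G] [Countable G] (X : TSys.{u} G) :
    Nonempty X.Ultra :=
  ⟨{ Y := TUltraAux.Y X
     E :=
      { ι := (TUltraAux.q X).comp (TUltraAux.cst X)
        equi := fun g x => TUltraAux.act_q X g _
        le := fun w c h => TUltraAux.tr_le X _ c fun ε hε =>
          Eventually.of_forall fun n τ hτ => (h τ hτ).trans (le_add_of_nonneg_right hε.le)
        desc := TUltraAux.desc X }
     cl := TUltraAux.q X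
     cl_const := fun _ => rfl
     cl_act := TUltraAux.act_q X
     cl_eq_zero := TUltraAux.q_eq_zero X
     tr_le := TUltraAux.tr_le X
     good := TUltraAux.good X }⟩

theorem TSys.Good.agood {G : Type} [Group G] {X : TSys.{u} G} (h : X.Good) : X.AGood := by
  intro S hS ε hε
  obtain ⟨v, hv, h2⟩ := h S hS
  refine ⟨v, hv.norm_le, fun τ _ => ⟨?_, ?_⟩, h2⟩
  · rw [hv.1, n2_zero]; exact hε.le
  · rw [sub_sub, hv.2, sub_self, n2_zero]; exact hε.le

theorem TSys.Ultra.tr_eq_zero {G : Type} [Group G] {X : TSys.{u} G} (U : X.Ultra)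
    (d : ℕ →ᵇ X.M) (h : ∀ ε : ℝ, 0 < ε → ∀ᶠ n in atTop, ∀ τ ∈ X.T, ‖τ (d n)‖ ≤ ε) :
    ∀ τ ∈ U.Y.T, τ (U.cl d) = 0 := by
  intro τ hτ
  set z := τ (U.cl d)
  have k := U.tr_le (starRingEnd ℂ z • d) 0 (fun ε hε => by
    filter_upwards [h (ε / (‖z‖ + 1)) (by positivity)] with n hn σ hσ
    change (σ (starRingEnd ℂ z • d n)).re ≤ _
    rw [map_smul, smul_eq_mul, zero_add]
    refine (Complex.re_le_norm _).trans ?_
    rw [norm_mul, Complex.norm_conj]
    have := hn σ hσ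
    rw [le_div_iff₀ (by positivity)] at this
    nlinarith [norm_nonneg (σ (d n))]) τ hτ
  rw [map_smul, map_smul, smul_eq_mul, Complex.conj_mul', ← Complex.ofReal_pow,
    Complex.ofReal_re] at k
  exact norm_eq_zero.1 (pow_eq_zero_iff two_ne_zero |>.1 (le_antisymm k (sq_nonneg _)))

end Vale.Agent.P095
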