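import Vale.Agent.P095.ChaosHat
import Vale.Agent.P095.TUltra
import Vale.Agent.P095.KM2

/-! Invariant Haar unitaries, independent of a given subalgebra. -/

namespace Vale.Agent.P095
open Vale.Agent.P101 Vale.Agent.P101.JS Filter Topology Finset
open scoped ComplexOrder BoundedContinuousFunction symmDiff

universe u

namespace HaarAux

theorem prod_pow {R ι : Type*} [Monoid R] (x : ι → R) (hx : ∀ a b, Commute (x a) (x b)) (k : ℕ)
    (l : List ι) : (l.map x).prod ^ k = (l.map fun a => x a ^ k).prod := by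
  induction l with
  | nil => simp
  | cons a l ih =>
    rw [List.map_cons, List.prod_cons, List.map_cons, List.prod_cons, ← ih]
    refine Commute.mul_pow (Commute.list_prod_right _ _ fun y hy => ?_) k
    obtain ⟨b, -, rfl⟩ := List.mem_map.1 hy
    exact hx a b

theorem norm_prod {ι : Type*} (x : ι → ℂ) {ρ : ℝ} (hx : ∀ a, ‖x a‖ ≤ ρ) (hρ : 0 ≤ ρ) (l : List ι) :
    ‖(l.map x).prod‖ ≤ ρ ^ l.length := by
  induction l with
  | nil => simp
  | cons a l ih =>
    rw [List.map_cons, List.prod_cons, List.length_cons, pow_succ', norm_mul]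
    exact mul_le_mul (hx a) ih (norm_nonneg _) hρ

theorem norm_unitary {B : Type u} [CStarAlgebra B] {w : B} (hw : w ∈ unitary B) : ‖w‖ ≤ 1 := by
  have h1 : ‖w‖ * ‖w‖ ≤ 1 := by
    rw [← CStarRing.norm_star_mul_self, (Unitary.mem_iff.1 hw).1]; exact norm_one_le'
  nlinarith [norm_nonneg w]

/-- The blocks of layers. -/
def blk (m b : ℕ) : Finset ℕ := Finset.Ico (b * m) ((b + 1) * m)

theorem card_blk (m b : ℕ) : #(blk m b) = m := by
  rw [blk, Nat.card_Ico, add_mul, one_mul, Nat.add_sub_cancel_left]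

theorem blk_disj (m : ℕ) :
    Pairwise fun b b' => Disjoint (blk m b : Set ℕ) (blk m b' : Set ℕ) := by
  have key : ∀ b b', b < b' → Disjoint (blk m b : Set ℕ) (blk m b' : Set ℕ) := by
    intro b b' h
    refine Set.disjoint_left.2 fun i hi hi' => ?_
    simp only [blk, Finset.coe_Ico, Set.mem_Ico] at hi hi'
    have := Nat.mul_le_mul_right m (Nat.succ_le_of_lt h)
    exact absurd (hi.2.trans_le (this.trans hi'.1)) (lt_irrefl _)
  intro b b' h
  rcases lt_or_gt_of_ne h with h | h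
  · exact key _ _ h
  · exact (key _ _ h).symm

/-- The unitary built from `B` blocks. -/
noncomputable def ww {D : Type u} [CStarAlgebra D] {κ : Type} [DecidableEq κ] (r : ℕ → κ → D)
    (s : ℝ) (m B : ℕ) (K : Finset κ) (c : ℕ → ℝ) (d : ℕ) : D :=
  ((List.range B).map fun b => ex s (Ysa r (blk m b) K c d)).prod

theorem map_ww {D E : Type u} [CStarAlgebra D] [CStarAlgebra E] (φ : D →⋆ₐ[ℂ] E) {κ : Type}
    [DecidableEq κ] (r : ℕ → κ → D) (s : ℝ) (m B : ℕ) (K : Finset κ) (c : ℕ → ℝ) (d : ℕ) :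
    φ (ww r s m B K c d) = ww (fun i g => φ (r i g)) s m B K c d := by
  rw [ww, map_list_prod, List.map_map, ww]
  congr 2
  funext b
  rw [Function.comp_apply, map_ex, map_ysa]

theorem comm_sym {B : Type u} [CStarAlgebra B] {S : Set B} {v : B}
    (h : ∀ y ∈ Gen S, Commute v y) (a : Bool) {y : B} (hy : y ∈ Gen S) : Commute y (sym a v) := by
  have h1 := (h y hy).symm
  have h2 : Commute y (star v) := by
    have := (h _ (star_mem hy)).star_star
    rw [star_star] at this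
    exact this.symm
  unfold sym
  split_ifs
  · exact h1.add_right h2
  · exact (h1.sub_right h2).smul_right _

theorem exists_exhaust (G : Type) [Group G] [DecidableEq G] [Countable G] :
    ∃ K : ℕ → Finset G, ∀ g, ∀ᶠ n in atTop, g ∈ K n := by
  obtain ⟨f, hf⟩ := exists_surjective_nat G
  refine ⟨fun n => (range n).image f, fun g => ?_⟩
  obtain ⟨i, rfl⟩ := hf g
  filter_upwards [eventually_gt_atTop i] with n hn
  exact Finset.mem_image_of_mem _ (Finset.mem_range.2 hn)

end HaarAux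

open HaarAux

variable {G : Type} [Group G] [DecidableEq G] [Countable G]

theorem TSys.Good.haar_approx {X : TSys.{u} G} (h : X.Good) (hG : Folner G) (S : Set X.M)
    (hS : S.Countable) (k₀ : ℕ) (K : Finset G) (ε : ℝ) (hε : 0 < ε) :
    ∃ w ∈ unitary X.M, (∀ y ∈ Gen S, Commute w y) ∧ ∀ τ, IsTracialState τ →
      (∀ g ∈ K, n2 τ (X.act.φ g w - w) ≤ ε) ∧
      ∀ y ∈ Gen S, ∀ k, 1 ≤ k → k ≤ k₀ → ‖τ (y * w ^ k)‖ ≤ ε * ‖y‖ := by
  obtain ⟨θ₀, hθ₀, hblock⟩ := block_bound.{u}
  set s := θ₀ / (k₀ + 1) with hs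
  have hs0 : 0 < s := by positivity
  obtain ⟨B, hB⟩ := exists_pow_lt_of_lt_one hε (show max (1 - s ^ 2 / 8) 0 < 1 from
    max_lt (by linarith [sq_pos_of_pos hs0]) one_pos)
  set η := ε / (2 * (B * s + 1)) with hη
  have hη0 : 0 < η := by positivity
  obtain ⟨K', hK', hF⟩ := hG K (η ^ 2 / 6) (by positivity)
  have hN : 0 < #K' := Finset.card_pos.2 hK'
  obtain ⟨d, m, c, hbl⟩ := hblock (#K') (min (s ^ 2 / 8) η) hN (lt_min (by positivity) hη0)
  obtain ⟨v, hv, hvc, hvS⟩ := h.layers S hS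
  obtain ⟨D, _, j, r, hj, hr, hy', hred⟩ := layer_reduce (fun i g => X.act.φ g (v i)) S
    (fun i g => (hv i).map _) hvc hvS
  have hjw : ∀ K'' : Finset G, j (ww (fun i g => r i (g, true)) s m B K'' c d) =
      ww (fun i g => sym true (X.act.φ g (v i))) s m B K'' c d := by
    intro K''
    rw [map_ww]
    simp only [hr]
  refine ⟨ww (fun i g => sym true (X.act.φ g (v i))) s m B K' c d, ?_, fun y hy => ?_,
    fun τ hτ => ⟨fun g hg => ?_, fun y hy k hk1 hk2 => ?_⟩⟩
  · refine list_prod_mem fun x hx => ?_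
    obtain ⟨b, -, rfl⟩ := List.mem_map.1 hx
    exact ex_unitary _ (ysa_sa _ _ _ _ _)
  · refine Commute.list_prod_left _ _ fun x hx => ?_
    obtain ⟨b, -, rfl⟩ := List.mem_map.1 hx
    refine (commute_gen ?_ _ (ex_mem_gen s (ysa_mem _ _ _ _ _))).symm
    rintro _ ⟨i, -, g, rfl⟩
    have h1 := comm_sym (fun y hy => hvS y hy i g) true hy
    exact ⟨h1, by rwa [(sym_sa _ _).star_eq]⟩
  · have h1 : X.act.φ g (ww (fun i g => sym true (X.act.φ g (v i))) s m B K' c d) =
        ww (fun i g => sym true (X.act.φ g (v i))) s m B (K'.image (g * ·)) c d := by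
      rw [map_ww]
      simp only [map_sym, ← X.act.mul, ww]
      congr 2
      funext b
      exact congrArg (ex s) (ysa_reindex (fun i g => sym true (X.act.φ g (v i)))
        (Equiv.mulLeft g) _ _ _ _)
    rw [h1, ← hjw, ← hjw, ← map_sub, n2_le_iff (tr_st hτ) _ hε.le, ← map_star, ← map_mul]
    refine hred _ _ (fun σ hσ _ => ?_) τ hτ
    rw [← n2_le_iff (tr_st hσ.tr) _ hε.le]
    refine (n2_prod_sub hσ.tr _ _ _ (fun b => norm_unitary (ex_unitary _ (ysa_sa _ _ _ _ _)))
      fun b => norm_unitary (ex_unitary _ (ysa_sa _ _ _ _ _))).trans ?_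
    refine (List.sum_le_card_nsmul _ (s * (2 * η)) fun x hx => ?_).trans ?_
    · obtain ⟨b, -, rfl⟩ := List.mem_map.1 hx
      refine (n2_ex_sub hσ.tr s (ysa_sa _ _ _ _ _) (ysa_sa _ _ _ _ _)).trans ?_
      rw [abs_of_pos hs0]
      refine mul_le_mul_of_nonneg_left ?_ hs0.le
      refine (hbl D ℕ G σ _ (hσ.comp fun g => (g, true)) (blk m b) (K'.image (g * ·)) K'
        (card_blk m b).ge (Finset.card_image_of_injective _ (mul_right_injective g)) rfl).2.trans ?_
      have h2 : √(6 * (#((K'.image (g * ·)) ∆ K') : ℝ) / #K') ≤ η := by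
        rw [Real.sqrt_le_left hη0.le, div_le_iff₀ (by exact_mod_cast hN)]
        linarith [hF g hg]
      linarith [min_le_right (s ^ 2 / 8) η]
    · rw [List.length_map, List.length_range, nsmul_eq_mul]
      have h2 : η * (2 * (B * s + 1)) = ε := div_mul_cancel₀ _ (by positivity)
      nlinarith
  · obtain ⟨y', rfl⟩ := hy' y hy
    obtain ⟨z, hz, hz'⟩ := Complex.exists_norm_eq_mul_self
      (τ (j y' * ww (fun i g => sym true (X.act.φ g (v i))) s m B K' c d ^ k))
    have h1 := hred (z • (y' * ww (fun i g => r i (g, true)) s m B K' c d ^ k)) (ε * ‖j y'‖)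
      (fun σ hσ hσ' => ?_) τ hτ
    · rwa [map_smul, map_mul, map_pow, hjw, map_smul, smul_eq_mul, ← hz', Complex.ofReal_re] at h1
    refine (Complex.re_le_norm _).trans ?_
    have hmem : ∀ (θ : ℝ) (b : ℕ), ex θ (Ysa (fun i g => r i (g, true)) (blk m b) K' c d) ∈
        LG r (blk m b : Set ℕ) := fun θ b => ex_mem_gen θ (gen_mono (by
      rintro _ ⟨i, hi, g, rfl⟩
      exact mem_gen_of_mem ⟨i, hi, _, rfl⟩) (ysa_mem _ _ _ _ _))
    rw [map_smul, smul_eq_mul, norm_mul, hz, one_mul, ww, HaarAux.prod_pow _ (fun a b => by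
      by_cases hab : a = b
      · rw [hab]; exact Commute.refl _
      · exact hσ.commute (blk_disj m hab) (hmem s a) (hmem s b))]
    simp only [ex_pow]
    rw [Fac.prod hσ hσ' _ (blk_disj m) _ (hmem _) _ List.nodup_range y' (fun i g => by
      have h2 := comm_sym (fun y hy => hvS y hy i g.1) g.2 hy
      rw [← hr] at h2
      exact hj (by rw [map_mul, map_mul]; exact h2.eq)), norm_mul, mul_comm]
    refine mul_le_mul ((norm_prod _ (ρ := max (1 - s ^ 2 / 8) 0) (fun b => ?_) (le_max_right _ _)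
      _).trans (by rw [List.length_range]; exact hB.le)) (((tr_st hσ.tr).norm_le _).trans
      (NonUnitalStarAlgHom.norm_map j hj y').ge) (norm_nonneg _) hε.le
    have hk1' : (1 : ℝ) ≤ k := by exact_mod_cast hk1
    have hk2' : (k : ℝ) ≤ k₀ := by exact_mod_cast hk2
    have h2 : s * (k₀ + 1) = θ₀ := div_mul_cancel₀ _ (by positivity)
    refine ((hbl D ℕ G σ _ (hσ.comp fun g => (g, true)) (blk m b) K' K' (card_blk m b).ge rfl
      rfl).1 (k * s) (by positivity) (by nlinarith)).trans (le_max_of_le_left ?_)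
    have h3 : s ^ 2 ≤ (k * s) ^ 2 := pow_le_pow_left₀ hs0.le (by nlinarith) 2
    linarith [min_le_left (s ^ 2 / 8) η]

theorem TSys.Good.haar_ext {X : TSys.{u} G} (h : X.Good) (hG : Folner G) (S : Set X.M)
    (hS : S.Countable) : ∃ (Y : TSys.{u} G) (E : X.Ext Y), Y.Good ∧ ∃ V ∈ unitary Y.M,
      (∀ g, Y.act.φ g V = V) ∧ ∀ y ∈ Gen S, Commute V (E.ι y) ∧ ∀ τ ∈ Y.T, ∀ k, 1 ≤ k →
        τ (E.ι y * V ^ k) = 0 ∧ τ (E.ι y * star V ^ k) = 0 := by
  obtain ⟨U⟩ := X.exists_ultra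
  obtain ⟨K, hK⟩ := exists_exhaust G
  choose w hwu hwc hw using fun n : ℕ =>
    h.haar_approx hG S hS n (K n) _ (Nat.one_div_pos_of_nat (α := ℝ) (n := n))
  set d := seqB w 1 fun n => norm_unitary (hwu n) with hd
  have hlim : ∀ (C ε : ℝ), 0 < ε → ∀ᶠ n : ℕ in atTop, 1 / ((n : ℝ) + 1) * C ≤ ε := by
    intro C ε hε
    have := (tendsto_one_div_add_atTop_nhds_zero_nat (𝕜 := ℝ)).mul_const C
    rw [zero_mul] at this
    exact (this.eventually_lt_const hε).mono fun n hn => hn.le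
  have hzero : ∀ y ∈ Gen S, ∀ τ ∈ U.Y.T, ∀ k, 1 ≤ k → τ (U.E.ι y * U.cl d ^ k) = 0 := by
    intro y hy τ hτ k hk
    rw [← U.cl_const, ← map_pow, ← map_mul]
    refine U.tr_eq_zero _ (fun ε hε => ?_) τ hτ
    filter_upwards [hlim ‖y‖ ε hε, eventually_ge_atTop k] with n h1 h2 σ hσ
    exact ((hw n σ (X.tr σ hσ)).2 y hy k hk h2).trans h1
  have hcomm : ∀ y ∈ Gen S, Commute (U.cl d) (U.E.ι y) := by
    intro y hy
    rw [← U.cl_const]
    refine Commute.map ?_ U.cl
    ext n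
    exact (hwc n y hy).eq
  refine ⟨U.Y, U.E, U.good h.agood, U.cl d, Unitary.mem_iff.2 ⟨?_, ?_⟩, fun g => ?_,
    fun y hy => ⟨hcomm y hy, fun τ hτ k hk => ⟨hzero y hy τ hτ k hk, ?_⟩⟩⟩
  · rw [← map_star, ← map_mul, ← map_one U.cl]
    congr 1
    ext n
    exact (Unitary.mem_iff.1 (hwu n)).1
  · rw [← map_star, ← map_mul, ← map_one U.cl]
    congr 1
    ext n
    exact (Unitary.mem_iff.1 (hwu n)).2
  · rw [U.cl_act, ← sub_eq_zero, ← map_sub]
    refine U.cl_eq_zero _ fun ε hε => ?_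
    filter_upwards [hlim 1 ε hε, hK g] with n h1 h2 σ hσ
    exact ((hw n σ (X.tr σ hσ)).1 g h2).trans (by rwa [mul_one] at h1)
  · have h1 := hzero _ (star_mem hy) τ hτ k hk
    have h2 := (tr_st (U.Y.tr τ hτ)).map_star (U.E.ι (star y) * U.cl d ^ k)
    rwa [h1, map_zero, star_mul, ← map_star U.E.ι, star_star, star_pow,
      (U.Y.tr τ hτ).2.2] at h2

end Vale.Agent.P095
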