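import Vale.Agent.P095.Basic
import Vale.Agent.P101.JSqDefs

/-! An explicit homotopy of polynomial loops in the dimension drop algebra `I(2, 3)`. -/

namespace Vale.Agent.P095.HomotAux
open Vale.Agent.P101 Vale.Agent.P101.JS Finset
open scoped Kronecker Matrix.Norms.L2Operator

section Alg
variable {B : Type*} [Ring B] [Algebra ℂ B]

/-- The elementary loop of a projection. -/
def fac (x : B) (z : ℂ) : B := 1 + (z - 1) • x

/-- The product of six elementary loops. -/
def six (x : Fin 2 → Fin 3 → B) (z : ℂ) : B :=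
  fac (x 0 0) z * fac (x 0 1) z * fac (x 0 2) z * fac (x 1 0) z * fac (x 1 1) z * fac (x 1 2) z

/-- Polynomial functions of bounded degree. -/
def PL (B : Type*) [Ring B] [Algebra ℂ B] (n : ℕ) : AddSubmonoid (ℂ → B) :=
  AddSubmonoid.closure {G | ∃ k ≤ n, ∃ b : B, G = fun z => z ^ k • b}

theorem PL.step {n : ℕ} {F : ℂ → B} (h : F ∈ PL B n) (x : B) :
    (fun z => F z * fac x z) ∈ PL B (n + 1) := by
  induction h using AddSubmonoid.closure_induction with
  | mem G hG =>
    obtain ⟨k, hk, b, rfl⟩ := hG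
    have : (fun z : ℂ => z ^ k • b * fac x z) =
        (fun z : ℂ => z ^ k • (b - b * x)) + fun z : ℂ => z ^ (k + 1) • (b * x) := by
      funext z
      simp only [fac, Pi.add_apply, mul_add, mul_one, smul_mul_assoc, mul_smul_comm, pow_succ]
      module
    rw [this]
    exact add_mem (AddSubmonoid.subset_closure ⟨k, by omega, _, rfl⟩)
      (AddSubmonoid.subset_closure ⟨k + 1, by omega, _, rfl⟩)
  | zero => simp [← Pi.zero_def]
  | add F G _ _ h1 h2 =>
    simp only [Pi.add_apply, add_mul]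
    exact add_mem h1 h2

theorem six_mem (x : Fin 2 → Fin 3 → B) : six x ∈ PL B 6 := by
  have h0 : (fun z : ℂ => z ^ 0 • (1 : B)) ∈ PL B 0 := AddSubmonoid.subset_closure ⟨0, le_rfl, _, rfl⟩
  have := PL.step (PL.step (PL.step (PL.step (PL.step (PL.step h0 (x 0 0)) (x 0 1)) (x 0 2))
    (x 1 0)) (x 1 1)) (x 1 2)
  simp only [pow_zero, one_smul, one_mul] at this
  exact this

/-- The Lagrange basis at the nodes `0, …, 6`. -/
noncomputable def lag (j : ℕ) : Polynomial ℂ := Lagrange.basis (range 7) (fun i : ℕ => (i : ℂ)) j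

theorem lag_pow {k : ℕ} (hk : k ≤ 6) (z : ℂ) :
    z ^ k = ∑ j ∈ range 7, (lag j).eval z * (j : ℂ) ^ k := by
  have := Lagrange.eq_interpolate (s := range 7) (v := fun i : ℕ => (i : ℂ))
    (f := Polynomial.X ^ k) Nat.cast_injective.injOn (by
      rw [Polynomial.degree_X_pow, card_range]; exact_mod_cast Nat.lt_succ_of_le hk)
  have h := congrArg (Polynomial.eval z) this
  simpa [Lagrange.interpolate_apply, Polynomial.eval_finsetSum, lag, mul_comm] using h

theorem PL.interp {F : ℂ → B} (h : F ∈ PL B 6) (z : ℂ) :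
    F z = ∑ j ∈ range 7, (lag j).eval z • F j := by
  induction h using AddSubmonoid.closure_induction with
  | mem G hG =>
    obtain ⟨k, hk, b, rfl⟩ := hG
    simp only [smul_smul, ← sum_smul, ← lag_pow hk]
  | zero => simp
  | add F G _ _ h1 h2 => simp only [Pi.add_apply, smul_add, sum_add_distrib, ← h1, ← h2]

theorem six_orth {x y : Fin 2 → Fin 3 → B} (h : ∀ a b a' b', x a b * y a' b' = 0) (z z' : ℂ) :
    (six x z - 1) * (six y z' - 1) = 0 := by
  have m1 : ∀ u u' g : B, (u - 1) * g = 0 → (u' - 1) * g = 0 → (u * u' - 1) * g = 0 :=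
    fun u u' g h1 h2 => by
      rw [show (u * u' - 1) * g = u * ((u' - 1) * g) + (u - 1) * g by noncomm_ring, h1, h2]; simp
  have m2 : ∀ u u' g : B, g * (u - 1) = 0 → g * (u' - 1) = 0 → g * (u * u' - 1) = 0 :=
    fun u u' g h1 h2 => by
      rw [show g * (u * u' - 1) = (g * (u - 1)) * u' + g * (u' - 1) by noncomm_ring, h1, h2]; simp
  have k1 : ∀ a b a' b', (fac (x a b) z - 1) * y a' b' = 0 := fun a b a' b' => by simp [fac, h]
  have k2 : ∀ a' b', (six x z - 1) * (fac (y a' b') z' - 1) = 0 := fun a' b' => by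
    rw [fac, add_sub_cancel_left, mul_smul_comm, six,
      m1 _ _ _ (m1 _ _ _ (m1 _ _ _ (m1 _ _ _ (m1 _ _ _ (k1 ..) (k1 ..)) (k1 ..)) (k1 ..)) (k1 ..))
        (k1 ..), smul_zero]
  exact m2 _ _ _ (m2 _ _ _ (m2 _ _ _ (m2 _ _ _ (m2 _ _ _ (k2 ..) (k2 ..)) (k2 ..)) (k2 ..)) (k2 ..))
    (k2 ..)

theorem fac_add {x y : B} (h : x * y = 0) (z : ℂ) : fac x z * fac y z = fac (x + y) z := by
  simp only [fac, mul_add, add_mul, mul_one, one_mul, smul_mul_smul_comm, h, smul_zero, smul_add]
  abel

omit [Algebra ℂ B] in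
theorem idem_mul {e y y' : B} (he : e * e = e) (h : y * e = e * y) :
    (1 + e * y) * (1 + e * y') = 1 + e * ((1 + y) * (1 + y') - 1) := by
  have : e * y * (e * y') = e * (y * y') := by
    rw [mul_assoc, ← mul_assoc y, h, mul_assoc, ← mul_assoc, he]
  rw [show (1 + e * y) * (1 + e * y') = 1 + e * y + e * y' + e * y * (e * y') by noncomm_ring, this]
  noncomm_ring

theorem three {e : B} {y : Fin 3 → B} (he : e * e = e) (h : ∀ b, Commute (y b) e) (z : ℂ) :
    fac (e * y 0) z * fac (e * y 1) z * fac (e * y 2) z =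
      1 + e * (fac (y 0) z * fac (y 1) z * fac (y 2) z - 1) := by
  simp only [fac, ← mul_smul_comm]
  rw [idem_mul he ((h 0).smul_left _), idem_mul he, add_sub_cancel]
  exact (((Commute.one_left e).add_left ((h 0).smul_left _)).mul_left
    ((Commute.one_left e).add_left ((h 1).smul_left _))).sub_left (Commute.one_left e)

variable [StarRing B] [StarModule ℂ B]

theorem fac_unitary {x : B} (h1 : x * x = x) (h2 : star x = x) {z : ℂ} (hz : star z * z = 1) :
    fac x z ∈ unitary B := by
  have e : ∀ a b : ℂ, a * b = 1 → (1 + (a - 1) • x) * (1 + (b - 1) • x) = 1 := fun a b hab => by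
    simp only [mul_add, add_mul, mul_one, one_mul, smul_mul_smul_comm, h1]
    rw [← add_smul, add_assoc, ← add_smul, show a - 1 + (b - 1 + (a - 1) * (b - 1)) = 0 by
      linear_combination hab, zero_smul, add_zero]
  constructor
  · simp only [fac, star_add, star_one, star_smul, star_sub, h2]
    exact e _ _ hz
  · simp only [fac, star_add, star_one, star_smul, star_sub, h2]
    exact e _ _ ((mul_comm _ _).trans hz)

theorem six_unitary {x : Fin 2 → Fin 3 → B} (h1 : ∀ a b, x a b * x a b = x a b)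
    (h2 : ∀ a b, star (x a b) = x a b) {z : ℂ} (hz : star z * z = 1) : six x z ∈ unitary B :=
  have k := fun a b => fac_unitary (h1 a b) (h2 a b) hz
  mul_mem (mul_mem (mul_mem (mul_mem (mul_mem (k ..) (k ..)) (k ..)) (k ..)) (k ..)) (k ..)

end Alg

variable {n : Type} [Fintype n] [DecidableEq n]

/-- A unit vector rotating from `e a` to `e c`. -/
noncomputable def uv (a c : n) (θ : ℝ) : n → ℝ :=
  if a = c then Pi.single c 1 else Real.cos θ • Pi.single a 1 + Real.sin θ • Pi.single c 1

/-- The projection onto it. -/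
noncomputable def pr (a c : n) (θ : ℝ) : Matrix n n ℂ :=
  Matrix.of fun i j => ((uv a c θ i * uv a c θ j : ℝ) : ℂ)

theorem uv_dot (a c : n) (θ : ℝ) : uv a c θ ⬝ᵥ uv a c θ = 1 := by
  unfold uv
  split_ifs with h
  · simp
  · simp [add_dotProduct, dotProduct_add, smul_dotProduct, h, Ne.symm h, ← sq]

theorem pr_mul (a c : n) (θ : ℝ) : pr a c θ * pr a c θ = pr a c θ := by
  ext i j
  simp only [pr, Matrix.mul_apply, Matrix.of_apply, ← Complex.ofReal_mul, ← Complex.ofReal_sum]
  congr 1
  rw [← mul_one (uv a c θ i * uv a c θ j), ← uv_dot a c θ, dotProduct, mul_sum]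
  exact sum_congr rfl fun k _ => by ring

omit [Fintype n] in
theorem pr_star (a c : n) (θ : ℝ) : star (pr a c θ) = pr a c θ := by
  ext i j
  simp [pr, Matrix.star_apply, mul_comm]

omit [Fintype n] in
theorem pr_single (a : n) :
    (Matrix.of fun i j => (((Pi.single a 1 : n → ℝ) i * (Pi.single a 1 : n → ℝ) j : ℝ) : ℂ)) =
      Matrix.single a a 1 := by
  ext i j
  simp only [Matrix.single_apply, Pi.single_apply, Matrix.of_apply, eq_comm (a := a)]
  by_cases h1 : i = a <;> by_cases h2 : j = a <;> simp [h1, h2]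

omit [Fintype n] in
theorem pr_zero (a c : n) : pr a c 0 = Matrix.single a a 1 := by
  rw [← pr_single]
  unfold pr uv
  split_ifs with h
  · rw [h]
  · simp

omit [Fintype n] in
theorem pr_end (a c : n) : pr a c (Real.pi / 2) = Matrix.single c c 1 := by
  rw [← pr_single]
  unfold pr uv
  split_ifs with h
  · rfl
  · simp

omit [Fintype n] in
theorem pr_cont (a c : n) : Continuous (pr a c) := by
  refine continuous_matrix fun i j => ?_
  unfold pr uv
  split_ifs with h
  · exact continuous_const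
  · simp only [Matrix.of_apply, Pi.add_apply, Pi.smul_apply, smul_eq_mul]
    fun_prop

theorem six_left (p : Fin 2 → Matrix (Fin 2) (Fin 2) ℂ) (z : ℂ) :
    six (fun a b => p a ⊗ₖ Matrix.single b b (1 : ℂ)) z =
      (fac (p 0) z * fac (p 1) z) ⊗ₖ (1 : Matrix (Fin 3) (Fin 3) ℂ) := by
  have k : ∀ x : Matrix (Fin 2) (Fin 2) ℂ, fac (x ⊗ₖ Matrix.single (0 : Fin 3) (0 : Fin 3) (1 : ℂ)) z *
      fac (x ⊗ₖ Matrix.single 1 1 1) z * fac (x ⊗ₖ Matrix.single 2 2 1) z =
      kronL _ _ (fac x z) := fun x => by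
    rw [fac_add, fac_add, ← Matrix.kronecker_add, ← Matrix.kronecker_add]
    · have := Matrix.sum_single_one (α := ℂ) (m := Fin 3)
      rw [Fin.sum_univ_three] at this
      rw [this, fac, fac, map_add, map_one, map_smul, kronL_apply]
    · rw [← Matrix.kronecker_add, ← Matrix.mul_kronecker_mul, add_mul,
        Matrix.single_mul_single_of_ne _ _ _ _ (by decide),
        Matrix.single_mul_single_of_ne _ _ _ _ (by decide), add_zero, Matrix.kronecker_zero]
    · rw [← Matrix.mul_kronecker_mul, Matrix.single_mul_single_of_ne _ _ _ _ (by decide),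
        Matrix.kronecker_zero]
  rw [← kronL_apply, map_mul, ← k, ← k, six]
  simp only [mul_assoc]

theorem six_right (q : Fin 3 → Matrix (Fin 3) (Fin 3) ℂ) (z : ℂ) :
    six (fun a b => Matrix.single a a (1 : ℂ) ⊗ₖ q b) z =
      (1 : Matrix (Fin 2) (Fin 2) ℂ) ⊗ₖ (fac (q 0) z * fac (q 1) z * fac (q 2) z) := by
  let e : Fin 2 → Mat 2 3 := fun a => kronL _ _ (Matrix.single a a 1)
  let y : Fin 3 → Mat 2 3 := fun b => kronR _ _ (q b)
  have h1 : ∀ a b, Matrix.single a a (1 : ℂ) ⊗ₖ q b = e a * y b := fun a b => by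
    simp [e, y, ← Matrix.mul_kronecker_mul]
  have h2 : ∀ a b, Commute (y b) (e a) := fun a b => by
    simp [e, y, Commute, SemiconjBy, ← Matrix.mul_kronecker_mul]
  have h3 : ∀ a, e a * e a = e a := fun a => by
    simp only [e, ← map_mul, Matrix.single_mul_single_same, mul_one]
  have h4 : e 0 * e 1 = 0 := by
    simp only [e, ← map_mul]
    rw [Matrix.single_mul_single_of_ne _ _ _ _ (by decide), map_zero]
  have h5 : e 0 + e 1 = 1 := by
    have := Matrix.sum_single_one (α := ℂ) (m := Fin 2)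
    rw [Fin.sum_univ_two] at this
    simp only [e, ← map_add, this, map_one]
  have h6 : (1 : Matrix (Fin 2) (Fin 2) ℂ) ⊗ₖ (fac (q 0) z * fac (q 1) z * fac (q 2) z) =
      fac (y 0) z * fac (y 1) z * fac (y 2) z := by
    rw [← kronR_apply]
    simp only [fac, y, map_mul, map_add, map_one, map_smul]
  have h7 : ∀ b, Commute (fac (y b) z) (e 1) := fun b =>
    (Commute.one_left _).add_left ((h2 1 b).smul_left _)
  have h8 := ((((h7 0).mul_left (h7 1)).mul_left (h7 2)).sub_left (Commute.one_left _)).eq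
  rw [h6, six]
  simp only [h1]
  rw [mul_assoc _ (fac (e 1 * y 0) z), mul_assoc _ (fac (e 1 * y 0) z * _), three (h3 0) (h2 0),
    three (h3 1) (h2 1)]
  set Y := fac (y 0) z * fac (y 1) z * fac (y 2) z
  rw [show (1 + e 0 * (Y - 1)) * (1 + e 1 * (Y - 1)) =
    1 + (e 0 + e 1) * (Y - 1) + e 0 * ((Y - 1) * e 1) * (Y - 1) by noncomm_ring, h8, h5,
    ← mul_assoc, h4]
  simp

/-- The first angle. -/
noncomputable def th1 (r : ℝ) (t : unitInterval) : ℝ := Real.pi / 2 * (r * min 1 (2 * (1 - (t : ℝ))))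

/-- The second angle. -/
noncomputable def th2 (r : ℝ) (t : unitInterval) : ℝ := Real.pi / 2 * (r * min 1 (2 * (t : ℝ)))

/-- The projections of the homotopy. -/
noncomputable def pp (c : Fin 2) (c' : Fin 3) (r : ℝ) (t : unitInterval) (a : Fin 2) (b : Fin 3) :
    Mat 2 3 := pr a c (th1 r t) ⊗ₖ pr b c' (th2 r t)

theorem pp_cont (c : Fin 2) (c' : Fin 3) (a : Fin 2) (b : Fin 3) :
    Continuous fun x : ℝ × unitInterval => pp c c' x.1 x.2 a b := by
  have h1 : Continuous fun x : ℝ × unitInterval => pr a c (th1 x.1 x.2) :=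
    (pr_cont a c).comp (by unfold th1; fun_prop)
  have h2 : Continuous fun x : ℝ × unitInterval => pr b c' (th2 x.1 x.2) :=
    (pr_cont b c').comp (by unfold th2; fun_prop)
  exact continuous_matrix fun i j => (h1.matrix_elem _ _).mul (h2.matrix_elem _ _)

theorem six_cont (c : Fin 2) (c' : Fin 3) (z : ℂ) :
    Continuous fun x : ℝ × unitInterval => six (pp c c' x.1 x.2) z := by
  have := pp_cont c c'
  unfold six fac
  fun_prop

/-- The homotopy, as a matrix valued function. -/
noncomputable def H0 (c : Fin 2) (c' : Fin 3) (z : ℂ) : C(ℝ × unitInterval, Mat 2 3) :=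
  ⟨_, six_cont c c' z⟩

/-- The homotopy. -/
noncomputable def H (c : Fin 2) (c' : Fin 3) (r : ℝ) (z : ℂ) : DimDrop 2 3 :=
  ⟨(H0 c c' z).curry r,
    ⟨_, by
      have : pp c c' r 0 = fun a b => pr a c (th1 r 0) ⊗ₖ Matrix.single b b (1 : ℂ) := by
        funext a b; simp [pp, th2, pr_zero]
      exact (congrArg (six · z) this).trans (six_left _ z)⟩, _, by
      have : pp c c' r 1 = fun a b => Matrix.single a a (1 : ℂ) ⊗ₖ pr b c' (th2 r 1) := by
        funext a b; simp [pp, th1, pr_zero]
      exact (congrArg (six · z) this).trans (six_right _ z)⟩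

theorem H_cont (c : Fin 2) (c' : Fin 3) (z : ℂ) : Continuous fun r => H c c' r z :=
  (H0 c c' z).curry.continuous.subtype_mk _

theorem H_interp (c : Fin 2) (c' : Fin 3) (r : ℝ) (z : ℂ) :
    H c c' r z = ∑ j ∈ range 7, (lag j).eval z • H c c' r j := by
  refine Subtype.ext (ContinuousMap.ext fun t => ?_)
  rw [← ev_apply, ← ev_apply]
  simp only [map_sum, map_smul]
  exact PL.interp (six_mem _) z

theorem H_unitary (c : Fin 2) (c' : Fin 3) (r : ℝ) {z : ℂ} (hz : star z * z = 1) :
    H c c' r z ∈ unitary (DimDrop 2 3) := by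
  have k : ∀ t, six (pp c c' r t) z ∈ unitary (Mat 2 3) := fun t => six_unitary
    (fun a b => by rw [pp, ← Matrix.mul_kronecker_mul, pr_mul, pr_mul])
    (fun a b => by
      rw [pp, Matrix.star_eq_conjTranspose, Matrix.conjTranspose_kronecker,
        ← Matrix.star_eq_conjTranspose, ← Matrix.star_eq_conjTranspose, pr_star, pr_star]) hz
  exact ⟨Subtype.ext (ContinuousMap.ext fun t => (k t).1),
    Subtype.ext (ContinuousMap.ext fun t => (k t).2)⟩

theorem H_zero (c : Fin 2) (c' : Fin 3) (z : ℂ) : H c c' 0 z = z • 1 := by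
  refine Subtype.ext (ContinuousMap.ext fun t => ?_)
  have : pp c c' 0 t = fun a b => Matrix.single a a (1 : ℂ) ⊗ₖ Matrix.single b b (1 : ℂ) := by
    funext a b; simp [pp, th1, th2, pr_zero]
  refine (congrArg (six · z) this).trans ((six_left _ z).trans ?_)
  have h := Matrix.sum_single_one (α := ℂ) (m := Fin 2)
  rw [Fin.sum_univ_two] at h
  rw [fac_add (Matrix.single_mul_single_of_ne _ _ _ _ (by decide) _), h]
  simp [fac, sub_smul, Matrix.smul_kronecker]

theorem H_orth {c d : Fin 2} {c' d' : Fin 3} (h : c ≠ d) (h' : c' ≠ d') (z z' : ℂ) :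
    (H c c' 1 z - 1) * (H d d' 1 z' - 1) = 0 := by
  refine Subtype.ext (ContinuousMap.ext fun t => six_orth (fun a b a' b' => ?_) z z')
  rw [pp, pp, ← Matrix.mul_kronecker_mul]
  rcases le_total (t : ℝ) (1 / 2) with ht | ht
  · have : th1 1 t = Real.pi / 2 := by rw [th1, min_eq_left (by linarith)]; simp
    rw [this, pr_end, pr_end, Matrix.single_mul_single_of_ne _ _ _ _ h, Matrix.zero_kronecker]
  · have : th2 1 t = Real.pi / 2 := by rw [th2, min_eq_left (by linarith)]; simp
    rw [this, pr_end, pr_end, Matrix.single_mul_single_of_ne _ _ _ _ h', Matrix.kronecker_zero]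

end Vale.Agent.P095.HomotAux
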