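import Vale.Agent.P095.Tr
import Vale.Agent.P095.TDefs

/-! Reduction to factorizing traces (Krein-Milman). -/

namespace Vale.Agent.P095
open Vale.Agent.P101 Vale.Agent.P101.JS Filter Topology Finset
open scoped ComplexOrder BoundedContinuousFunction symmDiff

universe u

namespace KMAux
variable {D : Type u} [CStarAlgebra D] {Λ κ : Type}

/-- The elements on which a functional is tracial. -/
def cen (ψ : D →ₗ[ℂ] ℂ) : StarSubalgebra ℂ D where
  carrier := {x | ∀ a, ψ (x * a) = ψ (a * x) ∧ ψ (star x * a) = ψ (a * star x)}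
  mul_mem' := fun {x y} hx hy a => ⟨by
    rw [mul_assoc, (hx _).1, mul_assoc, (hy _).1, mul_assoc], by
    rw [star_mul, mul_assoc, (hy _).2, mul_assoc, (hx _).2, mul_assoc]⟩
  add_mem' := fun {x y} hx hy a => ⟨by
    rw [add_mul, mul_add, map_add, map_add, (hx _).1, (hy _).1], by
    rw [star_add, add_mul, mul_add, map_add, map_add, (hx _).2, (hy _).2]⟩
  algebraMap_mem' := fun c a => ⟨by rw [Algebra.commutes], by
    rw [← algebraMap_star_comm, Algebra.commutes]⟩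
  star_mem' := fun {x} hx a => ⟨(hx a).2, by rw [star_star]; exact (hx a).1⟩

theorem cen_closed {ψ : D →ₗ[ℂ] ℂ} (h : Continuous ψ) : IsClosed (cen ψ : Set D) := by
  have : (cen ψ : Set D) = ⋂ a, ({x | ψ (x * a) = ψ (a * x)} ∩
      {x | ψ (star x * a) = ψ (a * star x)}) := by
    ext x; simp only [Set.mem_iInter]; rfl
  rw [this]
  exact isClosed_iInter fun a => (isClosed_eq (by fun_prop) (by fun_prop)).inter
    (isClosed_eq (by fun_prop) (by fun_prop))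

theorem parallelogram {τ : D →ₗ[ℂ] ℂ} (h : IsSt τ) (x y : D) :
    n2 τ (x - y) ^ 2 + 4 * n2 τ ((2⁻¹ : ℂ) • (x + y)) ^ 2 = 2 * n2 τ x ^ 2 + 2 * n2 τ y ^ 2 := by
  rw [n2_smul h, mul_pow, n2_sq h, n2_sq h, n2_sq h, n2_sq h]
  simp only [star_sub, star_add, sub_mul, mul_sub, add_mul, mul_add, map_sub, map_add,
    Complex.sub_re, Complex.add_re, norm_inv, Complex.norm_ofNat]
  ring

theorem norm_sym {x : D} (hsa : IsSelfAdjoint x) (hsq : x * x = 1) : ‖x‖ ≤ 1 := by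
  have h1 : ‖x‖ * ‖x‖ ≤ 1 := by
    rw [← CStarRing.norm_star_mul_self, hsa.star_eq, hsq]; exact norm_one_le'
  nlinarith [norm_nonneg x]

theorem almost {τ : D →ₗ[ℂ] ℂ} (hτ : IsTracialState τ) (r : Λ → κ → D)
    (hsa : ∀ i g, IsSelfAdjoint (r i g)) (hsq : ∀ i g, r i g * r i g = 1) (J : Set Λ) {b : D}
    (hb : b ∈ LG r J) (hbs : IsSelfAdjoint b) {ε : ℝ} (hε : 0 < ε) :
    ∃ c ∈ LG r J, IsSelfAdjoint c ∧ ‖c‖ ≤ ‖b‖ ∧
      (∀ a, (∀ i ∈ J, ∀ g, Commute a (r i g)) → τ (a * c) = τ (a * b)) ∧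
      ∀ i ∈ J, ∀ g, n2 τ (c * r i g - r i g * c) ≤ ε := by
  have hst := tr_st hτ
  let V : Set D := {c | c ∈ LG r J ∧ IsSelfAdjoint c ∧ ‖c‖ ≤ ‖b‖ ∧
    ∀ a, (∀ i ∈ J, ∀ g, Commute a (r i g)) → τ (a * c) = τ (a * b)}
  have hbV : b ∈ V := ⟨hb, hbs, le_rfl, fun _ _ => rfl⟩
  have hbdd : BddBelow ((fun c => n2 τ c ^ 2) '' V) :=
    ⟨0, by rintro _ ⟨c, -, rfl⟩; positivity⟩
  obtain ⟨_, ⟨c, hc, rfl⟩, hlt⟩ := Real.lt_sInf_add_pos (s := (fun c => n2 τ c ^ 2) '' V)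
    ⟨_, b, hbV, rfl⟩ (show 0 < ε ^ 2 / 4 by positivity)
  refine ⟨c, hc.1, hc.2.1, hc.2.2.1, hc.2.2.2, fun i hi g => ?_⟩
  have hr := norm_sym (hsa i g) (hsq i g)
  have hrm : r i g ∈ LG r J := mem_gen_of_mem ⟨i, hi, g, rfl⟩
  have hn : ‖r i g * c * r i g‖ ≤ ‖b‖ := by
    have := norm_mul_le_of_le (norm_mul_le_of_le hr hc.2.2.1) hr
    simpa using this
  have hmid : (2⁻¹ : ℂ) • (c + r i g * c * r i g) ∈ V := by
    refine ⟨(LG r J).smul_mem (add_mem hc.1 (mul_mem (mul_mem hrm hc.1) hrm)) _, ?_, ?_,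
      fun a ha => ?_⟩
    · have h1 : IsSelfAdjoint (r i g * c * r i g) := by
        rw [IsSelfAdjoint, star_mul, star_mul, (hsa i g).star_eq, hc.2.1.star_eq, mul_assoc]
      exact IsSelfAdjoint.smul (by simp [IsSelfAdjoint]) (hc.2.1.add h1)
    · rw [norm_smul, norm_inv, Complex.norm_ofNat]
      linarith [norm_add_le c (r i g * c * r i g), hc.2.2.1]
    · have h1 : τ (a * (r i g * c * r i g)) = τ (a * c) := by
        rw [← mul_assoc, hτ.2.2, ← mul_assoc, ← mul_assoc, ← (ha i hi g).eq, mul_assoc a, hsq,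
          mul_one]
      rw [mul_smul_comm, mul_add, map_smul, map_add, h1, hc.2.2.2 a ha, smul_eq_mul]
      ring
  have h1 := csInf_le hbdd ⟨_, hmid, rfl⟩
  have h2 := parallelogram hst c (r i g * c * r i g)
  have h3 : n2 τ (r i g * c * r i g) ≤ n2 τ c := by
    have h4 := n2_mul_right hτ (r i g * c) (r i g)
    have h5 := n2_mul_left hst (r i g) c
    have h6 := n2_nonneg τ c
    have h7 := n2_nonneg τ (r i g * c)
    nlinarith [norm_nonneg (r i g)]
  have h4 : n2 τ (r i g * c * r i g) ^ 2 ≤ n2 τ c ^ 2 :=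
    pow_le_pow_left₀ (n2_nonneg _ _) h3 2
  have h5 : n2 τ (c - r i g * c * r i g) ≤ ε := by
    refine (sq_le_sq₀ (n2_nonneg _ _) hε.le).1 ?_
    simp only at h1 hlt
    linarith
  have h6 : c * r i g - r i g * c = (c - r i g * c * r i g) * r i g := by
    rw [sub_mul, mul_assoc (r i g * c), hsq, mul_one]
  rw [h6]
  refine (n2_mul_right hτ _ _).trans ?_
  nlinarith [n2_nonneg τ (c - r i g * c * r i g), norm_nonneg (r i g)]

theorem exists_psi {τ : D →ₗ[ℂ] ℂ} (hτ : IsTracialState τ) (r : Λ → κ → D) (S : Set D)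
    (hsa : ∀ i g, IsSelfAdjoint (r i g)) (hsq : ∀ i g, r i g * r i g = 1)
    (hc : ∀ i j, i ≠ j → ∀ g h, Commute (r i g) (r j h))
    (hS : ∀ y ∈ Gen S, ∀ i g, Commute y (r i g))
    (hgen : Gen (S ∪ {x | ∃ i g, x = r i g}) = ⊤) (J : Set Λ) {b : D}
    (hb : b ∈ LG r J) (hbs : IsSelfAdjoint b) :
    ∃ ψ : D →ₗ[ℂ] ℂ, (∀ x y, ψ (x * y) = ψ (y * x)) ∧
      (∀ x, (ψ (star x * x)).im = 0 ∧ ‖ψ (star x * x)‖ ≤ (τ (star x * x)).re * ‖b‖) ∧
      ∀ a, (∀ i ∈ J, ∀ g, Commute a (r i g)) → ψ a = τ (a * b) := by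
  have hst := tr_st hτ
  choose c hcm hcs hcn hca hcr using fun n : ℕ =>
    almost hτ r hsa hsq J hb hbs (Nat.one_div_pos_of_nat (α := ℝ) (n := n))
  have hK : IsCompact (Set.univ.pi fun a : D => Metric.closedBall (0 : ℂ) (‖a‖ * ‖b‖)) :=
    isCompact_univ_pi fun a => isCompact_closedBall _ _
  have hbd : ∀ n a, ‖τ (a * c n)‖ ≤ ‖a‖ * ‖b‖ := fun n a =>
    (hst.norm_le _).trans (norm_mul_le_of_le le_rfl (hcn n))
  obtain ⟨f, hfK, hf⟩ := hK.ultrafilter_le_nhds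
    ((hyperfilter ℕ).map fun n a => τ (a * c n)) (by
      rw [le_principal_iff, Ultrafilter.coe_map, Filter.mem_map]
      exact Eventually.of_forall fun n a _ => mem_closedBall_zero_iff.2 (hbd n a))
  have hl : ∀ a, Tendsto (fun n => τ (a * c n)) (hyperfilter ℕ) (𝓝 (f a)) :=
    tendsto_pi_nhds.1 hf
  let ψ : D →ₗ[ℂ] ℂ :=
    { toFun := f
      map_add' := fun x y => tendsto_nhds_unique (hl (x + y)) (by
        simpa only [add_mul, map_add] using (hl x).add (hl y))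
      map_smul' := fun s x => tendsto_nhds_unique (hl (s • x)) (by
        simpa only [smul_mul_assoc, map_smul, RingHom.id_apply] using (hl x).const_smul s) }
  have hψ : ∀ a, Tendsto (fun n => τ (a * c n)) (hyperfilter ℕ) (𝓝 (ψ a)) := hl
  have hcont : Continuous ψ := AddMonoidHomClass.continuous_of_bound ψ ‖b‖ fun a => by
    rw [mul_comm]; exact mem_closedBall_zero_iff.1 (hfK a trivial)
  have hcomm : ∀ x, (∀ i ∈ J, ∀ g, Commute x (r i g)) → ∀ a, ψ (x * a) = ψ (a * x) := by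
    intro x hx a
    refine tendsto_nhds_unique (hψ _) ((hψ _).congr fun n => ?_)
    have h1 : Commute x (c n) := commute_gen (by
      rintro _ ⟨i, hi, g, rfl⟩
      exact ⟨hx i hi g, by rw [(hsa i g).star_eq]; exact hx i hi g⟩) _ (hcm n)
    rw [mul_assoc a, h1.eq, ← mul_assoc, hτ.2.2, mul_assoc]
  have hr : ∀ i g a, ψ (r i g * a) = ψ (a * r i g) := by
    intro i g a
    by_cases hi : i ∈ J
    swap
    · exact hcomm _ (fun j hj h => hc i j (fun e => hi (e ▸ hj)) g h) a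
    have h1 := (hψ (r i g * a)).sub (hψ (a * r i g))
    have h2 : Tendsto (fun n => τ (r i g * a * c n) - τ (a * r i g * c n)) (hyperfilter ℕ)
        (𝓝 0) := by
      have h3 : Tendsto (fun n : ℕ => ‖a‖ * (1 / ((n : ℝ) + 1))) atTop (𝓝 0) := by
        simpa using (tendsto_one_div_add_atTop_nhds_zero_nat (𝕜 := ℝ)).const_mul ‖a‖
      refine squeeze_zero_norm (fun n => ?_) (h3.mono_left Nat.hyperfilter_le_atTop)
      rw [mul_assoc (r i g), hτ.2.2 (r i g), mul_assoc, mul_assoc, ← map_sub, ← mul_sub]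
      exact (norm_le_n2 hst _).trans ((n2_mul_left hst _ _).trans
        (mul_le_mul_of_nonneg_left (hcr n i hi g) (norm_nonneg _)))
    exact sub_eq_zero.1 (tendsto_nhds_unique h1 h2)
  have htop : Gen (S ∪ {x | ∃ i g, x = r i g}) ≤ cen ψ := by
    refine StarSubalgebra.topologicalClosure_minimal (StarAlgebra.adjoin_le ?_) (cen_closed hcont)
    rintro x (hx | ⟨i, g, rfl⟩) a
    · exact ⟨hcomm x (fun i _ g => hS x (mem_gen_of_mem hx) i g) a,
        hcomm _ (fun i _ g => hS _ (star_mem (mem_gen_of_mem hx)) i g) a⟩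
    · rw [(hsa i g).star_eq]; exact ⟨hr i g a, hr i g a⟩
  rw [hgen] at htop
  refine ⟨ψ, fun x y => (htop (StarSubalgebra.mem_top (x := x)) y).1, fun x => ⟨?_, ?_⟩,
    fun a ha => tendsto_nhds_unique (hψ a) (tendsto_const_nhds.congr fun n => (hca n a ha).symm)⟩
  · refine tendsto_nhds_unique ((Complex.continuous_im.tendsto _).comp (hψ _))
      (tendsto_const_nhds.congr fun n => ?_)
    have h1 : IsSelfAdjoint (x * c n * star x) := by
      rw [IsSelfAdjoint, star_mul, star_mul, star_star, (hcs n).star_eq, mul_assoc]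
    have h2 := hst.im_sa h1
    rw [hτ.2.2, ← mul_assoc] at h2
    exact h2.symm
  · refine le_of_tendsto (hψ _).norm (Eventually.of_forall fun n => ?_)
    exact (norm_tr_pos_mul hτ x _).trans
      (mul_le_mul_of_nonneg_left (hcn n) (hst.re_nonneg x))

theorem perturb {τ φ : D →ₗ[ℂ] ℂ} (hτ : IsTracialState τ) (h1 : φ 1 = 0)
    (htr : ∀ x y, φ (x * y) = φ (y * x))
    (hb : ∀ x, (φ (star x * x)).im = 0 ∧ ‖φ (star x * x)‖ ≤ (τ (star x * x)).re) :
    IsTracialState (τ + φ) := by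
  refine ⟨by rw [LinearMap.add_apply, h1, hτ.1, add_zero], fun x => ?_, fun x y => by
    rw [LinearMap.add_apply, LinearMap.add_apply, hτ.2.2, htr]⟩
  have h2 := Complex.nonneg_iff.1 (hτ.2.1 x)
  have h3 := (abs_le.1 ((Complex.abs_re_le_norm _).trans (hb x).2)).1
  rw [LinearMap.add_apply, Complex.nonneg_iff, Complex.add_re, Complex.add_im, (hb x).1, ← h2.2]
  exact ⟨by linarith, by simp⟩

theorem fac_of_extreme {τ : D →ₗ[ℂ] ℂ} (hτ : IsTracialState τ) (r : Λ → κ → D) (S : Set D)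
    (hsa : ∀ i g, IsSelfAdjoint (r i g)) (hsq : ∀ i g, r i g * r i g = 1)
    (hc : ∀ i j, i ≠ j → ∀ g h, Commute (r i g) (r j h))
    (hS : ∀ y ∈ Gen S, ∀ i g, Commute y (r i g))
    (hgen : Gen (S ∪ {x | ∃ i g, x = r i g}) = ⊤)
    (hext : ∀ φ : D →ₗ[ℂ] ℂ, IsTracialState (τ + φ) → IsTracialState (τ + -φ) → φ = 0) :
    Fac τ r := by
  have hst := tr_st hτ
  have key : ∀ (J : Set Λ), ∀ b ∈ LG r J, IsSelfAdjoint b →
      ∀ a, (∀ i ∈ J, ∀ g, Commute a (r i g)) → τ (a * b) = τ a * τ b := by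
    intro J b hb hbs a ha
    obtain ⟨ψ, htr, hbd, hψ⟩ := exists_psi hτ r S hsa hsq hc hS hgen J hb hbs
    have hM : 0 < 2 * ‖b‖ + 1 := by positivity
    have hψ1 : ψ 1 = τ b := by rw [hψ 1 fun _ _ _ => Commute.one_left _, one_mul]
    let φ : D →ₗ[ℂ] ℂ := (((2 * ‖b‖ + 1)⁻¹ : ℝ) : ℂ) • (ψ - τ b • τ)
    have hφ : ∀ x, φ x = (((2 * ‖b‖ + 1)⁻¹ : ℝ) : ℂ) * (ψ x - τ b * τ x) := fun x => rfl
    have h1 : φ 1 = 0 := by rw [hφ, hψ1, hτ.1, mul_one, sub_self, mul_zero]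
    have h2 : ∀ x y, φ (x * y) = φ (y * x) := fun x y => by rw [hφ, hφ, htr, hτ.2.2]
    have h3 : ∀ x, (φ (star x * x)).im = 0 ∧ ‖φ (star x * x)‖ ≤ (τ (star x * x)).re := by
      intro x
      have h4 := Complex.nonneg_iff.1 (hτ.2.1 x)
      refine ⟨by
        rw [hφ, Complex.im_ofReal_mul, Complex.sub_im, Complex.mul_im, (hbd x).1,
          hst.im_sa hbs, ← h4.2]
        simp, ?_⟩
      rw [hφ, norm_mul, Complex.norm_real, Real.norm_of_nonneg (by positivity),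
        inv_mul_le_iff₀ hM]
      refine (norm_sub_le _ _).trans ?_
      rw [norm_mul, hst.norm_eq, n2_sq hst]
      nlinarith [(hbd x).2, mul_le_mul_of_nonneg_right (hst.norm_le b) h4.1]
    have h4 := hext φ (perturb hτ h1 h2 h3) (perturb hτ (by simp [h1])
      (fun x y => by simp [h2 x y]) fun x => by simpa using h3 x)
    have h5 : φ a = 0 := by rw [h4]; rfl
    rw [hφ, mul_eq_zero, sub_eq_zero, hψ a ha, mul_comm (τ b)] at h5
    exact h5.resolve_left (by exact_mod_cast (inv_pos.2 hM).ne')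
  intro J b hb a ha
  have h1 := key J (sym true b) (add_mem hb (star_mem hb)) (sym_sa _ _) a ha
  have h2 := key J (sym false b) ((LG r J).smul_mem (sub_mem hb (star_mem hb)) _) (sym_sa _ _) a ha
  rw [eq_sym b, mul_smul_comm, mul_sub, mul_smul_comm]
  simp only [map_smul, map_sub, h1, h2, smul_eq_mul]
  ring

end KMAux

/-- Extreme tracial states factorize. -/
theorem fac_reduce {D : Type u} [CStarAlgebra D] {Λ κ : Type} (r : Λ → κ → D) (S : Set D)
    (hsa : ∀ i g, IsSelfAdjoint (r i g)) (hsq : ∀ i g, r i g * r i g = 1)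
    (hc : ∀ i j, i ≠ j → ∀ g h, Commute (r i g) (r j h))
    (hS : ∀ y ∈ Gen S, ∀ i g, Commute y (r i g))
    (hgen : Gen (S ∪ {x | ∃ i g, x = r i g}) = ⊤) (w : D) (c : ℝ)
    (h : ∀ τ, IsTracialState τ → Fac τ r → (τ w).re ≤ c) :
    ∀ τ, IsTracialState τ → (τ w).re ≤ c := by
  intro τ0 hτ0
  let T : Set (D → ℂ) := {f | (∀ x y, f (x + y) = f x + f y) ∧ (∀ (s : ℂ) x, f (s • x) = s • f x) ∧
    f 1 = 1 ∧ (∀ x, 0 ≤ f (star x * x)) ∧ ∀ x y, f (x * y) = f (y * x)}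
  have hT : ∀ τ : D →ₗ[ℂ] ℂ, IsTracialState τ → ⇑τ ∈ T := fun τ hτ =>
    ⟨map_add τ, map_smul τ, hτ.1, hτ.2.1, hτ.2.2⟩
  have hT' : ∀ f ∈ T, ∃ τ : D →ₗ[ℂ] ℂ, IsTracialState τ ∧ ⇑τ = f := fun f hf =>
    ⟨⟨⟨f, hf.1⟩, hf.2.1⟩, ⟨hf.2.2.1, hf.2.2.2.1, hf.2.2.2.2⟩, rfl⟩
  have hcl : IsClosed T := by
    simp only [T, Set.setOf_and, Set.setOf_forall]
    refine (isClosed_iInter fun x => isClosed_iInter fun y =>
      isClosed_eq (by fun_prop) (by fun_prop)).inter ((isClosed_iInter fun x =>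
      isClosed_iInter fun y => isClosed_eq (by fun_prop) (by fun_prop)).inter
      ((isClosed_eq (by fun_prop) (by fun_prop)).inter ((isClosed_iInter fun x =>
      isClosed_le (by fun_prop) (by fun_prop)).inter (isClosed_iInter fun x =>
      isClosed_iInter fun y => isClosed_eq (by fun_prop) (by fun_prop)))))
  have hK : IsCompact T := (isCompact_univ_pi fun a : D =>
    isCompact_closedBall (0 : ℂ) ‖a‖).of_isClosed_subset hcl fun f hf a _ => by
      obtain ⟨τ, hτ, rfl⟩ := hT' f hf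
      exact mem_closedBall_zero_iff.2 ((tr_st hτ).norm_le a)
  have hcw : Continuous fun f : D → ℂ => (f w).re := by fun_prop
  obtain ⟨f0, hf0, hmax⟩ := hK.exists_isMaxOn ⟨_, hT τ0 hτ0⟩ hcw.continuousOn
  obtain ⟨f, hf⟩ := (hK.inter_right (isClosed_eq hcw (continuous_const (y := (f0 w).re)))
    ).extremePoints_nonempty ⟨f0, hf0, rfl⟩
  rw [mem_extremePoints] at hf
  obtain ⟨τ, hτ, rfl⟩ := hT' f hf.1.1
  have hw : (τ w).re = (f0 w).re := hf.1.2
  refine (hmax (hT τ0 hτ0)).trans (hw.ge.trans (h τ hτ ?_))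
  refine KMAux.fac_of_extreme hτ r S hsa hsq hc hS hgen fun φ h1 h2 => ?_
  have h3 : ((τ + φ) w).re ≤ (f0 w).re := hmax (hT _ h1)
  have h4 : ((τ + -φ) w).re ≤ (f0 w).re := hmax (hT _ h2)
  simp only [LinearMap.add_apply, LinearMap.neg_apply, Complex.add_re, Complex.neg_re] at h3 h4
  have h5 := hf.2 _ ⟨hT _ h1, show ((τ + φ) w).re = _ by
    simp only [LinearMap.add_apply, Complex.add_re]; linarith⟩ _ ⟨hT _ h2,
    show ((τ + -φ) w).re = _ by
      simp only [LinearMap.add_apply, LinearMap.neg_apply, Complex.add_re, Complex.neg_re]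
      linarith⟩ ⟨2⁻¹, 2⁻¹, by norm_num, by norm_num, by norm_num, by
        funext x; simp; ring⟩
  ext x
  simpa using congrFun h5.1 x

end Vale.Agent.P095
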