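import Vale.Agent.P095.Proj

/-! From unitary labels to finite labels. -/

namespace Vale.Agent.P095
open Vale.Agent.P101 Vale.Agent.P101.JS Filter Topology Finset
open scoped ComplexOrder BoundedContinuousFunction symmDiff

universe u

namespace LabelsAux
section
variable {B : Type u} [CStarAlgebra B] {τ : B →ₗ[ℂ] ℂ}

theorem coe_nat (W : unitary B) (k : ℕ) : ((W ^ (k : ℤ) : unitary B) : B) = (W : B) ^ k := by
  rw [zpow_natCast, SubmonoidClass.coe_pow]

theorem coe_neg (W : unitary B) (k : ℕ) :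
    ((W ^ (-(k : ℤ)) : unitary B) : B) = star (W : B) ^ k := by
  rw [zpow_neg, zpow_natCast, ← inv_pow, SubmonoidClass.coe_pow]; rfl

theorem int_cases {m : ℤ} (hm : m ≠ 0) : ∃ k : ℕ, 1 ≤ k ∧ (m = k ∨ m = -k) :=
  ⟨m.natAbs, by omega, by omega⟩

theorem single (hτ : IsSt τ) (q q' : B) (w : unitary B)
    (h : ∀ m : ℤ, m ≠ 0 → τ (q * (w ^ m : unitary B) * q') = 0) (f : C(AddCircle (1 : ℝ), ℂ)) :
    τ (q * circ w f * q') = τ (q * q') * hint f := by
  have h1 := circ_haar w (τ ∘ₗ LinearMap.mulRight ℂ q' ∘ₗ LinearMap.mulLeft ℂ q)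
    (hτ.continuous.comp ((continuous_mul_const q').comp (continuous_const_mul q)))
    (fun k hk => ⟨by rw [← coe_nat]; exact h _ (by omega),
      by rw [← coe_neg]; exact h _ (by omega)⟩) f
  simpa using h1

theorem pair (hτ : IsSt τ) (q : B) (w w' : unitary B)
    (h : ∀ m m' : ℤ, m ≠ 0 ∨ m' ≠ 0 → τ (q * (w ^ m : unitary B) * (w' ^ m' : unitary B)) = 0)
    (f f' : C(AddCircle (1 : ℝ), ℂ)) :
    τ (q * circ w f * circ w' f') = τ q * hint f * hint f' := by
  have h1 := single hτ (q * circ w f) 1 w' (fun m hm => by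
    have h2 := h 0 m (Or.inr hm)
    rw [zpow_zero, OneMemClass.coe_one, mul_one] at h2
    rw [mul_one, single hτ q _ w (fun m' hm' => h m' m (Or.inl hm')), h2, zero_mul]) f'
  have h2 := single hτ q 1 w (fun m hm => by simpa using h m 0 (Or.inl hm)) f
  rw [mul_one] at h1
  rw [h1, h2, mul_one]

theorem norm_circ (w : unitary B) {f : C(AddCircle (1 : ℝ), ℂ)} (hf : ‖f‖ ≤ 1) :
    ‖circ w f‖ ≤ 1 := (NonUnitalStarAlgHom.norm_apply_le _ f).trans hf

theorem circ_comm {w w' : unitary B} (h : Commute (w : B) w') (f f' : C(AddCircle (1 : ℝ), ℂ)) :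
    Commute (circ w f) (circ w' f') :=
  circ_commute w' (circ_commute w h.symm f).symm f'

theorem proj_sum {C : Type} [Fintype C] {p p' : C → B} (hp : ∀ c, IsStarProjection (p c))
    (hp' : ∀ c, IsStarProjection (p' c)) (h1 : ∑ c, p c = 1) (hc : ∀ c c', Commute (p c) (p' c')) :
    IsStarProjection (∑ c, p c * p' c) := by
  classical
  refine ⟨?_, isSelfAdjoint_sum _ fun c _ => ((hp c).mul (hp' c) (hc c c)).isSelfAdjoint⟩
  rw [IsIdempotentElem, Finset.sum_mul]
  refine Finset.sum_congr rfl fun c _ => ?_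
  rw [Finset.mul_sum, Finset.sum_eq_single c (fun c' _ h => ?_) (by simp)]
  · exact ((hp c).mul (hp' c) (hc c c)).isIdempotentElem
  · rw [(hc c' c).symm.mul_mul_mul_comm, proj_orth hp h1 h.symm, zero_mul]

theorem tr_proj (hτ : IsTracialState τ) (x : B) {D : B} (hD : IsStarProjection D) :
    (τ (star x * x * D)).re = n2 τ (x * D) ^ 2 := by
  rw [n2_sq (tr_st hτ), star_mul, hD.isSelfAdjoint.star_eq, mul_assoc D, hτ.2.2 D, ← mul_assoc,
    mul_assoc _ D D, hD.isIdempotentElem.eq]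

theorem sep_bound (hτ : IsTracialState τ) (x : B) {D : Bool → B} (hD : ∀ a, IsStarProjection (D a))
    (hc : Commute (D true) (D false)) {η : ℝ}
    (h : ∀ a, (τ (sym a x ^ 2 * D a)).re ≤ η) : (τ (star x * x * (D true * D false))).re ≤ η := by
  have hst := tr_st hτ
  have h1 : ∀ a, n2 τ (sym a x * D a) ^ 2 ≤ η := fun a => by
    rw [← tr_proj hτ _ (hD a), (sym_sa a x).star_eq, ← sq]; exact h a
  have h2 : ∀ a b, n2 τ (sym a x * (D a * D b)) ≤ n2 τ (sym a x * D a) := fun a b => by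
    rw [← mul_assoc]
    exact (n2_mul_right hτ _ _).trans (mul_le_of_le_one_right (n2_nonneg _ _) (hD b).norm_le)
  have h3 := h2 false true
  rw [← hc.eq] at h3
  have h4 : n2 τ (x * (D true * D false)) ≤
      2⁻¹ * (n2 τ (sym true x * D true) + n2 τ (sym false x * D false)) := by
    conv_lhs => rw [eq_sym x]
    rw [smul_mul_assoc, n2_smul hst, norm_inv, Complex.norm_ofNat, sub_mul, smul_mul_assoc]
    refine mul_le_mul_of_nonneg_left ((n2_sub hst _ _).trans ?_) (by norm_num)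
    rw [n2_smul hst, Complex.norm_I, one_mul]
    exact add_le_add (h2 true false) h3
  rw [tr_proj hτ x ((hD true).mul (hD false) hc)]
  refine (pow_le_pow_left₀ (n2_nonneg _ _) h4 2).trans ?_
  nlinarith [h1 true, h1 false,
    sq_nonneg (n2 τ (sym true x * D true) - n2 τ (sym false x * D false))]

theorem norm_symm {v : B} (hv : MU v) (a : Bool) : ‖sym a v‖ ≤ 1 :=
  HaarAux.norm_unitary (Unitary.mem_iff.2 (by rw [(sym_sa a v).star_eq]; simp [hv.sym_sq]))

end

variable {G : Type} [Group G] [DecidableEq G] [Countable G]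

theorem step {X : TSys.{u} G} (h : X.Good) (hG : Folner G) {v : X.M} {U : Bool → X.M}
    (hU : X.Str v U) : ∃ (Y : TSys.{u} G) (E : X.Ext Y), Y.Good ∧
      ∃ W : Bool → G → unitary Y.M, (∀ a g k, Y.act.φ g (W a k) = W a (g * k)) ∧
        (∀ a b g k, Commute (W a g : Y.M) (W b k)) ∧
        (∀ a g k, Commute (E.ι (X.act.φ k v)) (W a g)) ∧
        (∀ τ ∈ Y.T, ∀ a g f, τ (circ (W a g) f) = hint f) ∧
        ∀ τ ∈ Y.T, ∀ a g k f f', τ (E.ι (sym a (X.act.φ g v - X.act.φ k v) ^ 2) *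
          circ (W a g) f * circ (W a k) f') =
          τ (E.ι (sym a (X.act.φ g v - X.act.φ k v) ^ 2)) * hint f * hint f' := by
  let S : Set X.M := Set.range (fun g => X.act.φ g v) ∪
    Set.range fun p : Bool × G => X.act.φ p.2 (U p.1)
  obtain ⟨Y, E, hY, V, hV, hVi, hVc⟩ := h.haar_ext hG S
    ((Set.countable_range _).union (Set.countable_range _))
  have hv : ∀ g, X.act.φ g v ∈ Gen S := fun g => mem_gen_of_mem (Or.inl ⟨g, rfl⟩)
  have hu : ∀ a g, X.act.φ g (U a) ∈ Gen S := fun a g => mem_gen_of_mem (Or.inr ⟨(a, g), rfl⟩)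
  let u : Bool → G → unitary X.M := fun a g => ⟨X.act.φ g (U a), Unitary.map_mem _ (hU.unit a)⟩
  let ι : unitary X.M →* unitary Y.M :=
    { toFun := fun x => ⟨E.ι x, Unitary.map_mem _ x.2⟩
      map_one' := Subtype.ext (map_one E.ι)
      map_mul' := fun x y => Subtype.ext (map_mul E.ι _ _) }
  have hι : ∀ x, (ι x : Y.M) = E.ι x := fun _ => rfl
  let V' : unitary Y.M := ⟨V, hV⟩
  have hW : ∀ a g, ((ι (u a g) * V' : unitary Y.M) : Y.M) = E.ι (X.act.φ g (U a)) * V :=
    fun _ _ => rfl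
  have hz : ∀ a g (m : ℤ), ((u a g ^ m : unitary X.M) : X.M) ∈ Gen S := by
    intro a g m
    obtain ⟨k, rfl | rfl⟩ := m.eq_nat_or_neg
    · rw [coe_nat]; exact pow_mem (hu a g) k
    · rw [coe_neg]; exact pow_mem (star_mem (hu a g)) k
  have hcV : ∀ a g, Commute (ι (u a g)) V' := fun a g => Subtype.ext (hVc _ (hu a g)).1.symm.eq
  have hV0 : ∀ τ ∈ Y.T, ∀ y ∈ Gen S, ∀ m : ℤ, m ≠ 0 → τ (E.ι y * (V' ^ m : unitary Y.M)) = 0 := by
    intro τ hτ y hy m hm
    obtain ⟨k, hk, rfl | rfl⟩ := int_cases hm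
    · rw [coe_nat]; exact ((hVc y hy).2 τ hτ k hk).1
    · rw [coe_neg]; exact ((hVc y hy).2 τ hτ k hk).2
  refine ⟨Y, E, hY, fun a g => ι (u a g) * V', fun a g k => ?_, fun a b g k => ?_,
    fun a g k => ?_, fun τ hτ a g f => ?_, fun τ hτ a g k f f' => ?_⟩
  · rw [hW, hW, map_mul, hVi, E.equi, X.act.mul]
  · rw [hW, hW]
    exact (((hU.comm a b g k).map E.ι).mul_right (hVc _ (hu a g)).1.symm).mul_left
      ((hVc _ (hu b k)).1.mul_right (Commute.refl _))
  · rw [hW]
    exact ((hU.comm_v a g k).symm.map E.ι).mul_right (hVc _ (hv k)).1.symm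
  · have h1 := single (tr_st (Y.tr τ hτ)) 1 1 (ι (u a g) * V') (fun m hm => by
      rw [(hcV a g).mul_zpow, ← map_zpow, one_mul, mul_one]
      exact hV0 τ hτ _ (hz a g m) m hm) f
    simpa [(Y.tr τ hτ).1] using h1
  · refine pair (tr_st (Y.tr τ hτ)) _ _ _ (fun m m' hm => ?_) f f'
    have hq : sym a (X.act.φ g v - X.act.φ k v) ^ 2 ∈ Gen S := by
      have h1 := sub_mem (hv g) (hv k)
      refine pow_mem ?_ 2
      unfold sym
      split_ifs
      · exact add_mem h1 (star_mem h1)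
      · exact (Gen S).smul_mem (sub_mem h1 (star_mem h1)) _
    have h1 : (ι (u a g) * V') ^ m * (ι (u a k) * V') ^ m' =
        ι (u a g ^ m * u a k ^ m') * V' ^ (m + m') := by
      rw [(hcV a g).mul_zpow, (hcV a k).mul_zpow, map_mul, map_zpow, map_zpow, zpow_add,
        (((hcV a k).symm.zpow_zpow m m').mul_mul_mul_comm _ _)]
    rw [mul_assoc, ← Submonoid.coe_mul, h1, Submonoid.coe_mul, hι, ← mul_assoc, ← map_mul]
    by_cases h0 : m + m' = 0
    swap
    · exact hV0 τ hτ _ (mul_mem hq (mul_mem (hz a g m) (hz a k m'))) _ h0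
    rw [h0, zpow_zero, OneMemClass.coe_one, mul_one]
    refine E.null (fun σ hσ => ?_) τ hτ
    obtain ⟨j, hj, rfl | rfl⟩ := int_cases (m := m) (by omega)
    · rw [show m' = -(j : ℤ) by omega, Submonoid.coe_mul, coe_nat, coe_neg, sym_sub, ← map_sym,
        ← map_sym]
      exact hU.sep σ hσ a g k j hj
    · have h2 : Commute (u a g) (u a k) := Subtype.ext (hU.comm a a g k).eq
      rw [show m' = (j : ℤ) by omega, (h2.zpow_zpow _ _).eq, Submonoid.coe_mul, coe_nat, coe_neg,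
        sym_sub, ← map_sym, ← map_sym, ← neg_sub, neg_sq]
      exact hU.sep σ hσ a k g j hj

end LabelsAux

open LabelsAux

variable {G : Type} [Group G] [DecidableEq G] [Countable G]

theorem TSys.Str.labels {X : TSys.{u} G} (h : X.Good) (hG : Folner G) {v : X.M} {U : Bool → X.M}
    (hU : X.Str v U) (n : ℕ) (hn : 0 < n) : ∃ (Y : TSys.{u} G) (_ : X.Ext Y), Y.Good ∧
      ∃ (v' : Y.M) (e : Fin n × Fin n → Y.M), Y.Lab v' e (4 / n) := by
  obtain ⟨Y, E, hY, W, hWa, hWc, hWv, hW1, hW2⟩ := step h hG hU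
  obtain ⟨Z⟩ := Y.exists_ultra
  haveI : Nonempty (Fin n) := ⟨⟨0, hn⟩⟩
  choose f hfs hfn hf1 hfh hfe using fun N : ℕ =>
    exists_arcs (Fin n) _ (Nat.one_div_pos_of_nat (α := ℝ) (n := N))
  let d : Bool → G → Fin n → (ℕ →ᵇ Y.M) := fun a g c =>
    seqB (fun N => circ (W a g) (f N c)) 1 fun N => norm_circ _ (hfn N c)
  have hd : ∀ a g c N, d a g c N = circ (W a g) (f N c) := fun _ _ _ _ => rfl
  have hact : ∀ a g k c, Z.Y.act.φ g (Z.cl (d a k c)) = Z.cl (d a (g * k) c) := by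
    intro a g k c
    rw [Z.cl_act]
    congr 1
    ext N
    exact map_circ _ _ _ (hWa a g k) _
  have hcomm : ∀ a b g k c c', Commute (Z.cl (d a g c)) (Z.cl (d b k c')) := by
    intro a b g k c c'
    refine Commute.map ?_ Z.cl
    ext N
    exact (circ_comm (hWc a b g k) _ _).eq
  have hcv : ∀ a g k c, Commute (Z.cl (d a g c)) (Z.E.ι (E.ι (X.act.φ k v))) := by
    intro a g k c
    rw [← Z.cl_const]
    refine Commute.map ?_ Z.cl
    ext N
    exact (circ_commute _ (hWv a g k) _).symm.eq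
  have hsum : ∀ a g, ∑ c, Z.cl (d a g c) = 1 := by
    intro a g
    rw [← map_sum, ← map_one Z.cl]
    congr 1
    ext N
    simp only [BoundedContinuousFunction.coe_sum, Finset.sum_apply, hd]
    rw [← map_sum, hf1, map_one]
    rfl
  have hproj : ∀ a g c, IsStarProjection (Z.cl (d a g c)) := by
    intro a g c
    constructor
    · rw [IsIdempotentElem, ← map_mul, ← sub_eq_zero, ← map_sub]
      refine Z.cl_eq_zero _ fun ε hε => ?_
      filter_upwards [(tendsto_one_div_add_atTop_nhds_zero_nat (𝕜 := ℝ)).eventually_lt_const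
        (sq_pos_of_pos hε)] with N hN τ hτ
      rw [n2_le_iff (tr_st (Y.tr τ hτ)) _ hε.le]
      show (τ (star (d a g c N * d a g c N - d a g c N) *
        (d a g c N * d a g c N - d a g c N))).re ≤ _
      rw [hd, ← map_mul, ← map_sub, ← map_star, ← map_mul, hW1 τ hτ]
      exact (hfe N c).trans hN.le
    · rw [IsSelfAdjoint, ← map_star]
      congr 1
      ext N
      show star (d a g c N) = _
      rw [hd, ← map_star, hfs]
  have hae : ∀ g (c : Fin n × Fin n), Z.Y.act.φ g (Z.cl (d true 1 c.1) * Z.cl (d false 1 c.2)) =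
      Z.cl (d true g c.1) * Z.cl (d false g c.2) := by
    intro g c
    rw [map_mul, hact, hact, mul_one]
  have hav : ∀ g, Z.Y.act.φ g (Z.E.ι (E.ι v)) = Z.E.ι (E.ι (X.act.φ g v)) := by
    intro g
    rw [Z.E.equi, E.equi]
  refine ⟨Z.Y, E.trans Z.E, Z.good hY.agood, Z.E.ι (E.ι v),
    fun c => Z.cl (d true 1 c.1) * Z.cl (d false 1 c.2), (hU.mu.map _).map _,
    fun c => (hproj _ _ _).mul (hproj _ _ _) (hcomm _ _ _ _ _ _), ?_, fun c c' g k => ?_,
    fun c g k => ?_, fun τ hτ g k => ?_⟩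
  · rw [Fintype.sum_prod_type]
    simp only [← Finset.mul_sum, hsum, mul_one]
  · rw [hae, hae]
    exact ((hcomm _ _ _ _ _ _).mul_right (hcomm _ _ _ _ _ _)).mul_left
      ((hcomm _ _ _ _ _ _).mul_right (hcomm _ _ _ _ _ _))
  · rw [hae, hav]
    exact (hcv _ _ _ _).mul_left (hcv _ _ _ _)
  · have h1 : ∑ c : Fin n × Fin n, Z.Y.act.φ g (Z.cl (d true 1 c.1) * Z.cl (d false 1 c.2)) *
        Z.Y.act.φ k (Z.cl (d true 1 c.1) * Z.cl (d false 1 c.2)) =
        (∑ c, Z.cl (d true g c) * Z.cl (d true k c)) *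
          ∑ c, Z.cl (d false g c) * Z.cl (d false k c) := by
      rw [Finset.sum_mul_sum, Fintype.sum_prod_type]
      refine Finset.sum_congr rfl fun c _ => Finset.sum_congr rfl fun c' _ => ?_
      rw [hae, hae, (hcomm _ _ _ _ _ _).mul_mul_mul_comm]
    rw [h1, hav, hav]
    refine sep_bound (Z.Y.tr τ hτ) _ (D := fun a => ∑ c, Z.cl (d a g c) * Z.cl (d a k c))
      (fun a => proj_sum (hproj a g) (hproj a k) (hsum a g) (hcomm a a g k))
      (Commute.sum_left _ _ _ fun c _ => Commute.sum_right _ _ _ fun c' _ =>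
        ((hcomm _ _ _ _ _ _).mul_right (hcomm _ _ _ _ _ _)).mul_left
          ((hcomm _ _ _ _ _ _).mul_right (hcomm _ _ _ _ _ _))) fun a => ?_
    have hn' : (0 : ℝ) < n := by exact_mod_cast hn
    have h2 : ‖sym a (X.act.φ g v - X.act.φ k v) ^ 2‖ ≤ 4 := by
      have h3 : ‖sym a (X.act.φ g v - X.act.φ k v)‖ ≤ 2 := by
        rw [sym_sub]
        linarith [norm_sub_le (sym a (X.act.φ g v)) (sym a (X.act.φ k v)),
          norm_symm (hU.mu.map (X.act.φ g)) a, norm_symm (hU.mu.map (X.act.φ k)) a]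
      rw [sq]
      exact (norm_mul_le_of_le h3 h3).trans (by norm_num)
    rw [← map_sub, ← map_sub, ← map_sym, ← map_sym, ← map_pow, ← map_pow, Finset.mul_sum, map_sum,
      Complex.re_sum]
    refine (Finset.sum_le_card_nsmul _ _ ((4 : ℝ) / (n : ℝ) ^ 2) fun c _ => ?_).trans (le_of_eq ?_)
    · rw [← Z.cl_const, ← map_mul, ← map_mul]
      refine Z.tr_le _ _ (fun ε hε => Eventually.of_forall fun N σ hσ => ?_) τ hτ
      show (σ (E.ι _ * (d a g c N * d a k c N))).re ≤ _
      rw [hd, hd, ← mul_assoc, hW2 σ hσ, hfh, Fintype.card_fin]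
      refine (Complex.re_le_norm _).trans (le_add_of_le_of_nonneg ?_ hε.le)
      have h3 := (((tr_st (Y.tr σ hσ)).norm_le _).trans
        (NonUnitalStarAlgHom.norm_apply_le E.ι _)).trans h2
      rw [norm_mul, norm_mul, norm_inv, Complex.norm_natCast, mul_assoc, ← mul_inv, ← sq,
        ← div_eq_mul_inv]
      gcongr
    · rw [Finset.card_univ, Fintype.card_fin, nsmul_eq_mul]
      field_simp

end Vale.Agent.P095
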