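import Vale.Agent.P095.Proj

/-! Sums over orthogonal resolutions of the unit. -/

namespace Vale.Agent.P095
open Vale.Agent.P101 Vale.Agent.P101.JS Filter Topology Finset

universe u
namespace PSum
variable {B : Type u} [CStarAlgebra B] {ι : Type} [Fintype ι] {R : ι → B}

theorem comm_star {p a : B} (hp : IsSelfAdjoint p) (h : Commute p a) : Commute p (star a) := by
  have := h.star_star
  rwa [hp.star_eq] at this

theorem mul (hR : ∀ i, IsStarProjection (R i)) (h1 : ∑ i, R i = 1) {a : ι → B} (b : ι → B)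
    (ha : ∀ i j, Commute (R i) (a j)) :
    (∑ i, R i * a i) * (∑ i, R i * b i) = ∑ i, R i * (a i * b i) := by
  rw [sum_mul_sum]
  refine sum_congr rfl fun i _ => ?_
  have k : ∀ j, R i * a i * (R j * b j) = R i * R j * (a i * b j) := fun j => by
    rw [mul_assoc, ← mul_assoc (a i), ← (ha j i).eq]; simp only [mul_assoc]
  rw [Fintype.sum_eq_single i fun j hj => by rw [k, proj_orth hR h1 hj.symm, zero_mul], k,
    (hR i).isIdempotentElem.eq]

theorem star_sum' (hR : ∀ i, IsStarProjection (R i)) {a : ι → B}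
    (ha : ∀ i, Commute (R i) (a i)) : star (∑ i, R i * a i) = ∑ i, R i * star (a i) := by
  rw [star_sum]
  refine sum_congr rfl fun i _ => ?_
  rw [star_mul, (hR i).isSelfAdjoint.star_eq, (comm_star (hR i).isSelfAdjoint (ha i)).eq]

theorem star_mul' (hR : ∀ i, IsStarProjection (R i)) (h1 : ∑ i, R i = 1) {a : ι → B}
    (ha : ∀ i j, Commute (R i) (a j)) :
    star (∑ i, R i * a i) * (∑ i, R i * a i) = ∑ i, R i * (star (a i) * a i) := by
  rw [star_sum' hR fun i => ha i i,
    mul hR h1 _ fun i j => comm_star (hR i).isSelfAdjoint (ha i j)]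

theorem mu (hR : ∀ i, IsStarProjection (R i)) (h1 : ∑ i, R i = 1) {a : ι → B}
    (ha : ∀ i j, Commute (R i) (a j)) (hm : ∀ i, MU (a i)) : MU (∑ i, R i * a i) := by
  refine ⟨?_, ?_⟩
  · rw [mul hR h1 _ ha]
    exact sum_eq_zero fun i _ => by rw [(hm i).1, mul_zero]
  · rw [star_mul' hR h1 ha, star_sum' hR fun i => ha i i, mul hR h1 _ ha, ← sum_add_distrib, ← h1]
    exact sum_congr rfl fun i _ => by rw [← mul_add, (hm i).2, mul_one]

theorem clos_comm {T : Set B} {y : B} (h : ∀ x ∈ T, Commute x y) {x : B}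
    (hx : x ∈ Subring.closure T) : Commute x y := by
  have : Subring.closure T ≤ Subring.centralizer {y} :=
    Subring.closure_le.2 fun x hx => Subring.mem_centralizer_iff.2 (by
      rintro _ rfl; exact (h x hx).eq.symm)
  exact (Subring.mem_centralizer_iff.1 (this hx) y rfl).symm

theorem clos_comm₂ {T : Set B} (h : ∀ x ∈ T, ∀ y ∈ T, Commute x y) {x y : B}
    (hx : x ∈ Subring.closure T) (hy : y ∈ Subring.closure T) : Commute x y :=
  clos_comm (fun z hz => (clos_comm (fun w hw => h w hw z hz) hy).symm) hx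

theorem clos_sa {T : Set B} (h : ∀ x ∈ T, ∀ y ∈ T, Commute x y) (hs : ∀ x ∈ T, IsSelfAdjoint x)
    {x : B} (hx : x ∈ Subring.closure T) : IsSelfAdjoint x := by
  induction hx using Subring.closure_induction with
  | mem x hx => exact hs x hx
  | zero => exact .zero _
  | one => exact .one _
  | add x y _ _ hx hy => exact hx.add hy
  | neg x _ hx => exact hx.neg
  | mul x y hx' hy' hx hy => exact (hx.commute_iff hy).1 (clos_comm₂ h hx' hy')

/-- Joint resolution of finitely many commuting resolutions. -/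
theorem res {A C : Type} [Fintype A] [DecidableEq A] [Fintype C] [DecidableEq C] {T : Set B}
    (h : ∀ x ∈ T, ∀ y ∈ T, Commute x y) (e : A → C → B) (he : ∀ a c, e a c ∈ T)
    (hp : ∀ a c, IsStarProjection (e a c)) (h1 : ∀ a, ∑ c, e a c = 1) :
    ∃ Q : (A → C) → B, (∀ Λ, Q Λ ∈ Subring.closure T) ∧ ∑ Λ, Q Λ = 1 ∧
      ∀ Λ a c, Q Λ * e a c = if Λ a = c then Q Λ else 0 := by
  let : CommRing (Subring.closure T) :=
    { (inferInstance : Ring (Subring.closure T)) with
      mul_comm := fun x y => Subtype.ext (clos_comm₂ h x.2 y.2).eq }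
  let f : A → C → Subring.closure T := fun a c => ⟨e a c, Subring.subset_closure (he a c)⟩
  refine ⟨fun Λ => (∏ a, f a (Λ a) : Subring.closure T), fun Λ => Subtype.prop _, ?_,
    fun Λ a c => ?_⟩
  · have h2 : ∀ a, ∑ c, f a c = 1 := fun a => Subtype.ext (by
      rw [AddSubmonoidClass.coe_finsetSum]; exact h1 a)
    have h3 := prod_univ_sum (fun _ : A => (univ : Finset C)) f
    simp only [h2, prod_const_one, Fintype.piFinset_univ] at h3
    rw [← AddSubmonoidClass.coe_finsetSum, ← h3]; rfl
  · have h4 : (∏ b, f b (Λ b)) = (∏ b ∈ univ.erase a, f b (Λ b)) * f a (Λ a) :=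
      (prod_erase_mul _ _ (mem_univ a)).symm
    have h5 := congrArg Subtype.val h4
    rw [Subring.coe_mul] at h5
    dsimp only
    split_ifs with hc
    · subst hc
      rw [h5, mul_assoc]
      congr 1
      exact (hp a (Λ a)).isIdempotentElem.eq
    · rw [h5, mul_assoc]
      exact (congrArg _ (proj_orth (hp a) (h1 a) hc)).trans (mul_zero _)

theorem refine {A K C : Type} [Fintype K] [DecidableEq K] [Fintype C] [DecidableEq C]
    {e : A → C → B} (j : K → A) {P : (K → C) → B} {q : B} {Λ : A → C} (hP : ∑ l, P l = 1)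
    (hP' : ∀ l k c, P l * e (j k) c = if l k = c then P l else 0)
    (hq : ∀ a c, q * e a c = if Λ a = c then q else 0) (hc : ∀ l, Commute q (P l))
    (l : K → C) : q * P l = if Λ ∘ j = l then q else 0 := by
  have k : ∀ l, Λ ∘ j ≠ l → q * P l = 0 := fun l hl => by
    obtain ⟨k, hk⟩ := Function.ne_iff.1 hl
    have h1 := hP' l k (l k)
    have h2 := hq (j k) (l k)
    rw [if_pos rfl] at h1
    rw [if_neg (show ¬Λ (j k) = l k from hk)] at h2
    rw [← h1, ← mul_assoc, (hc l).eq, mul_assoc, h2, mul_zero]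
  split_ifs with hl
  · subst hl
    have := congrArg (q * ·) hP
    simp only [mul_sum, mul_one] at this
    rw [Fintype.sum_eq_single (Λ ∘ j) fun l hl => k l hl.symm] at this
    exact this
  · exact k l hl

end PSum

end Vale.Agent.P095
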