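import Vale.Agent.P095.Haar
import Vale.Agent.P095.Circle

/-! Invariant independent projections, and finite labels. -/

namespace Vale.Agent.P095
open Vale.Agent.P101 Vale.Agent.P101.JS Filter Topology Finset
open scoped ComplexOrder BoundedContinuousFunction symmDiff

universe u
variable {G : Type} [Group G] [DecidableEq G] [Countable G]

theorem proj_orth {B : Type u} [CStarAlgebra B] {Ω : Type} [Fintype Ω] {p : Ω → B}
    (hp : ∀ j, IsStarProjection (p j)) (h1 : ∑ j, p j = 1) {j j' : Ω} (h : j ≠ j') :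
    p j * p j' = 0 := by
  classical
  let := CStarAlgebra.spectralOrder B
  have := CStarAlgebra.spectralOrderedRing B
  have e : ∀ k, star (p k * p j') * (p k * p j') = p j' * p k * p j' := fun k => by
    rw [star_mul, (hp k).isSelfAdjoint.star_eq, (hp j').isSelfAdjoint.star_eq, mul_assoc,
      ← mul_assoc (p k), (hp k).isIdempotentElem.eq, mul_assoc]
  have h2 : ∑ k ∈ univ.erase j', star (p k * p j') * (p k * p j') = 0 := by
    simp only [e]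
    rw [Finset.sum_erase_eq_sub (mem_univ _), ← Finset.sum_mul, ← Finset.mul_sum, h1, mul_one,
      (hp j').isIdempotentElem.eq, (hp j').isIdempotentElem.eq, sub_self]
  exact (CStarRing.star_mul_self_eq_zero_iff _).1 ((Finset.sum_eq_zero_iff_of_nonneg
    fun k _ => star_mul_self_nonneg _).1 h2 j (mem_erase.2 ⟨h, mem_univ _⟩))

theorem TSys.Good.proj_fam {X : TSys.{u} G} (h : X.Good) (hG : Folner G) (S : Set X.M)
    (hS : S.Countable) (Ω : ℕ → Type) [∀ L, Fintype (Ω L)] [∀ L, Nonempty (Ω L)] :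
    ∃ (Y : TSys.{u} G) (E : X.Ext Y), Y.Good ∧ ∃ p : ∀ L : ℕ, Ω L → Y.M, ∀ L,
      (∀ j, IsStarProjection (p L j)) ∧ ∑ j, p L j = 1 ∧ (∀ g j, Y.act.φ g (p L j) = p L j) ∧
      ∀ y ∈ Gen S, ∀ j, Commute (p L j) (E.ι y) ∧
        ∀ τ ∈ Y.T, τ (E.ι y * p L j) = (Fintype.card (Ω L) : ℂ)⁻¹ * τ (E.ι y) := by
  obtain ⟨Y, E, hY, V, hV, h1, h2⟩ := h.haar_ext hG S hS
  obtain ⟨U⟩ := Y.exists_ultra
  choose f f1 f2 f3 f4 f5 using fun L (n : ℕ) =>
    exists_arcs (Ω L) (1 / ((n : ℝ) + 1)) Nat.one_div_pos_of_nat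
  let d : ∀ L, Ω L → ℕ →ᵇ Y.M := fun L j => seqB (fun n => circ ⟨V, hV⟩ (f L n j)) 1 fun n =>
    (NonUnitalStarAlgHom.norm_apply_le _ _).trans (f2 L n j)
  have key : ∀ y ∈ Gen S, ∀ τ ∈ Y.T, ∀ f, τ (E.ι y * circ ⟨V, hV⟩ f) = τ (E.ι y) * hint f :=
    fun y hy τ hτ f => by
      simpa using circ_haar ⟨V, hV⟩ (τ ∘ₗ LinearMap.mulLeft ℂ (E.ι y))
        ((tr_st (Y.tr τ hτ)).continuous.comp (continuous_const_mul _)) ((h2 y hy).2 τ hτ) f
  refine ⟨U.Y, E.trans U.E, U.good hY.agood, fun L j => U.cl (d L j), fun L =>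
    ⟨fun j => ⟨?_, ?_⟩, ?_, fun g j => ?_, fun y hy j => ⟨?_, fun τ hτ => ?_⟩⟩⟩
  · rw [IsIdempotentElem, ← map_mul, ← sub_eq_zero, ← map_sub]
    refine U.cl_eq_zero _ fun ε hε => ?_
    filter_upwards [tendsto_one_div_add_atTop_nhds_zero_nat.eventually
      (ge_mem_nhds (pow_pos hε 2))] with n hn τ hτ
    have hs := tr_st (Y.tr τ hτ)
    have := key 1 (one_mem _) τ hτ
    simp only [map_one, one_mul, hs.1] at this
    change n2 τ (circ ⟨V, hV⟩ (f L n j) * circ ⟨V, hV⟩ (f L n j) - circ ⟨V, hV⟩ (f L n j)) ≤ ε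
    rw [n2_le_iff hs _ hε.le, ← map_mul, ← map_sub, ← map_star, ← map_mul, this]
    exact (f5 L n j).trans hn
  · rw [IsSelfAdjoint, ← map_star]
    congr 1
    ext n
    change star (circ ⟨V, hV⟩ (f L n j)) = circ ⟨V, hV⟩ (f L n j)
    rw [← map_star, f1]
  · rw [← map_sum, ← map_one U.cl]
    congr 1
    ext n
    simp only [BoundedContinuousFunction.sum_apply, d, seqB_apply]
    rw [← map_sum, f3, map_one]
    rfl
  · rw [U.cl_act]
    congr 1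
    ext n
    exact map_circ _ _ _ (h1 g) _
  · rw [TSys.Ext.trans_ι, ← U.cl_const]
    refine Commute.map ?_ U.cl
    ext n
    exact (circ_commute ⟨V, hV⟩ (h2 y hy).1.symm _).symm
  · rw [TSys.Ext.trans_ι, ← U.cl_const, ← map_mul, ← sub_eq_zero, ← smul_eq_mul (_⁻¹), ← map_smul,
      ← map_smul, ← map_sub, ← map_sub]
    refine U.tr_eq_zero _ (fun ε hε => Eventually.of_forall fun n σ hσ => ?_) τ hτ
    change ‖σ (E.ι y * circ ⟨V, hV⟩ (f L n j) - (Fintype.card (Ω L) : ℂ)⁻¹ • E.ι y)‖ ≤ ε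
    rw [map_sub, key y hy σ hσ, f4, map_smul, smul_eq_mul, mul_comm, sub_self, norm_zero]
    exact hε.le

theorem TSys.Good.proj_ext {X : TSys.{u} G} (h : X.Good) (hG : Folner G) (S : Set X.M)
    (hS : S.Countable) (Ω : Type) [Fintype Ω] [Nonempty Ω] :
    ∃ (Y : TSys.{u} G) (E : X.Ext Y), Y.Good ∧ ∃ p : Ω → Y.M, (∀ j, IsStarProjection (p j)) ∧
      ∑ j, p j = 1 ∧ (∀ g j, Y.act.φ g (p j) = p j) ∧ ∀ y ∈ Gen S, ∀ j, Commute (p j) (E.ι y) ∧
        ∀ τ ∈ Y.T, τ (E.ι y * p j) = (Fintype.card Ω : ℂ)⁻¹ * τ (E.ι y) := by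
  obtain ⟨Y, E, h1, p, h2⟩ := h.proj_fam hG S hS fun _ => Ω
  exact ⟨Y, E, h1, p 0, h2 0⟩

/-- The same for all sizes at once. -/
theorem TSys.Good.proj_ext_seq {X : TSys.{u} G} (h : X.Good) (hG : Folner G) (S : Set X.M)
    (hS : S.Countable) :
    ∃ (Y : TSys.{u} G) (E : X.Ext Y), Y.Good ∧ ∃ p : ∀ L : ℕ, Fin (L + 1) → Y.M, ∀ L,
      (∀ j, IsStarProjection (p L j)) ∧ ∑ j, p L j = 1 ∧ (∀ g j, Y.act.φ g (p L j) = p L j) ∧
      ∀ y ∈ Gen S, ∀ j, Commute (p L j) (E.ι y) ∧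
        ∀ τ ∈ Y.T, τ (E.ι y * p L j) = ((L + 1 : ℕ) : ℂ)⁻¹ * τ (E.ι y) := by
  simpa only [Fintype.card_fin] using h.proj_fam hG S hS fun L => Fin (L + 1)

end Vale.Agent.P095
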