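import Vale.Agent.P095.Rot
import Vale.Agent.P095.Proj
import Vale.Agent.P095.PSum
import Vale.Agent.P095.TUltra

/-! Existence of unitary labels. -/

namespace Vale.Agent.P095
open Vale.Agent.P101 Vale.Agent.P101.JS Filter Topology Finset
open scoped ComplexOrder BoundedContinuousFunction symmDiff

universe u

namespace StrExAux
variable {M : Type u} [CStarAlgebra M]

theorem comm_sym {x y : M} (h : Commute x y) (h' : Commute x (star y)) (a : Bool) :
    Commute x (sym a y) := by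
  cases a
  · exact (h.sub_right h').smul_right _
  · exact h.add_right h'

theorem sym_mem {S : StarSubalgebra ℂ M} {y : M} (h : y ∈ S) (a : Bool) : sym a y ∈ S := by
  cases a
  · exact SMulMemClass.smul_mem _ (sub_mem h (star_mem h))
  · exact add_mem h (star_mem h)

theorem urot_mem {Λ : Type} {S : StarSubalgebra ℂ M} (s : ℝ) {x : Λ → M} (h : ∀ i, x i ∈ S)
    (l : List Λ) : Urot s x l ∈ S := by
  refine list_prod_mem fun y hy => ?_
  obtain ⟨i, -, rfl⟩ := List.mem_map.1 hy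
  exact add_mem (SMulMemClass.smul_mem _ (one_mem _)) (SMulMemClass.smul_mem _ (h i))

theorem n2_psum {τ : M →ₗ[ℂ] ℂ} (hτ : IsTracialState τ) {ι : Type} [Fintype ι] {R a : ι → M}
    (hR : ∀ i, IsStarProjection (R i)) (h1 : ∑ i, R i = 1) (ha : ∀ i j, Commute (R i) (a j))
    {c : ℝ} (hc : 0 ≤ c) (h : ∀ i, ‖a i‖ ≤ c) : n2 τ (∑ i, R i * a i) ≤ c := by
  rw [n2_le_iff (tr_st hτ) _ hc, PSum.star_mul' hR h1 ha, map_sum, Complex.re_sum]
  have qq : ∀ i, star (R i) * R i = R i := fun i => by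
    rw [(hR i).isSelfAdjoint.star_eq, (hR i).isIdempotentElem.eq]
  have h2 : ∑ i, (τ (R i)).re = 1 := by
    rw [← Complex.re_sum, ← map_sum, h1, hτ.1, Complex.one_re]
  calc _ ≤ ∑ i, (τ (R i)).re * c ^ 2 := sum_le_sum fun i _ => by
          have := norm_tr_pos_mul hτ (R i) (star (a i) * a i)
          rw [qq, CStarRing.norm_star_mul_self] at this
          refine (Complex.re_le_norm _).trans (this.trans (mul_le_mul_of_nonneg_left ?_
            (qq i ▸ (tr_st hτ).re_nonneg (R i))))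
          rw [sq]; exact mul_self_le_mul_self (norm_nonneg _) (h i)
    _ = _ := by rw [← sum_mul, h2, one_mul]

theorem sym_psum {ι : Type} [Fintype ι] {R a : ι → M} (hR : ∀ i, IsStarProjection (R i))
    (ha : ∀ i, Commute (R i) (a i)) (b : Bool) :
    sym b (∑ i, R i * a i) = ∑ i, R i * sym b (a i) := by
  cases b
  · simp only [sym, PSum.star_sum' hR ha, Bool.false_eq_true, if_false, ← sum_sub_distrib,
      smul_sum, mul_smul_comm, mul_sub]
  · simp only [sym, PSum.star_sum' hR ha, if_true, ← sum_add_distrib, mul_add]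

variable {κ : Type} {V : ℕ → κ → M} (hv : ∀ i g, MU (V i g))
  (hc : ∀ i j, i ≠ j → ∀ g h, Commute (V i g) (V j h) ∧ Commute (V i g) (star (V j h)))
include hv hc

theorem red : ∃ (D : Type u) (_ : CStarAlgebra D) (j : D →⋆ₐ[ℂ] M) (r : ℕ → κ × Bool → D),
    (∀ i g a, j (r i (g, a)) = sym a (V i g)) ∧
      ∀ (w : D) (c : ℝ), (∀ τ, Lay τ r → (τ w).re ≤ c) →
        ∀ τ, IsTracialState τ → (τ (j w)).re ≤ c := by
  obtain ⟨D, _, j, r, -, h1, -, h2⟩ := layer_reduce V ∅ hv hc fun y hy i g =>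
    commute_gen (fun s hs => hs.elim) y hy
  exact ⟨D, _, j, r, h1, fun w c h => h2 w c fun τ hτ _ => h τ hτ⟩

theorem comm {τ : M →ₗ[ℂ] ℂ} (hτ : IsTracialState τ) (s : ℝ) (N : ℕ) (a b : Bool) (g h : κ) :
    n2 τ (Urot s (fun i => sym a (V i g)) (List.range N) *
      Urot s (fun i => sym b (V i h)) (List.range N) -
      Urot s (fun i => sym b (V i h)) (List.range N) *
      Urot s (fun i => sym a (V i g)) (List.range N)) ^ 2 ≤ 40 * N * |s| ^ 3 := by
  obtain ⟨D, _, j, r, h1, h2⟩ := red hv hc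
  have := h2 _ _ (fun σ hσ => (n2_sq (tr_st hσ.tr) _).symm.trans_le
    (hσ.urot_comm s (List.range N) List.nodup_range (g, a) (h, b))) τ hτ
  simp only [map_mul, map_star, map_sub, map_urot, h1, List.length_range] at this
  rwa [n2_sq (tr_st hτ)]

theorem sep {τ : M →ₗ[ℂ] ℂ} (hτ : IsTracialState τ) (s : ℝ) (N : ℕ) (a : Bool) (g h : κ) (n : ℕ)
    (hs : Real.sin (n * s) ≠ 0) (hs' : Real.sin (n * s) ^ 2 ≤ 1 / 2) :
    ‖τ ((∑ i : Fin N, (sym a (V i g) - sym a (V i h)) ^ 2) *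
      (Urot s (fun i => sym a (V i g)) (List.range N) ^ n *
      star (Urot s (fun i => sym a (V i h)) (List.range N)) ^ n))‖ ≤
      2 / Real.sin (n * s) ^ 2 + 16 * N * n * |s| := by
  obtain ⟨D, _, j, r, h1, h2⟩ := red hv hc
  set z := τ _
  obtain ⟨c, c1, c2⟩ := Complex.exists_norm_eq_mul_self z
  have := h2 (c • (((List.range N).map fun i => (r i (g, a) - r i (h, a)) ^ 2).sum *
      (Urot s (r · (g, a)) (List.range N) ^ n * star (Urot s (r · (h, a)) (List.range N)) ^ n)))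
    _ (fun σ hσ => (Complex.re_le_norm _).trans (by
      rw [map_smul, norm_smul, c1, one_mul]
      exact hσ.urot_sep s (List.range N) List.nodup_range (g, a) (h, a) n hs hs')) τ hτ
  rw [← List.sum_toFinset _ List.nodup_range, List.toFinset_range, sum_range] at this
  simp only [map_mul, map_star, map_sub, map_urot, h1, List.length_range, map_smul, map_sum,
    map_pow, smul_eq_mul] at this
  rwa [← c2, Complex.ofReal_re] at this

omit hv hc

theorem num (k : ℕ) (hk : 1 ≤ k) (t N : ℝ) (ht : 0 < t) (hN : N * t ^ 5 = 1)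
    (h : k * t ^ 2 ≤ 1 / 2) :
    Real.sin (k * t ^ 2) ≠ 0 ∧ Real.sin (k * t ^ 2) ^ 2 ≤ 1 / 2 ∧
      N⁻¹ * (2 / Real.sin (k * t ^ 2) ^ 2 + 16 * N * k * |t ^ 2|) ≤ 8 * t + 16 * (k * t ^ 2) := by
  have hk' : (1 : ℝ) ≤ k := by exact_mod_cast hk
  have h0 : 0 < k * t ^ 2 := by positivity
  have h1 := Real.mul_le_sin h0.le (h.trans (by linarith [Real.pi_gt_three]))
  have h2 : 1 / 2 ≤ 2 / Real.pi := by
    rw [div_le_div_iff₀ two_pos Real.pi_pos]; linarith [Real.pi_le_four]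
  have h3 : t ^ 2 / 2 ≤ Real.sin (k * t ^ 2) := by
    refine le_trans ?_ h1
    have : t ^ 2 ≤ k * t ^ 2 := le_mul_of_one_le_left (sq_nonneg t) hk'
    nlinarith
  have h4 : 0 < Real.sin (k * t ^ 2) := lt_of_lt_of_le (by positivity) h3
  have h5 := Real.sin_le h0.le
  have hN0 : N ≠ 0 := left_ne_zero_of_mul_eq_one hN
  refine ⟨h4.ne', by nlinarith, ?_⟩
  rw [mul_add, abs_of_nonneg (sq_nonneg t)]
  refine add_le_add ?_ (le_of_eq (by field_simp))
  rw [← eq_inv_of_mul_eq_one_right hN]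
  calc t ^ 5 * (2 / Real.sin (k * t ^ 2) ^ 2) ≤ t ^ 5 * (2 / (t ^ 2 / 2) ^ 2) := by gcongr
    _ = 8 * t := by field_simp; ring

end StrExAux

variable {G : Type} [Group G] [DecidableEq G] [Countable G]

theorem TSys.Good.str_ext {X : TSys.{u} G} (h : X.Good) (hG : Folner G) :
    ∃ (Y : TSys.{u} G) (_ : X.Ext Y), Y.Good ∧ ∃ (v : Y.M) (U : Bool → Y.M), Y.Str v U := by
  obtain ⟨v, v1, v2, -⟩ := h.layers ∅ Set.countable_empty
  let V : ℕ → G → X.M := fun i g => X.act.φ g (v i)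
  have Vm : ∀ i g, MU (V i g) := fun i g => (v1 i).map _
  let S₀ : Set X.M := Set.range fun p : ℕ × G => V p.1 p.2
  have VG : ∀ i g, V i g ∈ Gen S₀ := fun i g => mem_gen_of_mem ⟨(i, g), rfl⟩
  obtain ⟨Y, E, hY, p, hp⟩ := h.proj_ext_seq hG S₀ (Set.countable_range _)
  obtain ⟨W⟩ := Y.exists_ultra
  let L : ℕ → ℕ := fun n => (n + 1) ^ 5 - 1
  let t : ℕ → ℝ := fun n => 1 / ((n : ℝ) + 1)
  have t0 : ∀ n, 0 < t n := fun n => Nat.one_div_pos_of_nat
  have tl : Tendsto t atTop (𝓝 0) := tendsto_one_div_add_atTop_nhds_zero_nat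
  have Lt : ∀ n, ((L n + 1 : ℕ) : ℝ) * t n ^ 5 = 1 := fun n => by
    have : L n + 1 = (n + 1) ^ 5 := Nat.sub_add_cancel (Nat.one_le_pow _ _ n.succ_pos)
    rw [this]; simp only [t]; push_cast; field_simp
  let z : G → ℕ → Y.M := fun g n => ∑ l : Fin (L n + 1), p (L n) l * E.ι (V l g)
  let u : Bool → G → ℕ → X.M := fun a g n =>
    Urot (t n ^ 2) (fun i => sym a (V i g)) (List.range (L n + 1))
  have pc : ∀ n l, ∀ y ∈ Gen S₀, Commute (p n l) (E.ι y) := fun n l y hy =>
    ((hp n).2.2.2 y hy l).1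
  have zm : ∀ g n, MU (z g n) := fun g n => PSum.mu (hp _).1 (hp _).2.1
    (fun i j => pc _ _ _ (VG _ _)) fun i => (Vm _ _).map _
  have rs : ∀ a g i, IsSelfAdjoint (sym a (V i g)) := fun a g i => sym_sa _ _
  have rq : ∀ a g i, sym a (V i g) * sym a (V i g) = 1 := fun a g i => (Vm i g).sym_sq a
  have uu : ∀ a g n, u a g n ∈ unitary X.M := fun a g n => urot_unitary _ (rs a g) (rq a g) _
  have uG : ∀ a g n, u a g n ∈ Gen S₀ := fun a g n =>
    StrExAux.urot_mem _ (fun i => StrExAux.sym_mem (VG i g) a) _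
  have un : ∀ a g n, ‖E.ι (u a g n)‖ ≤ 1 := fun a g n =>
    (NonUnitalStarAlgHom.norm_apply_le E.ι _).trans (by
      rw [← mul_one (u a g n), CStarRing.norm_mem_unitary_mul _ (uu a g n)]; exact norm_one_le')
  let Z : G → ℕ →ᵇ Y.M := fun g => seqB (z g) 1 fun n => (zm g n).norm_le
  let U : Bool → G → ℕ →ᵇ Y.M := fun a g => seqB (fun n => E.ι (u a g n)) 1 (un a g)
  have aZ : ∀ g, W.Y.act.φ g (W.cl (Z 1)) = W.cl (Z g) := fun g => by
    rw [W.cl_act]; congr 1; ext n
    simp only [compB_apply, Z, seqB_apply, z, map_sum, map_mul, (hp _).2.2.1, E.equi, V,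
      X.act.one]
  have aU : ∀ a g, W.Y.act.φ g (W.cl (U a 1)) = W.cl (U a g) := fun a g => by
    rw [W.cl_act]; congr 1; ext n
    simp only [compB_apply, U, seqB_apply, u, E.equi, map_urot (X.act.φ g), map_sym, V,
      X.act.one]
  have small : ∀ (d : ℕ →ᵇ Y.M) (c : ℕ → ℝ), Tendsto c atTop (𝓝 0) →
      (∀ n, ∀ τ ∈ Y.T, n2 τ (d n) ≤ c n) → W.cl d = 0 := fun d c hc hd =>
    W.cl_eq_zero d fun ε hε => (hc.eventually (ge_mem_nhds hε)).mono fun n hn τ hτ =>
      (hd n τ hτ).trans hn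
  refine ⟨W.Y, E.trans W.E, W.good hY.agood, W.cl (Z 1), fun a => W.cl (U a 1), ?_, fun a => ?_,
    fun a b g h => ?_, fun a g h => ?_, fun τ hτ a g h k hk => ?_⟩
  · refine MU.map _ ⟨?_, ?_⟩
    · ext n; exact (zm 1 n).1
    · ext n; exact (zm 1 n).2
  · refine Unitary.map_mem W.cl ⟨?_, ?_⟩
    · ext n; exact (Unitary.map_mem E.ι (uu a 1 n)).1
    · ext n; exact (Unitary.map_mem E.ι (uu a 1 n)).2
  · rw [aU, aU, commute_iff_eq, ← sub_eq_zero, ← map_mul, ← map_mul, ← map_sub]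
    refine small _ (fun n => √(40 * t n)) (by simpa using (tl.const_mul 40).sqrt) fun n τ hτ => ?_
    have := StrExAux.comm Vm v2 (tr_comp (Y.tr τ hτ) E.ι) (t n ^ 2) (L n + 1) a b g h
    rw [n2_comp, map_sub, map_mul, map_mul, abs_of_nonneg (sq_nonneg _)] at this
    refine Real.le_sqrt_of_sq_le (this.trans (le_of_eq ?_))
    linear_combination 40 * t n * Lt n
  · rw [aU, aZ, commute_iff_eq, ← sub_eq_zero, ← map_mul, ← map_mul, ← map_sub]
    refine small _ (fun n => 2 * t n ^ 2) (by simpa using (tl.pow 2).const_mul 2) fun n τ hτ => ?_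
    have e : (U a g * Z h - Z h * U a g) n = ∑ l : Fin (L n + 1),
        p (L n) l * E.ι (u a g n * V l h - V l h * u a g n) := by
      change E.ι (u a g n) * z h n - z h n * E.ι (u a g n) = _
      simp only [z, mul_sum, sum_mul, ← sum_sub_distrib, map_sub, map_mul, mul_sub, ← mul_assoc,
        (pc _ _ _ (uG a g n)).eq]
    rw [e]
    refine StrExAux.n2_psum (Y.tr τ hτ) (hp _).1 (hp _).2.1 (fun i j => pc _ _ _
      (sub_mem (mul_mem (uG _ _ _) (VG _ _)) (mul_mem (VG _ _) (uG _ _ _)))) (by positivity)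
      fun l => (NonUnitalStarAlgHom.norm_apply_le E.ι _).trans ?_
    refine (norm_urot_comm _ (rs a g) (rq a g) _ List.nodup_range (l : ℕ) (V l h) fun i hi =>
      StrExAux.comm_sym (v2 _ _ hi.symm _ _).1 (v2 _ _ hi.symm _ _).2 a).trans ?_
    rw [abs_of_nonneg (sq_nonneg _)]
    exact mul_le_of_le_one_right (by positivity) (Vm _ _).norm_le
  · rw [map_sym, map_sym, aZ, aZ, aU, aU, ← map_sym, ← map_sym, ← map_sub, ← map_star, ← map_pow,
      ← map_pow, ← map_pow, ← map_mul, ← map_mul]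
    refine W.tr_eq_zero _ (fun ε hε => ?_) τ hτ
    have l1 : Tendsto (fun n => (k : ℝ) * t n ^ 2) atTop (𝓝 0) := by
      simpa using (tl.pow 2).const_mul (k : ℝ)
    have l2 : Tendsto (fun n => 8 * t n + 16 * ((k : ℝ) * t n ^ 2)) atTop (𝓝 0) := by
      simpa using (tl.const_mul 8).add (l1.const_mul 16)
    filter_upwards [l1.eventually (ge_mem_nhds one_half_pos), l2.eventually (ge_mem_nhds hε)]
      with n h1 h2 σ hσ
    obtain ⟨n1, n2, n3⟩ := StrExAux.num k hk (t n) _ (t0 n) (Lt n) h1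
    refine le_trans ?_ (n3.trans h2)
    have q : ∀ l : Fin (L n + 1), sym a (V l g) - sym a (V l h) ∈ Gen S₀ := fun l =>
      sub_mem (StrExAux.sym_mem (VG _ _) a) (StrExAux.sym_mem (VG _ _) a)
    have w : u a g n ^ k * star (u a h n) ^ k ∈ Gen S₀ :=
      mul_mem (pow_mem (uG _ _ _) _) (pow_mem (star_mem (uG _ _ _)) _)
    have e0 : ∀ g, sym a (Z g) n = ∑ l : Fin (L n + 1), p (L n) l * E.ι (sym a (V l g)) :=
      fun g => by
        have : sym a (Z g) n = sym a (z g n) := by cases a <;> rfl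
        rw [this, StrExAux.sym_psum (hp _).1 fun i => pc _ _ _ (VG _ _)]
        simp only [map_sym]
    have e : ((sym a (Z g) - sym a (Z h)) ^ 2 * (U a g ^ k * star (U a h) ^ k)) n =
        ∑ l : Fin (L n + 1), E.ι ((sym a (V l g) - sym a (V l h)) ^ 2 *
          (u a g n ^ k * star (u a h n) ^ k)) * p (L n) l := by
      have : ((sym a (Z g) - sym a (Z h)) ^ 2 * (U a g ^ k * star (U a h) ^ k)) n =
          (sym a (Z g) n - sym a (Z h) n) ^ 2 *
            (E.ι (u a g n) ^ k * star (E.ι (u a h n)) ^ k) := by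
        simp only [BoundedContinuousFunction.mul_apply, BoundedContinuousFunction.pow_apply,
          BoundedContinuousFunction.sub_apply, BoundedContinuousFunction.star_apply, U,
          seqB_apply]
      rw [this, e0, e0, ← sum_sub_distrib]
      simp only [← mul_sub, ← map_sub]
      rw [sq, PSum.mul (hp _).1 (hp _).2.1 _ fun i j => pc _ _ _ (q j), sum_mul]
      refine sum_congr rfl fun l _ => ?_
      rw [← (pc _ _ _ (mul_mem (pow_mem (q l) 2) w)).eq]
      simp only [map_mul, map_pow, map_star, sq, mul_assoc]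
    rw [e, map_sum, sum_congr rfl fun l _ =>
      ((hp _).2.2.2 _ (mul_mem (pow_mem (q l) 2) w) l).2 σ hσ, ← mul_sum, ← map_sum, ← map_sum,
      ← sum_mul, norm_mul, norm_inv, Complex.norm_natCast]
    exact mul_le_mul_of_nonneg_left (StrExAux.sep Vm v2 (tr_comp (Y.tr σ hσ) E.ι) (t n ^ 2)
      (L n + 1) a g h k n1 n2) (by positivity)

end Vale.Agent.P095
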