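import Vale.Agent.P095.Sample
import Vale.Agent.P095.Labels
import Vale.Agent.P095.StrEx

/-! The tracial lemma. -/

namespace Vale.Agent.P095
open Vale.Agent.P101 Vale.Agent.P101.JS Filter Topology Finset
open scoped ComplexOrder BoundedContinuousFunction symmDiff

universe u
variable {G : Type} [Group G] [DecidableEq G] [Countable G]

theorem TSys.AGood.sol {X : TSys.{u} G} (h : X.AGood) (hG : Folner G) (K : Finset G) (ε : ℝ)
    (hε : 0 < ε) : X.Sol K ε 2 := by
  obtain ⟨U⟩ := X.exists_ultra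
  obtain ⟨Y1, E1, g1, v, W, hW⟩ := (U.good h).str_ext hG
  obtain ⟨F, hF, hK⟩ := hG K (ε ^ 2 / 16) (by positivity)
  obtain ⟨n, hn⟩ := exists_nat_gt (16 * (#F : ℝ) ^ 2 / ε ^ 2)
  have n0 : (0 : ℝ) < n := lt_of_le_of_lt (by positivity) hn
  obtain ⟨Y2, E2, g2, v', e, he⟩ := hW.labels g1 hG n (Nat.cast_pos.1 n0)
  obtain ⟨Y3, E3, h3⟩ := he.sample g2 hG (by positivity) K F hF (by positivity) hK
  refine (((U.E.trans E1).trans E2).trans E3).desc K _ 1 ε 2 ?_ one_lt_two h3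
  rw [Real.sqrt_lt' hε, ← mul_div_assoc (_ ^ 2)]
  rw [div_lt_iff₀ (by positivity)] at hn
  have : (#F : ℝ) ^ 2 * 4 / n < ε ^ 2 / 4 := by
    rw [div_lt_iff₀ n0]
    linarith
  nlinarith

/-- The system of all tracial states. -/
def allTr {F : Type u} [CStarAlgebra F] (β : Act G F) : TSys.{u} G where
  M := F
  act := β
  T := {τ | IsTracialState τ}
  tr _ h := h
  inv _ h g := tr_comp h (β.φ g)

theorem lemmaT {F : Type u} [CStarAlgebra F] (β : Act G F) (h : (allTr β).AGood) (hG : Folner G)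
    (K : Finset G) (ε ε' : ℝ) (hε : 0 < ε) (hε' : 0 < ε') : ∃ x : F, ‖x‖ ≤ 2 ∧
      (∀ g ∈ K, ‖β.φ g x - x‖ ≤ ε) ∧ ∀ σ, IsTracialState σ → (σ (yfun x)).re ≤ ε' := by
  obtain ⟨K', hK', hK⟩ := hG K (ε / 2) (by positivity)
  obtain ⟨x, hx, h1⟩ : ∃ x : F, ‖x‖ ≤ 2 ∧ ∀ τ, IsTracialState τ → n2 τ (x * x) ≤ √ε' ∧
      n2 τ (1 - star x * x - x * star x) ≤ √ε' ∧ ∀ g ∈ K', n2 τ (β.φ g x - x) ≤ √ε' :=
    h.sol hG K' √ε' (Real.sqrt_pos.2 hε')
  have n0 : (0 : ℝ) < #K' := Nat.cast_pos.2 hK'.card_pos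
  have hb : ∀ A : Finset G, ‖∑ g ∈ A, β.φ g x‖ ≤ #A * 2 := fun A =>
    (norm_sum_le_of_le _ fun g _ => (β.norm_apply g x).trans_le hx).trans (by simp)
  set y := (#K' : ℝ)⁻¹ • ∑ g ∈ K', β.φ g x with hy
  have ny : ‖y‖ ≤ 2 := by
    rw [hy, norm_smul, norm_inv, Real.norm_natCast, inv_mul_le_iff₀ n0]
    exact hb K'
  refine ⟨y, ny, fun s hs => ?_, fun σ hσ => ?_⟩
  · have e : β.φ s y = (#K' : ℝ)⁻¹ • ∑ g ∈ K'.image (s * ·), β.φ g x := by
      rw [hy, ← Complex.coe_smul, map_smul, map_sum, Complex.coe_smul,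
        Finset.sum_image fun a _ b _ => mul_left_cancel]
      simp only [β.mul]
    have a := hK s hs
    rw [symmDiff_def, Finset.sup_eq_union, Finset.card_union_of_disjoint disjoint_sdiff_sdiff,
      Nat.cast_add] at a
    rw [e, hy, ← smul_sub, norm_smul, norm_inv, Real.norm_natCast, inv_mul_le_iff₀ n0,
      ← Finset.sum_sdiff_sub_sum_sdiff]
    refine (norm_sub_le _ _).trans ((add_le_add (hb _) (hb _)).trans ?_)
    linarith
  · have hs := tr_st hσ
    obtain ⟨a1, a2, a3⟩ := h1 σ hσ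
    have a4 : n2 σ (y - x) ≤ √ε' := by
      have e : y - x = (#K' : ℝ)⁻¹ • ∑ g ∈ K', (β.φ g x - x) := by
        rw [Finset.sum_sub_distrib, smul_sub, Finset.sum_const, ← Nat.cast_smul_eq_nsmul ℝ,
          inv_smul_smul₀ n0.ne']
      rw [e, n2_rsmul hs, abs_inv, Nat.abs_cast, inv_mul_le_iff₀ n0]
      exact (n2_sum hs _ _).trans ((Finset.sum_le_sum a3).trans (by simp))
    have key : ∀ a b a' b' : F, ‖a‖ ≤ 2 → ‖b'‖ ≤ 2 → n2 σ (a' - a) ≤ √ε' → n2 σ (b' - b) ≤ √ε' →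
        n2 σ (a' * b' - a * b) ≤ 4 * √ε' := fun a b a' b' c1 c2 c3 c4 => by
      have := n2_triangle hs (a' * b') (a * b') (a * b)
      rw [← sub_mul, ← mul_sub] at this
      have d1 := (n2_mul_right hσ _ _).trans (mul_le_mul c3 c2 (norm_nonneg _) (by positivity))
      have d2 := (n2_mul_left hs _ _).trans (mul_le_mul c1 c4 (n2_nonneg _ _) zero_le_two)
      linarith
    have a5 : n2 σ (star y - star x) ≤ √ε' := by rwa [← star_sub, n2_star hσ]
    have b1 := key x x y y hx ny a4 a4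
    have b2 := key _ x _ y ((norm_star x).trans_le hx) ny a5 a4
    have b3 := key x _ y _ hx ((norm_star y).trans_le ny) a4 a5
    have c1 := n2_add hs (y * y - x * x) (x * x)
    have c2 := n2_sub hs (1 - star x * x - x * star x)
      ((star y * y - star x * x) + (y * star y - x * star x))
    have c3 := n2_add hs (star y * y - star x * x) (y * star y - x * star x)
    rw [sub_add_cancel] at c1
    rw [show 1 - star x * x - x * star x - ((star y * y - star x * x) + (y * star y - x * star x)) =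
      1 - star y * y - y * star y by abel] at c2
    have d1 := pow_le_pow_left₀ (n2_nonneg _ _) (c1.trans (add_le_add b1 a1)) 2
    have d2 := pow_le_pow_left₀ (n2_nonneg _ _)
      (c2.trans (add_le_add a2 (c3.trans (add_le_add b2 b3)))) 2
    rw [tr_yfun hs]
    nlinarith [Real.sq_sqrt hε'.le]

end Vale.Agent.P095
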