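import Vale.Agent.P095.ZNC
import Vale.Agent.P095.FS
import Vale.Agent.P095.Tensor
import Vale.Agent.P095.Simp

/-! The central sequence algebra of a stable algebra has no characters. -/

namespace Vale.Agent.P095
open Vale.Agent.P101 Vale.Agent.P101.JS Filter Topology Finset
open scoped ComplexOrder BoundedContinuousFunction symmDiff

universe u

namespace NCFAux

theorem char_zero {F : Type u} [CStarAlgebra F] (X : Bool → Bool → F)
    (h : ∀ b j, X b j * X b j = 0) (hs : 1 = ∑ j, (star (X true j) * X true j +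
      X true j * star (X true j) + star (X false j) * X false j)) (χ : F →⋆ₙₐ[ℂ] ℂ) : χ = 0 := by
  have h0 : ∀ b j, χ (X b j) = 0 := fun b j =>
    mul_self_eq_zero.1 (by rw [← map_mul, h, map_zero])
  have h1 : χ 1 = 0 := by rw [hs]; simp [h0]
  ext x
  rw [← one_mul x, map_mul, h1, zero_mul]
  rfl

theorem central {Z : Type u} [CStarAlgebra Z] [TopologicalSpace.SeparableSpace Z] [DecidableEq Z]
    {y : ℕ → Z} (hy : ∀ n, ‖y n‖ ≤ 1) (h : ∀ n, ∀ x ∈ (range (n + 1)).image
      (TopologicalSpace.denseSeq Z), ‖y n * x - x * y n‖ ≤ 1 / ((n : ℝ) + 1)) (c : Z) :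
    Tendsto (fun n => ‖y n * c - c * y n‖) atTop (𝓝 0) := by
  refine Metric.tendsto_nhds.2 fun ε hε => ?_
  obtain ⟨j, hj⟩ := (TopologicalSpace.denseRange_denseSeq Z).exists_dist_lt c
    (show 0 < ε / 3 by positivity)
  rw [dist_eq_norm] at hj
  filter_upwards [eventually_ge_atTop j, (tendsto_one_div_add_atTop_nhds_zero_nat (𝕜 := ℝ)).eventually
    (gt_mem_nhds (show 0 < ε / 3 by positivity))] with n hn hn'
  have := h n _ (mem_image_of_mem _ (mem_range.2 (show j < n + 1 by omega)))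
  set x := TopologicalSpace.denseSeq Z j
  rw [Real.dist_0_eq_abs, abs_norm, show y n * c - c * y n =
    y n * (c - x) + (y n * x - x * y n) - (c - x) * y n by noncomm_ring]
  linarith [norm_sub_le_of_le (norm_add_le_of_le (norm_mul_le_of_le (hy n) (le_refl ‖c - x‖))
    this) (norm_mul_le_of_le (le_refl ‖c - x‖) (hy n))]

variable {A Z C : Type u} [NonUnitalCStarAlgebra A] [CStarAlgebra Z] [NonUnitalCStarAlgebra C]
  {t : A → Z → C}

/-- The bilinear map. -/
noncomputable def bil (T : TensorProps t) : A →ₗ[ℂ] Z →ₗ[ℂ] C :=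
  LinearMap.mk₂ ℂ t T.add_left T.smul_left T.add_right T.smul_right

theorem bil_apply (T : TensorProps t) (a : A) (z : Z) : bil T a z = t a z := rfl

theorem dense_lim (T : TensorProps t) (L : ℕ → C →ₗ[ℂ] C) (hL : ∀ n c, ‖L n c‖ ≤ 2 * ‖c‖)
    (h : ∀ a z, Tendsto (fun n => L n (t a z)) atTop (𝓝 0)) (c : C) :
    Tendsto (fun n => ‖L n c‖) atTop (𝓝 0) := by
  refine Metric.tendsto_nhds.2 fun ε hε => ?_
  obtain ⟨c', hc', hd⟩ := Metric.mem_closure_iff.1 (T.dense c) (ε / 3) (by positivity)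
  rw [dist_eq_norm] at hd
  have : Tendsto (fun n => L n c') atTop (𝓝 0) := by
    clear hd
    induction hc' using Submodule.span_induction with
    | mem x hx => obtain ⟨a, z, rfl⟩ := hx; exact h a z
    | zero => simp
    | add x y _ _ hx hy => simpa using hx.add hy
    | smul r x _ hx => simpa using hx.const_smul r
  refine ((tendsto_zero_iff_norm_tendsto_zero.1 this).eventually
    (gt_mem_nhds (show 0 < ε / 3 by positivity))).mono fun n hn => ?_
  have h1 := hL n (c - c')
  rw [map_sub] at h1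
  rw [Real.dist_0_eq_abs, abs_norm]
  linarith [norm_le_insert' (L n c) (L n c')]

variable (T : TensorProps t) {e : ℕ → A} (he : ∀ n, IsSelfAdjoint (e n) ∧ ‖e n‖ ≤ 1)
  (hea : ∀ a, Tendsto (fun n => e n * a) atTop (𝓝 a) ∧ Tendsto (fun n => a * e n) atTop (𝓝 a))
include T he hea

theorem lim_comm {y : ℕ → Z} (hy : ∀ n, ‖y n‖ ≤ 1)
    (hc : ∀ c, Tendsto (fun n => ‖y n * c - c * y n‖) atTop (𝓝 0)) (c : C) :
    Tendsto (fun n => ‖c * t (e n) (y n) - t (e n) (y n) * c‖) atTop (𝓝 0) := by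
  have bd : ∀ n, ‖t (e n) (y n)‖ ≤ 1 := fun n =>
    (T.norm_le _ _).trans (mul_le_one₀ (he n).2 (norm_nonneg _) (hy n))
  refine dense_lim T (fun n => LinearMap.mulRight ℂ (t (e n) (y n)) -
    LinearMap.mulLeft ℂ (t (e n) (y n))) (fun n c => ?_) (fun a z => ?_) c
  · have := norm_sub_le_of_le (norm_mul_le_of_le (le_refl ‖c‖) (bd n))
      (norm_mul_le_of_le (bd n) (le_refl ‖c‖))
    exact this.trans (by linarith)
  · have l := (((tendsto_iff_norm_sub_tendsto_zero.1 (hea a).2).mul_const ‖z‖).add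
      ((hc z).const_mul ‖a‖)).add ((tendsto_iff_norm_sub_tendsto_zero.1 (hea a).1).mul_const ‖z‖)
    simp only [zero_mul, mul_zero, add_zero] at l
    refine squeeze_zero_norm (fun n => ?_) l
    have e1 : t a z * t (e n) (y n) - t (e n) (y n) * t a z = t (a * e n - a) (z * y n) -
        t a (y n * z - z * y n) - t (e n * a - a) (y n * z) := by
      rw [T.mul, T.mul]
      simp only [← bil_apply T, map_sub, LinearMap.sub_apply]
      abel
    change ‖t a z * t (e n) (y n) - t (e n) (y n) * t a z‖ ≤ _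
    rw [e1]
    refine norm_sub_le_of_le (norm_sub_le_of_le ((T.norm_le _ _).trans ?_) (T.norm_le _ _))
      ((T.norm_le _ _).trans ?_)
    · gcongr
      simpa using norm_mul_le_of_le (le_refl ‖z‖) (hy n)
    · gcongr
      simpa using norm_mul_le_of_le (hy n) (le_refl ‖z‖)

theorem lim_unit (c : C) : Tendsto (fun n => ‖c - t (e n * e n) 1 * c‖) atTop (𝓝 0) := by
  have bd : ∀ n, ‖t (e n * e n) 1‖ ≤ 1 := fun n =>
    (T.norm_le _ _).trans (mul_le_one₀ (by simpa using norm_mul_le_of_le (he n).2 (he n).2)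
      (norm_nonneg _) norm_one_le')
  refine dense_lim T (fun n => LinearMap.id - LinearMap.mulLeft ℂ (t (e n * e n) 1))
    (fun n c => ?_) (fun a z => ?_) c
  · have := norm_sub_le_of_le (le_refl ‖c‖) (norm_mul_le_of_le (bd n) (le_refl ‖c‖))
    exact this.trans (by linarith)
  · have l := ((tendsto_iff_norm_sub_tendsto_zero.1 (hea a).1).const_mul 2).mul_const ‖z‖
    simp only [zero_mul, mul_zero] at l
    refine squeeze_zero_norm (fun n => ?_) l
    have e1 : t a z - t (e n * e n) 1 * t a z = t (a - e n * e n * a) z := by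
      rw [T.mul, one_mul]
      simp only [← bil_apply T, map_sub, LinearMap.sub_apply]
    change ‖t a z - t (e n * e n) 1 * t a z‖ ≤ _
    rw [e1]
    refine (T.norm_le _ _).trans (mul_le_mul_of_nonneg_right ?_ (norm_nonneg _))
    rw [norm_sub_rev, show e n * e n * a - a = e n * (e n * a - a) + (e n * a - a) by noncomm_ring]
    linarith [norm_add_le_of_le (norm_mul_le_of_le (he n).2 (le_refl ‖e n * a - a‖))
      (le_refl ‖e n * a - a‖)]

end NCFAux

theorem IsStable.no_char {A Z : Type u} [NonUnitalCStarAlgebra A] [CStarAlgebra Z]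
    [TopologicalSpace.SeparableSpace A] (hZ : IsJS Z) (h : IsStable A Z)
    (P : Pair (Unitization ℂ A)) (hP : ∀ x, x ∈ P.I ↔ ∃ a : A, x = a) {ω : Ultrafilter ℕ}
    (hω : (ω : Filter ℕ) ≤ atTop) :
    ∀ χ : FS ω (P.I : Set (Unitization ℂ A)) →⋆ₙₐ[ℂ] ℂ, χ = 0 := by
  classical
  obtain ⟨C, _, t, ht, ⟨Φ⟩⟩ := h
  have T := ht.props
  have := hZ.limit.separable
  obtain ⟨e, he, hea⟩ := exists_seq_unit A
  let z := TopologicalSpace.denseSeq Z
  choose v w h1 h2 h3 using fun n : ℕ => IsJS.nil hZ ((range (n + 1)).image z)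
    (Nat.one_div_pos_of_nat (α := ℝ) (n := n))
  let ι : C →⋆ₙₐ[ℂ] Unitization ℂ A :=
    (Unitization.inrNonUnitalStarAlgHom ℂ A).comp (Φ.symm : C →⋆ₙₐ[ℂ] A)
  have ιn : ∀ c, ‖ι c‖ ≤ ‖c‖ := NonUnitalStarAlgHom.norm_apply_le ι
  have hι : ∀ a ∈ (P.I : Set (Unitization ℂ A)), ∃ c, ι c = a := fun a ha => by
    obtain ⟨a, rfl⟩ := (hP a).1 ha
    exact ⟨Φ a, congrArg Unitization.inr (Φ.symm_apply_apply a)⟩
  have hS : ∀ a ∈ (P.I : Set (Unitization ℂ A)), star a ∈ (P.I : Set (Unitization ℂ A)) :=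
    fun a ha => P.star_mem ha
  have bd : ∀ {y : ℕ → Z}, (∀ n, ‖y n‖ ≤ 1) → ∀ n, ‖ι (t (e n) (y n))‖ ≤ 1 := fun hy n =>
    (ιn _).trans ((T.norm_le _ _).trans (mul_le_one₀ (he n).2 (norm_nonneg _) (hy n)))
  have cen : ∀ {y : ℕ → Z} (hy : ∀ n, ‖y n‖ ≤ 1),
      (∀ n, ∀ x ∈ (range (n + 1)).image z, ‖y n * x - x * y n‖ ≤ 1 / ((n : ℝ) + 1)) →
      cls ω _ (seqB _ 1 (bd hy)) ∈ Cen ω (P.I : Set (Unitization ℂ A)) := fun {y} hy hc =>
    (cls_mem_cen hS).2 fun a ha => by
      obtain ⟨c, rfl⟩ := hι a ha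
      refine squeeze_zero (fun _ => norm_nonneg _) (fun n => ?_)
        ((NCFAux.lim_comm T he hea hy (NCFAux.central hy hc) c).mono_left hω)
      rw [seqB_apply, ← map_mul, ← map_mul, ← map_sub]
      exact ιn _
  let X : Bool → Bool → Cen ω (P.I : Set (Unitization ℂ A)) := fun b j =>
    cond b ⟨_, cen (fun n => (h1 n j).1) fun n x hx => (h3 n x hx j).1⟩
      ⟨_, cen (fun n => (h1 n j).2.1) fun n x hx => (h3 n x hx j).2⟩
  have sq : ∀ {y : ℕ → Z} (hy : ∀ n, ‖y n‖ ≤ 1), (∀ n, y n * y n = 0) →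
      cls ω _ (seqB _ 1 (bd hy)) * cls ω _ (seqB _ 1 (bd hy)) = 0 := fun {y} hy h0 => by
    rw [← map_mul, ← map_zero (cls ω _)]
    congr 1
    ext1 n
    change ι _ * ι _ = 0
    rw [← map_mul, T.mul, h0, ← NCFAux.bil_apply T, map_zero, map_zero]
  have X2 : ∀ b j, X b j * X b j = 0 := by
    rintro (_ | _) j
    · exact Subtype.ext (sq (fun n => (h1 n j).2.1) fun n => (h1 n j).2.2.2)
    · exact Subtype.ext (sq (fun n => (h1 n j).1) fun n => (h1 n j).2.2.1)
  have hs : 1 - ∑ j, (star (X true j) * X true j + X true j * star (X true j) +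
      star (X false j) * X false j) ∈ Ann ω (P.I : Set (Unitization ℂ A)) := by
    let D : ℕ →ᵇ Unitization ℂ A := 1 - ∑ j, (star (seqB _ 1 (bd fun n => (h1 n j).1)) *
      seqB _ 1 (bd fun n => (h1 n j).1) + seqB _ 1 (bd fun n => (h1 n j).1) *
      star (seqB _ 1 (bd fun n => (h1 n j).1)) + star (seqB _ 1 (bd fun n => (h1 n j).2.1)) *
      seqB _ 1 (bd fun n => (h1 n j).2.1))
    have hD : ∀ n, D n = 1 - ι (t (e n * e n) 1) := fun n => by
      rw [← h2 n]
      simp only [D, Fintype.sum_bool, ← NCFAux.bil_apply T (e n * e n), map_add]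
      simp only [NCFAux.bil_apply]
      have k1 : ∀ y y', ι (t (e n * e n) (star y * y')) = star (ι (t (e n) y)) * ι (t (e n) y') :=
        fun y y' => by rw [← map_star, ← map_mul, T.star, T.mul, (he n).1.star_eq]
      have k2 : ∀ y y', ι (t (e n * e n) (y * star y')) = ι (t (e n) y) * star (ι (t (e n) y')) :=
        fun y y' => by rw [← map_star, ← map_mul, T.star, T.mul, (he n).1.star_eq]
      simp only [k1, k2]
      rfl
    have e1 : cls ω _ D = (1 - ∑ j, (star (X true j) * X true j + X true j * star (X true j) +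
        star (X false j) * X false j) : Cen ω (P.I : Set (Unitization ℂ A))).1 := by
      simp only [D, Fintype.sum_bool, map_sub, map_add, map_mul, map_star, map_one]
      rfl
    have := (cls_mem_ann hS (x := D) (e1 ▸ Subtype.property _)).2 fun a ha => by
      obtain ⟨c, rfl⟩ := hι a ha
      refine squeeze_zero (fun _ => norm_nonneg _) (fun n => ?_)
        ((NCFAux.lim_unit T he hea c).mono_left hω)
      rw [hD, sub_mul, one_mul, ← map_mul, ← map_sub]
      exact ιn _
    convert this using 1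
    exact Subtype.ext e1.symm
  exact NCFAux.char_zero (fun b j => fmk ω _ (X b j))
    (fun b j => by rw [← map_mul, X2, map_zero]) (by
      have := fmk_eq_zero.2 hs
      rw [map_sub, map_one, sub_eq_zero] at this
      rw [this]
      simp only [map_sum, map_add, map_mul, map_star])

end Vale.Agent.P095
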