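import Vale.Agent.P095.MatPos
import Vale.Agent.P095.Simp

/-! Nuclearity in concrete form. -/

namespace Vale.Agent.P095
open Vale.Agent.P101 Vale.Agent.P101.JS Filter Topology Finset
open scoped ComplexOrder BoundedContinuousFunction symmDiff CStarAlgebra

universe u

theorem NucAux.sq {A : Type*} [NonUnitalCStarAlgebra A] [PartialOrder A] [StarOrderedRing A] {x : A}
    (h : 0 ≤ x) : ∃ y, x = star y * y := CStarAlgebra.nonneg_iff_eq_star_mul_self.1 h

theorem NucAux.gram {A₁ A₂ : Type*} [NonUnitalCStarAlgebra A₁] [NonUnitalCStarAlgebra A₂] [PartialOrder A₁]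
    [PartialOrder A₂] [StarOrderedRing A₁] [StarOrderedRing A₂] (φ : A₁ →CP A₂) {k : ℕ} (y : Fin k → Fin k → A₁) :
    ∃ Y : Fin k → Fin k → A₂, ∀ p p', φ (∑ q, star (y q p) * y q p') = ∑ q, star (Y q p) * Y q p' := by
  obtain ⟨Y, hY⟩ := NucAux.sq
    (φ.map_cstarMatrix_nonneg _ (star_mul_self_nonneg (CStarMatrix.ofMatrix y)))
  exact ⟨Y, fun p p' => congrFun (congrFun hY p) p'⟩

theorem NucAux.gram' {A₁ A₂ : Type*} [NonUnitalCStarAlgebra A₁] [NonUnitalCStarAlgebra A₂] [PartialOrder A₁]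
    [PartialOrder A₂] [StarOrderedRing A₁] [StarOrderedRing A₂] (φ : A₁ →CP A₂) {k : ℕ} (y : Fin k → Fin k → A₁) :
    ∃ Y : Fin k → Fin k → A₂, ∀ p p', ∃ o, φ (star (y o p) * y o p') = ∑ q, star (Y q p) * Y q p' := by
  rcases isEmpty_or_nonempty (Fin k) with h | ⟨⟨o⟩⟩
  · exact ⟨0, h.elim⟩
  · obtain ⟨Y, hY⟩ := gram φ fun q p => if q = o then y o p else 0
    exact ⟨Y, fun p p' => ⟨o, by simpa using hY p p'⟩⟩

theorem IsNuclear.cpc {A : Type u} [NonUnitalCStarAlgebra A] [PartialOrder A] [StarOrderedRing A]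
    (h : IsNuclear A) (P : Pair (Unitization ℂ A)) (hP : ∀ x, x ∈ P.I ↔ ∃ a : A, x = a) :
    CPc P := by
  classical
  intro s hs ε hε
  obtain ⟨e, he, e1, e2, e3⟩ := P.local_unit s hs (show 0 < ε / 3 by positivity)
  obtain ⟨e, rfl⟩ := (hP e).1 he
  obtain ⟨k, φ, ψ, h1, h2, h3⟩ := h (s.image fun a => e * a.snd * e) (ε / 3) (by positivity)
  obtain ⟨Y, hY⟩ := NucAux.gram' ψ fun q p => CStarMatrix.ofMatrix (Matrix.single q p (1 : ℂ))
  replace hY : ∀ p p', ψ (CStarMatrix.ofMatrix (Matrix.single p p' (1 : ℂ))) = ∑ q, star (Y q p) * Y q p' :=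
    fun p p' => by
      obtain ⟨o, ho⟩ := hY p p'
      rw [← ho]
      congr 1
      exact (show (Matrix.single o p (1 : ℂ)).conjTranspose * Matrix.single o p' 1 = Matrix.single p p' 1 by simp).symm
  have key : ∀ X : CStarMatrix (Fin k) (Fin k) ℂ, ∑ m, ∑ p, ∑ p', X p p' •
      (star (Y m p : Unitization ℂ A) * Y m p') = (ψ X : A) := fun X => by
    have : X = ∑ p, ∑ p', X p p' • CStarMatrix.ofMatrix (Matrix.single p p' (1 : ℂ)) :=
      (Matrix.matrix_eq_sum_single X).trans (sum_congr rfl fun p _ => sum_congr rfl fun p' _ =>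
        (show X p p' • Matrix.single p p' (1 : ℂ) = _ by simp).symm)
    conv_rhs => rw [this]
    simp only [map_sum, map_smul, hY, smul_sum, ← Unitization.inrNonUnitalStarAlgHom_apply ℂ, map_mul, map_star]
    rw [sum_comm]
    exact sum_congr rfl fun p _ => sum_comm
  have es : IsSelfAdjoint e := Unitization.isSelfAdjoint_inr.1 e1
  refine ⟨k, k, CStarMatrix.ofMatrixₗ.symm.toLinearMap ∘ₗ φ.toLinearMap ∘ₗ Unitization.sndHom ℂ ℂ A, e,
    fun m p => Y m p, he, e1, fun m p => (hP _).2 ⟨_, rfl⟩, ?_, fun y hy => ?_, fun ξ => ?_, fun a ha => ?_⟩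
  · have := key 1
    simp only [CStarMatrix.one_apply, ite_smul, one_smul, zero_smul, sum_ite_eq, mem_univ, if_true] at this
    rw [this, Unitization.norm_inr]
    exact (h2 _).trans norm_one_le'
  · choose y' hy' using fun p => (hP _).1 (hy p)
    obtain ⟨W, hW⟩ := NucAux.gram' φ fun _ p => y' p
    have : ∀ p p', φ (star (y p) * y p').snd p p' = ∑ q, ∑ r, star (W q p r p) * W q p' r p' := fun p p' => by
      obtain ⟨-, ho⟩ := hW p p'
      rw [hy', hy', ← Unitization.inr_star, ← Unitization.inr_mul, Unitization.snd_inr, ho]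
      exact Matrix.sum_apply p p' _ _
    change 0 ≤ ∑ p, ∑ p', φ (star (y p) * y p').snd p p'
    simp only [this]
    refine le_of_le_of_eq (sum_nonneg fun (z : Fin k × Fin k) (_ : z ∈ univ) =>
      star_mul_self_nonneg (∑ p, W z.1 p z.2 p)) ?_
    simp only [star_sum, sum_mul_sum]
    rw [sum_comm]
    refine sum_congr rfl fun p _ => sum_comm.trans (sum_congr rfl fun p' _ => ?_)
    exact Fintype.sum_prod_type _
  · have a0 : 0 ≤ φ (e * e) := map_nonneg φ (by simpa [es.star_eq] using star_mul_self_nonneg e)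
    have a1 : ‖φ (e * e)‖ ≤ 1 := (h1 _).trans ((norm_mul_le_of_le ((Unitization.norm_inr e).ge.trans e2)
      ((Unitization.norm_inr e).ge.trans e2)).trans_eq (one_mul _))
    obtain ⟨W, hW⟩ := NucAux.sq
      (sub_nonneg.2 ((CStarAlgebra.norm_le_one_iff_of_nonneg _ a0).1 a1))
    have : ∀ p p', φ (e * e) p p' = (if p = p' then 1 else 0) - ∑ q, star (W q p) * W q p' := fun p p' =>
      eq_sub_of_add_eq' (eq_sub_iff_add_eq.1 (congrFun (congrFun hW p) p').symm)
    change (∑ p, ∑ p', star (ξ p) * φ ((e : Unitization ℂ A) * e).snd p p' * ξ p').re ≤ _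
    have a2 := (Complex.nonneg_iff.1 (sum_nonneg fun q (_ : q ∈ univ) =>
      star_mul_self_nonneg (∑ p, W q p * ξ p))).1
    have a3 : ∑ p, ∑ p', star (ξ p) * (∑ q, star (W q p) * W q p') * ξ p' =
        ∑ q, star (∑ p, W q p * ξ p) * ∑ p, W q p * ξ p := by
      simp only [star_sum, sum_mul, mul_sum, star_mul]
      rw [sum_comm (f := fun q p' => ∑ p, star (ξ p) * star (W q p) * (W q p' * ξ p')), sum_comm]
      exact sum_congr rfl fun p _ => sum_comm.trans (sum_congr rfl fun _ _ => sum_congr rfl fun _ _ => by ring)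
    simp only [← Unitization.inr_mul, Unitization.snd_inr, this, mul_sub, sub_mul, sum_sub_distrib, a3]
    simp only [mul_ite, ite_mul, mul_one, mul_zero, zero_mul, sum_ite_eq, mem_univ, if_true, Complex.sub_re, Complex.re_sum,
      Complex.star_def, Complex.conj_mul', ← Complex.ofReal_pow, Complex.ofReal_re] at a2 ⊢
    linarith
  · obtain ⟨a, rfl⟩ := (hP a).1 (hs a ha)
    change ‖_ - ∑ m, ∑ p, ∑ p', φ ((e : Unitization ℂ A) * a * e).snd p p' • _‖ ≤ _
    have b1 := h3 _ (mem_image_of_mem _ ha)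
    obtain ⟨-, -, b2, b3⟩ := e3 _ ha
    rw [← Unitization.norm_inr (𝕜 := ℂ), Unitization.snd_inr, Unitization.inr_sub, Unitization.inr_mul,
      Unitization.inr_mul] at b1
    rw [key, ← Unitization.inr_mul, ← Unitization.inr_mul, Unitization.snd_inr]
    have b4 := norm_mul_le_of_le b2 e2
    rw [sub_mul] at b4
    rw [norm_sub_rev]
    linarith [norm_sub_le_norm_sub_add_norm_sub (ψ (φ (e * a * e)) : Unitization ℂ A) (e * a * e) a,
      norm_sub_le_norm_sub_add_norm_sub ((e : Unitization ℂ A) * a * e) (a * e) a]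

end Vale.Agent.P095
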