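import Vale.Agent.P095.NTmain
import Vale.Agent.P095.Apx
import Vale.Agent.P095.Disj
import Vale.Agent.P095.FOuter
import Vale.Agent.P095.Nuc
import Vale.Agent.P095.NCF
import Vale.Agent.P095.Flip
import Vale.Agent.P095.El1
import Vale.Agent.P095.El2
import Vale.Agent.P095.TensorAut
import Vale.Agent.P095.Folner

/-! Assembly. -/

namespace Vale.Agent.P095
open Vale.Agent.P101 Vale.Agent.P101.JS Filter Topology Finset
open scoped ComplexOrder BoundedContinuousFunction symmDiff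

universe u v
open TopologicalSpace

theorem equivariantly_stable {A Z : Type u} [NonUnitalCStarAlgebra A] [PartialOrder A]
    [StarOrderedRing A] [CStarAlgebra Z] [SeparableSpace A] (hZ : IsJS Z) (hs : IsSimpleAlg A)
    (hn : IsNuclear A) (hst : IsStable A Z) {G : Type} [Group G] [Countable G]
    (hG : IsAmenable G) (α : G →* (A ≃⋆ₐ[ℂ] A)) : EquivariantlyStable α Z := by
  classical
  intro C _ t ht
  obtain ⟨β, hβ⟩ := ht.exists_action α
  refine ⟨β, hβ, ?_⟩
  obtain ⟨P, hP⟩ := exists_pair_of_simple A hs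
  have hF := hG.folner
  have : SeparableSpace (Unitization ℂ A) := by
    let f : ℂ × A → Unitization ℂ A := fun x => algebraMap ℂ _ x.1 + (x.2 : Unitization ℂ A)
    have hf : Continuous f := ((continuous_algebraMap ℂ _).comp continuous_fst).add
      ((Unitization.isometry_inr (𝕜 := ℂ) (A := A)).continuous.comp continuous_snd)
    have hf' : Function.Surjective f := fun x => ⟨(x.fst, x.snd), x.inl_fst_add_inr_snd_eq⟩
    exact hf'.denseRange.separableSpace hf
  have hα : ∀ g, ∀ a ∈ (P.I : Set (Unitization ℂ A)), (uact α).φ g a ∈ (P.I : Set _) := by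
    intro g a ha
    obtain ⟨a, rfl⟩ := (hP a).1 ha
    exact (hP _).2 ⟨α g a, uact_inr α g a⟩
  let ω := hyperfilter ℕ
  have hω : (ω : Filter ℕ) ≤ atTop := Nat.hyperfilter_le_atTop
  let γ := (uact α).fs ω hα
  have hR : Reidx γ := ⟨fun D _ _ H h y => hom_of_apxF P _ hα hω H D h y,
    fun D _ _ H h y => hom_of_apxF P _ hα hω H D h y⟩
  have hc := hst.no_char hZ P hP hω
  obtain ⟨a, lam, hE, hx⟩ := P.exists_exc (ι := {g : G // ∃ w, γ.φ g w ≠ w})
    (fun g => (uact α).φ g.1) fun g => outer_of_ne P _ hα ω g.1 g.2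
  have hC : CPL P lam := (hn.cpc P hP).cpl hE.st ⟨a 0, hE.mem 0, by
    rw [(hE.lam_a 0).1]; exact one_ne_zero⟩
  have hW : ∀ g, (∃ w, γ.φ g w ≠ w) → ∀ z,
      Tendsto (fun k => ‖a k * z * (uact α).φ g (a k)‖) atTop (𝓝 0) := by
    rintro g ⟨w, hw⟩ z
    obtain ⟨δ, hδ, x, h1, h2⟩ := hx ⟨g⁻¹, γ.φ g w, fun h => hw (by
      rw [γ.inv_apply] at h; exact h.symm)⟩
    exact hE.disjoint _ _ ((uact α).apply_inv g) ((uact α).inv_apply g) hδ x h1 h2 z
  obtain ⟨x, s, hxs⟩ := exists_exT P (uact α) hα hω fun t K E δ h1 h2 hδ =>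
    exists_ntb P (uact α) hα ω hE hC
      (fun p hp => dimDrop_hom hR.rich hc hp p.succ_pos (by simp))
      (fun K ε ε' hε hε' => lemmaT γ (hR.agood hc) hF K ε ε' hε hε') t K E δ h1
      (fun g hg => hW g (h2 g hg)) hδ
  obtain ⟨θ₁, θ₂, κ, i1, i2, c12, c1, c2⟩ := hR.z_hom (hxs.no_char hR hF) hZ.limit
  have hI := intertw_of_homs ht.props hZ.locFlat.maxFlip α β hβ P hP hα hω θ₁ θ₂ κ i1 i2 c12 c1 c2
  have := hZ.limit.separable
  have := hZ.limit.nontrivial
  have := ht.props.separable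
  obtain ⟨Φ, w, h1, h2⟩ := hI.exists_iso
    ((injective_iff_map_eq_zero ht.props.left).2 fun a ha => ht.inj ha)
  exact cocycle_of_iso α β ht.props.left (fun g a => hβ g a 1) Φ w h1 h2

theorem IsAmenable.of_equiv {G : Type v} {H : Type} [Group G] [Group H] (e : H ≃* G)
    (h : IsAmenable G) : IsAmenable H := by
  obtain ⟨m, h1, h2, h3⟩ := h
  let T : lp (fun _ : H => ℝ) ⊤ →ₗ[ℝ] lp (fun _ : G => ℝ) ⊤ :=
    { toFun := fun f => ⟨fun x => f (e.symm x), memℓp_infty ⟨‖f‖, by
        rintro _ ⟨x, rfl⟩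
        exact lp.norm_apply_le_norm ENNReal.top_ne_zero f _⟩⟩
      map_add' := fun _ _ => rfl
      map_smul' := fun _ _ => rfl }
  refine ⟨m ∘ₗ T, fun f hf => h1 _ fun x => hf _, fun f hf => h2 _ fun x => hf _,
    fun g f f' hf => h3 (e g) _ _ fun x => ?_⟩
  change f' (e.symm x) = f (e.symm ((e g)⁻¹ * x))
  rw [hf, map_mul, map_inv, e.symm_apply_apply]

theorem equivariantly_stable_univ {A Z : Type u} [NonUnitalCStarAlgebra A] [PartialOrder A]
    [StarOrderedRing A] [CStarAlgebra Z] [SeparableSpace A] (hZ : IsJS Z) (hs : IsSimpleAlg A)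
    (hn : IsNuclear A) (hst : IsStable A Z) {G : Type v} [Group G] [Countable G]
    (hG : IsAmenable G) (α : G →* (A ≃⋆ₐ[ℂ] A)) : EquivariantlyStable α Z := by
  let e : Shrink.{0} G ≃* G := Shrink.mulEquiv
  have : Countable (Shrink.{0} G) := e.injective.countable
  intro C _ t ht
  obtain ⟨β, hβ, Φ, w, h1, h2, h3⟩ :=
    equivariantly_stable hZ hs hn hst (hG.of_equiv e) (α.comp e.toMonoidHom) C t ht
  have k : ∀ g, (α.comp e.toMonoidHom) (e.symm g) = α g := fun g =>
    congrArg α (e.apply_symm_apply g)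
  refine ⟨β.comp e.symm.toMonoidHom, fun g a z => ?_, Φ, fun g => w (e.symm g), fun g => h1 _,
    fun g h => ?_, fun g a => ?_⟩
  · rw [← k]; exact hβ _ a z
  · change w (e.symm (g * h)) = _
    rw [map_mul]; exact h2 _ _
  · rw [← k]; exact h3 _ a

end Vale.Agent.P095
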