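import Vale.Agent.P095.Basic

/-! Correlated sampling. -/

namespace Vale.Agent.P095
open Vale.Agent.P101 Vale.Agent.P101.JS Filter Topology Finset
open scoped ComplexOrder BoundedContinuousFunction symmDiff

universe u

namespace MinHashAux

/-- The orderings for which `e` comes first among `U`. -/
def fst {E : Type} [Fintype E] [DecidableEq E] (U : Finset E) (e : E) :
    Finset (E ≃ Fin (Fintype.card E)) := {ω | ∀ e' ∈ U, ω e ≤ ω e'}

theorem card_fst {E : Type} [Fintype E] [DecidableEq E] {U : Finset E} {e : E} (he : e ∈ U) :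
    #(fst U e) * #U ≤ Fintype.card (E ≃ Fin (Fintype.card E)) := by
  have h1 : ∀ e' ∈ U, #(fst U e) ≤ #(fst U e') := by
    intro e' he'
    refine card_le_card_of_injOn (fun ω => (Equiv.swap e e').trans ω) (fun ω hω => ?_)
      fun ω _ ω' _ h => Equiv.ext fun x => by
        simpa using DFunLike.congr_fun h (Equiv.swap e e' x)
    simp only [fst, coe_filter, mem_univ, true_and, Set.mem_setOf_eq, Equiv.trans_apply,
      Equiv.swap_apply_right] at hω ⊢
    intro x hx
    refine hω _ ?_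
    rw [Equiv.swap_apply_def]
    split_ifs <;> assumption
  have h2 : (U : Set E).PairwiseDisjoint (fst U) := by
    intro x hx y hy hxy
    refine disjoint_left.2 fun ω h1 h2 => hxy (ω.injective (le_antisymm ?_ ?_))
    · exact (mem_filter.1 h1).2 y hy
    · exact (mem_filter.1 h2).2 x hx
  calc #(fst U e) * #U = ∑ _e' ∈ U, #(fst U e) := by simp [mul_comm]
    _ ≤ ∑ e' ∈ U, #(fst U e') := sum_le_sum h1
    _ = #(U.biUnion (fst U)) := (card_biUnion h2).symm
    _ ≤ _ := card_le_univ _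

variable {κ C : Type} [Fintype κ] [Fintype C] [DecidableEq C]

/-- The histogram of a labeling. -/
def hist (l : κ → C) : Finset (C × Fin (Fintype.card κ)) := {e | (e.2 : ℕ) < #{k | l k = e.1}}

theorem card_hist (l : κ → C) : #(hist l) = Fintype.card κ := by
  rw [hist, card_eq_sum_ones, sum_filter, Fintype.sum_prod_type]
  refine Eq.trans ?_
    (card_eq_sum_card_fiberwise (f := l) (s := univ) (t := univ) fun _ _ => mem_univ _).symm
  refine sum_congr rfl fun c _ => ?_
  rw [← sum_filter, ← card_eq_sum_ones]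
  refine (Fin.card_filter_val_lt (m := #{k | l k = c})).trans ?_
  exact min_eq_right (card_le_univ _)

theorem card_sdiff_hist {X : Type} [DecidableEq X] (j₁ j₂ : κ ↪ X) (Λ : X → C) :
    #(hist (Λ ∘ j₁) \ hist (Λ ∘ j₂)) ≤ #(univ.map j₁ \ univ.map j₂) := by
  have hn : ∀ (j : κ ↪ X) (c : C), #{k | (Λ ∘ j) k = c} = #{x ∈ univ.map j | Λ x = c} := by
    intro j c
    rw [filter_map, card_map]; rfl
  rw [card_eq_sum_card_fiberwise (f := Λ) (t := univ) fun _ _ => mem_univ _,
    card_eq_sum_card_fiberwise (f := Prod.fst) (t := univ) fun _ _ => mem_univ _]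
  refine sum_le_sum fun c _ => ?_
  calc _ ≤ #(Ico #{k | (Λ ∘ j₂) k = c} #{k | (Λ ∘ j₁) k = c}) := by
        refine card_le_card_of_injOn (fun e => (e.2 : ℕ)) (fun e he => ?_) fun e he e' he' h => ?_
        · simp only [hist, coe_filter, Finset.mem_sdiff, mem_filter, mem_univ, true_and, not_lt,
            Set.mem_setOf_eq] at he
          obtain ⟨⟨h1, h2⟩, rfl⟩ := he
          exact mem_coe.2 (mem_Ico.2 ⟨h2, h1⟩)
        · exact Prod.ext ((mem_filter.1 he).2.trans (mem_filter.1 he').2.symm) (Fin.ext h)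
    _ ≤ _ := by
        rw [Nat.card_Ico, hn, hn]
        refine (le_card_sdiff _ _).trans (card_le_card fun x hx => ?_)
        simp only [Finset.mem_sdiff, mem_filter, not_and] at hx ⊢
        exact ⟨⟨hx.1.1, fun h => hx.2 h hx.1.2⟩, hx.1.2⟩

end MinHashAux

open MinHashAux in
theorem minhash (κ C : Type) [Fintype κ] [Nonempty κ] [Fintype C] [DecidableEq C] :
    ∃ (Ω : Type) (_ : Fintype Ω) (_ : Nonempty Ω) (ch : (κ → C) → Ω → κ),
      ∀ (X : Type) [DecidableEq X] (j₁ j₂ : κ ↪ X) (Λ : X → C),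
        #{ω | Λ (j₁ (ch (Λ ∘ j₁) ω)) ≠ Λ (j₂ (ch (Λ ∘ j₂) ω))} * Fintype.card κ ≤
          Fintype.card Ω * #((univ.map j₁) ∆ (univ.map j₂)) := by
  let E := C × Fin (Fintype.card κ)
  have hne : ∀ l : κ → C, (hist l).Nonempty := fun l => by
    rw [← card_pos, card_hist]; exact Fintype.card_pos
  have hch : ∀ (l : κ → C) (ω : E ≃ Fin (Fintype.card E)), ∃ k, ∃ e ∈ hist l,
      l k = e.1 ∧ ∀ e' ∈ hist l, ω e ≤ ω e' := by
    intro l ω
    obtain ⟨e, he, hmin⟩ := exists_min_image (hist l) ω (hne l)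
    obtain ⟨k, hk⟩ := card_pos.1 (lt_of_le_of_lt (Nat.zero_le _) (mem_filter.1 he).2)
    exact ⟨k, e, he, (mem_filter.1 hk).2, hmin⟩
  choose ch hch using hch
  refine ⟨E ≃ Fin (Fintype.card E), inferInstance, ⟨Fintype.equivFin E⟩, ch, fun X _ j₁ j₂ Λ => ?_⟩
  set A := hist (Λ ∘ j₁)
  set A' := hist (Λ ∘ j₂)
  have h1 : ({ω | Λ (j₁ (ch (Λ ∘ j₁) ω)) ≠ Λ (j₂ (ch (Λ ∘ j₂) ω))} : Finset _) ⊆
      (A ∆ A').biUnion (fst (A ∪ A')) := by
    intro ω hω
    obtain ⟨e, he, a1, a2⟩ := hch (Λ ∘ j₁) ω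
    obtain ⟨e', he', b1, b2⟩ := hch (Λ ∘ j₂) ω
    have hee : e ≠ e' := fun h => (mem_filter.1 hω).2 (a1.trans (h ▸ b1.symm))
    rcases lt_or_gt_of_ne (ω.injective.ne hee) with h | h
    · refine mem_biUnion.2 ⟨e, mem_symmDiff.2 (Or.inl ⟨he, fun h' => (b2 e h').not_gt h⟩),
        mem_filter.2 ⟨mem_univ _, fun x hx => ?_⟩⟩
      rcases mem_union.1 hx with hx | hx
      exacts [a2 x hx, h.le.trans (b2 x hx)]
    · refine mem_biUnion.2 ⟨e', mem_symmDiff.2 (Or.inr ⟨he', fun h' => (a2 e' h').not_gt h⟩),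
        mem_filter.2 ⟨mem_univ _, fun x hx => ?_⟩⟩
      rcases mem_union.1 hx with hx | hx
      exacts [h.le.trans (a2 x hx), b2 x hx]
  have h2 : Fintype.card κ ≤ #(A ∪ A') := (card_hist _).ge.trans (card_le_card subset_union_left)
  have h3 : #(A ∆ A') ≤ #((univ.map j₁) ∆ (univ.map j₂)) := by
    rw [symmDiff_def, symmDiff_def, sup_eq_union, sup_eq_union,
      card_union_of_disjoint disjoint_sdiff_sdiff, card_union_of_disjoint disjoint_sdiff_sdiff]
    exact add_le_add (card_sdiff_hist j₁ j₂ Λ) (card_sdiff_hist j₂ j₁ Λ)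
  calc _ ≤ (∑ e ∈ A ∆ A', #(fst (A ∪ A') e)) * #(A ∪ A') :=
        Nat.mul_le_mul ((card_le_card h1).trans card_biUnion_le) h2
    _ ≤ ∑ _e ∈ A ∆ A', Fintype.card (E ≃ Fin (Fintype.card E)) := by
        rw [sum_mul]
        exact sum_le_sum fun e he => card_fst (symmDiff_subset_union he)
    _ ≤ _ := by
        rw [sum_const, smul_eq_mul, mul_comm]
        exact Nat.mul_le_mul_left _ h3

end Vale.Agent.P095
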