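import Vale.Agent.P095.FS
import Vale.Agent.P095.MatPos

/-! Central order zero matrix units in two colours, and the elements . -/

namespace Vale.Agent.P095
open Vale.Agent.P101 Vale.Agent.P101.JS Filter Topology Finset
open scoped ComplexOrder BoundedContinuousFunction symmDiff

universe u
variable {B : Type u} [CStarAlgebra B]

/-- One colour of central order zero matrix units in `C`. -/
structure Colour (P : Pair B) {C : Type u} [CStarAlgebra C] (ι : B →⋆ₐ[ℂ] C) {p : ℕ}
    (w : Fin p → Fin p → C) (v : Fin p → C) : Prop where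
  comm_w : ∀ b i j, Commute (ι b) (w i j)
  comm_v : ∀ b i, Commute (ι b) (v i)
  rel : ∀ a ∈ P.I, ∀ i j i' j',
    ι a * (star (w i j) * w i' j') = if i = i' then ι a * (star (v j) * v j') else 0
  col : ‖∑ j, star (v j) * v j‖ ≤ 2

theorem RbuildAux.lift (P : Pair B) (ω : Ultrafilter ℕ) {D : Type*} [CStarAlgebra D] {p : ℕ}
    (κ : D →⋆ₐ[ℂ] FS ω (P.I : Set B)) (W : Fin p → Fin p → D) (o : Fin p) (h : ∀ i j i' j',
      star (W i j) * W i' j' = if i = i' then star (W o j) * W o j' else 0) (h' : ‖∑ j, star (W o j) * W o j‖ ≤ 1) :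
    ∃ (w : Fin p → Fin p → UltraPower ω B) (v : Fin p → UltraPower ω B) (c : Cen ω (P.I : Set B)),
      Colour P (constHom ω B) w v ∧ c.1 = ∑ j, star (v j) * v j ∧ fmk ω _ c = κ (∑ j, star (W o j) * W o j) := by
  choose w hw using fun i j => fmk_surj (κ (W i j))
  obtain ⟨r, r1, r2⟩ := lift_col (Ann ω (P.I : Set B)) (w o) one_pos
  have r3 : ∀ j, fmk ω _ (w o j * r) = κ (W o j) := fun j => by
    rw [map_mul, ← fmk_eq.2 r1, map_one, mul_one, hw]
  have e : ∀ {x y : Cen ω (P.I : Set B)}, fmk ω _ x = fmk ω _ y → ∀ a ∈ P.I,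
      constHom ω B a * x.1 = constHom ω B a * y.1 := fun {x y} h a ha => by
    rw [(P.cen_comm x a).eq, (P.cen_comm y a).eq, ← sub_eq_zero, ← sub_mul]
    exact (fmk_eq.1 h a ha).1
  refine ⟨fun i j => (w i j).1, fun j => (w o j * r).1, ∑ j, star (w o j * r) * (w o j * r),
    ⟨fun b i j => P.cen_comm _ b, fun b j => P.cen_comm _ b, fun a ha i j i' j' => ?_, ?_⟩,
    map_sum (Cen ω (P.I : Set B)).subtype _ _, by simp only [map_sum, map_mul (fmk ω _) (star _), map_star, r3,
      map_mul κ]⟩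
  · split_ifs with c
    · exact e (x := star (w i j) * w i' j') (y := star (w o j * r) * (w o j' * r)) (by
        rw [map_mul, map_mul _ (star _), map_star, map_star, r3, r3, hw, hw, ← map_star, ← map_star, ← map_mul,
          ← map_mul, h, if_pos c]) a ha
    · exact (e (x := star (w i j) * w i' j') (y := 0) (by
        rw [map_mul, map_star, hw, hw, ← map_star, ← map_mul, h, if_neg c, map_zero, map_zero]) a ha).trans
        (mul_zero _)
  · have : qmk (Ann ω (P.I : Set B)) (∑ b, star (w o b) * w o b) = κ (∑ j, star (W o j) * W o j) := by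
      simp only [map_sum, map_mul, map_star, ← hw]
      rfl
    rw [this] at r2
    have a := (NonUnitalStarAlgHom.norm_apply_le κ _).trans h'
    refine le_trans (le_of_eq ?_) (r2.trans (by linarith))
    change _ = ‖(Cen ω (P.I : Set B)).subtype _‖
    rw [map_sum]
    rfl

theorem exists_colours (P : Pair B) (ω : Ultrafilter ℕ) {p q : ℕ} (hp : 0 < p) (hq : 0 < q)
    (κ : DimDrop p q →⋆ₐ[ℂ] FS ω (P.I : Set B)) :
    ∃ (w : Fin p → Fin p → UltraPower ω B) (v : Fin p → UltraPower ω B)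
      (w' : Fin q → Fin q → UltraPower ω B) (v' : Fin q → UltraPower ω B),
      Colour P (constHom ω B) w v ∧ Colour P (constHom ω B) w' v' ∧ ∀ a ∈ P.I,
        (∑ j, star (v j) * v j + ∑ j, star (v' j) * v' j) * constHom ω B a = constHom ω B a := by
  have s1 : ∀ t : unitInterval, √(1 - t) * √(1 - t) = 1 - t := fun t => Real.mul_self_sqrt (sub_nonneg.2 t.2.2)
  have s2 : ∀ t : unitInterval, √t * √t = t := fun t => Real.mul_self_sqrt t.2.1
  let W : Fin p → Fin p → DimDrop p q := fun i j => ⟨⟨fun t => √(1 - t) •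
    Matrix.kronecker (Matrix.single i j 1) 1, by fun_prop⟩, ⟨Matrix.single i j 1, by simp⟩, 0, by simp⟩
  let W' : Fin q → Fin q → DimDrop p q := fun i j => ⟨⟨fun t => √t •
    Matrix.kronecker 1 (Matrix.single i j 1), by fun_prop⟩, ⟨0, by simp⟩, Matrix.single i j 1, by simp⟩
  have a : ∀ i j i' j' t, (star (W i j) * W i' j').1 t = if i = i' then (1 - t : ℝ) •
      Matrix.kronecker (Matrix.single j j' 1) 1 else 0 := fun i j i' j' t => by
    change star ((W i j).1 t) * (W i' j').1 t = _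
    split_ifs with c <;> simp [W, c, Matrix.star_eq_conjTranspose, Matrix.conjTranspose_kronecker,
      ← Matrix.mul_kronecker_mul, smul_smul, s1]
  have a' : ∀ i j i' j' t, (star (W' i j) * W' i' j').1 t = if i = i' then (t : ℝ) •
      Matrix.kronecker 1 (Matrix.single j j' 1) else 0 := fun i j i' j' t => by
    change star ((W' i j).1 t) * (W' i' j').1 t = _
    split_ifs with c <;> simp [W', c, Matrix.star_eq_conjTranspose, Matrix.conjTranspose_kronecker,
      ← Matrix.mul_kronecker_mul, smul_smul, s2]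
  have b : ∑ j, star (W ⟨0, hp⟩ j) * W ⟨0, hp⟩ j + ∑ j, star (W' ⟨0, hq⟩ j) * W' ⟨0, hq⟩ j = 1 := by
    refine Subtype.ext (ContinuousMap.ext fun t => ?_)
    rw [← JS.ev_apply, ← JS.ev_apply]
    simp only [map_add, map_sum, ev_apply, a, a', if_true, map_one, ← smul_sum]
    ext i j
    simp [Matrix.sum_apply, Matrix.single_apply, Matrix.one_apply, Prod.ext_iff, ite_and]
    grind
  let := CStarAlgebra.spectralOrder (DimDrop p q)
  have := CStarAlgebra.spectralOrderedRing (DimDrop p q)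
  have n1 : 0 ≤ ∑ j, star (W ⟨0, hp⟩ j) * W ⟨0, hp⟩ j := sum_nonneg fun _ _ => star_mul_self_nonneg _
  have n2 : 0 ≤ ∑ j, star (W' ⟨0, hq⟩ j) * W' ⟨0, hq⟩ j := sum_nonneg fun _ _ => star_mul_self_nonneg _
  obtain ⟨w, v, c, h1, h2, h3⟩ := RbuildAux.lift P ω κ W ⟨0, hp⟩ (fun i j i' j' => Subtype.ext
    (ContinuousMap.ext fun t => by rw [a]; split_ifs; exacts [by rw [a, if_pos rfl], rfl]))
    ((CStarAlgebra.norm_le_one_iff_of_nonneg _ n1).2 (b ▸ le_add_of_nonneg_right n2))
  obtain ⟨w', v', c', h1', h2', h3'⟩ := RbuildAux.lift P ω κ W' ⟨0, hq⟩ (fun i j i' j' => Subtype.ext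
    (ContinuousMap.ext fun t => by rw [a']; split_ifs; exacts [by rw [a', if_pos rfl], rfl]))
    ((CStarAlgebra.norm_le_one_iff_of_nonneg _ n2).2 (b ▸ le_add_of_nonneg_left n1))
  refine ⟨w, v, w', v', h1, h1', fun x hx => ?_⟩
  have := (fmk_eq.1 (show fmk ω _ (c + c') = fmk ω _ 1 by rw [map_add, h3, h3', ← map_add, b, map_one, map_one])
    x hx).1
  change (c.1 + c'.1 - 1) * _ = 0 at this
  rwa [sub_mul, one_mul, sub_eq_zero, h2, h2'] at this

open Matrix in
theorem Colour.build {P : Pair B} {ω : Ultrafilter ℕ} {p : ℕ}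
    {w : Fin p → Fin p → UltraPower ω B} {v : Fin p → UltraPower ω B}
    (h : Colour P (constHom ω B) w v) {ι Λ : Type} [Fintype ι] [DecidableEq Λ] (z : ι → B)
    (hz : ∀ i, z i ∈ P.I) (T : Λ → ι → Bool → Matrix (Fin p) (Fin p) ℂ)
    (Q : Bool → Matrix (Fin p) (Fin p) ℂ) (hQ : Q true + Q false = 1)
    (hQ' : ∀ h, SW (fun b d => Q h b d • (1 : B)) 1) {ε : ℝ} (hε : 0 ≤ ε)
    (hT : ∀ μ μ' h, SW (fun b d => ∑ i, ∑ j, ((T μ i h)ᴴ * T μ' j h) b d • (star (z i) * z j) -
      if μ = μ' then Q h b d • ∑ i, star (z i) * z i else 0) ε) :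
    ∃ (R : Bool → Λ → UltraPower ω B) (q : Bool → UltraPower ω B),
      q true + q false = ∑ j, star (v j) * v j ∧ (∀ h, ‖q h‖ ≤ 2) ∧
      (∀ h b, Commute (constHom ω B b) (q h)) ∧
      (∀ d₀, (∀ i, d₀ * z i = z i) → ∀ h μ, constHom ω B d₀ * R h μ = R h μ) ∧
      ∀ h μ μ', ‖star (R h μ) * R h μ' -
        if μ = μ' then constHom ω B (∑ i, star (z i) * z i) * q h else 0‖ ≤ 2 * ε := by
  have c2 : √‖∑ b, star (v b) * v b‖ * √‖∑ b, star (v b) * v b‖ ≤ 2 := (Real.mul_self_sqrt (norm_nonneg _)).trans_le h.col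
  have cv : ∀ b i, Commute (constHom ω B b) (star (v i)) := fun b i => by
    simpa only [map_star, star_star] using (h.comm_v (star b) i).star_star
  have cw : ∀ b i j, Commute (constHom ω B b) (star (w i j)) := fun b i j => by
    simpa only [map_star, star_star] using (h.comm_w (star b) i j).star_star
  have sw : ∀ {X : Fin p → Fin p → B} {δ : ℝ}, 0 ≤ δ → SW X δ →
      ‖∑ b, ∑ d, constHom ω B (X b d) * (star (v b) * v d)‖ ≤ 2 * δ := fun {X δ} h0 hX => by
    have := hX.ultra h0 ω v v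
    simp only [← (cv _ _).eq, mul_assoc] at this
    exact this.trans ((mul_le_mul_of_nonneg_left c2 h0).trans_eq (mul_comm _ _))
  refine ⟨fun k μ => ∑ i, ∑ a, ∑ b, T μ i k a b • (constHom ω B (z i) * w a b),
    fun k => ∑ b, ∑ d, Q k b d • (star (v b) * v d), ?_, fun k => ?_, fun k b => ?_, fun d hd k μ => ?_,
    fun k μ μ' => le_trans (le_of_eq (congrArg _ ?_)) (sw hε (hT μ μ' k))⟩
  · simp only [← sum_add_distrib, ← add_smul, ← Matrix.add_apply, hQ, Matrix.one_apply, ite_smul, one_smul,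
      zero_smul, sum_ite_eq, mem_univ, if_true]
  · simpa using sw zero_le_one (hQ' k)
  · exact Commute.sum_right _ _ _ fun _ _ => Commute.sum_right _ _ _ fun _ _ =>
      ((cv _ _).mul_right (h.comm_v _ _)).smul_right _
  · simp only [mul_sum, mul_smul_comm, ← mul_assoc, ← map_mul, hd]
  · simp only [map_sub, sub_mul, sum_sub_distrib]
    congr 1
    · have e : ∀ i j a b a' b', star (constHom ω B (z i) * w a b) * (constHom ω B (z j) * w a' b') =
          if a = a' then constHom ω B (star (z i) * z j) * (star (v b) * v b') else 0 := fun i j a b a' b' => by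
        rw [← h.rel _ (P.I.mul_mem_left _ (hz j)), star_mul, ← map_star, mul_assoc, ← mul_assoc _ _ (w a' b'),
          ← map_mul, ← mul_assoc, ← (cw _ _ _).eq, mul_assoc]
      have r : ∀ f : ι → Fin p → Fin p → UltraPower ω B, ∑ i, ∑ a, ∑ b, f i a b = ∑ b, ∑ i, ∑ a, f i a b :=
        fun f => (sum_congr rfl fun _ _ => sum_comm).trans sum_comm
      simp only [r fun i a b => T μ i k a b • (constHom ω B (z i) * w a b),
        r fun i a b => T μ' i k a b • (constHom ω B (z i) * w a b)]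
      simp only [star_sum, sum_mul_sum, star_smul, smul_mul_smul_comm, e, smul_ite, smul_zero, map_sum, map_smul,
        Matrix.mul_apply, conjTranspose_apply, sum_smul, smul_mul_assoc, sum_ite_eq, mem_univ, if_true]
      simp only [sum_mul, smul_mul_assoc, mul_smul_comm, e, smul_ite, smul_zero, sum_ite_eq, mem_univ, if_true,
        smul_smul, mul_comm]
    · split_ifs
      · simp only [mul_sum, map_smul, smul_mul_assoc, mul_smul_comm]
      · simp

end Vale.Agent.P095
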