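import Vale.Agent.P095.FS
import Vale.Agent.P095.Simp
import Vale.Agent.P095.CP
import Vale.Agent.P095.MatPos

/-! Columns with small rows at a finite level. -/

namespace Vale.Agent.P095
open Vale.Agent.P101 Vale.Agent.P101.JS Filter Topology Finset
open scoped ComplexOrder BoundedContinuousFunction symmDiff

universe u

namespace ZbAux
variable {B C : Type u} [CStarAlgebra B] [CStarAlgebra C] {ι κ : Type} [Fintype ι] [Fintype κ]

theorem col (j : B →⋆ₐ[ℂ] C) (Y : ι → C) (h : ∀ i b, Commute (j b) (Y i)) (u : κ → B) :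
    ∑ p : ι × κ, star (j (u p.2) * Y p.1) * (j (u p.2) * Y p.1) =
      (∑ i, star (Y i) * Y i) * j (∑ k, star (u k) * u k) := by
  rw [Fintype.sum_prod_type, map_sum, sum_mul_sum]
  refine sum_congr rfl fun i _ => sum_congr rfl fun k _ => ?_
  rw [mul_assoc, ← (h i _).eq, star_mul, map_mul, map_star]
  simp only [mul_assoc]

theorem row (j : B →⋆ₐ[ℂ] C) (Y : ι → C) (h : ∀ i b, Commute (j b) (Y i)) (u : κ → B) :
    ∑ p : ι × κ, j (u p.2) * Y p.1 * star (j (u p.2) * Y p.1) =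
      (∑ i, Y i * star (Y i)) * j (∑ k, u k * star (u k)) := by
  rw [Fintype.sum_prod_type, map_sum, sum_mul_sum]
  refine sum_congr rfl fun i _ => sum_congr rfl fun k _ => ?_
  have h1 := (h i (star (u k * star (u k)))).star_star
  rw [← map_star, star_star] at h1
  rw [mul_assoc (Y i), ← h1.eq, (h i _).eq, star_mul, map_mul, map_star]
  simp only [mul_assoc]

theorem ev {ω : Ultrafilter ℕ} {D : ℕ →ᵇ B} {y : UltraPower ω B} {c c' : ℝ} (h : cls ω B D = y)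
    (hy : ‖y‖ ≤ c) (hc : c < c') : ∀ᶠ n in ω, ‖D n‖ ≤ c' :=
  (ev_norm_le D (sub_pos.2 hc)).mono fun n hn => by rw [h] at hn; linarith

theorem descend {G : Type} [Group G] (β : Act G B) (ω : Ultrafilter ℕ) (Y : ι → UltraPower ω B)
    (x : UltraPower ω B) (d b : B) (s : κ → B) (X t : Finset B) (K : Finset G) {θ η : ℝ}
    (hθ : 0 < θ) (hη : 0 < η) (hx : ‖x‖ ≤ 5 / 2)
    (h1 : ‖∑ p : ι × κ, star (constHom ω B (d * s p.2) * Y p.1) * (constHom ω B (d * s p.2) * Y p.1) -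
      constHom ω B b * yfun x‖ ≤ η / 2)
    (h2 : ‖∑ p : ι × κ, constHom ω B (d * s p.2) * Y p.1 * star (constHom ω B (d * s p.2) * Y p.1)‖ ≤
      θ / 2)
    (h3 : ∀ a, Commute x (constHom ω B a)) (h4 : ∀ a, Commute (yfun x) (constHom ω B a))
    (h5 : ∀ a ∈ t, ∀ g ∈ K, ‖(umap ω (β.φ g) x - x) * constHom ω B a‖ ≤ η / 2) :
    ∃ (x' : B) (ι : Type) (_ : Fintype ι) (z : ι → B), ‖x'‖ ≤ 3 ∧ (∀ i, ∃ c, z i = d * c) ∧
      ‖∑ i, star (z i) * z i - b * yfun x'‖ ≤ η ∧ ‖∑ i, z i * star (z i)‖ ≤ θ ∧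
      (∀ a ∈ X, ‖x' * a - a * x'‖ ≤ η ∧ ‖yfun x' * a - a * yfun x'‖ ≤ η) ∧
      ∀ a ∈ t, ∀ g ∈ K, ‖(β.φ g x' - x') * a‖ ≤ η := by
  choose y hy using fun i => cls_surj (Y i)
  obtain ⟨x, rfl⟩ := cls_surj x
  let c := BoundedContinuousFunction.const (β := B) ℕ
  have hc : ∀ a, cls ω B (c a) = constHom ω B a := fun _ => rfl
  let z : ι × κ → ℕ →ᵇ B := fun p => c (d * s p.2) * y p.1
  have e0 := ev (D := x) rfl hx (by norm_num : (5 / 2 : ℝ) < 3)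
  have e1 := ev (D := ∑ p, star (z p) * z p - c b * yfun x) (by
    simp only [z, map_sub, map_sum, map_mul (cls ω B), map_star, hc, hy, map_yfun]) h1
    (half_lt_self hη)
  have e2 := ev (D := ∑ p, z p * star (z p)) (by
    simp only [z, map_sum, map_mul (cls ω B), map_star, hc, hy]) h2 (half_lt_self hθ)
  have e3 : ∀ᶠ n in ω, ∀ a ∈ X, ‖x n * a - a * x n‖ ≤ η ∧
      ‖yfun (x n) * a - a * yfun (x n)‖ ≤ η := by
    rw [eventually_all_finset]
    exact fun a _ => (ev (D := x * c a - c a * x) (by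
      rw [map_sub, map_mul, map_mul, hc, (h3 a).eq, sub_self]) norm_zero.le hη).and
      (ev (D := yfun x * c a - c a * yfun x) (by
      rw [map_sub, map_mul, map_mul, hc, map_yfun, (h4 a).eq, sub_self]) norm_zero.le hη)
  have e4 : ∀ᶠ n in ω, ∀ a ∈ t, ∀ g ∈ K, ‖(β.φ g (x n) - x n) * a‖ ≤ η := by
    simp only [eventually_all_finset]
    exact fun a ha g hg => ev (D := (compB (β.φ g) x - x) * c a) (by
      rw [map_mul, map_sub, hc, umap_cls]) (h5 a ha g hg) (half_lt_self hη)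
  obtain ⟨n, k0, k1, k2, k3, k4⟩ := (e0.and (e1.and (e2.and (e3.and e4)))).exists
  refine ⟨x n, ι × κ, inferInstance, fun p => z p n, k0, fun p => ⟨_, mul_assoc _ _ _⟩, ?_, ?_,
    k3, k4⟩
  · rw [BoundedContinuousFunction.sub_apply, BoundedContinuousFunction.sum_apply] at k1
    exact k1
  · rw [BoundedContinuousFunction.sum_apply] at k2
    exact k2

end ZbAux

theorem exists_col {G : Type} [Group G] {B : Type u} [CStarAlgebra B] (P : Pair B) (β : Act G B)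
    (hβ : ∀ g, ∀ a ∈ (P.I : Set B), β.φ g a ∈ (P.I : Set B)) (ω : Ultrafilter ℕ) {d b : B}
    (hd : d ∈ P.I) (hd0 : d ≠ 0) (hb : b ∈ P.I) (hbs : IsSelfAdjoint b) (hb1 : ‖b‖ ≤ 1)
    (X t : Finset B) (ht : ∀ a ∈ t, a ∈ P.I ∧ ‖a‖ ≤ 1) (K : Finset G) {κ η : ℝ} (hκ : 0 < κ)
    (hη : 0 < η) : ∃ ε' : ℝ, 0 < ε' ∧ ∀ x : FS ω (P.I : Set B), ‖x‖ ≤ 2 →
      (∀ g ∈ K, ‖(β.fs ω hβ).φ g x - x‖ ≤ η / 2) →
      (∀ σ, IsTracialState σ → (σ (yfun x)).re ≤ ε') →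
      ∃ (x' : B) (ι : Type) (_ : Fintype ι) (z : ι → B), ‖x'‖ ≤ 3 ∧ (∀ i, ∃ c, z i = d * c) ∧
        ‖∑ i, star (z i) * z i - b * b * yfun x'‖ ≤ η ∧ ‖∑ i, z i * star (z i)‖ ≤ κ ^ 2 ∧
        (∀ a ∈ X, ‖x' * a - a * x'‖ ≤ η ∧ ‖yfun x' * a - a * yfun x'‖ ≤ η) ∧
        ∀ a ∈ t, ∀ g ∈ K, ‖(β.φ g x' - x') * a‖ ≤ η := by
  obtain ⟨N, s, hs⟩ := P.simple_sum hd hd0 hb (half_pos hη)
  rw [hbs.star_eq] at hs
  let U : B := ∑ j, star (d * s j) * (d * s j)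
  let U' : B := ∑ j, d * s j * star (d * s j)
  have hU : U ∈ P.I := P.I.sum_mem fun j _ => P.I.mul_mem_left _ (P.I.mul_mem_right _ hd)
  have hU' : U' ∈ P.I := P.I.sum_mem fun j _ => P.I.mul_mem_right _ (P.I.mul_mem_right _ hd)
  obtain ⟨ε', hε', he⟩ : ∃ ε' : ℝ, 0 < ε' ∧ (ε' + ε') * ‖U'‖ ≤ κ ^ 2 / 2 :=
    ⟨κ ^ 2 / (4 * (‖U'‖ + 1)), by positivity, by
      rw [← two_mul, ← mul_div_assoc, div_mul_eq_mul_div, div_le_div_iff₀ (by positivity) two_pos]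
      nlinarith [sq_nonneg κ]⟩
  refine ⟨ε', hε', fun x x1 x2 x3 => ?_⟩
  obtain ⟨c, hc⟩ := yfun_pos x
  obtain ⟨M, y, y1, y2⟩ := cuntz_pedersen c hε'.le (hc ▸ x3) hε'
  choose Y hY using fun i => fmk_surj (y i)
  obtain ⟨x₀, hx₀, x₀n⟩ := fmk_lift x one_half_pos
  let j := constHom ω B
  have jn : ∀ u, ‖j u‖ ≤ ‖u‖ := NonUnitalStarAlgHom.norm_apply_le j
  have hy : (yfun x₀).1 = yfun x₀.1 := map_yfun (Cen ω (P.I : Set B)).subtype x₀
  have x₀n' : ‖x₀.1‖ ≤ 5 / 2 := by change ‖x₀‖ ≤ _; linarith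
  refine ZbAux.descend β ω (fun i => (Y i).1) x₀.1 d (b * b) s X t K (pow_pos hκ 2) hη x₀n' ?_ ?_
    (fun a => (P.cen_comm x₀ a).symm) (fun a => hy ▸ (P.cen_comm (yfun x₀) a).symm)
    fun a ha g hg => ?_
  · have h1 : ∑ i, star (Y i) * Y i - yfun x₀ ∈ Ann ω (P.I : Set B) := fmk_eq.1 (by
      rw [map_yfun, hx₀, hc, ← y1, map_sum]
      simp only [map_mul, map_star, hY])
    have h2 := (h1 U hU).1
    have h3 : (∑ i, star (Y i) * Y i - yfun x₀).1 = ∑ i, star (Y i).1 * (Y i).1 - yfun x₀.1 := by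
      rw [← hy]
      exact (map_sub (Cen ω (P.I : Set B)).subtype _ _).trans (by rw [map_sum]; rfl)
    rw [h3, sub_mul, sub_eq_zero, ← hy, ← (P.cen_comm (yfun x₀) U).eq, hy] at h2
    rw [ZbAux.col j (fun i => (Y i).1) (fun i => P.cen_comm (Y i)) fun k => d * s k, h2, ← sub_mul, ← map_sub]
    have := norm_mul_le_of_le ((jn _).trans hs) (norm_yfun (x₀n'.trans (by norm_num)))
    linarith
  · have h1 := norm_mul_const_le (∑ i, Y i * star (Y i)) hU'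
    have h3 : (∑ i, Y i * star (Y i)).1 = ∑ i, (Y i).1 * star (Y i).1 :=
      map_sum (Cen ω (P.I : Set B)).subtype _ _
    have h4 : fmk ω _ (∑ i, Y i * star (Y i)) = ∑ i, y i * star (y i) := by
      rw [map_sum]
      simp only [map_mul, map_star, hY]
    rw [h3, h4] at h1
    rw [ZbAux.row j (fun i => (Y i).1) (fun i => P.cen_comm (Y i)) fun k => d * s k]
    exact h1.trans ((mul_le_mul_of_nonneg_right y2 (norm_nonneg _)).trans he)
  · have h1 := norm_mul_const_le (cmap ω (β.φ g) (β.sub_image hβ g) x₀ - x₀) (ht a ha).1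
    rw [map_sub, ← Act.fs_fmk, hx₀] at h1
    exact h1.trans (by simpa using mul_le_mul (x2 g hg) (ht a ha).2 (norm_nonneg _) (by linarith))

end Vale.Agent.P095
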