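import Vale.Agent.P095.Exact
import Vale.Agent.P095.Asm
import Vale.Agent.P095.Rbuild
import Vale.Agent.P095.Zbuild
import Vale.Agent.P095.HT
import Vale.Agent.P095.CPl
import Vale.Agent.P095.Excise

/-! Existence of the approximate data. -/

namespace Vale.Agent.P095
open Vale.Agent.P101 Vale.Agent.P101.JS Filter Topology Finset
open scoped ComplexOrder BoundedContinuousFunction symmDiff

universe u

namespace NTAux

theorem norm_le_of_col {B : Type u} [CStarAlgebra B] {M k : Type} [Fintype M] [Fintype k]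
    {c : M → k → B} (h : ‖∑ m, ∑ p, star (c m p) * c m p‖ ≤ 1) (m : M) (p : k) : ‖c m p‖ ≤ 1 := by
  let := CStarAlgebra.spectralOrder B
  have := CStarAlgebra.spectralOrderedRing B
  have h1 : star (c m p) * c m p ≤ ∑ m, ∑ p, star (c m p) * c m p :=
    (single_le_sum (f := fun p => star (c m p) * c m p) (fun _ _ => star_mul_self_nonneg _)
      (mem_univ p)).trans (single_le_sum (f := fun m => ∑ p, star (c m p) * c m p)
        (fun _ _ => sum_nonneg fun _ _ => star_mul_self_nonneg _) (mem_univ m))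
  have h2 := (CStarAlgebra.norm_le_norm_of_nonneg_of_le (star_mul_self_nonneg _) h1).trans h
  rw [CStarRing.norm_star_mul_self] at h2
  nlinarith [norm_nonneg (c m p)]

theorem key_est {B C : Type u} [CStarAlgebra B] [CStarAlgebra C] (ι : B →⋆ₐ[ℂ] C)
    {c c' S b y : B} {W q : C} {η : ℝ} (p : Prop) [Decidable p] (hc : ‖c‖ ≤ 1) (hc' : ‖c'‖ ≤ 1)
    (hy : ‖y‖ ≤ 1) (hq : ‖q‖ ≤ 2) (hcq : Commute (ι c') q) (h1 : ‖S - b * b * y‖ ≤ η)
    (h2 : ‖star c * (b * b) - star c‖ ≤ η) (h3 : ‖y * c' - c' * y‖ ≤ η)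
    (h4 : ‖W - if p then ι S * q else 0‖ ≤ 4 * η) :
    ‖star (ι c) * W * ι c' - if p then ι (star c * c') * (ι y * q) else 0‖ ≤ 10 * η := by
  have hη : 0 ≤ η := (norm_nonneg _).trans h1
  have n1 : ‖star (ι c)‖ ≤ 1 := by
    rw [norm_star]; exact (NonUnitalStarAlgHom.norm_apply_le ι c).trans hc
  have n2 : ‖ι c'‖ ≤ 1 := (NonUnitalStarAlgHom.norm_apply_le ι c').trans hc'
  have e1 := norm_mul_le_of_le (norm_mul_le_of_le n1 h4) n2
  split_ifs at e1 ⊢ with hp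
  · have n3 : ‖star c‖ ≤ 1 := by rwa [norm_star]
    have e2 : ‖star c * S * c' - star c * c' * y‖ ≤ 3 * η := by
      have : star c * S * c' - star c * c' * y = star c * (S - b * b * y) * c' +
          (star c * (b * b) - star c) * y * c' + star c * (y * c' - c' * y) := by noncomm_ring
      rw [this]
      have := norm_add_le_of_le (norm_add_le_of_le (norm_mul_le_of_le (norm_mul_le_of_le n3 h1) hc')
        (norm_mul_le_of_le (norm_mul_le_of_le h2 hy) hc')) (norm_mul_le_of_le n3 h3)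
      linarith
    have e3 := norm_mul_le_of_le ((NonUnitalStarAlgHom.norm_apply_le ι _).trans e2) hq
    have : star (ι c) * W * ι c' - ι (star c * c') * (ι y * q) =
        star (ι c) * (W - ι S * q) * ι c' + ι (star c * S * c' - star c * c' * y) * q := by
      simp only [map_sub, map_mul, map_star, mul_sub, sub_mul, mul_assoc, hcq.eq]
      abel
    rw [this]
    linarith [norm_add_le_of_le e1 e3]
  · rw [sub_zero] at e1 ⊢
    linarith

theorem le_two {x : ℝ} (h : x * x ≤ 4) : x ≤ 2 := by nlinarith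

theorem exists_R {B : Type u} [CStarAlgebra B] (P : Pair B) (ω : Ultrafilter ℕ)
    {lam : B →ₗ[ℂ] ℂ} (hl : IsSt lam) (hC : CPL P lam)
    (hdrop : ∀ p, 0 < p → Nonempty (DimDrop p (p + 1) →⋆ₐ[ℂ] FS ω (P.I : Set B)))
    {ι Λ : Type} [Fintype ι] [Fintype Λ] [DecidableEq Λ] (z : ι → B) (hzI : ∀ i, z i ∈ P.I)
    {κ η : ℝ} (hκ : 0 ≤ κ) (κ1 : κ ≤ 1) (hη : 0 < η) (e4 : η ≤ 1 / 10)
    (κ2 : 10 * (Fintype.card Λ + 1) * κ ≤ η) (hS : ‖∑ i, star (z i) * z i‖ ≤ 1)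
    (z2 : ‖∑ i, z i * star (z i)‖ ≤ κ ^ 2) :
    ∃ (R : Bool × Bool → Λ → UltraPower ω B) (q : Bool × Bool → UltraPower ω B),
      (∀ J, ‖q J‖ ≤ 2) ∧ (∀ J u, Commute (constHom ω B u) (q J)) ∧
      (∀ d₀, (∀ i, d₀ * z i = z i) → ∀ J μ, constHom ω B d₀ * R J μ = R J μ) ∧
      (∀ J μ μ', ‖star (R J μ) * R J μ' -
        if μ = μ' then constHom ω B (∑ i, star (z i) * z i) * q J else 0‖ ≤ 4 * η) ∧
      (∀ J μ, ‖R J μ‖ ≤ 2) ∧ ∀ u ∈ P.I, (∑ J, q J) * constHom ω B u = constHom ω B u := by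
  obtain ⟨n, hn, HT⟩ := haagerup (Λ := Λ) hl hC z hzI hκ κ1 hη hS z2
  obtain ⟨κ'⟩ := hdrop n hn
  obtain ⟨w, v, w', v', c1, c2, c3⟩ := exists_colours P ω hn n.succ_pos κ'
  obtain ⟨T, Q, q1, q2, q3⟩ := HT n (.inl rfl)
  obtain ⟨T', Q', q1', q2', q3'⟩ := HT (n + 1) (.inr rfl)
  have hε : 0 ≤ 10 * ((Fintype.card Λ : ℝ) + 1) * κ + η := by positivity
  obtain ⟨R₁, p₁, r1, r2, r3, r4, r5⟩ := c1.build z hzI T Q q1 q2 hε q3
  obtain ⟨R₂, p₂, r1', r2', r3', r4', r5'⟩ := c2.build z hzI T' Q' q1' q2' hε q3'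
  let j := constHom ω B
  have jn : ∀ u, ‖j u‖ ≤ ‖u‖ := NonUnitalStarAlgHom.norm_apply_le j
  let R : Bool × Bool → Λ → UltraPower ω B := fun J => cond J.1 (R₁ J.2) (R₂ J.2)
  let q : Bool × Bool → UltraPower ω B := fun J => cond J.1 (p₁ J.2) (p₂ J.2)
  have hq : ∀ J, ‖q J‖ ≤ 2 := by rintro ⟨_ | _, h⟩ <;> [exact r2' h; exact r2 h]
  have hRR : ∀ J μ μ', ‖star (R J μ) * R J μ' -
      if μ = μ' then j (∑ i, star (z i) * z i) * q J else 0‖ ≤ 4 * η := by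
    rintro ⟨_ | _, h⟩ μ μ'
    · exact (r5' h μ μ').trans (by linarith)
    · exact (r5 h μ μ').trans (by linarith)
  refine ⟨R, q, hq, ?_, fun d₀ hd₀ => ?_, hRR, fun J μ => ?_, fun u hu => ?_⟩
  · rintro ⟨_ | _, h⟩ u <;> [exact r3' h u; exact r3 h u]
  · rintro ⟨_ | _, h⟩ μ <;> [exact r4' _ hd₀ h μ; exact r4 _ hd₀ h μ]
  · have h1 := hRR J μ μ
    rw [if_pos rfl] at h1
    have h2 := norm_mul_le_of_le ((jn _).trans hS) (hq J)
    have h3 := norm_le_insert' (star (R J μ) * R J μ) (j (∑ i, star (z i) * z i) * q J)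
    rw [CStarRing.norm_star_mul_self] at h3
    exact le_two (by linarith)
  · have : ∑ J, q J = ∑ j, star (v j) * v j + ∑ j, star (v' j) * v' j := by
      rw [← r1, ← r1', Fintype.sum_prod_type, Fintype.sum_bool, Fintype.sum_bool,
        Fintype.sum_bool]
      rfl
    rw [this]
    exact c3 u hu

theorem ntb_of_key {G : Type} [Group G] {B C : Type u} [CStarAlgebra B] [CStarAlgebra C]
    [DecidableEq C] (β : Act G B) (γ : Act G C) (j : B →⋆ₐ[ℂ] C)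
    (hj : ∀ g u, γ.φ g (j u) = j (β.φ g u)) {t : Finset B} {K E : Finset G} {δ δ₂ : ℝ}
    (hδ : 0 < δ) (hδ₂ : 0 < δ₂) (d1 : δ₂ ≤ 1) (d2 : 40 * δ₂ ≤ δ) (d3 : 80 * δ₂ ≤ δ ^ 2) {x' p : B}
    {s : Bool → Bool × Bool → C} {q : Bool × Bool → C} (ht : ∀ a ∈ t, ‖a‖ ≤ 1) (hx' : ‖x'‖ ≤ 3)
    (hp : ‖p‖ ≤ 1) (hq : ∀ J, ‖q J‖ ≤ 2) (hqc : ∀ J u, Commute (j u) (q J))
    (hqs : ∀ u ∈ t, (∑ J, q J) * j u = j u)
    (z3 : ∀ a ∈ t, ‖x' * a - a * x'‖ ≤ δ₂ / 2 ∧ ‖yfun x' * a - a * yfun x'‖ ≤ δ₂ / 2)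
    (z4 : ∀ a ∈ t, ∀ g ∈ K, ‖(β.φ g x' - x') * a‖ ≤ δ₂ / 2) (hpu : ∀ u ∈ t, ‖p * u - u‖ ≤ δ₂)
    (key1 : ∀ J ν, ‖star (s ν J) * s ν J - j p * (j (yfun x') * q J)‖ ≤ δ₂)
    (key2 : ∀ J ν, ∀ u ∈ t, ∀ u' ∈ ({u, star u, star u * u} : Set B),
      ‖star (s ν J) * j u' * s ν J - j u' * (j (yfun x') * q J)‖ ≤ δ₂)
    (key3 : ∀ J, ‖star (s true J) * s false J‖ ≤ δ₂)
    (key4 : ∀ g ∈ E, ∀ ν ν' J, ‖star (s ν J) * γ.φ g (s ν' J)‖ ≤ δ / 2) :
    (∀ ν J, ‖s ν J‖ ≤ 2) ∧ NTB γ (t.image j) K E (δ / 2) (j x') s := by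
  have jn : ∀ u, ‖j u‖ ≤ ‖u‖ := NonUnitalStarAlgHom.norm_apply_le j
  have hy : ‖yfun x'‖ ≤ 9 / 10 := norm_yfun hx'
  let e : Bool × Bool → C := fun J => j (yfun x') * q J
  have he : ∀ J, ‖e J‖ ≤ 2 := fun J => by
    linarith [norm_mul_le_of_le ((jn _).trans hy) (hq J)]
  have hp1 : ‖j p‖ ≤ 1 := (jn _).trans hp
  have hs : ∀ ν J, ‖s ν J‖ ≤ 2 := fun ν J => by
    have h2 := norm_mul_le_of_le hp1 (he J)
    have h3 := norm_le_insert' (star (s ν J) * s ν J) (j p * e J)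
    rw [CStarRing.norm_star_mul_self] at h3
    exact le_two (by linarith [key1 J ν])
  have cen : ∀ u ∈ t, ∀ ν J, ‖s ν J * j u - j u * s ν J‖ ^ 2 ≤ 20 * δ₂ ∧
      ‖star (s ν J) * s ν J * j u - e J * j u‖ ≤ 5 * δ₂ := fun u hu ν J => by
    refine asm_central hδ₂.le ((jn _).trans (ht u hu)) (he J) hp1 ?_ (key1 J ν)
      (key2 J ν u hu u (by simp)) ?_ ?_ ?_
    · have h1 := norm_mul_le_of_le ((jn _).trans (z3 u hu).2) (hq J)
      have : e J * j u - j u * e J = j (yfun x' * u - u * yfun x') * q J := by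
        simp only [e, map_sub, map_mul, sub_mul, mul_assoc, (hqc J u).eq]
      rw [this]; linarith
    · rw [← map_star]
      exact key2 J ν u hu _ (by simp)
    · rw [← map_star, ← map_mul]
      exact key2 J ν u hu _ (by simp)
    · rw [← map_mul, ← map_sub]
      exact (jn _).trans (hpu u hu)
  refine ⟨hs, (jn _).trans hx', fun ν J => (hs ν J).trans (by norm_num), ?_, ?_, ?_, ?_,
    fun J => (key3 J).trans (by linarith), ?_, key4⟩
  · simp only [forall_mem_image]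
    intro u hu
    rw [← map_mul, ← map_mul, ← map_sub]
    exact (jn _).trans ((z3 u hu).1.trans (by linarith))
  · simp only [forall_mem_image]
    intro u hu ν J
    refine (pow_le_pow_iff_left₀ (norm_nonneg _) (half_pos hδ).le two_ne_zero).1 ?_
    rw [div_pow]
    linarith [(cen u hu ν J).1]
  · simp only [forall_mem_image]
    intro u hu g hg
    rw [hj, ← map_sub, ← map_mul]
    exact (jn _).trans ((z4 u hu g hg).trans (by linarith))
  · simp only [forall_mem_image]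
    intro u hu J
    rw [sub_mul]
    have := norm_sub_le_norm_sub_add_norm_sub (star (s true J) * s true J * j u) (e J * j u)
      (star (s false J) * s false J * j u)
    rw [norm_sub_rev (e J * j u)] at this
    linarith [(cen u hu true J).2, (cen u hu false J).2]
  · simp only [forall_mem_image]
    intro u hu
    have : (∑ J, star (s true J) * s true J - yfun (j x')) * j u =
        ∑ J, (star (s true J) * s true J * j u - e J * j u) := by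
      rw [sum_sub_distrib, ← sum_mul, ← sum_mul, ← mul_sum, mul_assoc, hqs u hu, sub_mul,
        map_yfun]
    rw [this]
    refine (norm_sum_le_of_le _ fun J _ => (cen u hu true J).2).trans ?_
    simp only [sum_const, card_univ, Fintype.card_prod, Fintype.card_bool, nsmul_eq_mul]
    push_cast
    linarith

theorem consts₁ {δ : ℝ} (hδ : 0 < δ) : ∃ δ₂ : ℝ, 0 < δ₂ ∧ δ₂ ≤ 1 ∧ 40 * δ₂ ≤ δ ∧
    80 * δ₂ ≤ δ ^ 2 ∧ 0 < δ₂ ^ 2 / 4 ∧ δ₂ ^ 2 / 4 ≤ δ₂ / 4 ∧ √(2 * (δ₂ ^ 2 / 4)) ≤ δ₂ := by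
  obtain ⟨δ₂, hδ₂, d1, d2, d3⟩ : ∃ δ₂ : ℝ, 0 < δ₂ ∧ δ₂ ≤ 1 ∧ 40 * δ₂ ≤ δ ∧ 80 * δ₂ ≤ δ ^ 2 :=
    ⟨min 1 (min (δ / 40) (δ ^ 2 / 80)), by positivity, min_le_left _ _,
      by linarith [(min_le_right 1 (min (δ / 40) (δ ^ 2 / 80))).trans (min_le_left _ _)],
      by linarith [(min_le_right 1 (min (δ / 40) (δ ^ 2 / 80))).trans (min_le_right _ _)]⟩
  exact ⟨δ₂, hδ₂, d1, d2, d3, by positivity, by nlinarith,
    Real.sqrt_le_iff.2 ⟨hδ₂.le, by nlinarith⟩⟩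

theorem consts₂ {a δ₂ : ℝ} (ha : 0 < a) (hδ : 0 < δ₂) (d1 : δ₂ ≤ 1) (N : ℕ) :
    ∃ η κ : ℝ, 0 < η ∧ 10 * η ≤ a ∧ η ≤ δ₂ / 2 ∧ η ≤ 1 / 10 ∧ 0 < κ ∧ κ ≤ 1 ∧
      10 * (N + 1) * κ ≤ η := by
  obtain ⟨η, hη, e1, e2, e4⟩ : ∃ η : ℝ, 0 < η ∧ 10 * η ≤ a ∧ η ≤ δ₂ / 2 ∧ η ≤ 1 / 10 := by
    refine ⟨min (a / 10) (δ₂ / 10), by positivity, ?_, ?_, ?_⟩ <;>
      linarith [min_le_left (a / 10) (δ₂ / 10), min_le_right (a / 10) (δ₂ / 10)]
  have hN : (0 : ℝ) ≤ N := Nat.cast_nonneg _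
  exact ⟨η, η / (10 * (N + 1)), hη, e1, e2, e4, by positivity,
    by rw [div_le_one (by positivity)]; linarith, le_of_eq (by field_simp)⟩

end NTAux

open NTAux in
theorem exists_ntb {G : Type} [Group G] {B : Type u} [CStarAlgebra B] (P : Pair B) (β : Act G B)
    (hβ : ∀ g, ∀ a ∈ (P.I : Set B), β.φ g a ∈ (P.I : Set B)) (ω : Ultrafilter ℕ) {a : ℕ → B}
    {lam : B →ₗ[ℂ] ℂ} (hE : Exc P a lam) (hC : CPL P lam)
    (hdrop : ∀ p, 0 < p → Nonempty (DimDrop p (p + 1) →⋆ₐ[ℂ] FS ω (P.I : Set B)))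
    (hT : ∀ (K : Finset G) (ε ε' : ℝ), 0 < ε → 0 < ε' → ∃ x : FS ω (P.I : Set B), ‖x‖ ≤ 2 ∧
      (∀ g ∈ K, ‖(β.fs ω hβ).φ g x - x‖ ≤ ε) ∧ ∀ σ, IsTracialState σ → (σ (yfun x)).re ≤ ε')
    (t : Finset B) (K E : Finset G) (δ : ℝ) (ht : ∀ a ∈ t, a ∈ P.I ∧ ‖a‖ ≤ 1)
    (hW : ∀ g ∈ E, ∀ z, Tendsto (fun k => ‖a k * z * β.φ g (a k)‖) atTop (𝓝 0)) (hδ : 0 < δ) :
    ∃ x s, NTB β t K E δ x s := by
  classical
  obtain ⟨δ₂, hδ₂, d1, d2, d3, hη₁, hη₁', d4⟩ := consts₁ hδ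
  obtain ⟨b₁, hb₁, b₁s, b₁n, hb₁t⟩ := P.local_unit t (fun a ha => (ht a ha).1) hη₁
  let s₀ : Finset B := insert (b₁ * b₁) (t ∪ t.image star ∪ t.image fun a => star a * a)
  obtain ⟨L, M, k, d, c, hd, hΨ⟩ := hC s₀ (by
    intro x hx
    simp only [s₀, mem_insert, mem_union, mem_image] at hx
    rcases hx with rfl | (hx | ⟨y, hy, rfl⟩) | ⟨y, hy, rfl⟩
    exacts [P.I.mul_mem_left _ hb₁, (ht x hx).1, P.star_mem (ht y hy).1,
      P.I.mul_mem_left _ (ht y hy).1]) _ hη₁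
  obtain ⟨ηa, hηa, Ha⟩ := asm_key lam d c (insert 1 s₀) (half_pos hδ₂)
  obtain ⟨ηb, hηb, Hb⟩ := asm_cross d c (fun g : E => β.φ g) (half_pos hδ)
  have ev : ∀ᶠ n in atTop, (∀ x ∈ insert 1 s₀, ∀ l p l' p', ‖a n * (star (d l p) * x * d l' p') * a n -
      lam (star (d l p) * x * d l' p') • (a n * a n)‖ ≤ ηa) ∧
      ∀ (g : E) l p l' p', ‖a n * (star (d l p) * β.φ g (d l' p')) * β.φ g (a n)‖ ≤ ηb := by
    simp only [eventually_and, eventually_all_finset, eventually_all]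
    exact ⟨fun x _ l p l' p' => (hE.exc _).eventually (ge_mem_nhds hηa),
      fun g l p l' p' => (hW g g.2 _).eventually (ge_mem_nhds hηb)⟩
  obtain ⟨k₀, hk₁, hk₂⟩ := ev.exists
  have hnest : a k₀ * a (k₀ + 1) = a (k₀ + 1) := by
    simpa only [star_mul, (hE.sa _).star_eq] using congrArg star (hE.nest k₀)
  obtain ⟨η, κ, hη, e1, e2, e4, hκ, κ1, κ2⟩ :=
    consts₂ hηa hδ₂ d1 (Fintype.card (Fin L × Fin M × Bool))
  let Cs : Finset B := univ.image fun x : Fin M × Fin k => c x.1 x.2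
  have mCs : ∀ m p, c m p ∈ Cs := fun m p => mem_image_of_mem _ (mem_univ (m, p))
  obtain ⟨b, hb, bs, bn, hbc⟩ := P.local_unit (Cs.image star) (by
    intro x hx
    simp only [Cs, mem_image] at hx
    obtain ⟨_, ⟨y, -, rfl⟩, rfl⟩ := hx
    exact P.star_mem (hd.mem _ _)) hη
  obtain ⟨ε', hε', Hz⟩ := exists_col P β hβ ω (hE.mem (k₀ + 1))
    (fun h => by simpa [h] using hE.norm (k₀ + 1)) hb bs bn (t ∪ Cs) t ht K hκ hη
  obtain ⟨x, x1, x2, x3⟩ := hT K _ _ (half_pos hη) hε'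
  obtain ⟨x', ι, _, z, hx', hz, z1, z2, z3, z4⟩ := Hz x x1 x2 x3
  have hy : ‖yfun x'‖ ≤ 9 / 10 := norm_yfun hx'
  have hzI : ∀ i, z i ∈ P.I := fun i => by
    obtain ⟨w, hw⟩ := hz i
    rw [hw]; exact P.I.mul_mem_right _ (hE.mem _)
  have hS : ‖∑ i, star (z i) * z i‖ ≤ 1 := by
    have := norm_mul_le_of_le (norm_mul_le_of_le bn bn) hy
    linarith [norm_le_insert' (∑ i, star (z i) * z i) (b * b * yfun x')]
  obtain ⟨R, q, hq, hqc, hRd, hRR, hR, hqs⟩ :=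
    exists_R P ω hE.st hC hdrop z hzI hκ.le κ1 hη e4 κ2 hS z2
  let j := constHom ω B
  have jn : ∀ u, ‖j u‖ ≤ ‖u‖ := NonUnitalStarAlgHom.norm_apply_le j
  replace hRd := hRd (a k₀) fun i => by
    obtain ⟨w, hw⟩ := hz i
    rw [hw, ← mul_assoc, hnest]
  let e : Bool × Bool → UltraPower ω B := fun J => j (yfun x') * q J
  have he : ∀ J, ‖e J‖ ≤ 2 := fun J => by
    linarith [norm_mul_le_of_le ((jn _).trans hy) (hq J)]
  let s : Bool → Bool × Bool → UltraPower ω B := fun ν J => sel j d c (R J) ν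
  have cn := norm_le_of_col hd.col
  have key : ∀ J, ∀ u ∈ insert 1 s₀, ∀ ν ν', ‖star (s ν J) * j u * s ν' J -
      if ν = ν' then j (Psi lam d c u) * e J else 0‖ ≤ δ₂ / 2 := fun J =>
    Ha _ j (a k₀) (R J) (e J) (hE.sa _) (hRd J) (hR J) hk₁ fun μ μ' m p m' p' =>
      (key_est j (μ = μ') (cn m p) (cn m' p') (hy.trans (by norm_num)) (hq J) (hqc J _) z1
        (hbc _ (mem_image_of_mem _ (mCs m p))).2.1 (z3 _ (mem_union_right _ (mCs m' p'))).2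
        (hRR J μ μ')).trans e1
  have key2 : ∀ J ν, ∀ u ∈ s₀, ‖star (s ν J) * j u * s ν J - j u * e J‖ ≤ δ₂ := fun J ν u hu => by
    have h1 := key J u (mem_insert_of_mem hu) ν ν
    rw [if_pos rfl] at h1
    have h2 := norm_mul_le_of_le ((jn _).trans (hΨ u hu)) (he J)
    rw [map_sub, sub_mul, norm_sub_rev] at h2
    linarith [norm_sub_le_norm_sub_add_norm_sub (star (s ν J) * j u * s ν J)
      (j (Psi lam d c u) * e J) (j u * e J)]
  obtain ⟨hs, H⟩ := ntb_of_key (K := K) (E := E) (s := s) β (β.ultra ω) j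
    (fun g u => umap_const ω _ u) hδ hδ₂ d1 d2 d3 (fun u hu => (ht u hu).2) hx'
    (hd.norm_one hE.st) hq hqc (fun u hu => hqs u (ht u hu).1)
    (fun u hu => ⟨(z3 u (mem_union_left _ hu)).1.trans e2, (z3 u (mem_union_left _ hu)).2.trans e2⟩)
    (fun u hu g hg => (z4 u hu g hg).trans e2)
    (fun u hu => (hd.one_mul hE.st b₁s b₁n (hΨ _ (mem_insert_self _ _))
        (hb₁t u hu).1 (ht u hu).2).1.trans d4)
    (fun J ν => by
      have := key J 1 (mem_insert_self _ _) ν ν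
      rw [if_pos rfl, map_one, mul_one] at this
      exact this.trans (half_le_self hδ₂.le))
    (fun J ν u hu u' hu' => key2 J ν u' (mem_insert_of_mem (by
      rcases hu' with rfl | rfl | rfl
      exacts [mem_union_left _ (mem_union_left _ hu),
        mem_union_left _ (mem_union_right _ (mem_image_of_mem _ hu)),
        mem_union_right _ (mem_image_of_mem _ hu)])))
    (fun J => by
      have := key J 1 (mem_insert_self _ _) true false
      rw [if_neg (by simp), map_one, mul_one, sub_zero] at this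
      exact this.trans (half_le_self hδ₂.le))
    (fun g hg ν ν' J => Hb _ j (fun g : E => (β.ultra ω).φ g) (a k₀) (R J)
      (fun g u => umap_const ω _ u) (hE.sa _) (hRd J) (hR J) hk₂ ⟨g, hg⟩ ν ν')
  obtain ⟨s', hs'⟩ := NTB.descend β ω (half_pos hδ) hs H
  rw [mul_div_cancel₀ δ two_ne_zero] at hs'
  exact ⟨x', s', hs'⟩

end Vale.Agent.P095
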