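import Vale.Agent.P095.FS
import Vale.Agent.P095.TDefs
import Vale.Agent.P095.LemT

/-! Consequences of reindexing. -/

namespace Vale.Agent.P095
open Vale.Agent.P101 Vale.Agent.P101.JS Filter Topology Finset
open scoped ComplexOrder BoundedContinuousFunction symmDiff

universe u
open TopologicalSpace

/-- The reindexing property, for algebras in a given universe. -/
def Reidx' {G : Type} [Group G] {F : Type u} [CStarAlgebra F] (β : Act G F) (D : Type*)
    [CStarAlgebra D] : Prop :=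
  ∀ H : Set G, ApxF β H D → ∀ y : ℕ → F,
    ∃ φ : D →⋆ₐ[ℂ] F, (∀ g ∈ H, ∀ d, β.φ g (φ d) = φ d) ∧ ∀ d k, Commute (φ d) (y k)

/-- The reindexing property. -/
structure Reidx {G : Type} [Group G] {F : Type u} [CStarAlgebra F] (β : Act G F) : Prop where
  big : ∀ (D : Type u) [CStarAlgebra D] [SeparableSpace D], Reidx' β D
  small : ∀ (D : Type) [CStarAlgebra D] [SeparableSpace D], Reidx' β D

variable {G : Type} [Group G] [Countable G] {F : Type u} [CStarAlgebra F] {β : Act G F}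

theorem apxF_of_hom (H : Set G) {D : Type*} [CStarAlgebra D] (φ : D →⋆ₐ[ℂ] F)
    (h : ∀ g ∈ H, ∀ d, β.φ g (φ d) = φ d) : ApxF β H D := by
  intro s u K ε hK hε
  have key : ∀ (X : F) (d : D), φ d = X → ‖X‖ ≤ ‖d‖ + ε := fun X d e => by
    rw [← e]
    linarith [NonUnitalStarAlgHom.norm_apply_le φ d]
  refine ⟨φ, fun x _ => ⟨fun y _ z _ => key _ _ (by simp), fun y _ z _ => key _ _ (by simp),
    fun y _ => key _ _ (by simp [map_star]), fun c _ => key _ _ (by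
      rw [map_sub, AlgHomClass.commutes]), fun g hg => ?_⟩⟩
  rw [h g (hK g hg), sub_self, norm_zero]
  exact hε.le

theorem apxF_of_ultra (ω : Ultrafilter ℕ) {D : Type*} [CStarAlgebra D]
    (φ : D →⋆ₐ[ℂ] UltraPower ω F) (h : ∀ g d, (β.ultra ω).φ g (φ d) = φ d) :
    ApxF β Set.univ D := by
  intro s u K ε _ hε
  choose l hl using fun x => cls_surj (φ x)
  have key : ∀ (X : ℕ →ᵇ F) (d : D), cls ω F X = φ d → ∀ᶠ n in ω, ‖X n‖ ≤ ‖d‖ + ε :=
    fun X d h => (ev_norm_le X hε).mono fun n hn => by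
      rw [h] at hn
      linarith [NonUnitalStarAlgHom.norm_apply_le φ d]
  have : ∀ᶠ n in ω, ∀ x ∈ s,
      (∀ y ∈ s, ∀ z ∈ s, ‖l x n + l y n - l z n‖ ≤ ‖x + y - z‖ + ε) ∧
      (∀ y ∈ s, ∀ z ∈ s, ‖l x n * l y n - l z n‖ ≤ ‖x * y - z‖ + ε) ∧
      (∀ y ∈ s, ‖star (l x n) - l y n‖ ≤ ‖star x - y‖ + ε) ∧
      (∀ c ∈ u, ‖l x n - algebraMap ℂ F c‖ ≤ ‖x - algebraMap ℂ D c‖ + ε) ∧
      ∀ g ∈ K, ‖β.φ g (l x n) - l x n‖ ≤ ε := by
    simp only [eventually_all_finset, eventually_and]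
    refine fun x _ => ⟨fun y _ z _ => key (l x + l y - l z) _ (by simp [hl]),
      fun y _ z _ => key (l x * l y - l z) _ (by simp [hl]),
      fun y _ => key (star (l x) - l y) _ (by simp [hl, map_star]), fun c _ => ?_, fun g _ => ?_⟩
    · have := key (l x - algebraMap ℂ _ c) (x - algebraMap ℂ D c) (by
        rw [map_sub, map_sub, hl, AlgHomClass.commutes, AlgHomClass.commutes])
      simpa [Algebra.algebraMap_eq_smul_one] using this
    · have := key (compB (β.φ g) (l x) - l x) 0 (by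
        rw [map_sub, ← umap_cls, hl, map_zero, sub_eq_zero]
        exact h g x)
      simpa using this
  obtain ⟨n, hn⟩ := this.exists
  exact ⟨fun x => l x n, hn⟩

namespace RichAux

omit [Countable G] in
theorem sep {D : Type*} [CStarAlgebra D] (h : Reidx' β D) {H : Set G} (hH : ApxF β H D)
    {S : Set F} (hS : IsSeparable S) :
    ∃ φ : D →⋆ₐ[ℂ] F, (∀ g ∈ H, ∀ d, β.φ g (φ d) = φ d) ∧ ∀ d, ∀ y ∈ S, Commute (φ d) y := by
  obtain ⟨c, hc, hSc⟩ := hS
  obtain ⟨e, he⟩ := (hc.insert 0).exists_eq_range (Set.insert_nonempty _ _)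
  obtain ⟨φ, h1, hφ⟩ := h H hH e
  refine ⟨φ, h1, fun d y hy => closure_minimal (t := {y | φ d * y = y * φ d}) (fun z hz => ?_)
    (isClosed_eq (by fun_prop) (by fun_prop)) (hSc hy)⟩
  obtain ⟨k, rfl⟩ : z ∈ Set.range e := he ▸ Set.mem_insert_of_mem _ hz
  exact hφ d k

theorem sites_of {B D : Type u} [CStarAlgebra B] [CStarAlgebra D] [SeparableSpace D]
    (h : ∀ S : Set B, IsSeparable S → ∃ φ : D →⋆ₐ[ℂ] B, ∀ d, ∀ y ∈ S, Commute (φ d) y)
    (J : Type) [Fintype J] : Nonempty (Sites D B J) := by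
  classical
  have : ∀ s : Finset J, ∃ π : J → D →⋆ₐ[ℂ] B, ∀ i ∈ s, ∀ j ∈ s, i ≠ j →
      ∀ x y, Commute (π i x) (π j y) := by
    intro s
    induction s using Finset.induction_on with
    | empty => exact ⟨fun _ => (h ∅ Set.finite_empty.isSeparable).choose, by simp⟩
    | insert k s hk ih =>
      obtain ⟨π, hπ⟩ := ih
      obtain ⟨ψ, hψ⟩ := h _ (IsSeparable.iUnion fun j => isSeparable_range (hom_cont (π j)))
      have h1 : ∀ j x y, Commute (ψ x) (π j y) := fun j x y =>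
        hψ x _ (Set.mem_iUnion.2 ⟨j, y, rfl⟩)
      refine ⟨Function.update π k ψ, fun i hi j hj hij x y => ?_⟩
      by_cases h2 : i = k
      · subst h2
        rw [Function.update_self, Function.update_of_ne hij.symm]; exact h1 _ _ _
      · by_cases h3 : j = k
        · subst h3
          rw [Function.update_self, Function.update_of_ne hij]; exact (h1 _ _ _).symm
        · rw [Function.update_of_ne h2, Function.update_of_ne h3]
          exact hπ i (by simpa [h2] using hi) j (by simpa [h3] using hj) hij x y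
  obtain ⟨π, hπ⟩ := this Finset.univ
  exact ⟨⟨π, fun i j => hπ i (by simp) j (by simp)⟩⟩

theorem sep_fix {D : Type*} [CStarAlgebra D] (h : Reidx' β D) (φ : D →⋆ₐ[ℂ] β.fix)
    (S : Set β.fix) (hS : IsSeparable S) :
    ∃ ψ : D →⋆ₐ[ℂ] β.fix, ∀ d, ∀ y ∈ S, Commute (ψ d) y := by
  obtain ⟨ψ, h1, h2⟩ := sep h (apxF_of_hom Set.univ (β.fix.subtype.comp φ)
    fun g _ d => (φ d).2 g) (hS.image continuous_subtype_val)
  exact ⟨ψ.codRestrict _ fun d g => h1 g trivial d,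
    fun d y hy => Subtype.ext (h2 d _ ⟨y, hy, rfl⟩).eq⟩

theorem est {B : Type u} [CStarAlgebra B] {m : ℕ} {E : Bool × Fin m → Bool × Fin m → B} {v : B}
    {o : Bool × Fin m} (hE : OZ E) (hH : ‖∑ a, E a a‖ ≤ 1) (hv : ‖v‖ ≤ 1)
    (h1 : star v * v = 1 - ∑ a, E a a) (h2 : E o o * v = v) :
    ∃ x : B, ‖x‖ ≤ 1 ∧ x * x = 0 ∧ ∀ τ : B →ₗ[ℂ] ℂ, IsTracialState τ →
      (m : ℝ) * n2 τ (1 - star x * x - x * star x) ^ 2 ≤ 2 := by
  let := CStarAlgebra.spectralOrder B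
  have := CStarAlgebra.spectralOrderedRing B
  set H := ∑ a, E a a with hHd
  let x : B := ∑ i, E (false, i) (true, i)
  have e1 : star x * x = H * ∑ i, E (true, i) (true, i) := by
    simp only [x, star_sum, hE.adj, sum_mul, mul_sum, hE.mul, Prod.mk.injEq, true_and,
      sum_ite_eq', mem_univ, if_true, ← hHd]
  have e2 : x * star x = H * ∑ i, E (false, i) (false, i) := by
    simp only [x, star_sum, hE.adj, sum_mul, mul_sum, hE.mul, Prod.mk.injEq, true_and,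
      sum_ite_eq', mem_univ, if_true, ← hHd]
  have e3 : star x * x + x * star x = H * H := by
    rw [e1, e2, ← mul_add]
    congr 1
    rw [hHd, Fintype.sum_prod_type, Fintype.sum_bool]
  have hHH : ‖H * H‖ ≤ 1 := by simpa using norm_mul_le_of_le hH hH
  refine ⟨x, ?_, ?_, fun τ hτ => ?_⟩
  · have : ‖star x * x‖ ≤ ‖H * H‖ := CStarAlgebra.norm_le_norm_of_nonneg_of_le
      (star_mul_self_nonneg x) (e3 ▸ le_add_of_nonneg_right (mul_star_self_nonneg x))
    rw [CStarRing.norm_star_mul_self] at this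
    nlinarith [norm_nonneg x]
  · simp [x, sum_mul, mul_sum, hE.mul]
  · have hs := tr_st hτ
    have e4 : 1 - star x * x - x * star x = star v * v * (1 + H) := by
      rw [sub_sub, e3, h1]; noncomm_ring
    have n1 : ‖1 + H‖ ≤ 2 := by linarith [norm_add_le_of_le (norm_one_le' (B := B)) hH]
    have a1 := n2_mul_right hτ (star v * v) (1 + H)
    have a2 := n2_mul_left hs (star v) v
    have a3 := n2_mul_right hτ (E o o) v
    rw [h2] at a3
    rw [norm_star] at a2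
    have p0 := n2_nonneg τ v
    have p1 := n2_nonneg τ (E o o)
    have p2 := n2_nonneg τ (star v * v)
    have p3 := n2_nonneg τ (star v * v * (1 + H))
    have a4 : n2 τ (star v * v * (1 + H)) ≤ 2 * n2 τ (E o o) := by nlinarith
    have a5 : ∀ a, τ (H * E a a) = τ (star (E o o) * E o o) := fun a => by
      have k1 := hE.mul a o o a
      have k2 := hE.mul o a a o
      have k3 := hE.mul o o o o
      rw [if_pos rfl] at k1 k2 k3
      rw [hE.adj, k3, ← k2, hτ.2.2 (E o a), k1]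
    have a6 : (2 * m : ℝ) * n2 τ (E o o) ^ 2 = (τ (H * H)).re := by
      conv_rhs => rw [hHd, mul_sum, ← hHd, map_sum]
      simp only [a5, sum_const, card_univ, Fintype.card_prod, Fintype.card_bool, Fintype.card_fin,
        n2_sq hs, nsmul_eq_mul]
      simp
    have a7 : (τ (H * H)).re ≤ 1 :=
      (Complex.re_le_norm _).trans ((hs.norm_le _).trans hHH)
    rw [e4]
    have a8 := pow_le_pow_left₀ p3 a4 2
    have a9 := mul_le_mul_of_nonneg_left a8 (Nat.cast_nonneg (α := ℝ) m)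
    nlinarith

end RichAux
open RichAux

theorem Reidx.rich (h : Reidx β) : Rich F := fun κ _ x => by
  obtain ⟨D, _, _, φ, y, h1, h2⟩ := exists_sep x
  refine ⟨D, _, φ, y, h1, h2, fun J _ => sites_of (fun S hS => ?_) J⟩
  obtain ⟨ψ, -, hψ⟩ := sep (h.big D) (apxF_of_hom ∅ φ (by simp)) hS
  exact ⟨ψ, hψ⟩

theorem Reidx.rich_fix (h : Reidx β) : Rich β.fix := fun κ _ x => by
  obtain ⟨D, _, _, φ, y, h1, h2⟩ := exists_sep x
  exact ⟨D, _, φ, y, h1, h2, fun J _ => sites_of (sep_fix (h.big D) φ) J⟩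

theorem Reidx.agood (h : Reidx β) (hc : ∀ χ : F →⋆ₙₐ[ℂ] ℂ, χ = 0) : (allTr β).AGood := by
  change ∀ S : Set F, S.Countable → ∀ ε : ℝ, 0 < ε → ∃ v : F, ‖v‖ ≤ 1 ∧
    (∀ τ : F →ₗ[ℂ] ℂ, IsTracialState τ →
      n2 τ (v * v) ≤ ε ∧ n2 τ (1 - star v * v - v * star v) ≤ ε) ∧
    ∀ g, ∀ y ∈ Gen S, Commute (β.φ g v) y
  intro S hS ε hε
  let := CStarAlgebra.spectralOrder F
  have := CStarAlgebra.spectralOrderedRing F
  obtain ⟨m, hm⟩ := exists_nat_gt (2 / ε ^ 2)
  have hm0 : 0 < m := Nat.cast_pos.1 (lt_trans (by positivity) hm)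
  obtain ⟨E, v, -, hE, H0, hv, Ev, -⟩ := rw_rel h.rich hc ((false, ⟨0, hm0⟩) : Bool × Fin m)
  have H1 : ∑ a, E a a ≤ 1 := sub_nonneg.1 (hv ▸ star_mul_self_nonneg v)
  have n1 : ‖∑ a, E a a‖ ≤ 1 := (CStarAlgebra.norm_le_one_iff_of_nonneg _ H0).2 H1
  have n2' : ‖v‖ ≤ 1 := by
    have : ‖star v * v‖ ≤ 1 := (CStarAlgebra.norm_le_one_iff_of_nonneg _
      (star_mul_self_nonneg v)).2 (hv ▸ sub_le_self _ H0)
    rw [CStarRing.norm_star_mul_self] at this
    nlinarith [norm_nonneg v]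
  obtain ⟨D, _, _, φ, y, h1, h2⟩ := exists_sep (κ := Option ((Bool × Fin m) × Bool × Fin m))
    fun k => k.elim v fun i => E i.1 i.2
  let e : Bool × Fin m → Bool × Fin m → D := fun a b => y (some (a, b))
  have he : OZ e := ⟨fun a b => h1 (by simp [map_star, e, h2, hE.adj]), fun a b c d => h1 (by
    split_ifs with h <;> simp [e, h2, hE.mul, h])⟩
  obtain ⟨x, x1, x2, x3⟩ := est (v := y none) (o := (false, ⟨0, hm0⟩)) he
    (by rw [← NonUnitalStarAlgHom.norm_map φ h1]; simpa [e, h2] using n1)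
    (by rw [← NonUnitalStarAlgHom.norm_map φ h1]; simpa [h2] using n2')
    (h1 (by simp [map_star, e, h2, hv])) (h1 (by simp [e, h2, Ev]))
  have hT : (⋃ g : G, (β.φ g '' S ∪ (fun s => β.φ g (star s)) '' S)).Countable :=
    Set.countable_iUnion fun g => (hS.image _).union (hS.image _)
  obtain ⟨ψ, -, hψ⟩ := sep (h.big D) (apxF_of_hom ∅ φ (by simp)) hT.isSeparable
  refine ⟨ψ x, (NonUnitalStarAlgHom.norm_apply_le ψ x).trans x1, fun τ hτ => ⟨?_, ?_⟩,
    fun g => commute_gen fun s hs => ⟨?_, ?_⟩⟩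
  · rw [← map_mul, x2, map_zero, n2_zero]
    exact hε.le
  · have k := x3 _ (tr_comp hτ ψ)
    rw [n2_comp] at k
    simp only [map_sub, map_mul, map_one, map_star] at k
    refine le_of_not_gt fun hlt => ?_
    rw [div_lt_iff₀ (by positivity)] at hm
    have := mul_le_mul_of_nonneg_left (pow_le_pow_left₀ hε.le hlt.le 2) (Nat.cast_nonneg (α := ℝ) m)
    linarith
  · have := (hψ x _ (Set.mem_iUnion.2 ⟨g⁻¹, Or.inl ⟨s, hs, rfl⟩⟩)).map (β.φ g)
    rwa [β.apply_inv] at this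
  · have := (hψ x _ (Set.mem_iUnion.2 ⟨g⁻¹, Or.inr ⟨s, hs, rfl⟩⟩)).map (β.φ g)
    rwa [β.apply_inv] at this

/-- Three commuting invariant copies: two of `Z` and one of `I(2,3)`. -/
theorem Reidx.z_hom (h : Reidx β) (hc : ∀ χ : β.fix →⋆ₙₐ[ℂ] ℂ, χ = 0) {Z : Type u}
    [CStarAlgebra Z] (hZ : IsDropLimit Z) : ∃ (θ₁ θ₂ : Z →⋆ₐ[ℂ] F) (κ : DimDrop 2 3 →⋆ₐ[ℂ] F),
      (∀ g z, β.φ g (θ₁ z) = θ₁ z) ∧ (∀ g z, β.φ g (θ₂ z) = θ₂ z) ∧
      (∀ x y, Commute (θ₁ x) (θ₂ y)) ∧ (∀ x y, Commute (θ₁ x) (κ y)) ∧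
      ∀ x y, Commute (θ₂ x) (κ y) := by
  have := hZ.separable
  obtain ⟨p, q, ι, h1, h2, h3, h4⟩ := hZ
  have a1 : Apx Z β.fix := apx_limit ι h2 h3 h4 fun n s t u ε hε => by
    obtain ⟨φ⟩ := dimDrop_hom h.rich_fix hc (h1 n).1 (h1 n).2.1 (h1 n).2.2
    obtain ⟨ψ, hψ⟩ := sep_fix (h.small _) φ _ t.finite_toSet.isSeparable
    have key : ∀ (X : β.fix) d, ψ d = X → ‖X‖ ≤ ‖d‖ + ε := fun X d e => by
      rw [← e]
      linarith [NonUnitalStarAlgHom.norm_apply_le ψ d]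
    refine ⟨ψ, fun x _ => ⟨fun y _ z _ => key _ _ (by simp), fun y _ z _ => key _ _ (by simp),
      fun y _ => key _ _ (by simp [map_star]), fun c _ => key _ _ (by
        rw [map_sub, AlgHomClass.commutes]), fun a ha => ?_⟩⟩
    rw [(hψ x a ha).eq, sub_self, norm_zero]
    exact hε.le
  have a2 : ApxF β Set.univ Z := fun s u K ε _ hε => by
    obtain ⟨f, hf⟩ := a1 s ∅ u ε hε
    refine ⟨fun x => f x, fun x hx => ⟨(hf x hx).1, (hf x hx).2.1, (hf x hx).2.2.1,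
      (hf x hx).2.2.2.1, fun g _ => ?_⟩⟩
    rw [(f x).2 g, sub_self, norm_zero]
    exact hε.le
  obtain ⟨θ₁, i1, -⟩ := sep (h.big Z) a2 Set.finite_empty.isSeparable
  obtain ⟨θ₂, i2, c12⟩ := sep (h.big Z) a2 (isSeparable_range (hom_cont θ₁))
  obtain ⟨φ⟩ := dimDrop_hom h.rich_fix hc (p := 2) (q := 3) two_pos three_pos (by decide)
  obtain ⟨κ, -, c⟩ := sep (h.small _) (apxF_of_hom ∅ (β.fix.subtype.comp φ) (by simp))
    ((isSeparable_range (hom_cont θ₁)).union (isSeparable_range (hom_cont θ₂)))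
  exact ⟨θ₁, θ₂, κ, fun g => i1 g trivial, fun g => i2 g trivial,
    fun x y => (c12 y _ ⟨x, rfl⟩).symm, fun x y => (c y _ (Or.inl ⟨x, rfl⟩)).symm,
    fun x y => (c y _ (Or.inr ⟨x, rfl⟩)).symm⟩

end Vale.Agent.P095
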