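import Vale.Agent.P095.KM2
import Vale.Agent.P095.Ex

/-! Products of small rotations over independent layers. -/

namespace Vale.Agent.P095
open Vale.Agent.P101 Vale.Agent.P101.JS Filter Topology Finset
open scoped ComplexOrder BoundedContinuousFunction symmDiff

universe u
variable {D : Type u} [CStarAlgebra D] {Λ κ : Type}

namespace RotAux

theorem zero (x : D) : rot 0 x = 1 := by simp [rot]

theorem star_rot (s : ℝ) {x : D} (h : IsSelfAdjoint x) : star (rot s x) = rot (-s) x := by
  simp [rot, h.star_eq, -Complex.ofReal_cos, -Complex.ofReal_sin]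

theorem mul {x : D} (h2 : x * x = 1) (s t : ℝ) : rot s x * rot t x = rot (s + t) x := by
  simp only [rot, add_mul, mul_add, smul_mul_assoc, mul_smul_comm, one_mul, mul_one, h2,
    Real.cos_add, Real.sin_add]
  push_cast
  match_scalars
  · linear_combination Complex.sin s * Complex.sin t * Complex.I_sq
  · ring

theorem comm (s : ℝ) {x y : D} (h : Commute y x) : Commute y (rot s x) :=
  ((Commute.one_right y).smul_right _).add_right (h.smul_right _)

theorem norm_le {x : D} (h : IsSelfAdjoint x) (h2 : x * x = 1) : ‖x‖ ≤ 1 :=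
  norm_unitary_le (by rw [Unitary.mem_iff, h.star_eq, and_self, h2])

theorem norm_sub (s : ℝ) {x : D} (h : ‖x‖ ≤ 1) : ‖rot s x - 1‖ ≤ 2 * |s| := by
  have e : rot s x - 1 = ((Real.cos s - Real.cos 0 : ℝ) : ℂ) • (1 : D) +
      (Complex.I * Real.sin s) • x := by
    rw [rot, Real.cos_zero]
    push_cast
    module
  rw [e]
  refine (norm_add_le _ _).trans ?_
  rw [norm_smul, norm_smul, norm_mul, Complex.norm_I, one_mul, Complex.norm_real,
    Complex.norm_real, Real.norm_eq_abs, Real.norm_eq_abs]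
  have a1 := mul_le_mul (Real.abs_cos_sub_cos_le s 0) (norm_one_le' (B := D)) (norm_nonneg _)
    (abs_nonneg _)
  have a2 := mul_le_mul (Real.abs_sin_le_abs (x := s)) h (norm_nonneg _) (abs_nonneg _)
  rw [sub_zero] at a1
  linarith

theorem prod_near {z : Λ → ℂ} {δ : ℝ} (h1 : ∀ i, ‖z i‖ ≤ 1) (h2 : ∀ i, ‖z i - 1‖ ≤ δ)
    (l : List Λ) : ‖(l.map z).prod - 1‖ ≤ l.length * δ := by
  induction l with
  | nil => simp
  | cons i l ih =>
    rw [List.map_cons, List.prod_cons, List.length_cons, Nat.cast_succ, add_one_mul,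
      show z i * (l.map z).prod - 1 = z i * ((l.map z).prod - 1) + (z i - 1) by ring]
    refine (norm_add_le _ _).trans (add_le_add ?_ (h2 i))
    exact (norm_mul_le _ _).trans ((mul_le_of_le_one_left (norm_nonneg _) (h1 i)).trans ih)

theorem mono {r : Λ → κ → D} {I J : Set Λ} (h : I ⊆ J) : LG r I ≤ LG r J :=
  gen_mono fun _ ⟨i, hi, e⟩ => mem_gen_of_mem ⟨i, h hi, e⟩

theorem r_mem (r : Λ → κ → D) (g : κ) (i : Λ) : r i g ∈ LG r {i} :=
  mem_gen_of_mem ⟨i, rfl, g, rfl⟩

theorem rot_mem (r : Λ → κ → D) (s : ℝ) (g : κ) (i : Λ) : rot s (r i g) ∈ LG r {i} :=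
  add_mem (SMulMemClass.smul_mem _ (one_mem _))
    (SMulMemClass.smul_mem _ (r_mem r g i))

variable {τ : D →ₗ[ℂ] ℂ} {r : Λ → κ → D} {a b : Λ → D}

theorem P_mem (ha : ∀ i, a i ∈ LG r {i}) (l : List Λ) : (l.map a).prod ∈ LG r {j | j ∈ l} :=
  list_prod_mem fun _ hw => by
    obtain ⟨j, hj, rfl⟩ := List.mem_map.1 hw
    exact mono (J := {j | j ∈ l}) (Set.singleton_subset_iff.2 hj) (ha j)

theorem P_mul (h : Lay τ r) (ha : ∀ i, a i ∈ LG r {i}) (hb : ∀ i, b i ∈ LG r {i}) {l : List Λ}
    (hl : l.Nodup) : (l.map a).prod * (l.map b).prod = (l.map fun i => a i * b i).prod := by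
  induction l with
  | nil => simp
  | cons i l ih =>
    obtain ⟨h1, h2⟩ := List.nodup_cons.1 hl
    simp only [List.map_cons, List.prod_cons]
    rw [← ih h2, (h.commute (Set.disjoint_singleton_left.2 h1) (hb i)
      (P_mem ha l)).symm.mul_mul_mul_comm]

theorem P_star (h : Lay τ r) (ha : ∀ i, a i ∈ LG r {i}) {l : List Λ} (hl : l.Nodup) :
    star (l.map a).prod = (l.map fun i => star (a i)).prod := by
  induction l with
  | nil => simp
  | cons i l ih =>
    obtain ⟨h1, h2⟩ := List.nodup_cons.1 hl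
    simp only [List.map_cons, List.prod_cons]
    rw [← ih h2, (h.commute (Set.disjoint_singleton_left.2 h1) (ha i) (P_mem ha l)).eq, star_mul]

theorem P_tr (h : Lay τ r) (ha : ∀ i, a i ∈ LG r {i}) {l : List Λ} (hl : l.Nodup) :
    τ (l.map a).prod = (l.map fun i => τ (a i)).prod := by
  induction l with
  | nil => exact h.tr.1
  | cons i l ih =>
    obtain ⟨h1, h2⟩ := List.nodup_cons.1 hl
    simp only [List.map_cons, List.prod_cons]
    rw [← ih h2, h.ind _ _ (Set.disjoint_singleton_left.2 h1) _ (ha i) _ (P_mem ha l)]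

theorem P_pow (h : Lay τ r) (s : ℝ) (g : κ) {l : List Λ} (hl : l.Nodup) (n : ℕ) :
    Urot s (r · g) l ^ n = Urot (n * s) (r · g) l := by
  induction n with
  | zero => simp [Urot, zero]
  | succ n ih =>
    rw [pow_succ, ih, Urot, Urot, P_mul h (rot_mem r _ g) (rot_mem r _ g) hl]
    simp only [mul (h.sq _ _), Urot, Nat.cast_succ, add_one_mul]

end RotAux

theorem rot_unitary (s : ℝ) {x : D} (h : IsSelfAdjoint x) (h2 : x * x = 1) :
    rot s x ∈ unitary D := by
  rw [Unitary.mem_iff, RotAux.star_rot s h, RotAux.mul h2, RotAux.mul h2, neg_add_cancel,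
    add_neg_cancel, RotAux.zero, and_self]

theorem RotAux.norm_mul_sub (s t : ℝ) {x y : D} (h : IsSelfAdjoint x) (h2 : x * x = 1)
    (hy : ‖y‖ ≤ 1) : ‖rot s x * rot t y - 1‖ ≤ 2 * |t| + 2 * |s| := by
  rw [show rot s x * rot t y - 1 = rot s x * (rot t y - 1) + (rot s x - 1) by noncomm_ring]
  refine (norm_add_le _ _).trans (add_le_add ?_ (RotAux.norm_sub s (RotAux.norm_le h h2)))
  rw [CStarRing.norm_mem_unitary_mul _ (rot_unitary s h h2)]
  exact RotAux.norm_sub t hy

theorem rot_pow (s : ℝ) {x : D} (h2 : x * x = 1) (k : ℕ) : rot s x ^ k = rot (k * s) x := by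
  induction k with
  | zero => rw [pow_zero, Nat.cast_zero, zero_mul, RotAux.zero]
  | succ k ih => rw [pow_succ, ih, RotAux.mul h2, Nat.cast_succ, add_one_mul]

theorem map_urot {E : Type*} [CStarAlgebra E] (φ : D →⋆ₐ[ℂ] E) (s : ℝ) (x : Λ → D) (l : List Λ) :
    φ (Urot s x l) = Urot s (fun i => φ (x i)) l := by
  simp only [Urot, map_list_prod, List.map_map]
  congr 2
  funext i
  simp [rot]

theorem urot_unitary (s : ℝ) {x : Λ → D} (h : ∀ i, IsSelfAdjoint (x i)) (h2 : ∀ i, x i * x i = 1)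
    (l : List Λ) : Urot s x l ∈ unitary D := list_prod_mem fun _ hw => by
  obtain ⟨i, -, rfl⟩ := List.mem_map.1 hw
  exact rot_unitary s (h i) (h2 i)

/-- An element of one layer almost commutes with the product. -/
theorem norm_urot_comm (s : ℝ) {x : Λ → D} (h : ∀ i, IsSelfAdjoint (x i))
    (h2 : ∀ i, x i * x i = 1) (l : List Λ) (hl : l.Nodup) (i₀ : Λ) (y : D)
    (hy : ∀ i, i ≠ i₀ → Commute y (x i)) :
    ‖Urot s x l * y - y * Urot s x l‖ ≤ 2 * |s| * ‖y‖ := by
  induction l with
  | nil => simpa [Urot] using by positivity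
  | cons i l ih =>
    obtain ⟨h3, h4⟩ := List.nodup_cons.1 hl
    change ‖rot s (x i) * Urot s x l * y - y * (rot s (x i) * Urot s x l)‖ ≤ _
    by_cases e : i = i₀
    · have c : Commute y (Urot s x l) := Commute.list_prod_right _ _ fun _ hw => by
        obtain ⟨j, hj, rfl⟩ := List.mem_map.1 hw
        exact RotAux.comm s (hy j (e ▸ ne_of_mem_of_not_mem hj h3))
      have e2 : rot s (x i) * y - y * rot s (x i) =
          (Complex.I * Real.sin s) • (x i * y - y * x i) := by
        simp only [rot, add_mul, mul_add, smul_mul_assoc, mul_smul_comm, one_mul, mul_one, smul_sub]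
        abel
      rw [mul_assoc, ← c.eq, ← mul_assoc, ← mul_assoc, ← sub_mul,
        CStarRing.norm_mul_mem_unitary _ (urot_unitary s h h2 l), e2, norm_smul, norm_mul,
        Complex.norm_I, one_mul, Complex.norm_real, Real.norm_eq_abs]
      have a1 := RotAux.norm_le (h i) (h2 i)
      have a2 := norm_sub_le (x i * y) (y * x i)
      have a3 := (norm_mul_le (x i) y).trans (mul_le_of_le_one_left (norm_nonneg _) a1)
      have a4 := (norm_mul_le y (x i)).trans (mul_le_of_le_one_right (norm_nonneg _) a1)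
      exact (mul_le_mul Real.abs_sin_le_abs (a2.trans (add_le_add a3 a4)) (norm_nonneg _)
        (abs_nonneg _)).trans_eq (by ring)
    · rw [← mul_assoc y, (RotAux.comm s (hy i e)).eq, mul_assoc, mul_assoc, ← mul_sub,
        CStarRing.norm_mem_unitary_mul _ (rot_unitary s (h i) (h2 i))]
      exact ih h4

variable {τ : D →ₗ[ℂ] ℂ} {r : Λ → κ → D}

theorem Lay.urot_comm (h : Lay τ r) (s : ℝ) (l : List Λ) (hl : l.Nodup) (g k : κ) :
    n2 τ (Urot s (r · g) l * Urot s (r · k) l - Urot s (r · k) l * Urot s (r · g) l) ^ 2 ≤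
      40 * l.length * |s| ^ 3 := by
  have hs := tr_st h.tr
  have m := RotAux.rot_mem r s
  have u := fun i g => rot_unitary s (h.sa i g) (h.sq i g)
  have hU := fun g => urot_unitary s (fun i => h.sa i g) (fun i => h.sq i g) l
  set U := Urot s (r · g) l with eU
  set V := Urot s (r · k) l with eV
  have e1 : star (V * U) * (U * V) = (l.map fun i => star (rot s (r i k) * rot s (r i g)) *
      (rot s (r i g) * rot s (r i k))).prod := by
    rw [eU, eV, Urot, Urot, RotAux.P_mul h (m k) (m g) hl, RotAux.P_mul h (m g) (m k) hl,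
      RotAux.P_star h (fun i => mul_mem (m k i) (m g i)) hl, RotAux.P_mul h
        (fun i => star_mem (mul_mem (m k i) (m g i))) (fun i => mul_mem (m g i) (m k i)) hl]
  have e2 : ‖τ (star (V * U) * (U * V)) - 1‖ ≤ l.length * (8 * |s| ^ 3) := by
    rw [e1, RotAux.P_tr h (fun i => mul_mem (star_mem (mul_mem (m k i) (m g i)))
      (mul_mem (m g i) (m k i))) hl]
    refine RotAux.prod_near (fun i => (hs.norm_le _).trans (norm_unitary_le (mul_mem
      (Unitary.star_mem (mul_mem (u i k) (u i g))) (mul_mem (u i g) (u i k))))) (fun i => ?_) l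
    have a1 : rot s (r i g) * rot s (r i k) - rot s (r i k) * rot s (r i g) =
        (Complex.I * Real.sin s) ^ 2 • (r i g * r i k - r i k * r i g) := by
      simp only [rot, add_mul, mul_add, smul_mul_assoc, mul_smul_comm, one_mul, mul_one]
      module
    have a2 : τ (star (rot s (r i k) * rot s (r i g)) * (rot s (r i g) * rot s (r i k))) - 1 =
        (Complex.I * Real.sin s) ^ 2 * τ (star (rot s (r i k) * rot s (r i g) - 1) *
          (r i g * r i k - r i k * r i g)) := by
      rw [star_sub, star_one, sub_mul, one_mul, map_sub, map_sub τ (r i g * r i k),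
        h.tr.2.2 (r i g), sub_self, sub_zero, ← smul_eq_mul (_ ^ 2), ← map_smul, ← mul_smul_comm, ← a1,
        mul_sub, Unitary.star_mul_self_of_mem (mul_mem (u i k) (u i g)), map_sub, h.tr.1]
    have n := fun g => RotAux.norm_le (h.sa i g) (h.sq i g)
    have a3 := RotAux.norm_mul_sub s s (h.sa i k) (h.sq i k) (n g)
    have a4 : ‖r i g * r i k - r i k * r i g‖ ≤ 1 + 1 := (norm_sub_le _ _).trans (add_le_add
      ((norm_mul_le _ _).trans (mul_le_one₀ (n _) (norm_nonneg _) (n _)))
      ((norm_mul_le _ _).trans (mul_le_one₀ (n _) (norm_nonneg _) (n _))))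
    rw [a2, norm_mul, norm_pow, norm_mul, Complex.norm_I, one_mul, Complex.norm_real,
      Real.norm_eq_abs]
    refine (mul_le_mul (pow_le_pow_left₀ (abs_nonneg _) Real.abs_sin_le_abs 2)
      ((hs.norm_le _).trans ((norm_mul_le _ _).trans (mul_le_mul ((norm_star _).trans_le a3) a4
        (norm_nonneg _) (by positivity)))) (norm_nonneg _) (by positivity)).trans_eq (by ring)
  have e3 : star (U * V) * (V * U) = star (star (V * U) * (U * V)) := by rw [star_mul _ (U * V), star_star]
  have e4 := (abs_le.1 ((Complex.abs_re_le_norm _).trans e2)).1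
  rw [n2_sq hs, star_sub, sub_mul, mul_sub, mul_sub,
    Unitary.star_mul_self_of_mem (mul_mem (hU g) (hU k)),
    Unitary.star_mul_self_of_mem (mul_mem (hU k) (hU g)), e3]
  simp only [map_sub, hs.map_star, hs.1, Complex.sub_re, Complex.one_re, Complex.conj_re] at e4 ⊢
  have : 0 ≤ (l.length : ℝ) * |s| ^ 3 := by positivity
  linarith

theorem Lay.urot_sep (h : Lay τ r) (s : ℝ) (l : List Λ) (hl : l.Nodup) (g k : κ) (n : ℕ)
    (hs : Real.sin (n * s) ≠ 0) (hs' : Real.sin (n * s) ^ 2 ≤ 1 / 2) :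
    ‖τ ((l.map fun i => (r i g - r i k) ^ 2).sum *
      (Urot s (r · g) l ^ n * star (Urot s (r · k) l) ^ n))‖ ≤
      2 / Real.sin (n * s) ^ 2 + 16 * l.length * n * |s| := by
  have hs0 := tr_st h.tr
  set t := n * s with ht
  have m := RotAux.rot_mem r
  have mc : ∀ i, rot t (r i g) * rot (-t) (r i k) ∈ LG r {i} := fun i =>
    mul_mem (m _ g i) (m _ k i)
  have mq : ∀ i, (r i g - r i k) ^ 2 ∈ LG r {i} := fun i =>
    pow_mem (sub_mem (RotAux.r_mem r g i) (RotAux.r_mem r k i)) 2
  have e1 : Urot s (r · g) l ^ n * star (Urot s (r · k) l) ^ n =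
      (l.map fun i => rot t (r i g) * rot (-t) (r i k)).prod := by
    rw [← star_pow, RotAux.P_pow h s g hl, RotAux.P_pow h s k hl, Urot, Urot,
      RotAux.P_star h (m _ k) hl, RotAux.P_mul h (m _ g) (fun i => star_mem (m _ k i)) hl]
    simp only [RotAux.star_rot _ (h.sa _ _), ht]
  have hp : 0 < Real.sin t ^ 2 := by positivity
  suffices H : ∃ P : ℝ, 0 ≤ P ∧ P ≤ 1 ∧
      τ (l.map fun i => rot t (r i g) * rot (-t) (r i k)).prod = P ∧
      ‖τ ((l.map fun i => (r i g - r i k) ^ 2).sum *
        (l.map fun i => rot t (r i g) * rot (-t) (r i k)).prod)‖ ≤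
        2 / Real.sin t ^ 2 * (1 - P) + 16 * l.length * |t| by
    obtain ⟨P, p0, -, -, h4⟩ := H
    rw [ht, abs_mul, Nat.abs_cast, ← ht] at h4
    rw [e1]
    have : 0 ≤ 2 / Real.sin t ^ 2 * P := by positivity
    linarith
  clear e1
  induction l with
  | nil => exact ⟨1, zero_le_one, le_rfl, by simpa using hs0.1, by simp⟩
  | cons i l ih =>
    obtain ⟨h3, h4⟩ := List.nodup_cons.1 hl
    obtain ⟨P, p0, p1, p2, p3⟩ := ih h4
    have hd : Disjoint {i} {j | j ∈ l} := Set.disjoint_singleton_left.2 h3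
    have mC := RotAux.P_mem mc l
    have mQ : (l.map fun i => (r i g - r i k) ^ 2).sum ∈ LG r {j | j ∈ l} :=
      list_sum_mem fun _ hw => by
        obtain ⟨j, hj, rfl⟩ := List.mem_map.1 hw
        exact RotAux.mono (J := {j | j ∈ l}) (Set.singleton_subset_iff.2 hj) (mq j)
    have n := fun g => RotAux.norm_le (h.sa i g) (h.sq i g)
    have sa := (h.sa i g).sub (h.sa i k)
    set q := (τ ((r i g - r i k) ^ 2)).re with eq
    have hq : τ ((r i g - r i k) ^ 2) = q := Complex.ext rfl (hs0.im_sa (sa.pow 2))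
    have q0 : 0 ≤ q := by
      simpa only [sa.star_eq, ← pow_two] using hs0.re_nonneg (r i g - r i k)
    have nq : ‖(r i g - r i k) ^ 2‖ ≤ (1 + 1) ^ 2 := (norm_pow_le' _ two_pos).trans
      (pow_le_pow_left₀ (norm_nonneg _) ((norm_sub_le _ _).trans (add_le_add (n g) (n k))) 2)
    have q4 := (Complex.re_le_norm _).trans ((hs0.norm_le _).trans nq)
    have tc : τ (rot t (r i g) * rot (-t) (r i k)) = ((1 - Real.sin t ^ 2 * q / 2 : ℝ) : ℂ) := by
      have a1 : (q : ℂ) = 2 - 2 * τ (r i g * r i k) := by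
        rw [← hq, pow_two, sub_mul, mul_sub, mul_sub, h.sq, h.sq]
        simp only [map_sub, hs0.1, h.tr.2.2 (r i k)]
        ring
      simp only [rot, add_mul, mul_add, smul_mul_assoc, mul_smul_comm, one_mul, mul_one, map_add,
        map_smul, h.zero, hs0.1, smul_eq_mul, Real.cos_neg, Real.sin_neg]
      push_cast
      rw [a1]
      linear_combination Complex.cos_sq_add_sin_sq t -
        Complex.sin t ^ 2 * τ (r i g * r i k) * Complex.I_sq
    have a2 : ‖τ ((r i g - r i k) ^ 2 * (rot t (r i g) * rot (-t) (r i k)))‖ ≤ q + 16 * |t| := by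
      have a3 := RotAux.norm_mul_sub t (-t) (h.sa i g) (h.sq i g) (n k)
      have a4 := (hs0.norm_le _).trans ((norm_mul_le _ _).trans (mul_le_mul nq a3 (norm_nonneg _)
        (by positivity)))
      rw [mul_sub, mul_one, map_sub, hq, abs_neg] at a4
      have a5 := norm_le_norm_add_norm_sub' (τ ((r i g - r i k) ^ 2 *
        (rot t (r i g) * rot (-t) (r i k)))) (q : ℂ)
      rw [Complex.norm_real, Real.norm_of_nonneg q0] at a5
      linarith
    have x0 : 0 ≤ Real.sin t ^ 2 * q / 2 := by positivity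
    have x1 : Real.sin t ^ 2 * q / 2 ≤ 1 := by nlinarith
    have eK : q = 2 / Real.sin t ^ 2 * (Real.sin t ^ 2 * q / 2) := by field_simp
    have K0 : 0 ≤ 2 / Real.sin t ^ 2 := by positivity
    generalize Real.sin t ^ 2 * q / 2 = x at tc x0 x1 eK
    generalize 2 / Real.sin t ^ 2 = K at p3 eK K0 ⊢
    simp only [List.map_cons, List.prod_cons, List.sum_cons, List.length_cons]
    refine ⟨(1 - x) * P, by nlinarith, by nlinarith, ?_, ?_⟩
    · rw [h.ind _ _ hd _ (mc i) _ mC, tc, p2, Complex.ofReal_mul]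
    · rw [add_mul, map_add, ← mul_assoc, h.ind _ _ hd _ (mul_mem (mq i) (mc i)) _ mC,
        (h.commute hd (mc i) mQ).symm.left_comm,
        h.ind _ _ hd _ (mc i) _ (mul_mem mQ mC), tc, p2]
      refine (norm_add_le _ _).trans ?_
      rw [norm_mul, norm_mul, Complex.norm_real, Complex.norm_real, Real.norm_of_nonneg p0,
        Real.norm_of_nonneg (sub_nonneg.2 x1)]
      have b1 := mul_le_mul_of_nonneg_right a2 p0
      have b2 := mul_le_mul_of_nonneg_left p3 (sub_nonneg.2 x1)
      have b3 := mul_le_of_le_one_right (abs_nonneg t) p1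
      have b4 : 0 ≤ x * (K * (1 - P) + 16 * l.length * |t|) :=
        mul_nonneg x0 ((norm_nonneg _).trans p3)
      push_cast
      rw [eK] at b1
      linarith

end Vale.Agent.P095
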