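import Vale.Agent.P095.MinHash
import Vale.Agent.P095.Proj
import Vale.Agent.P095.PSum

/-! Choosing a translate by correlated sampling. -/

namespace Vale.Agent.P095
open Vale.Agent.P101 Vale.Agent.P101.JS Filter Topology Finset
open scoped ComplexOrder BoundedContinuousFunction symmDiff

universe u

namespace SampleAux

theorem est {B : Type u} [CStarAlgebra B] {τ : B →ₗ[ℂ] ℂ} (hτ : IsTracialState τ)
    {A K C Ω : Type} [Fintype A] [DecidableEq A] [Fintype K] [Fintype C] [DecidableEq C]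
    [Fintype Ω] (j₁ j₂ : K → A) (V : A → B) (hV : ∀ a, ‖V a‖ ≤ 1) (e : A → C → B)
    (Q : (A → C) → B) (hQ : ∀ Λ, IsStarProjection (Q Λ)) (h1 : ∑ Λ, Q Λ = 1)
    (hQe : ∀ Λ a c, Q Λ * e a c = if Λ a = c then Q Λ else 0) (c₁ c₂ : (A → C) → Ω → K)
    {δ η : ℝ}
    (hη : ∀ a b, (τ (star (V a - V b) * (V a - V b) * ∑ c, e a c * e b c)).re ≤ η)
    (hc : ∀ Λ : A → C, (#{ω | Λ (j₁ (c₁ Λ ω)) ≠ Λ (j₂ (c₂ Λ ω))} : ℝ) ≤ Fintype.card Ω * δ) :
    ∑ Λ, ∑ ω, (τ (Q Λ * (star (V (j₂ (c₂ Λ ω)) - V (j₁ (c₁ Λ ω))) *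
      (V (j₂ (c₂ Λ ω)) - V (j₁ (c₁ Λ ω)))))).re ≤
      Fintype.card Ω * (4 * δ + (Fintype.card K : ℝ) ^ 2 * η) := by
  let t : (A → C) → A → A → ℝ := fun Λ a b => (τ (Q Λ * (star (V a - V b) * (V a - V b)))).re
  have qq : ∀ Λ, star (Q Λ) * Q Λ = Q Λ := fun Λ => by
    rw [(hQ Λ).isSelfAdjoint.star_eq, (hQ Λ).isIdempotentElem.eq]
  have q0 : ∀ Λ, 0 ≤ (τ (Q Λ)).re := fun Λ => qq Λ ▸ (tr_st hτ).re_nonneg (Q Λ)
  have t0 : ∀ Λ a b, 0 ≤ t Λ a b := fun Λ a b => by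
    have := tr_pos_mul hτ (Q Λ) (V a - V b)
    rwa [qq] at this
  have t4 : ∀ Λ a b, t Λ a b ≤ 4 * (τ (Q Λ)).re := fun Λ a b => by
    have := norm_tr_pos_mul hτ (Q Λ) (star (V a - V b) * (V a - V b))
    rw [qq, CStarRing.norm_star_mul_self] at this
    have h2 : ‖V a - V b‖ ≤ 2 := (norm_sub_le _ _).trans (by linarith [hV a, hV b])
    have h3 : ‖V a - V b‖ * ‖V a - V b‖ ≤ 4 := by nlinarith [norm_nonneg (V a - V b)]
    refine (Complex.re_le_norm _).trans (this.trans ?_)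
    nlinarith [q0 Λ]
  have ts : ∀ a b, ∑ Λ, (if Λ a = Λ b then t Λ a b else 0) ≤ η := fun a b => by
    refine le_trans (le_of_eq ?_) (hη a b)
    have h2 : ∑ c, e a c * e b c = ∑ Λ, if Λ a = Λ b then Q Λ else 0 := by
      rw [← one_mul (∑ c, e a c * e b c), ← h1, sum_mul]
      refine sum_congr rfl fun Λ _ => ?_
      simp only [mul_sum, ← mul_assoc, hQe, ite_mul, zero_mul, sum_ite_eq, mem_univ, if_true]
      exact if_congr eq_comm rfl rfl
    rw [h2, mul_sum, map_sum, Complex.re_sum]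
    refine sum_congr rfl fun Λ _ => ?_
    split_ifs
    · rw [hτ.2.2]
    · simp
  have pt : ∀ Λ ω, t Λ (j₂ (c₂ Λ ω)) (j₁ (c₁ Λ ω)) ≤
      (if Λ (j₁ (c₁ Λ ω)) ≠ Λ (j₂ (c₂ Λ ω)) then 4 * (τ (Q Λ)).re else 0) +
        ∑ k : K × K, if Λ (j₂ k.1) = Λ (j₁ k.2) then t Λ (j₂ k.1) (j₁ k.2) else 0 := fun Λ ω => by
    have n0 : ∀ k : K × K, 0 ≤ if Λ (j₂ k.1) = Λ (j₁ k.2) then t Λ (j₂ k.1) (j₁ k.2) else 0 :=
      fun k => by split_ifs; exacts [t0 _ _ _, le_rfl]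
    split_ifs with hb
    · exact (t4 _ _ _).trans (le_add_of_nonneg_right (sum_nonneg fun k _ => n0 k))
    · rw [zero_add]
      refine le_trans (le_of_eq ?_) (single_le_sum (fun k _ => n0 k) (mem_univ (c₂ Λ ω, c₁ Λ ω)))
      rw [if_pos (not_not.1 hb).symm]
  refine (sum_le_sum fun Λ _ => sum_le_sum fun ω _ => pt Λ ω).trans ?_
  simp only [sum_add_distrib, sum_const, card_univ, nsmul_eq_mul, ← mul_sum]
  rw [mul_add]
  refine add_le_add ?_ (mul_le_mul_of_nonneg_left ?_ (Nat.cast_nonneg _))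
  · have h2 : ∑ Λ, (τ (Q Λ)).re = 1 := by
      rw [← Complex.re_sum, ← map_sum, h1, hτ.1, Complex.one_re]
    calc _ ≤ ∑ Λ, Fintype.card Ω * δ * (4 * (τ (Q Λ)).re) := sum_le_sum fun Λ _ => by
            rw [← sum_filter, sum_const, nsmul_eq_mul]
            exact mul_le_mul_of_nonneg_right (hc Λ) (by linarith [q0 Λ])
      _ = _ := by rw [← mul_sum, ← mul_sum, h2]; ring
  · rw [sum_comm]
    refine (sum_le_sum fun k _ => ts _ _).trans (le_of_eq ?_)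
    rw [sum_const, card_univ, Fintype.card_prod, nsmul_eq_mul]; push_cast; ring

end SampleAux

variable {G : Type} [Group G] [DecidableEq G] [Countable G]

theorem TSys.Lab.sample {X : TSys.{u} G} (h : X.Good) (hG : Folner G) {C : Type} [Fintype C]
    {v : X.M} {e : C → X.M} {η : ℝ} (hη : 0 ≤ η) (hL : X.Lab v e η) (S K : Finset G)
    (hK : K.Nonempty) {δ : ℝ} (hδ : 0 ≤ δ)
    (hS : ∀ s ∈ S, (#((K.image (s * ·)) ∆ K) : ℝ) ≤ δ * #K) :
    ∃ (Y : TSys.{u} G) (_ : X.Ext Y), Y.Sol S (√(4 * δ + #K ^ 2 * η)) 1 := by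
  classical
  have : Nonempty K := hK.to_subtype
  obtain ⟨Ω, _, _, ch, hch⟩ := minhash K C
  let V : G → X.M := fun g => X.act.φ g v
  let f : G → C → X.M := fun g c => X.act.φ g (e c)
  let T : Set X.M := Set.range fun p : G × C => f p.1 p.2
  let S₀ : Set X.M := Set.range V ∪ T
  obtain ⟨Y, E, -, p, p1, p2, p3, p4⟩ := h.proj_ext hG S₀
    ((Set.countable_range _).union (Set.countable_range _)) Ω
  have fT : ∀ g c, f g c ∈ T := fun g c => ⟨(g, c), rfl⟩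
  have fp : ∀ g c, IsStarProjection (f g c) := fun g c => (hL.proj c).map _
  have f1 : ∀ g, ∑ c, f g c = 1 := fun g => by rw [← map_sum, hL.sum, map_one]
  have TT : ∀ x ∈ T, ∀ y ∈ T, Commute x y := by
    rintro _ ⟨a, rfl⟩ _ ⟨b, rfl⟩; exact hL.comm _ _ _ _
  have Tsa : ∀ x ∈ Subring.closure T, IsSelfAdjoint x := fun x hx =>
    PSum.clos_sa TT (by rintro _ ⟨a, rfl⟩; exact (fp _ _).isSelfAdjoint) hx
  have TV : ∀ x ∈ Subring.closure T, ∀ g, Commute x (V g) := fun x hx g =>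
    PSum.clos_comm (by rintro _ ⟨a, rfl⟩; exact hL.comm_v _ _ _) hx
  have TG : ∀ x ∈ Subring.closure T, x ∈ Gen S₀ := fun x hx =>
    (Subring.closure_le (t := (Gen S₀).toSubalgebra.toSubring)).2
      (fun y hy => mem_gen_of_mem (Or.inr hy)) hx
  have VG : ∀ g, V g ∈ Gen S₀ := fun g => mem_gen_of_mem (Or.inl ⟨g, rfl⟩)
  have Tα : ∀ s, ∀ x ∈ Subring.closure T, X.act.φ s x ∈ Subring.closure T := fun s x hx =>
    (Subring.closure_le (t := (Subring.closure T).comap (X.act.φ s : X.M →+* X.M))).2 (by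
      rintro _ ⟨a, rfl⟩
      refine Subring.subset_closure ⟨(s * a.1, a.2), ?_⟩
      exact X.act.mul _ _ _) hx
  have Vm : ∀ g, MU (V g) := fun g => hL.mu.map _
  -- resolutions
  have proj : ∀ {A : Type} [Fintype A] [DecidableEq A] (i : A → G) (Q : (A → C) → X.M),
      (∀ Λ, Q Λ ∈ Subring.closure T) → ∑ Λ, Q Λ = 1 →
      (∀ Λ a c, Q Λ * f (i a) c = if Λ a = c then Q Λ else 0) →
      ∀ Λ, IsStarProjection (Q Λ) := fun i Q q1 q2 q3 Λ =>
    ⟨(PSum.refine (e := fun a => f (i a)) id q2 q3 (q3 Λ)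
      (fun l => PSum.clos_comm₂ TT (q1 Λ) (q1 l)) Λ).trans (if_pos rfl), Tsa _ (q1 Λ)⟩
  have R : ∀ {A : Type} [Fintype A] (Q : A → X.M), (∀ Λ, Q Λ ∈ Subring.closure T) →
      (∀ Λ, IsStarProjection (Q Λ)) → ∑ Λ, Q Λ = 1 →
      (∀ i : A × Ω, IsStarProjection (E.ι (Q i.1) * p i.2)) ∧
      ∑ i : A × Ω, E.ι (Q i.1) * p i.2 = 1 ∧
      ∀ (i : A × Ω) g, Commute (E.ι (Q i.1) * p i.2) (E.ι (V g)) := fun Q q1 q2 q3 =>
    ⟨fun i => ((q2 i.1).map E.ι).mul (p1 i.2) (p4 _ (TG _ (q1 _)) _).1.symm, by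
      rw [Fintype.sum_prod_type]
      simp only [← mul_sum, p2, mul_one, ← map_sum, q3, map_one],
      fun i g => ((TV _ (q1 _) g).map E.ι).mul_left (p4 _ (VG g) _).1⟩
  obtain ⟨P, P1, P2, P3⟩ := PSum.res TT (fun k : K => f k) (fun _ _ => fT _ _) (fun _ => fp _)
    fun _ => f1 _
  obtain ⟨R1, R2, R3⟩ := R P P1 (proj _ P P1 P2 P3) P2
  let x : Y.M := ∑ i : (K → C) × Ω, E.ι (P i.1) * p i.2 * E.ι (V (ch i.1 i.2))
  have xm : MU x := PSum.mu R1 R2 (fun i j => R3 _ _) fun i => (Vm _).map _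
  refine ⟨Y, E, x, xm.norm_le, fun τ hτ => ⟨?_, ?_, fun s hs => ?_⟩⟩
  · rw [xm.1, n2_zero]; exact Real.sqrt_nonneg _
  · rw [sub_sub, xm.2, sub_self, n2_zero]; exact Real.sqrt_nonneg _
  let A : Finset G := K ∪ K.image (s * ·)
  let j₁ : K ↪ A := ⟨fun k => ⟨k, mem_union_left _ k.2⟩, fun a b hab =>
    Subtype.ext (congrArg (fun z : A => (z : G)) hab)⟩
  let j₂ : K ↪ A := ⟨fun k => ⟨s * k, mem_union_right _ (mem_image_of_mem _ k.2)⟩, fun a b hab =>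
    Subtype.ext (mul_left_cancel (congrArg (fun z : A => (z : G)) hab))⟩
  obtain ⟨Q, Q1, Q2, Q3⟩ := PSum.res TT (fun a : A => f a) (fun _ _ => fT _ _) (fun _ => fp _)
    fun _ => f1 _
  have Qp := proj _ Q Q1 Q2 Q3
  obtain ⟨U1, U2, U3⟩ := R Q Q1 Qp Q2
  have ref : ∀ (j : K → A) (P : (K → C) → X.M), (∀ l, P l ∈ Subring.closure T) → ∑ l, P l = 1 →
      (∀ l k c, P l * f (j k) c = if l k = c then P l else 0) →
      ∑ i : (K → C) × Ω, E.ι (P i.1) * p i.2 * E.ι (V (j (ch i.1 i.2))) =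
      ∑ i : (A → C) × Ω, E.ι (Q i.1) * p i.2 * E.ι (V (j (ch (i.1 ∘ j) i.2))) :=
    fun j P a1 a2 a3 => by
      have b : ∀ l, P l = ∑ Λ, if Λ ∘ j = l then Q Λ else 0 := fun l => by
        rw [← one_mul (P l), ← Q2, sum_mul]
        exact sum_congr rfl fun Λ _ => PSum.refine (e := fun a : A => f a) j a2 a3 (Q3 Λ)
          (fun l => PSum.clos_comm₂ TT (Q1 Λ) (a1 l)) l
      rw [Fintype.sum_prod_type, Fintype.sum_prod_type]
      simp only [b, map_sum, sum_mul]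
      rw [sum_comm]
      conv_rhs => rw [sum_comm]
      refine sum_congr rfl fun ω _ => ?_
      rw [sum_comm]
      refine sum_congr rfl fun Λ _ => ?_
      rw [Fintype.sum_eq_single (Λ ∘ j) fun l hl => by
        rw [if_neg hl.symm, map_zero, zero_mul, zero_mul], if_pos rfl]
  have e1 : x = _ := ref j₁ P P1 P2 P3
  have e2 : Y.act.φ s x = _ := Eq.trans (by
      simp only [x, map_sum, map_mul, E.equi, p3, V, ← X.act.mul]; rfl)
    (ref j₂ (fun l => X.act.φ s (P l)) (fun l => Tα s _ (P1 l))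
      (by rw [← map_sum, P2, map_one]) fun l k c => by
        have := congrArg (X.act.φ s) (P3 l k c)
        rw [map_mul, apply_ite (X.act.φ s), map_zero, ← X.act.mul] at this
        exact this)
  have hτ' := Y.tr τ hτ
  have key := SampleAux.est (tr_comp hτ' E.ι) j₁ j₂ (fun a => V a) (fun a => (Vm _).norm_le)
    (fun a : A => f a) Q Qp Q2 Q3 (fun Λ => ch (Λ ∘ j₁)) (fun Λ => ch (Λ ∘ j₂)) (δ := δ) (η := η)
    (fun a b => E.le _ η (fun σ hσ => hL.sep σ hσ a b) τ hτ) (fun Λ => by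
      have c1 := hch A j₁ j₂ Λ
      have c2 : #((univ.map j₁) ∆ (univ.map j₂)) ≤ #((K.image (s * ·)) ∆ K) := by
        refine card_le_card_of_injOn Subtype.val (fun a ha => ?_) Subtype.val_injective.injOn
        have m1 : a ∈ univ.map j₁ ↔ (a : G) ∈ K := by
          rw [Finset.mem_map]
          exact ⟨by rintro ⟨k, -, rfl⟩; exact k.2, fun hk => ⟨⟨a, hk⟩, mem_univ _, rfl⟩⟩
        have m2 : a ∈ univ.map j₂ ↔ (a : G) ∈ K.image (s * ·) := by
          rw [Finset.mem_map, mem_image]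
          exact ⟨by rintro ⟨k, -, rfl⟩; exact ⟨k, k.2, rfl⟩,
            fun ⟨k, hk, hk'⟩ => ⟨⟨k, hk⟩, mem_univ _, Subtype.ext hk'⟩⟩
        rw [mem_coe, mem_symmDiff] at ha ⊢
        rw [m1, m2] at ha
        exact ha.symm
      have c3 : (0 : ℝ) < #K := Nat.cast_pos.2 hK.card_pos
      rw [Fintype.card_coe] at c1
      have c4 := (Nat.cast_le (α := ℝ)).2 (c1.trans (Nat.mul_le_mul_left _ c2))
      push_cast at c4
      refine le_of_mul_le_mul_right (c4.trans ?_) c3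
      rw [mul_assoc]
      exact mul_le_mul_of_nonneg_left (hS s hs) (Nat.cast_nonneg _))
  refine Real.sqrt_le_sqrt ?_
  rw [e2, e1, ← sum_sub_distrib]
  simp only [← mul_sub]
  rw [PSum.star_mul' U1 U2 fun i j => (U3 _ _).sub_right (U3 _ _), map_sum, Complex.re_sum,
    Fintype.sum_prod_type]
  have c5 : (0 : ℝ) < Fintype.card Ω := Nat.cast_pos.2 Fintype.card_pos
  rw [Fintype.card_coe, mul_comm, ← div_le_iff₀ c5, sum_div] at key
  refine le_trans (le_of_eq (sum_congr rfl fun Λ _ => ?_)) key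
  rw [sum_div]
  refine sum_congr rfl fun ω _ => ?_
  dsimp only
  set D := V (j₂ (ch (Λ ∘ j₂) ω)) - V (j₁ (ch (Λ ∘ j₁) ω)) with hD
  have DG : D ∈ Gen S₀ := sub_mem (VG _) (VG _)
  have g1 : star D * D ∈ Gen S₀ := mul_mem (star_mem DG) DG
  rw [← map_sub, ← hD, ← map_star, ← map_mul, mul_assoc, (p4 _ g1 ω).1.eq, ← mul_assoc, ← map_mul,
    (p4 _ (mul_mem (TG _ (Q1 Λ)) g1) ω).2 τ hτ, ← Complex.ofReal_natCast, ← Complex.ofReal_inv,
    Complex.re_ofReal_mul, div_eq_inv_mul]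
  rfl

end Vale.Agent.P095
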