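import Vale.Agent.P095.Tr

/-! Shrinking corners. -/

namespace Vale.Agent.P095
open Vale.Agent.P101 Vale.Agent.P101.JS Filter Topology Finset
open scoped ComplexOrder BoundedContinuousFunction symmDiff

universe u
variable {B : Type u} [CStarAlgebra B]

/-- A flat-topped pair in the ideal. -/
structure FP (P : Pair B) (a e : B) : Prop where
  mem_a : a ∈ P.I
  mem_e : e ∈ P.I
  sa_a : IsSelfAdjoint a
  sa_e : IsSelfAdjoint e
  pos_e : ∃ f, e = star f * f
  norm_a : ‖a‖ = 1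
  norm_e : ‖e‖ = 1
  flat : e * a = e

namespace ShrinkAux
variable [PartialOrder B] [StarOrderedRing B]

theorem bump (P : Pair B) {z : B} (hz : z ∈ P.I) (hz0 : 0 ≤ z) (hR : 0 < ‖z‖) {η : ℝ}
    (hη : 0 < η) : ∃ a' e' k : B, FP P a' e' ∧ a' = k * z ∧
      ‖a' * z * a' - ‖z‖ • (a' * a')‖ ≤ η := by
  have hnt : Nontrivial B := nontrivial_of_ne z 0 (norm_pos_iff.1 hR)
  set R := ‖z‖ with hRdef
  obtain ⟨θ, hθ0, hθη, hθR⟩ : ∃ θ : ℝ, 0 < θ ∧ 2 * θ ≤ η ∧ 4 * θ ≤ R :=
    ⟨min (η / 2) (R / 4), by positivity, by have := min_le_left (η / 2) (R / 4); linarith,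
      by have := min_le_right (η / 2) (R / 4); linarith⟩
  have hsa := hz0.isSelfAdjoint
  let h : ℝ → ℝ → ℝ := fun c s => max 0 (min 1 ((s - c) / θ))
  have hc : ∀ c, Continuous (h c) := fun c => by simp only [h]; fun_prop
  have h0 : ∀ c s, 0 ≤ h c s := fun c s => le_max_left _ _
  have h1 : ∀ c s, h c s ≤ 1 := fun c s => max_le zero_le_one (min_le_left _ _)
  have hlo : ∀ c s, s ≤ c → h c s = 0 := fun c s hs =>
    max_eq_left ((min_le_right _ _).trans (div_nonpos_of_nonpos_of_nonneg (by linarith) hθ0.le))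
  have hhi : ∀ c s, c + θ ≤ s → h c s = 1 := fun c s hs => by
    simp only [h]
    rw [min_eq_left (by rw [le_div_iff₀ hθ0]; linarith), max_eq_right zero_le_one]
  have hk : ∀ c, 0 < c → ∃ k, cfc (h c) z = k * z := fun c hc0 => by
    have hm : ∀ s : ℝ, max s c ≠ 0 := fun s => (lt_of_lt_of_le hc0 (le_max_right _ _)).ne'
    refine ⟨cfc (fun s => h c s / max s c) z, ?_⟩
    nth_rewrite 3 [← cfc_id' ℝ z]
    rw [cfc_mul' (f := fun s => h c s / max s c) ((hc c).div (by fun_prop) hm) continuous_id']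
    refine cfc_congr fun s _ => ?_
    rcases le_total s c with hs | hs
    · simp [hlo c s hs]
    · rw [max_eq_left hs]
      field_simp [(lt_of_lt_of_le hc0 hs).ne']
  have hnorm : ∀ c, c + θ ≤ R → ‖cfc (h c) z‖ = 1 := fun c hcR => by
    refine le_antisymm (norm_cfc_le zero_le_one fun s _ => ?_) ?_
    · rw [Real.norm_eq_abs, abs_of_nonneg (h0 c s)]; exact h1 c s
    · have := norm_apply_le_norm_cfc (h c) z (CStarAlgebra.norm_mem_spectrum_of_nonneg hz0)
        (hc c).continuousOn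
      rwa [hhi c _ hcR, norm_one] at this
  obtain ⟨k, hk1⟩ := hk (R - 2 * θ) (by linarith)
  obtain ⟨k', hk2⟩ := hk (R - θ) (by linarith)
  refine ⟨cfc (h (R - 2 * θ)) z, cfc (h (R - θ)) z, k, ⟨?_, ?_, cfc_predicate _ _,
    cfc_predicate _ _, ?_, hnorm _ (by linarith), hnorm _ (by linarith), ?_⟩, hk1, ?_⟩
  · rw [hk1]; exact P.I.mul_mem_left _ hz
  · rw [hk2]; exact P.I.mul_mem_left _ hz
  · exact CStarAlgebra.nonneg_iff_eq_star_mul_self.1 (cfc_nonneg fun s _ => h0 _ s)
  · rw [← cfc_mul _ _ z (hc _).continuousOn (hc _).continuousOn]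
    refine cfc_congr fun s _ => ?_
    rcases le_total s (R - θ) with hs | hs
    · simp [hlo _ s hs]
    · simp [hhi (R - 2 * θ) s (by linarith)]
  · have e : cfc (h (R - 2 * θ)) z * z * cfc (h (R - 2 * θ)) z -
        R • (cfc (h (R - 2 * θ)) z * cfc (h (R - 2 * θ)) z) =
        cfc (fun s => h (R - 2 * θ) s * s * h (R - 2 * θ) s -
          R * (h (R - 2 * θ) s * h (R - 2 * θ) s)) z := by
      have := hc (R - 2 * θ)
      generalize h (R - 2 * θ) = g at this
      rw [cfc_sub _ _ z (by fun_prop) (by fun_prop), cfc_const_mul _ _ z (by fun_prop),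
        ← cfc_mul' (by fun_prop) this, ← cfc_mul' this this, ← cfc_mul' this continuous_id',
        cfc_id' ℝ z]
    rw [e]
    refine norm_cfc_le hη.le fun s hs => ?_
    have hsR : s ≤ R := (le_abs_self s).trans (spectrum.norm_le_norm_of_mem hs)
    rcases le_total s (R - 2 * θ) with hs' | hs'
    · simp [hlo _ s hs', hη.le]
    · have a0 := h0 (R - 2 * θ) s
      have a1 := h1 (R - 2 * θ) s
      have a2 : h (R - 2 * θ) s * h (R - 2 * θ) s ≤ 1 := by nlinarith
      have a3 := mul_self_nonneg (h (R - 2 * θ) s)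
      rw [Real.norm_eq_abs, abs_le]
      constructor <;> nlinarith

theorem e_nonneg {P : Pair B} {a e : B} (h : FP P a e) : 0 ≤ e := by
  obtain ⟨f, hf⟩ := h.pos_e
  rw [hf]; exact star_mul_self_nonneg f

theorem e_le {P : Pair B} {a e : B} (h : FP P a e) : e ≤ 1 :=
  (CStarAlgebra.norm_le_one_iff_of_nonneg e (e_nonneg h)).1 h.norm_e.le

theorem ee_le {P : Pair B} {a e : B} (h : FP P a e) : 0 ≤ 1 - e * e := by
  rw [sub_nonneg]
  refine (CStarAlgebra.norm_le_one_iff_of_nonneg _ h.sa_e.mul_self_nonneg).1 ?_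
  exact (norm_mul_le _ _).trans (by rw [h.norm_e]; norm_num)

theorem w_nonneg {P : Pair B} {a e a' : B} (h : FP P a e) (ha : IsSelfAdjoint a') :
    0 ≤ a' * (1 - e * e) * a' := by
  simpa [ha.star_eq] using star_left_conjugate_nonneg (ee_le h) a'

omit [PartialOrder B] [StarOrderedRing B] in
theorem z_bound {P : Pair B} {a e : B} (h : FP P a e) (b : B) {C : ℝ} (hC : 0 ≤ C) :
    |‖e * (algebraMap ℝ B C + b) * e‖ - C| ≤ ‖b‖ := by
  have e1 : ‖e * algebraMap ℝ B C * e‖ = C := by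
    rw [Algebra.algebraMap_eq_smul_one, mul_smul_comm, mul_one, smul_mul_assoc, norm_smul,
      h.sa_e.norm_mul_self, h.norm_e, Real.norm_eq_abs, abs_of_nonneg hC]; ring
  nth_rewrite 2 [← e1]
  refine (abs_norm_sub_norm_le _ _).trans ?_
  rw [mul_add, add_mul, add_sub_cancel_left]
  refine (norm_mul₃_le).trans ?_
  rw [h.norm_e]; simp

theorem core {P : Pair B} {a e : B} (h : FP P a e) {b : B} (hb : IsSelfAdjoint b) {C η : ℝ}
    (hC : ‖b‖ < C) (hη : 0 < η) : ∃ a' e' : B, FP P a' e' ∧ a' * a = a' ∧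
      ‖a' * (e * (algebraMap ℝ B C + b) * e) * a' -
        ‖e * (algebraMap ℝ B C + b) * e‖ • (a' * a')‖ ≤ η := by
  have h0 : 0 ≤ algebraMap ℝ B C + b := by
    have h1 := hb.neg_algebraMap_norm_le_self
    have h2 : 0 ≤ algebraMap ℝ B (C - ‖b‖) := by
      rw [Algebra.algebraMap_eq_smul_one]; exact smul_nonneg (by linarith) zero_le_one
    rw [map_sub] at h2
    have := add_nonneg h2 (sub_nonneg.2 h1)
    convert this using 1; abel
  have h1 := z_bound h b ((norm_nonneg b).trans hC.le)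
  obtain ⟨a', e', k, h2, h3, h4⟩ := bump P (z := e * (algebraMap ℝ B C + b) * e)
    (P.I.mul_mem_left _ h.mem_e)
    (by simpa [h.sa_e.star_eq] using star_left_conjugate_nonneg h0 e)
    (by have := (abs_le.1 h1).1; linarith) hη
  refine ⟨a', e', h2, ?_, h4⟩
  rw [h3]
  simp only [mul_assoc, h.flat]

theorem decomp {P : Pair B} {a e a' : B} (h : FP P a e) (ha : IsSelfAdjoint a') (ha1 : ‖a'‖ = 1)
    (b : B) {C R η m : ℝ} (hw : ‖a' * (1 - e * e) * a'‖ ≤ m ^ 2) (hm : 0 ≤ m)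
    (h1 : ‖a' * (e * (algebraMap ℝ B C + b) * e) * a' - R • (a' * a')‖ ≤ η) :
    ‖a' * b * a' - (R - C) • (a' * a') - C • (a' * (1 - e * e) * a')‖ ≤ 2 * ‖b‖ * m + η := by
  have h2 : ‖(1 - e) * a'‖ ≤ m := by
    refine (pow_le_pow_iff_left₀ (norm_nonneg _) hm two_ne_zero).1 (le_trans ?_ hw)
    rw [sq, ← CStarRing.norm_star_mul_self]
    refine CStarAlgebra.norm_le_norm_of_nonneg_of_le (star_mul_self_nonneg _) ?_
    have h3 : (1 - e) * (1 - e) ≤ 1 - e * e := by
      have h4 : 0 ≤ e * (1 - e) := Commute.mul_nonneg (e_nonneg h) (sub_nonneg.2 (e_le h))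
        ((Commute.one_right e).sub_right (Commute.refl e))
      rw [← sub_nonneg]
      convert add_nonneg h4 h4 using 1
      noncomm_ring
    have := star_left_conjugate_le_conjugate h3 a'
    simpa [star_mul, ha.star_eq, h.sa_e.star_eq, mul_assoc] using this
  have h3 : ‖a' * (1 - e)‖ ≤ m := by
    rw [← norm_star]; simpa [star_mul, ha.star_eq, h.sa_e.star_eq] using h2
  have e1 : a' * b * a' - (R - C) • (a' * a') - C • (a' * (1 - e * e) * a') =
      a' * (1 - e) * b * a' + a' * e * b * ((1 - e) * a') +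
        (a' * (e * (algebraMap ℝ B C + b) * e) * a' - R • (a' * a')) := by
    simp only [Algebra.algebraMap_eq_smul_one, mul_add, add_mul, mul_sub, sub_mul, mul_one,
      one_mul, mul_smul_comm, smul_mul_assoc, sub_smul, smul_sub, mul_assoc]
    abel
  rw [e1]
  have h4 : ‖a' * (1 - e) * b * a'‖ ≤ ‖b‖ * m := by
    refine norm_mul₃_le.trans ?_
    rw [ha1, mul_one, mul_comm]
    exact mul_le_mul_of_nonneg_left h3 (norm_nonneg _)
  have h5 : ‖a' * e * b * ((1 - e) * a')‖ ≤ ‖b‖ * m := by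
    refine (norm_mul_le _ _).trans (mul_le_mul ?_ h2 (norm_nonneg _) (norm_nonneg _))
    refine norm_mul₃_le.trans ?_
    rw [ha1, h.norm_e]; simp
  have := norm_add₃_le (a := a' * (1 - e) * b * a') (b := a' * e * b * ((1 - e) * a'))
    (c := a' * (e * (algebraMap ℝ B C + b) * e) * a' - R • (a' * a'))
  linarith

theorem lam_aa {lam : B →ₗ[ℂ] ℂ} (hl : IsSt lam) {a : B} (ha : IsSelfAdjoint a) (ha1 : ‖a‖ = 1)
    (h : lam (a * a) = 1) (y : B) : lam (a * a * y) = lam y ∧ lam (y * (a * a)) = lam y := by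
  have h0 : 0 ≤ 1 - a * a := by
    rw [sub_nonneg]
    refine (CStarAlgebra.norm_le_one_iff_of_nonneg _ ha.mul_self_nonneg).1 ?_
    exact (norm_mul_le _ _).trans (by rw [ha1]; norm_num)
  set s := CFC.sqrt (1 - a * a)
  have hs : star s = s := (CFC.sqrt_nonneg _).isSelfAdjoint.star_eq
  have hss : s * s = 1 - a * a := CFC.sqrt_mul_sqrt_self _ h0
  have hn : n2 lam s = 0 := by
    rw [n2, hs, hss, map_sub, hl.1, h]; simp
  have k1 := n2_cs hl s (s * y)
  have k2 := n2_cs hl (s * star y) s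
  rw [hn, zero_mul, hs, ← mul_assoc, hss, norm_le_zero_iff, sub_mul, one_mul, map_sub,
    sub_eq_zero] at k1
  rw [hn, mul_zero, star_mul, star_star, hs, mul_assoc, hss, norm_le_zero_iff, mul_sub, mul_one,
    map_sub, sub_eq_zero] at k2
  exact ⟨k1.symm, k2.symm⟩

end ShrinkAux
open ShrinkAux

theorem Pair.exists_fp (P : Pair B) : ∃ a e, FP P a e := by
  let := CStarAlgebra.spectralOrder B
  have := CStarAlgebra.spectralOrderedRing B
  obtain ⟨x, hx, hx0⟩ := P.ne
  obtain ⟨a, e, -, h, -⟩ := bump P (z := star x * x) (P.I.mul_mem_left _ hx)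
    (star_mul_self_nonneg x)
    (by rw [CStarRing.norm_star_mul_self]; exact mul_pos (norm_pos_iff.2 hx0) (norm_pos_iff.2 hx0))
    one_pos
  exact ⟨a, e, h⟩

theorem FP.shrink {P : Pair B} {a e : B} (h : FP P a e) {b : B} (hb : IsSelfAdjoint b) {ε : ℝ}
    (hε : 0 < ε) : ∃ (a' e' : B) (t : ℝ), FP P a' e' ∧ a' * a = a' ∧
      ‖a' * b * a' - (t : ℂ) • (a' * a')‖ ≤ ε := by
  let := CStarAlgebra.spectralOrder B
  have := CStarAlgebra.spectralOrderedRing B
  have hb0 := norm_nonneg b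
  obtain ⟨m, hm0, hm1, hm2⟩ : ∃ m : ℝ, 0 < m ∧ m ≤ 1 ∧ (2 * ‖b‖ + 5) * m ≤ ε :=
    ⟨min 1 (ε / (2 * ‖b‖ + 5)), by positivity, min_le_left _ _, by
      rw [← le_div_iff₀' (by positivity)]; exact min_le_right _ _⟩
  set η := m ^ 2 with hη
  have hη0 : 0 < η := by positivity
  let Z : ℝ → B := fun C => e * (algebraMap ℝ B C + b) * e
  let C : ℕ → ℝ := fun n => 2 ^ n * (‖b‖ + 2)
  have hC : ∀ n, ‖b‖ + 2 ≤ C n := fun n =>
    le_mul_of_one_le_left (by positivity) (one_le_pow₀ one_le_two)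
  have hCs : ∀ n, C (n + 1) = 2 * C n := fun n => by simp only [C]; ring
  obtain ⟨n, hn⟩ : ∃ n, (‖Z (C n)‖ - C n) - (‖Z (C (n + 1))‖ - C (n + 1)) ≤ η := by
    by_contra hcon
    push Not at hcon
    have k : ∀ n : ℕ, ‖Z (C n)‖ - C n ≤ ‖b‖ - n * η := fun n => by
      induction n with
      | zero => simpa using (abs_le.1 (z_bound h b (by have := hC 0; linarith))).2
      | succ n ih => have := hcon n; push_cast; linarith
    obtain ⟨n, hn⟩ := exists_nat_gt (2 * ‖b‖ / η)
    rw [div_lt_iff₀ hη0] at hn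
    have h1 := (abs_le.1 (z_bound h b (C := C n) (by have := hC n; linarith))).1
    have := k n
    simp only [Z] at this
    linarith
  have hCn := hC n
  obtain ⟨a', e', h1, h2, h3⟩ := core h hb (C := C (n + 1)) (by rw [hCs]; linarith) hη0
  have hsa := h1.sa_a
  have haa : a' * a' ≤ 1 := (CStarAlgebra.norm_le_one_iff_of_nonneg _ hsa.mul_self_nonneg).1
    ((norm_mul_le _ _).trans (by rw [h1.norm_a]; norm_num))
  have hZsa : ∀ C, IsSelfAdjoint (Z C) := fun C => by
    simpa [h.sa_e.star_eq] using ((IsSelfAdjoint.algebraMap B (.all C)).add hb).conjugate e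
  have hw : ‖C n • (a' * (1 - e * e) * a')‖ ≤ 2 * η := by
    rw [CStarAlgebra.norm_le_iff_le_algebraMap _ (by linarith)
      (smul_nonneg (by linarith) (w_nonneg h hsa))]
    have k1 : a' * Z (C n) * a' ≤ ‖Z (C n)‖ • (a' * a') := by
      have := star_left_conjugate_le_conjugate (hZsa (C n)).le_algebraMap_norm_self a'
      simpa [hsa.star_eq, Algebra.algebraMap_eq_smul_one] using this
    have hsa2 : IsSelfAdjoint (‖Z (C (n + 1))‖ • (a' * a') - a' * Z (C (n + 1)) * a') :=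
      (IsSelfAdjoint.smul (.all _) hsa.mul_self_nonneg.isSelfAdjoint).sub
        (by simpa [hsa.star_eq] using (hZsa (C (n + 1))).conjugate a')
    have k2 : ‖Z (C (n + 1))‖ • (a' * a') - a' * Z (C (n + 1)) * a' ≤ η • (1 : B) := by
      refine hsa2.le_algebraMap_norm_self.trans ?_
      rw [Algebra.algebraMap_eq_smul_one, norm_sub_rev]
      exact smul_le_smul_of_nonneg_right h3 zero_le_one
    have k3 : ((‖Z (C n)‖ - C n) - (‖Z (C (n + 1))‖ - C (n + 1))) • (a' * a') ≤ η • (1 : B) :=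
      (smul_le_smul_of_nonneg_right hn hsa.mul_self_nonneg).trans
        (smul_le_smul_of_nonneg_left haa hη0.le)
    have e1 : C n • (a' * (1 - e * e) * a') =
        ((‖Z (C n)‖ - C n) - (‖Z (C (n + 1))‖ - C (n + 1))) • (a' * a') +
          (‖Z (C (n + 1))‖ • (a' * a') - a' * Z (C (n + 1)) * a') -
          (‖Z (C n)‖ • (a' * a') - a' * Z (C n) * a') := by
      generalize ‖Z (C n)‖ = R1
      generalize ‖Z (C (n + 1))‖ = R2
      simp only [Z, hCs, Algebra.algebraMap_eq_smul_one, mul_add, add_mul, mul_sub, sub_mul,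
        mul_one, mul_smul_comm, smul_mul_assoc, mul_assoc]
      module
    rw [e1, Algebra.algebraMap_eq_smul_one, two_mul, add_smul]
    exact (sub_le_self _ (sub_nonneg.2 k1)).trans (add_le_add k3 k2)
  rw [norm_smul, Real.norm_eq_abs, abs_of_pos (by linarith)] at hw
  have hw0 := norm_nonneg (a' * (1 - e * e) * a')
  have h4 := decomp h hsa h1.norm_a b (m := m) (by nlinarith) hm0.le h3
  refine ⟨a', e', ‖Z (C (n + 1))‖ - C (n + 1), h1, h2, ?_⟩
  rw [Complex.coe_smul]
  have h5 := norm_le_norm_sub_add (a' * b * a' - (‖Z (C (n + 1))‖ - C (n + 1)) • (a' * a'))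
    (C (n + 1) • (a' * (1 - e * e) * a'))
  rw [norm_smul, Real.norm_eq_abs, abs_of_pos (by rw [hCs]; linarith)] at h5
  have h6 : η ≤ m := by rw [hη]; nlinarith
  have h7 : C (n + 1) * ‖a' * (1 - e * e) * a'‖ ≤ 4 * η := by rw [hCs]; linarith
  simp only [Z] at h5 ⊢
  linarith

theorem FP.shrink_outer {P : Pair B} {γ : B →⋆ₐ[ℂ] B} (hγ : Outer P γ) : ∃ δ : ℝ, 0 < δ ∧
    ∀ a e, FP P a e → ∀ (t : Finset B) (ε : ℝ), 0 < ε → ∃ a' e' x : B, FP P a' e' ∧ a' * a = a' ∧
      IsSelfAdjoint x ∧ ‖x‖ ≤ 1 ∧ (∀ c ∈ t, ‖x * c - c * x‖ ≤ ε) ∧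
      ∀ lam : B →ₗ[ℂ] ℂ, IsSt lam → lam (a' * a') = 1 → δ ≤ (lam (x - γ x)).re := by
  let := CStarAlgebra.spectralOrder B
  have := CStarAlgebra.spectralOrderedRing B
  obtain ⟨δ, hδ, hO⟩ := hγ
  refine ⟨δ / 4, by positivity, fun a e h t ε hε => ?_⟩
  set m := δ / 16 with hm
  have hm0 : 0 < m := by positivity
  set C := 3 + 5 / m ^ 2 with hC
  have hC3 : 3 ≤ C := le_add_of_nonneg_right (by positivity)
  have hCm : 5 ≤ C * m ^ 2 := by
    rw [hC, add_mul, div_mul_cancel₀ _ (by positivity)]; nlinarith [sq_nonneg m]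
  obtain ⟨x, hx, hx1, hxc, hxR⟩ := hO e h.mem_e h.sa_e h.norm_e t (min ε (δ / 4)) C
    (by positivity) (by linarith)
  have hb : IsSelfAdjoint (x - γ x) := hx.sub (hx.map γ)
  have hb2 : ‖x - γ x‖ ≤ 2 := by
    have := norm_sub_le_of_le hx1 ((NonUnitalStarAlgHom.norm_apply_le γ x).trans hx1)
    linarith
  rw [add_sub_assoc (algebraMap ℝ B C)] at hxR
  obtain ⟨a', e', h1, h2, h3⟩ := core h hb (C := C) (η := min 1 (δ / 4)) (by linarith)
    (by positivity)
  have hR := z_bound h (x - γ x) (C := C) (by linarith)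
  set R := ‖e * (algebraMap ℝ B C + (x - γ x)) * e‖
  have hsa := h1.sa_a
  have hη1 := min_le_left 1 (δ / 4)
  have hη2 := min_le_right 1 (δ / 4)
  have hw : ‖a' * (1 - e * e) * a'‖ ≤ m ^ 2 := by
    have e1 : C • (a' * (1 - e * e) * a') = (C - R) • (a' * a') -
        (a' * (e * (algebraMap ℝ B C + (x - γ x)) * e) * a' - R • (a' * a')) +
          a' * e * (x - γ x) * (e * a') := by
      generalize x - γ x = b
      simp only [Algebra.algebraMap_eq_smul_one, mul_add, add_mul, mul_sub, sub_mul,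
        mul_one, mul_smul_comm, smul_mul_assoc, mul_assoc]
      module
    have k1 : ‖(C - R) • (a' * a')‖ ≤ 2 := by
      rw [norm_smul, hsa.norm_mul_self, h1.norm_a, Real.norm_eq_abs, abs_sub_comm]; linarith
    have k2 : ‖a' * e * (x - γ x) * (e * a')‖ ≤ 2 := by
      have j1 : ‖a' * e‖ ≤ 1 := (norm_mul_le _ _).trans (by rw [h1.norm_a, h.norm_e]; norm_num)
      have j2 : ‖e * a'‖ ≤ 1 := (norm_mul_le _ _).trans (by rw [h1.norm_a, h.norm_e]; norm_num)
      have := norm_mul_le_of_le (norm_mul_le_of_le j1 hb2) j2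
      linarith
    have k3 := norm_add_le_of_le (norm_sub_le_of_le k1 h3) k2
    rw [← e1, norm_smul, Real.norm_eq_abs, abs_of_pos (by linarith)] at k3
    refine le_of_mul_le_mul_left (a := C) ?_ (by linarith)
    linarith
  have h4 := decomp h hsa h1.norm_a (x - γ x) hw hm0.le h3
  refine ⟨a', e', x, h1, h2, hx, hx1, fun c hc => (hxc c hc).trans (min_le_left _ _),
    fun lam hl hl1 => ?_⟩
  have k := lam_aa hl hsa h1.norm_a hl1
  set D := a' * (x - γ x) * a' - (R - C) • (a' * a') - C • (a' * (1 - e * e) * a') with hD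
  have e2 : a' * a' * ((x - γ x) * (a' * a')) = a' * D * a' + (R - C) • (a' * a' * (a' * a')) +
      C • (a' * (a' * (1 - e * e) * a') * a') := by
    rw [hD]
    generalize x - γ x = b
    generalize 1 - e * e = w
    simp only [mul_sub, sub_mul, mul_smul_comm, smul_mul_assoc, mul_assoc]
    abel
  have k1 : lam (x - γ x) = lam (a' * a' * ((x - γ x) * (a' * a'))) := by
    rw [(k _).1, (k _).2]
  have k2 : 0 ≤ (lam (a' * (a' * (1 - e * e) * a') * a')).re := by
    have := hl.mono (star_left_conjugate_nonneg (w_nonneg h hsa) a')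
    simpa [hsa.star_eq] using this
  have k3 : -(2 * ‖x - γ x‖ * m + min 1 (δ / 4)) ≤ (lam (a' * D * a')).re := by
    have j1 := (Complex.abs_re_le_norm _).trans ((hl.norm_le (a' * D * a')).trans norm_mul₃_le)
    rw [h1.norm_a, one_mul, mul_one] at j1
    have := (abs_le.1 j1).1
    linarith
  rw [k1, e2, map_add, map_add, ← Complex.coe_smul, ← Complex.coe_smul, map_smul, map_smul,
    (k _).1, hl1, smul_eq_mul, smul_eq_mul, mul_one, Complex.add_re, Complex.add_re,
    Complex.ofReal_re, Complex.re_ofReal_mul]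
  have k4 := min_le_right ε (δ / 4)
  have k5 : 2 * ‖x - γ x‖ * m ≤ δ / 4 := by nlinarith
  have k6 := mul_nonneg (show 0 ≤ C by linarith) k2
  linarith

end Vale.Agent.P095
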