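import Vale.Agent.P095.Basic

/-! States, traces and the L2 seminorm; matrix units. -/

namespace Vale.Agent.P095
open Vale.Agent.P101 Vale.Agent.P101.JS Filter Topology Finset
open scoped ComplexOrder BoundedContinuousFunction symmDiff

universe u
variable {B : Type u} [CStarAlgebra B] {lam τ : B →ₗ[ℂ] ℂ}

theorem tr_st (h : IsTracialState τ) : IsSt τ := ⟨h.1, h.2.1⟩

theorem IsSt.norm_le (h : IsSt lam) (x : B) : ‖lam x‖ ≤ ‖x‖ := norm_state_le lam h.1 h.2 x

theorem IsSt.continuous (h : IsSt lam) : Continuous lam :=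
  AddMonoidHomClass.continuous_of_bound lam 1 fun x => by rw [one_mul]; exact h.norm_le x

theorem IsSt.map_star (h : IsSt lam) (x : B) : lam (star x) = starRingEnd ℂ (lam x) := by
  obtain ⟨H, _, _, _, π, v, -, -, h3⟩ := exists_gns_aux lam h.2
  have h1 := h3 x 1
  have h2 := h3 1 x
  rw [mul_one] at h1
  rw [star_one, one_mul] at h2
  rw [← h1, ← h2, inner_conj_symm]

theorem IsSt.re_nonneg (h : IsSt lam) (x : B) : 0 ≤ (lam (star x * x)).re :=
  (Complex.nonneg_iff.1 (h.2 x)).1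

theorem IsSt.im_sa (h : IsSt lam) {x : B} (hx : IsSelfAdjoint x) : (lam x).im = 0 := by
  have := h.map_star x
  rw [hx.star_eq] at this
  exact Complex.conj_eq_iff_im.1 this.symm

theorem IsSt.mono [PartialOrder B] [StarOrderedRing B] (h : IsSt lam) {x y : B} (hxy : x ≤ y) :
    (lam x).re ≤ (lam y).re := by
  obtain ⟨b, hb⟩ := CStarAlgebra.nonneg_iff_eq_star_mul_self.1 (sub_nonneg.2 hxy)
  have := h.re_nonneg b
  rw [← hb, map_sub, Complex.sub_re] at this
  linarith

theorem IsSt.comp {D : Type*} [CStarAlgebra D] (h : IsSt lam) (φ : D →⋆ₐ[ℂ] B) :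
    IsSt (lam ∘ₗ φ.toAlgHom.toLinearMap) :=
  ⟨(congrArg lam (map_one φ)).trans h.1, fun x => by
    change 0 ≤ lam (φ (star x * x))
    rw [map_mul φ, StarHomClass.map_star φ]; exact h.2 _⟩

theorem tr_comp {D : Type*} [CStarAlgebra D] (h : IsTracialState τ) (φ : D →⋆ₐ[ℂ] B) :
    IsTracialState (τ ∘ₗ φ.toAlgHom.toLinearMap) :=
  ⟨((tr_st h).comp φ).1, ((tr_st h).comp φ).2, fun x y => by
    change τ (φ (x * y)) = τ (φ (y * x))
    rw [map_mul φ, map_mul φ, h.2.2]⟩

theorem n2_comp {D : Type*} [CStarAlgebra D] (φ : D →⋆ₐ[ℂ] B) (x : D) :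
    n2 (lam ∘ₗ φ.toAlgHom.toLinearMap) x = n2 lam (φ x) := by
  change √(lam (φ (star x * x))).re = _
  rw [map_mul, map_star]; rfl

theorem n2_nonneg (lam : B →ₗ[ℂ] ℂ) (x : B) : 0 ≤ n2 lam x := Real.sqrt_nonneg _

theorem n2_sq (h : IsSt lam) (x : B) : n2 lam x ^ 2 = (lam (star x * x)).re :=
  Real.sq_sqrt (h.re_nonneg x)

theorem n2_le_iff (h : IsSt lam) (x : B) {c : ℝ} (hc : 0 ≤ c) :
    n2 lam x ≤ c ↔ (lam (star x * x)).re ≤ c ^ 2 := by
  rw [← n2_sq h]
  exact (pow_le_pow_iff_left₀ (n2_nonneg lam x) hc two_ne_zero).symm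

theorem IsSt.norm_eq (h : IsSt lam) (x : B) : ‖lam (star x * x)‖ = n2 lam x ^ 2 := by
  rw [n2_sq h]
  obtain ⟨h1, h2⟩ := Complex.nonneg_iff.1 (h.2 x)
  rw [← Complex.re_add_im (lam (star x * x)), ← h2]
  simp [abs_of_nonneg h1]

theorem n2_cs (h : IsSt lam) (x y : B) : ‖lam (star x * y)‖ ≤ n2 lam x * n2 lam y := by
  have := state_cauchy_schwarz lam h.1 h.2 x y
  rw [h.norm_eq, h.norm_eq, ← mul_pow] at this
  exact (pow_le_pow_iff_left₀ (norm_nonneg _) (mul_nonneg (n2_nonneg _ _) (n2_nonneg _ _))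
    two_ne_zero).1 this

theorem n2_one (h : IsSt lam) : n2 lam 1 = 1 := by
  rw [n2, star_one, one_mul, h.1]; simp

theorem norm_le_n2 (h : IsSt lam) (x : B) : ‖lam x‖ ≤ n2 lam x := by
  simpa [n2_one h] using n2_cs h 1 x

theorem n2_le_norm (h : IsSt lam) (x : B) : n2 lam x ≤ ‖x‖ := by
  rw [n2_le_iff h x (norm_nonneg _), sq, ← CStarRing.norm_star_mul_self]
  exact (Complex.re_le_norm _).trans (h.norm_le _)

theorem n2_zero (lam : B →ₗ[ℂ] ℂ) : n2 lam 0 = 0 := by simp [n2]

theorem n2_add (h : IsSt lam) (x y : B) : n2 lam (x + y) ≤ n2 lam x + n2 lam y := by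
  rw [n2_le_iff h _ (add_nonneg (n2_nonneg _ _) (n2_nonneg _ _)), star_add, add_mul, mul_add,
    mul_add, map_add, map_add, map_add, Complex.add_re, Complex.add_re, Complex.add_re, ← n2_sq h,
    ← n2_sq h]
  have h1 := (Complex.re_le_norm _).trans (n2_cs h x y)
  have h2 := (Complex.re_le_norm _).trans (n2_cs h y x)
  nlinarith

theorem n2_neg (lam : B →ₗ[ℂ] ℂ) (x : B) : n2 lam (-x) = n2 lam x := by simp [n2]

theorem n2_sub_comm (lam : B →ₗ[ℂ] ℂ) (x y : B) : n2 lam (x - y) = n2 lam (y - x) := by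
  rw [← n2_neg, neg_sub]

theorem n2_sub (h : IsSt lam) (x y : B) : n2 lam (x - y) ≤ n2 lam x + n2 lam y := by
  rw [sub_eq_add_neg, ← n2_neg lam y]; exact n2_add h _ _

theorem n2_triangle (h : IsSt lam) (x y z : B) :
    n2 lam (x - z) ≤ n2 lam (x - y) + n2 lam (y - z) := by
  rw [← sub_add_sub_cancel x y z]; exact n2_add h _ _

theorem n2_smul (h : IsSt lam) (c : ℂ) (x : B) : n2 lam (c • x) = ‖c‖ * n2 lam x := by
  refine (pow_left_inj₀ (n2_nonneg _ _) (mul_nonneg (norm_nonneg _) (n2_nonneg _ _))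
    two_ne_zero).1 ?_
  rw [mul_pow, n2_sq h, n2_sq h, star_smul, smul_mul_smul_comm, map_smul, smul_eq_mul,
    Complex.star_def, Complex.conj_mul', ← Complex.ofReal_pow, Complex.re_ofReal_mul]

theorem n2_rsmul (h : IsSt lam) (c : ℝ) (x : B) : n2 lam (c • x) = |c| * n2 lam x := by
  rw [← Complex.coe_smul, n2_smul h, Complex.norm_real, Real.norm_eq_abs]

theorem n2_sum (h : IsSt lam) {ι : Type*} (s : Finset ι) (x : ι → B) :
    n2 lam (∑ i ∈ s, x i) ≤ ∑ i ∈ s, n2 lam (x i) :=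
  Finset.le_sum_of_subadditive (n2 lam) (n2_zero lam).le (n2_add h) s x

theorem n2_mul_left (h : IsSt lam) (a x : B) : n2 lam (a * x) ≤ ‖a‖ * n2 lam x := by
  let := CStarAlgebra.spectralOrder B
  have := CStarAlgebra.spectralOrderedRing B
  rw [n2_le_iff h _ (mul_nonneg (norm_nonneg _) (n2_nonneg _ _)), mul_pow, n2_sq h]
  have h1 := h.mono (CStarAlgebra.star_left_conjugate_le_norm_smul (a := x) (b := star a * a))
  rw [← Complex.coe_smul, map_smul, smul_eq_mul, Complex.re_ofReal_mul,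
    CStarRing.norm_star_mul_self, ← sq] at h1
  rw [star_mul, mul_assoc, ← mul_assoc (star a), ← mul_assoc]
  exact h1

theorem n2_star (h : IsTracialState τ) (x : B) : n2 τ (star x) = n2 τ x := by
  rw [n2, star_star, h.2.2]; rfl

theorem n2_mul_right (h : IsTracialState τ) (x a : B) : n2 τ (x * a) ≤ n2 τ x * ‖a‖ := by
  rw [← n2_star h, star_mul, mul_comm, ← norm_star a, ← n2_star h x]
  exact n2_mul_left (tr_st h) _ _

theorem n2_holder (h : IsTracialState τ) (a b : B) :
    n2 τ (a * b) ^ 2 ≤ n2 τ (star a * a) * n2 τ (b * star b) := by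
  rw [n2_sq (tr_st h)]
  have := n2_cs (tr_st h) (star a * a) (b * star b)
  rw [star_mul, star_star] at this
  refine le_trans (le_of_eq ?_) ((Complex.re_le_norm _).trans this)
  rw [star_mul, mul_assoc, h.2.2]
  simp only [mul_assoc]

theorem tr_pos_mul (h : IsTracialState τ) (a b : B) :
    0 ≤ (τ (star a * a * (star b * b))).re := by
  have := (tr_st h).re_nonneg (a * star b)
  rw [star_mul, star_star, mul_assoc, h.2.2] at this
  simpa only [mul_assoc] using this

theorem norm_tr_pos_mul (h : IsTracialState τ) (a b : B) :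
    ‖τ (star a * a * b)‖ ≤ (τ (star a * a)).re * ‖b‖ := by
  have h1 := n2_cs (tr_st h) (star a) (b * star a)
  have h2 := n2_mul_left (tr_st h) b (star a)
  rw [star_star, ← mul_assoc, h.2.2, ← mul_assoc, n2_star h] at h1
  rw [n2_star h] at h2
  rw [← n2_sq (tr_st h)]
  have := n2_nonneg τ a
  nlinarith

theorem commute_gen {S : Set B} {x : B} (h : ∀ s ∈ S, Commute x s ∧ Commute x (star s)) :
    ∀ y ∈ Gen S, Commute x y := by
  have k : ∀ y ∈ StarAlgebra.adjoin ℂ S, Commute x y ∧ Commute x (star y) := fun y hy => by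
    induction hy using StarAlgebra.adjoin_induction with
    | mem y hy => exact h y hy
    | algebraMap r =>
      rw [← algebraMap_star_comm]
      exact ⟨(Algebra.commutes r x).symm, (Algebra.commutes _ x).symm⟩
    | add a b _ _ ha hb => rw [star_add]; exact ⟨ha.1.add_right hb.1, ha.2.add_right hb.2⟩
    | mul a b _ _ ha hb => rw [star_mul]; exact ⟨ha.1.mul_right hb.1, hb.2.mul_right ha.2⟩
    | star a _ ha => rw [star_star]; exact ⟨ha.2, ha.1⟩
  intro y hy
  exact closure_minimal (t := {y | x * y = y * x}) (fun z hz => (k z hz).1)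
    (isClosed_eq (by fun_prop) (by fun_prop)) hy

theorem mem_gen_of_mem {S : Set B} {x : B} (h : x ∈ S) : x ∈ Gen S :=
  StarSubalgebra.le_topologicalClosure _ (StarAlgebra.subset_adjoin ℂ _ h)

theorem gen_mono {S T : Set B} (h : S ⊆ Gen T) : Gen S ≤ Gen T :=
  StarSubalgebra.topologicalClosure_minimal (StarAlgebra.adjoin_le h) (gen_closed T)

theorem map_mem_gen {D : Type*} [CStarAlgebra D] (φ : D →⋆ₐ[ℂ] B) {S : Set D} {y : D}
    (hy : y ∈ Gen S) : φ y ∈ Gen (φ '' S) := by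
  have : Gen S ≤ (Gen (φ '' S)).comap φ :=
    StarSubalgebra.topologicalClosure_minimal
      (StarAlgebra.adjoin_le fun s hs => mem_gen_of_mem ⟨s, hs, rfl⟩)
      ((gen_closed _).preimage (hom_cont φ))
  exact this hy

theorem map_sym {D : Type*} [CStarAlgebra D] (φ : D →⋆ₐ[ℂ] B) (a : Bool) (v : D) :
    φ (sym a v) = sym a (φ v) := by
  cases a <;> simp [sym, map_star]

theorem map_yfun {D : Type*} [CStarAlgebra D] (φ : D →⋆ₐ[ℂ] B) (v : D) :
    φ (yfun v) = yfun (φ v) := by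
  simp only [yfun, map_smul, map_add, map_mul, map_star, map_sub, map_one]

theorem sym_sa (a : Bool) (v : B) : IsSelfAdjoint (sym a v) := by
  cases a
  · simp [sym, IsSelfAdjoint, star_smul, ← smul_neg]
  · simp [sym, IsSelfAdjoint, add_comm]

theorem sym_sub (a : Bool) (v w : B) : sym a (v - w) = sym a v - sym a w := by
  cases a
  · simp only [sym, star_sub, Bool.false_eq_true, if_false, ← smul_sub]; congr 1; abel
  · simp only [sym, star_sub, if_true]; abel

theorem eq_sym (v : B) : v = (2⁻¹ : ℂ) • (sym true v - Complex.I • sym false v) := by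
  simp only [sym, if_true, Bool.false_eq_true, if_false, smul_smul, Complex.I_mul_I]
  module

theorem MU.map {D : Type*} [CStarAlgebra D] (φ : D →⋆ₐ[ℂ] B) {v : D} (h : MU v) : MU (φ v) :=
  ⟨by rw [← map_mul, h.1, map_zero],
    by rw [← map_star, ← map_mul, ← map_mul, ← map_add, h.2, map_one]⟩

theorem MU.eq_self {v : B} (h : MU v) : v * star v * v = v := by
  have := congrArg (v * ·) h.2
  simpa only [mul_add, ← mul_assoc, h.1, zero_mul, add_zero, mul_one] using this

theorem MU.norm_le {v : B} (h : MU v) : ‖v‖ ≤ 1 := by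
  have h1 : IsStarProjection (star v * v) :=
    ⟨by rw [IsIdempotentElem, mul_assoc, ← mul_assoc v, h.eq_self], .star_mul_self v⟩
  have := h1.norm_le
  rw [CStarRing.norm_star_mul_self] at this
  nlinarith [norm_nonneg v]

theorem MU.star_sq {v : B} (h : MU v) : star v * star v = 0 := by
  rw [← star_mul, h.1, star_zero]

theorem MU.sym_sq {v : B} (h : MU v) (a : Bool) : sym a v * sym a v = 1 := by
  cases a
  · simp only [sym, Bool.false_eq_true, if_false, smul_mul_smul_comm, Complex.I_mul_I, mul_sub,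
      sub_mul, h.1, h.star_sq, ← h.2]
    module
  · simp only [sym, if_true, mul_add, add_mul, h.1, h.star_sq, ← h.2]
    abel

theorem MU.sym_anti {v : B} (h : MU v) :
    sym true v * sym false v = -(sym false v * sym true v) := by
  simp only [sym, if_true, Bool.false_eq_true, if_false, mul_smul_comm, smul_mul_assoc, mul_sub,
    sub_mul, mul_add, add_mul, h.1, h.star_sq]
  module

theorem yfun_pos (x : B) : ∃ b, yfun x = star b * b := by
  let := CStarAlgebra.spectralOrder B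
  have := CStarAlgebra.spectralOrderedRing B
  refine CStarAlgebra.nonneg_iff_eq_star_mul_self.1 ?_
  have e : (1 / 500 : ℂ) = ((1 / 500 : ℝ) : ℂ) := by push_cast; rfl
  rw [yfun, e, Complex.coe_smul]
  exact smul_nonneg (by norm_num) (add_nonneg (star_mul_self_nonneg _) (star_mul_self_nonneg _))

theorem norm_one_le' : ‖(1 : B)‖ ≤ 1 := (IsStarProjection.one B).norm_le

theorem norm_yfun {x : B} (h : ‖x‖ ≤ 3) : ‖yfun x‖ ≤ 9 / 10 := by
  have h0 := norm_nonneg x
  have h1 : ‖x * x‖ ≤ 9 := (norm_mul_le_of_le h h).trans (by norm_num)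
  have h2 : ‖1 - star x * x - x * star x‖ ≤ 19 := by
    have a1 : ‖star x * x‖ ≤ 9 := by rw [CStarRing.norm_star_mul_self]; nlinarith
    have a2 : ‖x * star x‖ ≤ 9 := by rw [CStarRing.norm_self_mul_star]; nlinarith
    have := norm_sub_le_of_le (norm_sub_le_of_le (norm_one_le' (B := B)) a1) a2
    linarith
  rw [yfun, norm_smul]
  have h3 := norm_add_le (star (x * x) * (x * x))
    (star (1 - star x * x - x * star x) * (1 - star x * x - x * star x))
  rw [CStarRing.norm_star_mul_self, CStarRing.norm_star_mul_self] at h3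
  have h4 : ‖(1 / 500 : ℂ)‖ = 1 / 500 := by simp
  rw [h4]
  nlinarith [norm_nonneg (x * x), norm_nonneg (1 - star x * x - x * star x)]

theorem tr_yfun (h : IsSt lam) (x : B) : (lam (yfun x)).re =
    (n2 lam (x * x) ^ 2 + n2 lam (1 - star x * x - x * star x) ^ 2) / 500 := by
  have e : (1 / 500 : ℂ) = ((1 / 500 : ℝ) : ℂ) := by push_cast; rfl
  rw [n2_sq h, n2_sq h, yfun, map_smul, map_add, e, smul_eq_mul, Complex.re_ofReal_mul,
    Complex.add_re]
  ring

theorem char_yfun (χ : B →⋆ₐ[ℂ] ℂ) (x : B) : χ (yfun x) ≠ 0 := by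
  rw [map_yfun]
  intro h
  have h1 : IsSt (LinearMap.id : ℂ →ₗ[ℂ] ℂ) := ⟨rfl, fun z => star_mul_self_nonneg z⟩
  have h2 := tr_yfun h1 (χ x)
  have h3 : ∀ z : ℂ, n2 (LinearMap.id : ℂ →ₗ[ℂ] ℂ) z ^ 2 = ‖z‖ ^ 2 := fun z => by
    rw [n2_sq h1, LinearMap.id_apply, Complex.star_def, Complex.conj_mul', ← Complex.ofReal_pow,
      Complex.ofReal_re]
  rw [h, h3, h3] at h2
  simp only [LinearMap.id_apply, Complex.zero_re] at h2
  have h4 : ‖χ x * χ x‖ ^ 2 = 0 := by nlinarith [sq_nonneg ‖χ x * χ x‖, sq_nonneg ‖1 - star (χ x) * χ x - χ x * star (χ x)‖]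
  have h5 : χ x = 0 := by simpa using h4
  rw [h5] at h2
  norm_num at h2

end Vale.Agent.P095
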