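import Vale.Agent.P095.ZRep

/-! The Jiang-Su algebra has almost central nilpotents. -/

namespace Vale.Agent.P095
open Vale.Agent.P101 Vale.Agent.P101.JS Filter Topology Finset
open scoped ComplexOrder BoundedContinuousFunction symmDiff

universe u

namespace ZNCAux
open scoped Matrix.Norms.L2Operator Kronecker

theorem locFlat' {Z : Type u} [CStarAlgebra Z] (h : IsJS Z) (s : Finset Z) {ε : ℝ} (hε : 0 < ε) :
    ∃ (p q : ℕ) (f : Z → DimDrop p q), 0 < p ∧ 0 < q ∧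
      ∀ G : Finset C(unitInterval, ℂ), (∀ g ∈ G, g ≠ 0) →
        ∃ (p' q' : ℕ) (ψ : DimDrop p' q' →⋆ₐ[ℂ] Z) (φ : DimDrop p q →⋆ₐ[ℂ] DimDrop p' q'),
          0 < p' ∧ 0 < q' ∧ (∀ z ∈ s, ‖ψ (φ (f z)) - z‖ < ε) ∧ Flat (φ '' (f '' s)) ε ∧
          ∀ g ∈ G, ∀ t, (φ (scal p q g)).1 t ≠ 0 := by
  classical
  obtain ⟨p, q, ψ, hpq, hinj, hmono, hd⟩ := h.limit
  obtain ⟨τ, hτ, huniq⟩ := h.trace
  have hmono' : Monotone fun n => Set.range (ψ n) := monotone_nat_of_le_succ hmono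
  have h1 : ∀ᶠ n in atTop, ∀ z ∈ s, ∃ y, ‖ψ n y - z‖ < ε := by
    refine (eventually_all_finset s).2 fun z _ => ?_
    obtain ⟨w, hw, hz⟩ := Metric.mem_closure_iff.1 (hd z) ε hε
    obtain ⟨n, hn⟩ := Set.mem_iUnion.1 hw
    filter_upwards [eventually_ge_atTop n] with m hm
    obtain ⟨y, rfl⟩ := hmono' hm hn
    exact ⟨y, by rwa [← dist_eq_norm, dist_comm]⟩
  obtain ⟨n, hn⟩ := h1.exists
  choose! f hf using hn
  refine ⟨p n, q n, f, (hpq n).1, (hpq n).2.1, fun G hG => ?_⟩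
  have h2 : ∀ᶠ K : ℕ in atTop, ∀ g ∈ s.image f, ∀ a b : unitInterval,
      |(a : ℝ) - b| ≤ 6 / K → ‖g.1 a - g.1 b‖ ≤ ε / 5 := by
    refine (eventually_all_finset _).2 fun g _ => ?_
    obtain ⟨δ, hδ, hg⟩ := Metric.uniformContinuous_iff.1
      (CompactSpace.uniformContinuous_of_continuous g.1.continuous) (ε / 5) (by positivity)
    filter_upwards [(tendsto_const_div_atTop_nhds_zero_nat (6 : ℝ)).eventually (gt_mem_nhds hδ)]
      with K hK a b hab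
    rw [← dist_eq_norm]
    exact (hg (hab.trans_lt hK)).le
  obtain ⟨K, hK, hK0⟩ := (h2.and (eventually_gt_atTop 0)).exists
  have hpos : ∀ g : C(unitInterval, ℂ), g ≠ 0 → 0 < τ (ψ n (scal _ _ (star g * g))) := by
    intro g hg0
    have hz : ψ n (scal _ _ g) ≠ 0 := fun h0 => hg0 (scal_injective (hpq n).1 (hpq n).2.1
      (hinj n (by rw [h0, map_zero, map_zero])))
    have e2 := lt_of_le_of_ne (hτ.2.1 (ψ n (scal _ _ g))) fun h0 => hz (h.faithful hτ h0.symm)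
    rwa [← map_star, ← map_star, ← map_mul, ← map_mul] at e2
  have hu := fun z {η : ℝ} (hη : 0 < η) => trAt_uniform (fun n => (hpq n).1)
    (fun n => (hpq n).2.1) ψ hinj hmono hd huniq z hη
  have h3 : ∀ᶠ m in atTop, ∀ k ∈ Finset.range K, k + 2 ≤ K → ∀ y y',
      ψ m y = ψ n (scal _ _ (ramp K k)) → ψ m y' = ψ n (scal _ _ (ramp K (k + 1))) → ∀ a b,
        (trAt (p m) (q m) a y).re < (trAt (p m) (q m) b y').re := by
    refine (eventually_all_finset _).2 fun k _ => ?_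
    by_cases hk : k + 2 ≤ K
    swap
    · exact Eventually.of_forall fun _ h => absurd h hk
    obtain ⟨g, hg0, hg⟩ := exists_ramp_sqrt hk
    have e2 := hpos g hg0
    rw [hg, map_sub, map_sub, map_sub] at e2
    have e3 := (Complex.lt_def.1 e2).1
    rw [Complex.zero_re, Complex.sub_re] at e3
    filter_upwards [hu (ψ n (scal _ _ (ramp K k))) (half_pos e3),
      hu (ψ n (scal _ _ (ramp K (k + 1)))) (half_pos e3)] with m a1 a2 _ y y' hy hy' a b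
    have b1 := abs_lt.1 ((Complex.abs_re_le_norm _).trans_lt (a1 y hy a))
    have b2 := abs_lt.1 ((Complex.abs_re_le_norm _).trans_lt (a2 y' hy' b))
    rw [Complex.sub_re] at b1 b2
    linarith
  have h4 : ∀ᶠ m in atTop, ∀ g ∈ G, ∀ y, ψ m y = ψ n (scal _ _ g) → ∀ t, y.1 t ≠ 0 := by
    refine (eventually_all_finset _).2 fun g hg => ?_
    filter_upwards [hu (ψ n (scal _ _ (star g * g))) (norm_pos_iff.2 (hpos g (hG g hg)).ne')]
      with m a1 y hy t ht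
    have := a1 (star y * y) (by simp only [map_mul, map_star, hy]) t
    have e : (star y * y).1 t = 0 := by
      change star (y.1 t) * y.1 t = 0
      rw [ht, mul_zero]
    rw [trAt_apply, e] at this
    simp at this
  obtain ⟨m, ⟨hm, hm'⟩, hnm⟩ := ((h3.and h4).and (eventually_ge_atTop n)).exists
  obtain ⟨φ, hφ⟩ := exists_factor_incl (ψ n) (ψ m) (hinj m) (hmono' hnm)
  obtain ⟨V, v1, v2, v3⟩ := flat_of_trace (hpq n).1 (hpq n).2.1 (hpq n).2.2 (hpq m).1 (hpq m).2.1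
    φ (s.image f) (by positivity : 0 < ε / 5) hK0 hK fun k hk =>
      hm k (Finset.mem_range.2 (by omega)) hk _ _ (hφ _) (hφ _)
  refine ⟨p m, q m, ψ m, φ, (hpq m).1, (hpq m).2.1, fun z hz => by rw [hφ]; exact hf z hz,
    ⟨V, v1, v2, ?_⟩, fun g hg => hm' g hg _ (hφ _)⟩
  rintro _ ⟨_, ⟨z, hz, rfl⟩, rfl⟩ t
  exact (v3 _ ⟨f z, Finset.mem_coe.2 (Finset.mem_image_of_mem f hz), rfl⟩ t).trans_eq (by ring)

variable {A : Type*} [CStarAlgebra A]

theorem comm_near {x a b : A} {ε δ : ℝ} (hx : ‖x‖ ≤ 1) (h : ‖a - b‖ ≤ ε)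
    (h' : ‖x * b - b * x‖ ≤ δ) : ‖x * a - a * x‖ ≤ δ + 2 * ε := by
  have e : x * a - a * x = (x * b - b * x) + (x * (a - b) - (a - b) * x) := by noncomm_ring
  have a1 := norm_mul_le_of_le hx h
  have a2 := norm_mul_le_of_le h hx
  have a3 := norm_sub_le (x * (a - b)) ((a - b) * x)
  rw [e]
  refine (norm_add_le _ _).trans ?_
  linarith

theorem conj_mul {U : A} (hU : U ∈ unitary A) (x y : A) :
    U * x * star U * (U * y * star U) = U * (x * y) * star U := by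
  calc _ = U * x * (star U * U) * y * star U := by noncomm_ring
    _ = _ := by rw [hU.1]; noncomm_ring

theorem conj_norm {U : A} (hU : U ∈ unitary A) (x : A) : ‖U * x * star U‖ = ‖x‖ := by
  rw [CStarRing.norm_mul_mem_unitary _ (Unitary.star_mem hU), CStarRing.norm_mem_unitary_mul _ hU]

theorem conj_comm {U : A} (hU : U ∈ unitary A) (x y : A) :
    ‖U * x * star U * (U * y * star U) - U * y * star U * (U * x * star U)‖ = ‖x * y - y * x‖ := by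
  rw [conj_mul hU, conj_mul hU, ← sub_mul, ← mul_sub, conj_norm hU]

theorem conj_nil {U : A} (hU : U ∈ unitary A) {v w : A} (h : Nil2 v w) :
    Nil2 (U * v * star U) (U * w * star U) := by
  obtain ⟨-, -, h1, h2, h3⟩ := h
  have e : ∀ x, star (U * x * star U) = U * star x * star U := fun x => by simp [mul_assoc]
  refine ZRepAux.nil2_of (by rw [conj_mul hU, h1]; simp) (by rw [conj_mul hU, h2]; simp) ?_
  rw [e, e, conj_mul hU, conj_mul hU, conj_mul hU, ← add_mul, ← add_mul, ← mul_add, ← mul_add, h3,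
    mul_one, hU.2]

theorem map_nil {B : Type*} [CStarAlgebra B] (φ : A →⋆ₐ[ℂ] B) {v w : A} (h : Nil2 v w) :
    Nil2 (φ v) (φ w) := by
  obtain ⟨-, -, h1, h2, h3⟩ := h
  refine ZRepAux.nil2_of (by rw [← map_mul, h1, map_zero]) (by rw [← map_mul, h2, map_zero]) ?_
  simp only [← map_star, ← map_mul, ← map_add, h3, map_one]

/-- A weighted conjugate of a constant. -/
noncomputable def wt (V : C(unitInterval, A)) (c : C(unitInterval, ℝ)) (x : A) :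
    C(unitInterval, A) :=
  ⟨fun t => √(c t) • (V t * x * star (V t)), by fun_prop⟩

theorem wt_apply (V : C(unitInterval, A)) (c : C(unitInterval, ℝ)) (x : A) (t : unitInterval) :
    wt V c x t = √(c t) • (V t * x * star (V t)) := rfl

variable {V : C(unitInterval, A)} (hV : ∀ t, V t ∈ unitary A) {c : C(unitInterval, ℝ)}
  (h0 : ∀ t, 0 ≤ c t) (h1 : ∀ t, c t ≤ 1)
include hV h0 h1

theorem wt_smul {x : A} {δ : ℝ} (hx : ‖x‖ ≤ δ) (t : unitInterval) : ‖√(c t) • x‖ ≤ δ := by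
  rw [norm_smul, Real.norm_of_nonneg (Real.sqrt_nonneg _)]
  exact (mul_le_of_le_one_left (norm_nonneg _) (Real.sqrt_le_one.2 (h1 t))).trans hx

theorem wt_nil {v w : A} (h : Nil2 v w) : (‖wt V c v‖ ≤ 1 ∧ ‖wt V c w‖ ≤ 1 ∧
    wt V c v * wt V c v = 0 ∧ wt V c w * wt V c w = 0) ∧ ∀ t, (star (wt V c v) * wt V c v +
      wt V c v * star (wt V c v) + star (wt V c w) * wt V c w) t = c t • 1 := by
  have k := fun t => conj_nil (hV t) h
  refine ⟨⟨(ContinuousMap.norm_le _ zero_le_one).2 fun t => wt_smul hV h0 h1 (k t).1 t,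
    (ContinuousMap.norm_le _ zero_le_one).2 fun t => wt_smul hV h0 h1 (k t).2.1 t,
    ContinuousMap.ext fun t => ?_, ContinuousMap.ext fun t => ?_⟩, fun t => ?_⟩
  · rw [ContinuousMap.mul_apply, wt_apply, smul_mul_smul_comm, (k t).2.2.1, smul_zero]; rfl
  · rw [ContinuousMap.mul_apply, wt_apply, smul_mul_smul_comm, (k t).2.2.2.1, smul_zero]; rfl
  · simp only [ContinuousMap.add_apply, ContinuousMap.mul_apply, ContinuousMap.star_apply, wt_apply,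
      star_smul, star_trivial, smul_mul_smul_comm, Real.mul_self_sqrt (h0 t), ← smul_add,
      (k t).2.2.2.2]

theorem wt_comm {x : A} (hx : ‖x‖ ≤ 1) {g : C(unitInterval, A)} {ε δ : ℝ} (hε : 0 ≤ ε)
    (hg : ∀ t, ‖g t - V t * g 0 * star (V t)‖ ≤ ε) (h : ‖x * g 0 - g 0 * x‖ ≤ δ) :
    ‖wt V c x * g - g * wt V c x‖ ≤ δ + 2 * ε := by
  refine (ContinuousMap.norm_le _ (by linarith [norm_nonneg (x * g 0 - g 0 * x)])).2 fun t => ?_
  rw [ContinuousMap.sub_apply, ContinuousMap.mul_apply, ContinuousMap.mul_apply, wt_apply,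
    smul_mul_assoc, mul_smul_comm, ← smul_sub]
  exact wt_smul hV h0 h1 (comm_near ((conj_norm (hV t) x).trans_le hx) (hg t)
    ((conj_comm (hV t) x (g 0)).trans_le h)) t

omit hV h0 h1
variable {p' q' : ℕ} [NeZero p'] [NeZero q']

theorem comm_left {V : C(unitInterval, Mat p' q')} (hV : ∀ t, V t ∈ unitary (Mat p' q'))
    {c : C(unitInterval, ℝ)} (h0 : ∀ t, 0 ≤ c t) (h1 : ∀ t, c t ≤ 1) {δ : ℝ} (hδ : 0 ≤ δ)
    {g : DimDrop p' q'} (hg : ∀ t, ‖g.1 t - V t * g.1 0 * star (V t)‖ ≤ δ)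
    {x : Matrix (Fin p') (Fin p') ℂ} (hx : ‖x‖ ≤ 1)
    (h : ‖x * left p' q' g - left p' q' g * x‖ ≤ δ) :
    ‖wt V c (kronL (Fin p') (Fin q') x) * g.1 - g.1 * wt V c (kronL (Fin p') (Fin q') x)‖ ≤ 5 * δ := by
  refine (wt_comm hV h0 h1 ((NonUnitalStarAlgHom.norm_apply_le
    (kronL (Fin p') (Fin q')) x).trans hx) hδ hg (δ := δ) ?_).trans (by linarith)
  rw [left_spec, ← kronL_apply, ← map_mul, ← map_mul, ← map_sub]
  exact (NonUnitalStarAlgHom.norm_apply_le (kronL (Fin p') (Fin q')) _).trans h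

theorem conj_conj {U : A} (hU : U ∈ unitary A) (y : A) :
    U * (star U * y * star (star U)) * star U = y := by
  calc _ = (U * star U) * y * (U * star U) := by simp only [star_star, mul_assoc]
    _ = _ := by rw [hU.2, one_mul, mul_one]

theorem comm_right {V : C(unitInterval, Mat p' q')} (hV : ∀ t, V t ∈ unitary (Mat p' q'))
    {c : C(unitInterval, ℝ)} (h0 : ∀ t, 0 ≤ c t) (h1 : ∀ t, c t ≤ 1) {δ : ℝ} (hδ : 0 ≤ δ)
    {g : DimDrop p' q'} (hg : ∀ t, ‖g.1 t - V t * g.1 0 * star (V t)‖ ≤ δ)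
    {y : Matrix (Fin q') (Fin q') ℂ} (hy : ‖y‖ ≤ 1)
    (h : ‖y * right p' q' g - right p' q' g * y‖ ≤ δ) :
    ‖wt V c (star (V 1) * kronR (Fin p') (Fin q') y * star (star (V 1))) * g.1 -
      g.1 * wt V c (star (V 1) * kronR (Fin p') (Fin q') y * star (star (V 1)))‖ ≤ 5 * δ := by
  have a1 : ‖kronR (Fin p') (Fin q') y‖ ≤ 1 :=
    (NonUnitalStarAlgHom.norm_apply_le (kronR (Fin p') (Fin q')) y).trans hy
  refine (wt_comm hV h0 h1 ((conj_norm (Unitary.star_mem (hV 1)) _).trans_le a1)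
    hδ hg (δ := δ + 2 * δ) ?_).trans (by linarith)
  rw [← conj_comm (hV 1), conj_conj (hV 1)]
  refine comm_near a1 ((norm_sub_rev _ _).trans_le (hg 1)) ?_
  rw [right_spec, ← kronR_apply, ← map_mul, ← map_mul, ← map_sub]
  exact (NonUnitalStarAlgHom.norm_apply_le (kronR (Fin p') (Fin q')) _).trans h

theorem drop_nil {S : Set (DimDrop p' q')} {δ : ℝ} (hδ : 0 ≤ δ) (hF : Flat S δ)
    {v0 w0 : Matrix (Fin p') (Fin p') ℂ} {v1 w1 : Matrix (Fin q') (Fin q') ℂ} (n0 : Nil2 v0 w0)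
    (n1 : Nil2 v1 w1)
    (c0 : ∀ g ∈ S, ‖v0 * left p' q' g - left p' q' g * v0‖ ≤ δ ∧
      ‖w0 * left p' q' g - left p' q' g * w0‖ ≤ δ)
    (c1 : ∀ g ∈ S, ‖v1 * right p' q' g - right p' q' g * v1‖ ≤ δ ∧
      ‖w1 * right p' q' g - right p' q' g * w1‖ ≤ δ) :
    ∃ v w : Bool → DimDrop p' q',
      (∀ j, ‖v j‖ ≤ 1 ∧ ‖w j‖ ≤ 1 ∧ v j * v j = 0 ∧ w j * w j = 0) ∧
      ∑ j, (star (v j) * v j + v j * star (v j) + star (w j) * w j) = 1 ∧
      ∀ g ∈ S, ∀ j, ‖v j * g - g * v j‖ ≤ 5 * δ ∧ ‖w j * g - g * w j‖ ≤ 5 * δ := by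
  obtain ⟨V, hV, hV0, hflat⟩ := hF
  let c : C(unitInterval, ℝ) := ⟨fun t => 1 - t, by fun_prop⟩
  let c' : C(unitInterval, ℝ) := ⟨fun t => t, by fun_prop⟩
  have a0 : ∀ t, 0 ≤ c t := fun t => sub_nonneg.2 t.2.2
  have a1 : ∀ t, c t ≤ 1 := fun t => sub_le_self _ t.2.1
  have b0 : ∀ t, 0 ≤ c' t := fun t => t.2.1
  have b1 : ∀ t, c' t ≤ 1 := fun t => t.2.2
  have m0 : ∀ x, wt V c (kronL (Fin p') (Fin q') x) ∈ DimDrop p' q' := fun x =>
    ⟨⟨x, by simp [wt_apply, c, hV0]⟩, 0, by simp [wt_apply, c]⟩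
  have m1 : ∀ y, wt V c' (star (V 1) * kronR (Fin p') (Fin q') y * star (star (V 1))) ∈ DimDrop p' q' :=
    fun y => ⟨⟨0, by simp [wt_apply, c']⟩, y, by rw [wt_apply, conj_conj (hV 1)]; simp [c']⟩
  have W0 := wt_nil hV a0 a1 (map_nil (kronL _ (Fin q')) n0)
  have W1 := wt_nil hV b0 b1 (conj_nil (Unitary.star_mem (hV 1)) (map_nil (kronR (Fin p') _) n1))
  refine ⟨fun j => bif j then ⟨_, m1 v1⟩ else ⟨_, m0 v0⟩,
    fun j => bif j then ⟨_, m1 w1⟩ else ⟨_, m0 w0⟩, fun j => ?_, ?_, fun g hg j => ?_⟩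
  · cases j
    · exact ⟨W0.1.1, W0.1.2.1, Subtype.ext W0.1.2.2.1, Subtype.ext W0.1.2.2.2⟩
    · exact ⟨W1.1.1, W1.1.2.1, Subtype.ext W1.1.2.2.1, Subtype.ext W1.1.2.2.2⟩
  · rw [Fintype.sum_bool]
    refine Subtype.ext (ContinuousMap.ext fun t => ?_)
    refine (congrArg₂ (· + ·) (W1.2 t) (W0.2 t)).trans ?_
    rw [← add_smul]
    simp [c, c']
  · cases j
    · exact ⟨comm_left hV a0 a1 hδ (hflat g hg) n0.1 (c0 g hg).1,
        comm_left hV a0 a1 hδ (hflat g hg) n0.2.1 (c0 g hg).2⟩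
    · exact ⟨comm_right hV b0 b1 hδ (hflat g hg) n1.1 (c1 g hg).1,
        comm_right hV b0 b1 hδ (hflat g hg) n1.2.1 (c1 g hg).2⟩

end ZNCAux
open ZNCAux
open scoped Matrix.Norms.L2Operator Kronecker

theorem IsJS.nil {Z : Type u} [CStarAlgebra Z] (h : IsJS Z) (s : Finset Z) {ε : ℝ} (hε : 0 < ε) :
    ∃ v w : Bool → Z, (∀ j, ‖v j‖ ≤ 1 ∧ ‖w j‖ ≤ 1 ∧ v j * v j = 0 ∧ w j * w j = 0) ∧
      ∑ j, (star (v j) * v j + v j * star (v j) + star (w j) * w j) = 1 ∧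
      ∀ z ∈ s, ∀ j, ‖v j * z - z * v j‖ ≤ ε ∧ ‖w j * z - z * w j‖ ≤ ε := by
  classical
  have hδ : 0 < ε / 7 := by positivity
  obtain ⟨p, q, f, hp, hq, H⟩ := locFlat' h s hδ
  obtain ⟨G, hG, hrep⟩ := rep_nil hp hq (s.image f) hδ
  obtain ⟨p', q', ψ, φ, hp', hq', happ, hF, hne⟩ := H G hG
  have : NeZero p' := ⟨hp'.ne'⟩
  have : NeZero q' := ⟨hq'.ne'⟩
  obtain ⟨v0, w0, n0, c0⟩ := hrep _ ((left p' q').comp φ) fun g hg h0 => hne g hg 0 (by
    rw [left_spec, show left p' q' (φ (scal p q g)) = 0 from h0, Matrix.zero_kronecker])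
  obtain ⟨v1, w1, n1, c1⟩ := hrep _ ((right p' q').comp φ) fun g hg h0 => hne g hg 1 (by
    rw [right_spec, show right p' q' (φ (scal p q g)) = 0 from h0, Matrix.kronecker_zero])
  obtain ⟨v, w, hn, hs, hc⟩ := drop_nil hδ.le hF n0 n1
    (by rintro _ ⟨_, ⟨z, hz, rfl⟩, rfl⟩; exact c0 _ (Finset.mem_image_of_mem f hz))
    (by rintro _ ⟨_, ⟨z, hz, rfl⟩, rfl⟩; exact c1 _ (Finset.mem_image_of_mem f hz))
  have k2 : ∀ x : DimDrop p' q', ‖x‖ ≤ 1 → ∀ z ∈ s,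
      ‖x * φ (f z) - φ (f z) * x‖ ≤ 5 * (ε / 7) → ‖ψ x * z - z * ψ x‖ ≤ ε := by
    intro x hx z hz hxz
    refine (comm_near ((NonUnitalStarAlgHom.norm_apply_le ψ x).trans hx)
      ((norm_sub_rev _ _).trans_le (happ z hz).le) (δ := 5 * (ε / 7)) ?_).trans (by linarith)
    rw [← map_mul, ← map_mul, ← map_sub]
    exact (NonUnitalStarAlgHom.norm_apply_le ψ _).trans hxz
  refine ⟨fun j => ψ (v j), fun j => ψ (w j), fun j => ⟨(NonUnitalStarAlgHom.norm_apply_le ψ _).trans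
    (hn j).1, (NonUnitalStarAlgHom.norm_apply_le ψ _).trans (hn j).2.1,
    by rw [← map_mul, (hn j).2.2.1, map_zero], by rw [← map_mul, (hn j).2.2.2, map_zero]⟩, ?_,
    fun z hz j => ⟨k2 _ (hn j).1 z hz (hc _ ⟨_, ⟨z, hz, rfl⟩, rfl⟩ j).1,
      k2 _ (hn j).2.1 z hz (hc _ ⟨_, ⟨z, hz, rfl⟩, rfl⟩ j).2⟩⟩
  simp only [← map_star, ← map_mul, ← map_add, ← map_sum, hs, map_one]

end Vale.Agent.P095
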