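import Vale.Agent.P095.Basic

/-! Representations of dimension drop algebras with dense spectrum have almost central nilpotents. -/

namespace Vale.Agent.P095
open Vale.Agent.P101 Vale.Agent.P101.JS Filter Topology Finset
open scoped ComplexOrder BoundedContinuousFunction symmDiff

universe u
open scoped Matrix.Norms.L2Operator

/-- Two nilpotent contractions generating the unit. -/
def Nil2 {R : Type*} [NormedRing R] [StarRing R] (v w : R) : Prop :=
  ‖v‖ ≤ 1 ∧ ‖w‖ ≤ 1 ∧ v * v = 0 ∧ w * w = 0 ∧ star v * v + v * star v + star w * w = 1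

namespace ZRepAux
open scoped Matrix

theorem norm_le_of_add {B : Type*} [CStarAlgebra B] {x : B} {ι : Type} (s : Finset ι) (y : ι → B)
    (h : star x * x + ∑ i ∈ s, star (y i) * y i = 1) : ‖x‖ ≤ 1 := by
  let := CStarAlgebra.spectralOrder B
  have := CStarAlgebra.spectralOrderedRing B
  have h1 : star x * x ≤ 1 := by
    rw [← h]
    exact le_add_of_nonneg_right (Finset.sum_nonneg fun i _ => star_mul_self_nonneg _)
  have h2 := (CStarAlgebra.norm_le_one_iff_of_nonneg _ (star_mul_self_nonneg x)).2 h1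
  rw [CStarRing.norm_star_mul_self] at h2
  nlinarith [norm_nonneg x]

theorem nil2_of {B : Type*} [CStarAlgebra B] {v w : B} (h1 : v * v = 0) (h2 : w * w = 0)
    (h3 : star v * v + v * star v + star w * w = 1) : Nil2 v w := by
  refine ⟨norm_le_of_add Finset.univ ![star v, w] ?_, norm_le_of_add Finset.univ ![v, star v] ?_,
    h1, h2, h3⟩
  · simp [Fin.sum_univ_two, ← h3, add_assoc]
  · simp [Fin.sum_univ_two, ← h3, add_comm]

/-- The algebraic part. -/
def Nil (R : Type) [Ring R] [StarRing R] : Prop :=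
  ∃ v w : R, v * v = 0 ∧ w * w = 0 ∧ star v * v + v * star v + star w * w = 1

theorem Nil.map {R S : Type} [Ring R] [StarRing R] [Algebra ℂ R] [Ring S] [StarRing S]
    [Algebra ℂ S] (h : Nil R) (φ : R →⋆ₐ[ℂ] S) : Nil S := by
  obtain ⟨v, w, h1, h2, h3⟩ := h
  refine ⟨φ v, φ w, by rw [← map_mul, h1, map_zero], by rw [← map_mul, h2, map_zero], ?_⟩
  simp only [← map_star, ← map_mul, ← map_add, h3, map_one]

theorem Nil.prod {R S : Type} [Ring R] [StarRing R] [Ring S] [StarRing S] (h : Nil R)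
    (h' : Nil S) : Nil (R × S) := by
  obtain ⟨v, w, h1, h2, h3⟩ := h
  obtain ⟨v', w', h1', h2', h3'⟩ := h'
  exact ⟨(v, v'), (w, w'), Prod.ext h1 h1', Prod.ext h2 h2', Prod.ext h3 h3'⟩

theorem nil_two : Nil (Matrix (Fin 2) (Fin 2) ℂ) := by
  refine ⟨Matrix.single 0 1 1, 0, ?_, by simp, ?_⟩
  · exact Matrix.single_mul_single_of_ne _ _ _ _ (by decide) _
  · ext i j
    fin_cases i <;> fin_cases j <;> simp [Matrix.star_eq_conjTranspose]

theorem nil_three : Nil (Matrix (Fin 3) (Fin 3) ℂ) := by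
  refine ⟨Matrix.single 0 1 1, Matrix.single 1 2 1, ?_, ?_, ?_⟩
  · exact Matrix.single_mul_single_of_ne _ _ _ _ (by decide) _
  · exact Matrix.single_mul_single_of_ne _ _ _ _ (by decide) _
  · ext i j
    fin_cases i <;> fin_cases j <;> simp [Matrix.star_eq_conjTranspose]

theorem nil_mat : ∀ m : ℕ, Nil (Matrix (Fin (m + 2)) (Fin (m + 2)) ℂ)
  | 0 => nil_two
  | 1 => nil_three
  | m + 2 => (((nil_mat m).prod nil_two).map (blockSum _ _)).map
      (reindexStar (finSumFinEquiv (m := m + 2) (n := 2)) : _ ≃⋆ₐ[ℂ] _)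

theorem corner {n : Type} [Fintype n] [DecidableEq n] {P : Matrix n n ℂ} (h : Pᴴ * P = P)
    (h2 : 2 ≤ P.trace.re) : ∃ v w : Matrix n n ℂ, v * P * v = 0 ∧ w * P * w = 0 ∧
      vᴴ * P * v + v * P * vᴴ + wᴴ * P * w = P := by
  obtain ⟨m, V, h3, h4, h5⟩ := exists_isometry h
  rw [h5, Complex.natCast_re] at h2
  obtain ⟨m, rfl⟩ : ∃ k, m = k + 2 := ⟨m - 2, by have : 2 ≤ m := by exact_mod_cast h2
                                                 omega⟩
  obtain ⟨v, w, h1, h2, h6⟩ := nil_mat m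
  have key : ∀ x y : Matrix (Fin (m + 2)) (Fin (m + 2)) ℂ,
      V * x * Vᴴ * P * (V * y * Vᴴ) = V * (x * y) * Vᴴ := fun x y => by
    rw [← h3]
    calc _ = V * x * (Vᴴ * V) * (Vᴴ * V) * y * Vᴴ := by simp only [Matrix.mul_assoc]
      _ = _ := by rw [h4]; simp only [Matrix.mul_one, Matrix.mul_assoc]
  have k2 : ∀ x : Matrix (Fin (m + 2)) (Fin (m + 2)) ℂ, (V * x * Vᴴ)ᴴ = V * star x * Vᴴ :=
    fun x => by
      simp only [Matrix.conjTranspose_mul, Matrix.conjTranspose_conjTranspose, Matrix.mul_assoc,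
        Matrix.star_eq_conjTranspose]
  refine ⟨V * v * Vᴴ, V * w * Vᴴ, by rw [key, h1]; simp, by rw [key, h2]; simp, ?_⟩
  rw [k2, k2, key, key, key, ← Matrix.add_mul, ← Matrix.add_mul, ← Matrix.mul_add,
    ← Matrix.mul_add, h6, Matrix.mul_one, h3]

variable {p q : ℕ} [NeZero p] [NeZero q]

theorem central_nil {T : Finset unitInterval} (L : Lifts p q T) {n : Type} [Fintype n]
    [DecidableEq n] {ρ : DimDrop p q →⋆ₐ[ℂ] Matrix n n ℂ}
    (hρ : ∀ f : DimDrop p q, (∀ t ∈ T, f.1 t = 0) → ρ f = 0)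
    (h : ∀ t ∈ T, 2 ≤ (ρ (L.x t (0, 0))).trace.re) :
    ∃ v w : Matrix n n ℂ, Nil2 v w ∧ ∀ f, v * ρ f = ρ f * v ∧ w * ρ f = ρ f * w := by
  choose! v w h1 h2 h3 using fun t (ht : t ∈ T) => corner (L.same hρ (zero_mem_act t)) (h t ht)
  let Θ : (unitInterval → Matrix n n ℂ) → Matrix n n ℂ := fun y =>
    ∑ a ∈ T.sigma (act p q), ρ (L.x a.1 a.2) * y a.1 * (ρ (L.x a.1 a.2))ᴴ
  have hmul : ∀ y z, Θ y * Θ z = Θ fun t => y t * ρ (L.x t (0, 0)) * z t := by
    intro y z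
    simp only [Θ, Finset.sum_mul]
    refine Finset.sum_congr rfl fun a ha => ?_
    rw [Finset.mul_sum, Finset.sum_eq_single_of_mem a ha]
    · rw [← L.same hρ (Finset.mem_sigma.1 ha).2]
      simp only [Matrix.mul_assoc]
    · intro b hb hba
      calc _ = ρ (L.x a.1 a.2) * y a.1 * ((ρ (L.x a.1 a.2))ᴴ * ρ (L.x b.1 b.2)) * z b.1 *
            (ρ (L.x b.1 b.2))ᴴ := by simp only [Matrix.mul_assoc]
        _ = 0 := by rw [L.orth hρ ha hb hba]; simp
  have hstar : ∀ y, star (Θ y) = Θ fun t => (y t)ᴴ := by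
    intro y
    simp only [Θ, Matrix.star_eq_conjTranspose, Matrix.conjTranspose_sum, Matrix.conjTranspose_mul,
      Matrix.conjTranspose_conjTranspose, Matrix.mul_assoc]
  have hzero : ∀ y, (∀ t ∈ T, y t = 0) → Θ y = 0 := fun y hy =>
    Finset.sum_eq_zero fun a ha => by rw [hy _ (Finset.mem_sigma.1 ha).1]; simp
  have hcomm : ∀ y f, Θ y * ρ f = ρ f * Θ y := by
    intro y f
    simp only [Θ]
    rw [Matrix.mul_sum, Matrix.sum_mul, Finset.sum_sigma, Finset.sum_sigma]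
    refine Finset.sum_congr rfl fun t _ => ?_
    have e1 : ∀ a ∈ act p q t, ρ f * (ρ (L.x t a) * y t * (ρ (L.x t a))ᴴ) =
        ∑ b ∈ act p q t, f.1 t b a • (ρ (L.x t b) * y t * (ρ (L.x t a))ᴴ) := fun a ha => by
      rw [← Matrix.mul_assoc, ← Matrix.mul_assoc, L.expand hρ f ha, Matrix.sum_mul, Matrix.sum_mul]
      simp only [Matrix.smul_mul]
    have e2 : ∀ b ∈ act p q t, ρ (L.x t b) * y t * (ρ (L.x t b))ᴴ * ρ f =
        ∑ a ∈ act p q t, f.1 t b a • (ρ (L.x t b) * y t * (ρ (L.x t a))ᴴ) := fun b hb => by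
      have := congrArg Matrix.conjTranspose (L.expand hρ (star f) hb)
      rw [Matrix.conjTranspose_mul, map_star, Matrix.star_eq_conjTranspose,
        Matrix.conjTranspose_conjTranspose, Matrix.conjTranspose_sum] at this
      rw [Matrix.mul_assoc, this, Matrix.mul_sum]
      refine Finset.sum_congr rfl fun a _ => ?_
      rw [Matrix.conjTranspose_smul, Matrix.mul_smul]
      congr 1
      exact star_star _
    rw [Finset.sum_congr rfl e1, Finset.sum_congr rfl e2, Finset.sum_comm]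
  have hone : ∀ x y z, (∀ t ∈ T, x t + y t + z t = ρ (L.x t (0, 0))) → Θ x + Θ y + Θ z = 1 := by
    intro x y z hs
    rw [← L.total hρ]
    simp only [Θ, ← Finset.sum_add_distrib]
    refine Finset.sum_congr rfl fun a ha => ?_
    rw [← Matrix.add_mul, ← Matrix.add_mul, ← Matrix.mul_add, ← Matrix.mul_add,
      hs _ (Finset.mem_sigma.1 ha).1, L.absorb hρ]
  clear_value Θ
  refine ⟨Θ v, Θ w, nil2_of ?_ ?_ ?_, fun f => ⟨hcomm v f, hcomm w f⟩⟩
  · rw [hmul]; exact hzero _ h1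
  · rw [hmul]; exact hzero _ h2
  · rw [hstar, hstar, hmul, hmul, hmul]
    exact hone _ _ _ h3

theorem block_zero {r₀ N r₁ : ℕ} (ξ : Fin N → unitInterval) (f : DimDrop p q) (h0 : f.1 0 = 0)
    (h1 : f.1 1 = 0) (h : ∀ i, f.1 (ξ i) = 0) : block p q r₀ r₁ ξ f = 0 := by
  have e0 : left p q f = 0 := by
    ext i j
    change f.1 0 (i, 0) (j, 0) = 0
    rw [h0]; rfl
  have e1 : right p q f = 0 := by
    ext i j
    change f.1 1 (0, i) (0, j) = 0
    rw [h1]; rfl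
  rw [block_apply, e0, e1]
  simp [h, ← Pi.zero_def]

theorem block_nil (r₀ r₁ : ℕ) {N : ℕ} (ξ : Fin N → unitInterval)
    (h : ∀ t, t = 0 ∨ t = 1 ∨ t ∈ Set.range ξ → ∃ i j, i ≠ j ∧ ξ i = t ∧ ξ j = t) :
    ∃ v w, Nil2 v w ∧ ∀ f, v * block p q r₀ r₁ ξ f = block p q r₀ r₁ ξ f * v ∧
      w * block p q r₀ r₁ ξ f = block p q r₀ r₁ ξ f * w := by
  classical
  let T : Finset unitInterval := Finset.univ.image ξ
  have hT : ∀ i, ξ i ∈ T := fun i => Finset.mem_image_of_mem _ (Finset.mem_univ i)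
  have h0 : (0 : unitInterval) ∈ T := by
    obtain ⟨i, -, -, hi, -⟩ := h 0 (Or.inl rfl)
    exact hi ▸ hT i
  have h1 : (1 : unitInterval) ∈ T := by
    obtain ⟨i, -, -, hi, -⟩ := h 1 (Or.inr (Or.inl rfl))
    exact hi ▸ hT i
  obtain ⟨L⟩ := exists_lifts (p := p) (q := q) T
  refine central_nil L (fun f hf => block_zero ξ f (hf 0 h0) (hf 1 h1) fun i => hf _ (hT i))
    fun t ht => ?_
  have hp : (1 : ℝ) ≤ p := by exact_mod_cast NeZero.pos p
  have hq : (1 : ℝ) ≤ q := by exact_mod_cast NeZero.pos q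
  have k1 : 1 ≤ ((L.x t (0, 0)).1 t).trace.re := by
    rw [L.self, trace_mu]
    split_ifs <;> simp [hp, hq]
  have k0 : ∀ s ∈ T, 0 ≤ ((L.x t (0, 0)).1 s).trace.re := fun s hs => by
    by_cases hst : s = t
    · rw [hst]; linarith
    · rw [L.other t _ s hs hst]; simp
  have e0 := congrArg Complex.re (trace_left (L.x t (0, 0)))
  have e1 := congrArg Complex.re (trace_right (L.x t (0, 0)))
  have hre : ∀ (z : ℂ) (k : ℕ), (z * k).re = z.re * k := fun z k => by simp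
  rw [hre] at e0 e1
  have a0 : 0 ≤ (left p q (L.x t (0, 0))).trace.re :=
    nonneg_of_mul_nonneg_left (e0 ▸ k0 0 h0) (by linarith)
  have a1 : 0 ≤ (right p q (L.x t (0, 0))).trace.re :=
    nonneg_of_mul_nonneg_left (e1 ▸ k0 1 h1) (by linarith)
  obtain ⟨i, j, hij, hi, hj⟩ := h t (Or.inr (Or.inr (by simpa [T] using ht)))
  rw [trace_block, Complex.add_re, Complex.add_re, hre, hre,
    Complex.re_sum]
  have a2 : ∑ k ∈ {i, j}, ((L.x t (0, 0)).1 (ξ k)).trace.re ≤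
      ∑ k, ((L.x t (0, 0)).1 (ξ k)).trace.re :=
    Finset.sum_le_sum_of_subset_of_nonneg (Finset.subset_univ _) fun k _ _ => k0 _ (hT k)
  rw [Finset.sum_pair hij, hi, hj] at a2
  have := mul_nonneg a0 (Nat.cast_nonneg (α := ℝ) r₀)
  have := mul_nonneg a1 (Nat.cast_nonneg (α := ℝ) r₁)
  linarith

/-- A tent function supported in one cell of a grid. -/
noncomputable def tent (M l : ℕ) : C(unitInterval, ℂ) :=
  ⟨fun t => ((max 0 (min (M * (t : ℝ) - l) ((l : ℝ) + 1 - M * (t : ℝ))) : ℝ) : ℂ), by fun_prop⟩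

theorem tent_supp {M l : ℕ} {t : unitInterval} (h : tent M l t ≠ 0) :
    (l : ℝ) < M * (t : ℝ) ∧ M * (t : ℝ) < l + 1 := by
  by_contra hc
  refine h ?_
  change ((max 0 (min (M * (t : ℝ) - l) ((l : ℝ) + 1 - M * (t : ℝ))) : ℝ) : ℂ) = 0
  rw [max_eq_left, Complex.ofReal_zero]
  rw [min_le_iff]
  by_cases h1 : (l : ℝ) < M * (t : ℝ)
  · right; linarith [not_lt.1 fun h2 => hc ⟨h1, h2⟩]
  · left; linarith [not_lt.1 h1]

theorem tent_ne {M l : ℕ} (h : l < M) : tent M l ≠ 0 := by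
  intro h0
  have hM : (0 : ℝ) < M := by exact_mod_cast (show 0 < M by omega)
  have hl : (l : ℝ) + 1 ≤ M := by exact_mod_cast h
  have := congrArg (fun g : C(unitInterval, ℂ) => g ⟨(l + 1 / 2) / M, by positivity,
    (div_le_one hM).2 (by linarith)⟩) h0
  simp only [tent, ContinuousMap.coe_mk, ContinuousMap.zero_apply, mul_div_cancel₀ _ hM.ne'] at this
  norm_num at this

/-- Rounding to a grid containing both end points. -/
noncomputable def rnd (K : ℕ) (t : unitInterval) : unitInterval :=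
  ⟨(min (K + 1) ⌊((K : ℝ) + 2) * t⌋₊ : ℕ) / ((K : ℝ) + 1), by positivity,
    (div_le_one (by positivity)).2 (by exact_mod_cast min_le_left _ _)⟩

theorem rnd_near (K : ℕ) (t : unitInterval) : |(rnd K t : ℝ) - t| ≤ 1 / ((K : ℝ) + 1) := by
  have h0 := t.2.1
  have h1 := t.2.2
  have hK : (0 : ℝ) ≤ K := K.cast_nonneg
  have a1 := Nat.floor_le (show 0 ≤ ((K : ℝ) + 2) * t by positivity)
  have a2 := Nat.lt_floor_add_one (((K : ℝ) + 2) * t)
  have e : (rnd K t : ℝ) - t =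
      (min ((K : ℝ) + 1) ⌊((K : ℝ) + 2) * t⌋₊ - (K + 1) * t) / ((K : ℝ) + 1) := by
    simp only [rnd]; push_cast; field_simp
  rw [e, abs_div, abs_of_pos (show (0 : ℝ) < K + 1 by positivity)]
  refine div_le_div_of_nonneg_right (abs_le.2 ⟨?_, ?_⟩) (by positivity)
  · rw [le_sub_iff_add_le, le_min_iff]
    constructor <;> nlinarith
  · rw [sub_le_iff_le_add, min_le_iff]
    right; nlinarith

theorem rnd_eq {K j : ℕ} (hj : j ≤ K + 1) {t : unitInterval}
    (h : (j : ℝ) ≤ (K + 2) * (t : ℝ) ∧ (K + 2) * (t : ℝ) < j + 1) :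
    (rnd K t : ℝ) = j / ((K : ℝ) + 1) := by
  have : ⌊((K : ℝ) + 2) * t⌋₊ = j := (Nat.floor_eq_iff (h.1.trans' j.cast_nonneg)).2 h
  simp only [rnd, this, min_eq_right hj]

end ZRepAux
open ZRepAux

theorem rep_nil {p q : ℕ} (hp : 0 < p) (hq : 0 < q) (F : Finset (DimDrop p q)) {ε : ℝ}
    (hε : 0 < ε) : ∃ G : Finset C(unitInterval, ℂ), (∀ g ∈ G, g ≠ 0) ∧
      ∀ (n : Type) [Fintype n] [DecidableEq n] (ρ : DimDrop p q →⋆ₐ[ℂ] Matrix n n ℂ),
        (∀ g ∈ G, ρ (scal p q g) ≠ 0) →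
          ∃ v w : Matrix n n ℂ, Nil2 v w ∧ ∀ f ∈ F, ‖v * ρ f - ρ f * v‖ ≤ ε ∧
            ‖w * ρ f - ρ f * w‖ ≤ ε := by
  classical
  have : NeZero p := ⟨hp.ne'⟩
  have : NeZero q := ⟨hq.ne'⟩
  have h2 : ∀ᶠ K : ℕ in atTop, ∀ g ∈ F, ∀ a b : unitInterval,
      |(a : ℝ) - b| ≤ 1 / ((K : ℝ) + 1) → ‖g.1 a - g.1 b‖ ≤ ε / 2 := by
    refine (eventually_all_finset _).2 fun g _ => ?_
    obtain ⟨δ, hδ, hg⟩ := Metric.uniformContinuous_iff.1
      (CompactSpace.uniformContinuous_of_continuous g.1.continuous) (ε / 2) (by positivity)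
    filter_upwards [(tendsto_one_div_add_atTop_nhds_zero_nat (𝕜 := ℝ)).eventually (gt_mem_nhds hδ)]
      with K hK a b hab
    rw [← dist_eq_norm]
    exact (hg (hab.trans_lt hK)).le
  obtain ⟨K, hK⟩ := h2.exists
  refine ⟨(Finset.range (2 * (K + 2))).image (tent (2 * (K + 2))), fun g hg => ?_,
    fun n _ _ ρ hρ => ?_⟩
  · obtain ⟨l, hl, rfl⟩ := Finset.mem_image.1 hg
    exact tent_ne (Finset.mem_range.1 hl)
  obtain ⟨r₀, N, r₁, e, ξ, W, -, -, -, hW, h⟩ := exists_std ρ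
  let Φ : Matrix (BIdx p q r₀ N r₁) (BIdx p q r₀ N r₁) ℂ →⋆ₐ[ℂ] Matrix n n ℂ :=
    ((reindexStar e).trans (Unitary.conjStarAlgAut ℂ _ ⟨W, hW⟩) : _ ≃⋆ₐ[ℂ] _)
  have hΦ : ∀ f, ρ f = Φ (block p q r₀ r₁ ξ f) := h
  have k1 : ∀ l, l < 2 * (K + 2) → ∃ i, (l : ℝ) < 2 * ((K + 2) * (ξ i : ℝ)) ∧
      2 * ((K + 2) * (ξ i : ℝ)) < l + 1 := by
    intro l hl
    have hl' : (l : ℝ) + 1 ≤ (2 * (K + 2) : ℕ) := by exact_mod_cast hl
    by_contra hc
    refine hρ _ (Finset.mem_image_of_mem _ (Finset.mem_range.2 hl)) ?_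
    have z : ∀ t : unitInterval, ¬((l : ℝ) < (2 * (K + 2) : ℕ) * (t : ℝ) ∧
        (2 * (K + 2) : ℕ) * (t : ℝ) < l + 1) →
        (scal p q (tent (2 * (K + 2)) l)).1 t = 0 := fun t ht => by
      rw [scal_apply, not_not.1 fun h => ht (tent_supp h), zero_smul]
    rw [hΦ, block_zero ξ _ (z 0 fun h => by simpa using h.1.trans_le' l.cast_nonneg)
      (z 1 fun h => by have := h.2; simp only [Set.Icc.coe_one, mul_one] at this; linarith)
      fun i => z _ fun h => hc ⟨i, by push_cast at h; simpa only [mul_assoc] using h⟩, map_zero]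
  have k2 : ∀ j : ℕ, j ≤ K + 1 → ∀ t : unitInterval, (t : ℝ) = j / ((K : ℝ) + 1) →
      ∃ i i', i ≠ i' ∧ rnd K (ξ i) = t ∧ rnd K (ξ i') = t := by
    intro j hj t ht
    obtain ⟨i, a1, a2⟩ := k1 (2 * j) (by omega)
    obtain ⟨i', a3, a4⟩ := k1 (2 * j + 1) (by omega)
    push_cast at a1 a2 a3 a4
    refine ⟨i, i', ?_, Subtype.ext ((rnd_eq hj ⟨by linarith, by linarith⟩).trans ht.symm),
      Subtype.ext ((rnd_eq hj ⟨by linarith, by linarith⟩).trans ht.symm)⟩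
    rintro rfl
    linarith
  obtain ⟨v, w, hn, hc⟩ := block_nil (p := p) (q := q) r₀ r₁ (fun i => rnd K (ξ i)) (by
    rintro t (rfl | rfl | ⟨i, rfl⟩)
    · exact k2 0 (by omega) _ (by simp)
    · exact k2 (K + 1) le_rfl _ (by
        push_cast
        rw [div_self (by positivity)])
    · exact k2 _ (min_le_left _ _) _ rfl)
  have k3 : ∀ x, ‖x‖ ≤ 1 → ∀ f ∈ F, x * block p q r₀ r₁ (fun i => rnd K (ξ i)) f =
      block p q r₀ r₁ (fun i => rnd K (ξ i)) f * x → ‖Φ x * ρ f - ρ f * Φ x‖ ≤ ε := by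
    intro x hx f hf hxf
    rw [hΦ, ← map_mul, ← map_mul, ← map_sub]
    refine (NonUnitalStarAlgHom.norm_apply_le Φ _).trans ?_
    have a1 := norm_block_sub_le (r₀ := r₀) (r₁ := r₁) f (half_pos hε).le fun i =>
      hK f hf _ _ (rnd_near K (ξ i))
    set D := block p q r₀ r₁ (fun i => rnd K (ξ i)) f - block p q r₀ r₁ ξ f with hD
    have a2 : x * block p q r₀ r₁ ξ f - block p q r₀ r₁ ξ f * x = D * x - x * D := by
      rw [hD, sub_mul, mul_sub, hxf]; abel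
    rw [a2]
    refine (norm_sub_le _ _).trans ?_
    have a3 := norm_mul_le_of_le a1 hx
    have a4 := norm_mul_le_of_le hx a1
    linarith
  obtain ⟨n1, n2, n3, n4, n5⟩ := hn
  refine ⟨Φ v, Φ w, nil2_of ?_ ?_ ?_, fun f hf => ⟨k3 v n1 f hf (hc f).1, k3 w n2 f hf (hc f).2⟩⟩
  · rw [← map_mul, n3, map_zero]
  · rw [← map_mul, n4, map_zero]
  · simp only [← map_star, ← map_mul, ← map_add, n5, map_one]

end Vale.Agent.P095
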